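import Mathlib

/-!
P031: Brun's pure sieve for `[1, N]` with `k` residue classes for every prime of a finite set.
-/

open Finset

namespace Vale.Agent.P031.Brun

/-- The count of the residue classes of one `T`. -/
theorem abs_count_sub_le (N k : ℕ) (T : Finset ℕ) (hT : ∀ p ∈ T, p.Prime) (ρ : ℕ → Finset ℕ)
    (hρ : ∀ p ∈ T, ρ p ⊆ range p) (hk : ∀ p ∈ T, (ρ p).card = k) :
    |(((Finset.Icc 1 N).filter fun R => ∀ p ∈ T, R % p ∈ ρ p).card : ℝ)
        - N * ∏ p ∈ T, (k : ℝ) / p| ≤ (k : ℝ) ^ T.card := by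
  classical
  set A := (Finset.Icc 1 N).filter fun R => ∀ p ∈ T, R % p ∈ ρ p with hA
  set F := T.pi ρ with hF
  have hFc : F.card = k ^ T.card := by
    rw [hF, Finset.card_pi, Finset.prod_congr rfl hk, Finset.prod_const]
  have hne : ∀ i ∈ T, (id i : ℕ) ≠ 0 := fun i hi => (hT i hi).ne_zero
  have hpp : Set.Pairwise (↑T : Set ℕ) (Function.onFun Nat.Coprime id) := fun a ha b hb hab =>
    (Nat.coprime_primes (hT a ha) (hT b hb)).2 hab
  set d := ∏ p ∈ T, p with hd
  have hd0 : 0 < d := Finset.prod_pos fun p hp => (hT p hp).pos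
  have hmaps : ∀ R ∈ A, (fun p (_ : p ∈ T) => R % p) ∈ F := fun R hR =>
    Finset.mem_pi.2 fun p hp => (Finset.mem_filter.1 hR).2 p hp
  have hsplit := Finset.card_eq_sum_card_fiberwise
    (f := fun R => fun p (_ : p ∈ T) => R % p) (s := A) (t := F) hmaps
  have hfib : ∀ f ∈ F, |((A.filter fun R => (fun p (_ : p ∈ T) => R % p) = f).card : ℝ)
      - (N : ℝ) / d| ≤ 1 := by
    intro f hf
    set a : ℕ → ℕ := fun p => if hp : p ∈ T then f p hp else 0 with ha
    obtain ⟨v, hv⟩ := Nat.chineseRemainderOfFinset a id T hne hpp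
    have heq : (A.filter fun R => (fun p (_ : p ∈ T) => R % p) = f)
        = (Finset.Ioc 0 N).filter fun R => R ≡ v [MOD d] := by
      ext R
      simp only [hA, Finset.mem_filter, Finset.mem_Icc, Finset.mem_Ioc]
      have key : ∀ p, ∀ hp : p ∈ T, R ≡ v [MOD p] ↔ R % p = f p hp := by
        intro p hp
        have h1 : v % p = f p hp := by
          have h2 : v % p = a p % p := hv p hp
          rw [h2, ha]
          simp only [dif_pos hp]
          exact Nat.mod_eq_of_lt (Finset.mem_range.1 (hρ p hp (Finset.mem_pi.1 hf p hp)))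
        rw [Nat.ModEq, h1]
      constructor
      · rintro ⟨⟨hR, -⟩, hRf⟩
        refine ⟨⟨by omega, hR.2⟩, ?_⟩
        rw [Nat.modEq_iff_dvd, hd, Nat.cast_prod]
        refine Finset.prod_dvd_of_coprime (fun p hp q hq hpq => ?_) fun p hp => ?_
        · exact Nat.isCoprime_iff_coprime.2 ((Nat.coprime_primes (hT p hp) (hT q hq)).2 hpq)
        · exact Nat.modEq_iff_dvd.1 ((key p hp).2 (congrFun (congrFun hRf p) hp))
      · rintro ⟨hR, hRv⟩
        have hall : ∀ p, ∀ hp : p ∈ T, R % p = f p hp := fun p hp =>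
          (key p hp).1 (hRv.of_dvd (Finset.dvd_prod_of_mem _ hp))
        refine ⟨⟨⟨by omega, hR.2⟩, fun p hp => ?_⟩, funext fun p => funext fun hp => hall p hp⟩
        rw [hall p hp]
        exact Finset.mem_pi.1 hf p hp
    rw [heq]
    have hc := Nat.Ioc_filter_modEq_card 0 N hd0 v
    set c := ((Finset.Ioc 0 N).filter fun R => R ≡ v [MOD d]).card with hcdef
    have hdq : (0 : ℚ) < d := by exact_mod_cast hd0
    have h1 := Int.floor_le (((N : ℚ) - v) / d)
    have h2 := Int.lt_floor_add_one (((N : ℚ) - v) / d)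
    have h3 := Int.floor_le (((0 : ℕ) - (v : ℚ)) / d)
    have h4 := Int.lt_floor_add_one (((0 : ℕ) - (v : ℚ)) / d)
    have e : ((N : ℚ) - v) / d - ((0 : ℕ) - (v : ℚ)) / d = (N : ℚ) / d := by push_cast; ring
    have hnd : (0 : ℚ) ≤ (N : ℚ) / d := by positivity
    have hge : (0 : ℤ) ≤ ⌊((N : ℚ) - v) / d⌋ - ⌊((0 : ℕ) - (v : ℚ)) / d⌋ :=
      sub_nonneg.2 (Int.floor_le_floor (by linarith))
    rw [max_eq_left hge] at hc
    have hc' : (c : ℚ) = ((⌊((N : ℚ) - v) / d⌋ - ⌊((0 : ℕ) - (v : ℚ)) / d⌋ : ℤ) : ℚ) := by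
      exact_mod_cast congrArg (fun z : ℤ => (z : ℚ)) hc
    push_cast at hc' h1 h2 h3 h4 e
    have hb : |(c : ℚ) - (N : ℚ) / d| ≤ 1 := abs_le.2 ⟨by linarith, by linarith⟩
    have := (Rat.cast_le (K := ℝ)).2 hb
    simpa using this
  have hprod : ∏ p ∈ T, (k : ℝ) / p = (k : ℝ) ^ T.card / d := by
    rw [Finset.prod_div_distrib, Finset.prod_const, hd, Nat.cast_prod]
  rw [hsplit, hprod, Nat.cast_sum]
  calc |(∑ f ∈ F, ((A.filter fun R => (fun p (_ : p ∈ T) => R % p) = f).card : ℝ))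
        - N * ((k : ℝ) ^ T.card / d)|
      = |∑ f ∈ F, (((A.filter fun R => (fun p (_ : p ∈ T) => R % p) = f).card : ℝ)
          - (N : ℝ) / d)| := by
        rw [Finset.sum_sub_distrib, Finset.sum_const, hFc, nsmul_eq_mul]
        push_cast
        ring_nf
    _ ≤ ∑ f ∈ F, (1 : ℝ) := (Finset.abs_sum_le_sum_abs _ _).trans (Finset.sum_le_sum hfib)
    _ = (k : ℝ) ^ T.card := by rw [Finset.sum_const, hFc, nsmul_eq_mul, mul_one]; push_cast; rfl

/-- Truncated inclusion–exclusion at an even level bounds the indicator of the empty set. -/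
theorem indicator_le (P B : Finset ℕ) (hB : B ⊆ P) (m : ℕ) :
    (if B = ∅ then (1 : ℝ) else 0) ≤
      ∑ j ∈ range (2 * m + 1), (-1 : ℝ) ^ j *
        ∑ T ∈ P.powersetCard j, (if T ⊆ B then (1 : ℝ) else 0) := by
  have e : ∀ j, (∑ T ∈ P.powersetCard j, (if T ⊆ B then (1 : ℝ) else 0))
      = ((B.card.choose j : ℕ) : ℝ) := by
    intro j
    rw [← Finset.sum_filter, Finset.sum_const, nsmul_eq_mul, mul_one, ← Finset.card_powersetCard]
    congr 2
    ext T
    simp only [Finset.mem_filter, Finset.mem_powersetCard]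
    exact ⟨fun h => ⟨h.2, h.1.2⟩, fun h => ⟨⟨h.1.trans hB, h.2⟩, h.1⟩⟩
  simp only [e]
  rcases B.eq_empty_or_nonempty with rfl | hne
  · simp [Finset.sum_range_succ']
  · rw [if_neg hne.ne_empty]
    obtain ⟨n, hn⟩ : ∃ n, B.card = n + 1 := ⟨B.card - 1, by have := hne.card_pos; omega⟩
    have h := congrArg (fun z : ℤ => (z : ℝ))
      (Int.alternating_sum_range_choose_eq_choose (n := n) (m := 2 * m))
    push_cast at h
    rw [hn, h]
    simp

/-- Brun's pure sieve at level `2 m`. -/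
theorem brun_count (N k m : ℕ) (P : Finset ℕ) (hP : ∀ p ∈ P, p.Prime) (ρ : ℕ → Finset ℕ)
    (hρ : ∀ p ∈ P, ρ p ⊆ range p) (hk : ∀ p ∈ P, (ρ p).card = k) :
    (((Finset.Icc 1 N).filter fun R => ∀ p ∈ P, R % p ∉ ρ p).card : ℝ) ≤
      N * (∏ p ∈ P, (1 - (k : ℝ) / p) + Real.exp (8 * (∑ p ∈ P, (k : ℝ) / p) - 4 * m))
        + (2 * m + 1) * ((k * P.card : ℕ) + 1 : ℝ) ^ (2 * m) := by
  classical
  set w : Finset ℕ → ℝ := fun T => ∏ p ∈ T, (k : ℝ) / p with hw
  set cnt : Finset ℕ → ℝ := fun T =>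
    (((Finset.Icc 1 N).filter fun R => ∀ p ∈ T, R % p ∈ ρ p).card : ℝ) with hcnt
  have step1 : (((Finset.Icc 1 N).filter fun R => ∀ p ∈ P, R % p ∉ ρ p).card : ℝ) ≤
      ∑ j ∈ range (2 * m + 1), (-1 : ℝ) ^ j * ∑ T ∈ P.powersetCard j, cnt T := by
    have h0 : ∀ R, (if ∀ p ∈ P, R % p ∉ ρ p then (1 : ℝ) else 0) ≤
        ∑ j ∈ range (2 * m + 1), (-1 : ℝ) ^ j *
          ∑ T ∈ P.powersetCard j, (if ∀ p ∈ T, R % p ∈ ρ p then (1 : ℝ) else 0) := by
      intro R
      have h := indicator_le P (P.filter fun p => R % p ∈ ρ p) (Finset.filter_subset _ _) m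
      refine le_trans (le_of_eq ?_) (h.trans (le_of_eq ?_))
      · refine if_congr ?_ rfl rfl
        simp [Finset.filter_eq_empty_iff]
      · refine Finset.sum_congr rfl fun j _ => ?_
        congr 1
        refine Finset.sum_congr rfl fun T hT => if_congr ?_ rfl rfl
        have hTP := (Finset.mem_powersetCard.1 hT).1
        constructor
        · intro hs p hp
          exact (Finset.mem_filter.1 (hs hp)).2
        · intro hs p hp
          exact Finset.mem_filter.2 ⟨hTP hp, hs p hp⟩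
    rw [Finset.natCast_card_filter]
    refine (Finset.sum_le_sum fun R _ => h0 R).trans (le_of_eq ?_)
    rw [Finset.sum_comm]
    refine Finset.sum_congr rfl fun j _ => ?_
    rw [← Finset.mul_sum, Finset.sum_comm]
    congr 1
    exact Finset.sum_congr rfl fun T _ => (Finset.natCast_card_filter _ _).symm
  have step2 : ∑ j ∈ range (2 * m + 1), (-1 : ℝ) ^ j * ∑ T ∈ P.powersetCard j, cnt T ≤
      ∑ j ∈ range (2 * m + 1), ((-1 : ℝ) ^ j * ∑ T ∈ P.powersetCard j, (N : ℝ) * w T
        + ((k * P.card : ℕ) + 1 : ℝ) ^ (2 * m)) := by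
    refine Finset.sum_le_sum fun j hj => ?_
    have habs : |∑ T ∈ P.powersetCard j, cnt T - ∑ T ∈ P.powersetCard j, (N : ℝ) * w T| ≤
        ((k * P.card : ℕ) + 1 : ℝ) ^ (2 * m) := by
      rw [← Finset.sum_sub_distrib]
      refine (Finset.abs_sum_le_sum_abs _ _).trans ?_
      calc ∑ T ∈ P.powersetCard j, |cnt T - (N : ℝ) * w T|
          ≤ ∑ _T ∈ P.powersetCard j, (k : ℝ) ^ j := by
            refine Finset.sum_le_sum fun T hT => ?_
            obtain ⟨hTP, hTc⟩ := Finset.mem_powersetCard.1 hT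
            rw [← hTc]
            exact abs_count_sub_le N k T (fun p hp => hP p (hTP hp)) ρ
              (fun p hp => hρ p (hTP hp)) (fun p hp => hk p (hTP hp))
        _ = ((P.card.choose j : ℕ) : ℝ) * (k : ℝ) ^ j := by
            rw [Finset.sum_const, Finset.card_powersetCard, nsmul_eq_mul]
        _ ≤ ((P.card : ℕ) : ℝ) ^ j * (k : ℝ) ^ j := by
            gcongr
            exact_mod_cast Nat.choose_le_pow _ _
        _ ≤ ((k * P.card : ℕ) + 1 : ℝ) ^ j := by
            rw [← mul_pow]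
            gcongr
            push_cast
            linarith
        _ ≤ _ := pow_le_pow_right₀ (by norm_cast; omega)
            (by have := Finset.mem_range.1 hj; omega)
    rcases neg_one_pow_eq_or ℝ j with h | h <;> rw [h] <;> linarith [abs_le.1 habs]
  refine (step1.trans step2).trans ?_
  rw [Finset.sum_add_distrib, Finset.sum_const, Finset.card_range, nsmul_eq_mul]
  push_cast
  refine add_le_add ?_ le_rfl
  simp only [← Finset.mul_sum]
  rw [show (∑ j ∈ range (2 * m + 1), (-1 : ℝ) ^ j * ((N : ℝ) * ∑ T ∈ P.powersetCard j, w T))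
      = (N : ℝ) * ∑ j ∈ range (2 * m + 1), (-1 : ℝ) ^ j * ∑ T ∈ P.powersetCard j, w T by
    rw [Finset.mul_sum]; exact Finset.sum_congr rfl fun j _ => by ring]
  refine mul_le_mul_of_nonneg_left ?_ (by positivity)
  set small := P.powerset.filter fun T => T.card ≤ 2 * m with hsmall
  have hlow : ∑ j ∈ range (2 * m + 1), (-1 : ℝ) ^ j * ∑ T ∈ P.powersetCard j, w T
      = ∑ T ∈ small, (-1 : ℝ) ^ T.card * w T := by
    rw [← Finset.sum_fiberwise_of_maps_to (t := range (2 * m + 1)) (g := Finset.card)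
      (fun T hT => Finset.mem_range.2 (Nat.lt_succ_of_le (Finset.mem_filter.1 hT).2))]
    refine Finset.sum_congr rfl fun j hj => ?_
    rw [Finset.mul_sum]
    refine Finset.sum_congr ?_ fun T hT => by rw [(Finset.mem_filter.1 hT).2]
    ext T
    simp only [Finset.mem_filter, Finset.mem_powerset, Finset.mem_powersetCard]
    have := Finset.mem_range.1 hj
    exact ⟨fun h => ⟨⟨h.1, by omega⟩, h.2⟩, fun h => ⟨h.1.1, h.2⟩⟩
  have hall : ∏ p ∈ P, (1 - (k : ℝ) / p) = ∑ T ∈ P.powerset, (-1 : ℝ) ^ T.card * w T := by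
    rw [show (∏ p ∈ P, (1 - (k : ℝ) / p)) = ∏ p ∈ P, (1 + -((k : ℝ) / p)) from
      Finset.prod_congr rfl fun p _ => sub_eq_add_neg _ _, Finset.prod_one_add]
    exact Finset.sum_congr rfl fun T _ => by rw [Finset.prod_neg, hw]
  have hsplit := Finset.sum_filter_add_sum_filter_not P.powerset (fun T => T.card ≤ 2 * m)
    (fun T => (-1 : ℝ) ^ T.card * w T)
  have htail : |∑ T ∈ P.powerset.filter (fun T => ¬T.card ≤ 2 * m), (-1 : ℝ) ^ T.card * w T| ≤
      Real.exp (8 * (∑ p ∈ P, (k : ℝ) / p) - 4 * m) := by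
    refine (Finset.abs_sum_le_sum_abs _ _).trans ?_
    calc ∑ T ∈ P.powerset.filter (fun T => ¬T.card ≤ 2 * m), |(-1 : ℝ) ^ T.card * w T|
        ≤ ∑ T ∈ P.powerset.filter (fun T => ¬T.card ≤ 2 * m),
            Real.exp (-(4 * m : ℝ)) * ∏ p ∈ T, (Real.exp 2 * ((k : ℝ) / p)) := by
          refine Finset.sum_le_sum fun T hT => ?_
          have hw0 : 0 ≤ w T := Finset.prod_nonneg fun p _ => by positivity
          rw [abs_mul, abs_neg_one_pow, one_mul, abs_of_nonneg hw0, Finset.prod_mul_distrib,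
            Finset.prod_const, ← Real.exp_nat_mul, ← mul_assoc, ← Real.exp_add]
          refine le_mul_of_one_le_left hw0 (Real.one_le_exp ?_)
          have : ((2 * m + 1 : ℕ) : ℝ) ≤ T.card := by
            exact_mod_cast (by have := (Finset.mem_filter.1 hT).2; omega : 2 * m + 1 ≤ T.card)
          push_cast at this
          linarith
      _ ≤ ∑ T ∈ P.powerset, Real.exp (-(4 * m : ℝ)) * ∏ p ∈ T, (Real.exp 2 * ((k : ℝ) / p)) :=
          Finset.sum_le_sum_of_subset_of_nonneg (Finset.filter_subset _ _) fun T _ _ => by positivity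
      _ = Real.exp (-(4 * m : ℝ)) * ∏ p ∈ P, (1 + Real.exp 2 * ((k : ℝ) / p)) := by
          rw [← Finset.mul_sum, Finset.prod_one_add]
      _ ≤ Real.exp (-(4 * m : ℝ)) * ∏ p ∈ P, Real.exp (8 * ((k : ℝ) / p)) := by
          gcongr with p _
          have h8 : Real.exp 2 ≤ 8 := by
            have h1 := Real.exp_one_lt_d9
            have h2 : Real.exp 2 = Real.exp 1 * Real.exp 1 := by rw [← Real.exp_add]; norm_num
            nlinarith [Real.exp_pos 1]
          have : 0 ≤ (k : ℝ) / p := by positivity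
          nlinarith [Real.add_one_le_exp (8 * ((k : ℝ) / p))]
      _ = _ := by rw [← Real.exp_sum, ← Real.exp_add, ← Finset.mul_sum]; ring_nf
  rw [hlow, hall, ← hsplit]
  linarith [(abs_le.1 htail).1]

end Vale.Agent.P031.Brun
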