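import Vale.Agent.P031.Defs

/-! The numbers `a_j`, the renewal sequence `G_i`, the identity for slacks, the cut levels. -/

open Finset Real Filter

namespace Vale.Agent.P031

lemma coef_one : coef 1 = 2 * Real.log 2 - 1 := by
  simp [coef]; ring_nf

lemma coef_one_bounds : (1 / 3 : ℝ) ≤ coef 1 ∧ coef 1 ≤ 2 / 5 := by
  rw [coef_one]
  have h1 := Real.log_two_gt_d9
  have h2 := Real.log_two_lt_d9
  constructor <;> linarith

lemma coef_le_succ {j : ℕ} : coef j ≤ coef (j + 1) := by
  have hx : (j : ℝ) ∈ Set.Ici (0 : ℝ) := Set.mem_Ici.2 (by positivity)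
  have hy : (j : ℝ) + 2 ∈ Set.Ici (0 : ℝ) := Set.mem_Ici.2 (by positivity)
  have hh : (0 : ℝ) ≤ 1 / 2 := by norm_num
  have h := Real.convexOn_mul_log.2 hx hy hh hh (show (1 / 2 : ℝ) + 1 / 2 = 1 by norm_num)
  simp only [smul_eq_mul] at h
  have e : (1 / 2 : ℝ) * j + 1 / 2 * ((j : ℝ) + 2) = (j : ℝ) + 1 := by ring
  rw [e] at h
  have e2 : (j : ℝ) + 1 + 1 = (j : ℝ) + 2 := by ring
  simp only [coef, Nat.cast_add, Nat.cast_one, e2]
  linarith

lemma coef_mono {i j : ℕ} (_hi : 1 ≤ i) (hij : i ≤ j) : coef i ≤ coef j :=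
  monotone_nat_of_le_succ (f := coef) (fun _ => coef_le_succ) hij

lemma coef_pos {j : ℕ} (hj : 1 ≤ j) : 0 < coef j :=
  lt_of_lt_of_le (by linarith [coef_one_bounds.1]) (coef_mono le_rfl hj)

lemma coef_nonneg {j : ℕ} (hj : 1 ≤ j) : 0 ≤ coef j := (coef_pos hj).le

lemma coef_le {j : ℕ} (hj : 1 ≤ j) : coef j ≤ Real.log (j + 1) + 1 := by
  have hj' : (1 : ℝ) ≤ j := by exact_mod_cast hj
  have hr : Real.log (((j : ℝ) + 1) / j) ≤ ((j : ℝ) + 1) / j - 1 :=
    Real.log_le_sub_one_of_pos (by positivity)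
  rw [Real.log_div (by linarith) (by linarith)] at hr
  have hj0 : (j : ℝ) ≠ 0 := by linarith
  have : (j : ℝ) * (Real.log ((j : ℝ) + 1) - Real.log j) ≤ 1 := by
    calc (j : ℝ) * (Real.log ((j : ℝ) + 1) - Real.log j)
        ≤ (j : ℝ) * (((j : ℝ) + 1) / j - 1) := mul_le_mul_of_nonneg_left hr (by linarith)
      _ = 1 := by field_simp; ring
  unfold coef
  linarith

lemma coef_le_log {j : ℕ} (hj : 1 ≤ j) : coef j ≤ Real.log (j + 1) := by
  have hj' : (1 : ℝ) ≤ j := by exact_mod_cast hj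
  have hr : Real.log (((j : ℝ) + 1) / j) ≤ ((j : ℝ) + 1) / j - 1 :=
    Real.log_le_sub_one_of_pos (by positivity)
  rw [Real.log_div (by linarith) (by linarith)] at hr
  have hj0 : (j : ℝ) ≠ 0 := by linarith
  have : (j : ℝ) * (Real.log ((j : ℝ) + 1) - Real.log j) ≤ 1 := by
    calc (j : ℝ) * (Real.log ((j : ℝ) + 1) - Real.log j)
        ≤ (j : ℝ) * (((j : ℝ) + 1) / j - 1) := mul_le_mul_of_nonneg_left hr (by linarith)
      _ = 1 := by field_simp; ring
  unfold coef
  linarith

lemma coef_succ_le {j : ℕ} (hj : 1 ≤ j) : coef (j + 1) ≤ 3 * coef j := by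
  rcases Nat.lt_or_ge j 2 with h | h
  · obtain rfl : j = 1 := by omega
    have h9 : Real.log 9 ≤ Real.log 8 + 1 / 8 := by
      have := Real.log_le_sub_one_of_pos (show (0 : ℝ) < 9 / 8 by norm_num)
      rw [Real.log_div (by norm_num) (by norm_num)] at this
      linarith
    have e9 : Real.log 9 = 2 * Real.log 3 := by
      rw [show (9 : ℝ) = 3 ^ 2 by norm_num, Real.log_pow]; simp
    have e8 : Real.log 8 = 3 * Real.log 2 := by
      rw [show (8 : ℝ) = 2 ^ 3 by norm_num, Real.log_pow]; simp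
    have h1 := Real.log_two_gt_d9
    rw [coef_one]
    simp only [coef, Nat.cast_add, Nat.cast_one]
    norm_num
    linarith
  · have hj' : (2 : ℝ) ≤ j := by exact_mod_cast h
    have hup : coef (j + 1) ≤ Real.log ((j : ℝ) + 2) := by
      have := coef_le_log (j := j + 1) (by omega)
      push_cast at this
      rwa [show (j : ℝ) + 1 + 1 = (j : ℝ) + 2 by ring] at this
    have hlo : Real.log ((j : ℝ) + 1) - 1 / ((j : ℝ) + 1) ≤ coef j := by
      have hr : Real.log ((j : ℝ) / ((j : ℝ) + 1)) ≤ (j : ℝ) / ((j : ℝ) + 1) - 1 :=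
        Real.log_le_sub_one_of_pos (by positivity)
      rw [Real.log_div (by linarith) (by linarith)] at hr
      have : (j : ℝ) * (Real.log j - Real.log ((j : ℝ) + 1))
          ≤ (j : ℝ) * ((j : ℝ) / ((j : ℝ) + 1) - 1) := mul_le_mul_of_nonneg_left hr (by linarith)
      have e : (j : ℝ) * ((j : ℝ) / ((j : ℝ) + 1) - 1) = 1 / ((j : ℝ) + 1) - 1 := by
        field_simp; ring
      unfold coef
      linarith
    have h2 : Real.log ((j : ℝ) + 2) ≤ Real.log 2 + Real.log ((j : ℝ) + 1) := by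
      rw [← Real.log_mul (by norm_num) (by linarith)]
      exact Real.log_le_log (by linarith) (by linarith)
    have h3 : Real.log 2 + 1 / 3 ≤ Real.log ((j : ℝ) + 1) := by
      have h23 : Real.log (2 / 3) ≤ 2 / 3 - 1 := Real.log_le_sub_one_of_pos (by norm_num)
      rw [Real.log_div (by norm_num) (by norm_num)] at h23
      have : Real.log 3 ≤ Real.log ((j : ℝ) + 1) := Real.log_le_log (by norm_num) (by linarith)
      linarith
    have h4 : 1 / ((j : ℝ) + 1) ≤ 1 / 3 := one_div_le_one_div_of_le (by norm_num) (by linarith)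
    have h5 := Real.log_two_gt_d9
    linarith

lemma gRen_zero : gRen 0 = 1 := by simp [gRen]

lemma gRen_succ_eq (i : ℕ) :
    gRen (i + 1) = ∑ l ∈ Finset.range (i + 1), coef (i + 1 - l) * gRen l := by
  rw [gRen]
  exact Fin.sum_univ_eq_sum_range (fun l => coef (i + 1 - l) * gRen l) (i + 1)

lemma gRen_one : gRen 1 = coef 1 := by simp [gRen_succ_eq, gRen_zero]

lemma gRen_pos (i : ℕ) : 0 < gRen i := by
  induction i using Nat.strong_induction_on with
  | _ i ih =>
    cases i with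
    | zero => simp [gRen_zero]
    | succ i =>
      rw [gRen_succ_eq]
      refine Finset.sum_pos (fun l hl => ?_) ⟨0, by simp⟩
      rw [Finset.mem_range] at hl
      exact mul_pos (coef_pos (by omega)) (ih l (by omega))

lemma gRen_succ_ge {i : ℕ} (hi : 1 ≤ i) : (1 + coef 1) * gRen i ≤ gRen (i + 1) := by
  obtain ⟨k, rfl⟩ : ∃ k, i = k + 1 := ⟨i - 1, by omega⟩
  have h0 := gRen_succ_eq k
  rw [gRen_succ_eq (k + 1), Finset.sum_range_succ]
  have hle : ∑ l ∈ Finset.range (k + 1), coef (k + 1 - l) * gRen l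
      ≤ ∑ l ∈ Finset.range (k + 1), coef (k + 1 + 1 - l) * gRen l := by
    refine Finset.sum_le_sum fun l hl => ?_
    rw [Finset.mem_range] at hl
    exact mul_le_mul_of_nonneg_right (coef_mono (by omega) (by omega)) (gRen_pos l).le
  have e : k + 1 + 1 - (k + 1) = 1 := by omega
  rw [e, add_mul, one_mul]
  linarith

lemma gRen_succ_le (i : ℕ) : gRen (i + 1) ≤ 4 * gRen i := by
  cases i with
  | zero => rw [gRen_one, gRen_zero]; linarith [coef_one_bounds.2]
  | succ k =>
    have h0 := gRen_succ_eq k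
    rw [gRen_succ_eq (k + 1), Finset.sum_range_succ]
    have e : k + 1 + 1 - (k + 1) = 1 := by omega
    rw [e]
    have hle : ∑ l ∈ Finset.range (k + 1), coef (k + 1 + 1 - l) * gRen l
        ≤ ∑ l ∈ Finset.range (k + 1), 3 * (coef (k + 1 - l) * gRen l) := by
      refine Finset.sum_le_sum fun l hl => ?_
      rw [Finset.mem_range] at hl
      rw [← mul_assoc]
      refine mul_le_mul_of_nonneg_right ?_ (gRen_pos l).le
      have := coef_succ_le (j := k + 1 - l) (by omega)
      rwa [show k + 1 - l + 1 = k + 1 + 1 - l by omega] at this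
    rw [← Finset.mul_sum, ← h0] at hle
    nlinarith [coef_one_bounds.2, gRen_pos (k + 1)]

lemma gRen_mul_le (i m : ℕ) : gRen i * gRen m ≤ gRen (i + m) := by
  induction m using Nat.strong_induction_on with
  | _ m ih =>
    cases m with
    | zero => simp [gRen_zero]
    | succ m =>
      rw [← Nat.add_assoc, gRen_succ_eq (i + m), gRen_succ_eq m, Finset.mul_sum,
        show i + m + 1 = i + (m + 1) by omega,
        Finset.sum_range_add (fun l => coef (i + (m + 1) - l) * gRen l) i (m + 1)]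
      have h0 : 0 ≤ ∑ l ∈ Finset.range i, coef (i + (m + 1) - l) * gRen l :=
        Finset.sum_nonneg fun l hl => by
          rw [Finset.mem_range] at hl
          exact mul_nonneg (coef_nonneg (by omega)) (gRen_pos l).le
      refine le_trans ?_ (le_add_of_nonneg_left h0)
      refine Finset.sum_le_sum fun l hl => ?_
      rw [Finset.mem_range] at hl
      rw [show i + (m + 1) - (i + l) = m + 1 - l by omega, ← mul_assoc, mul_comm (gRen i), mul_assoc]
      exact mul_le_mul_of_nonneg_left (ih l (by omega)) (coef_nonneg (by omega))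

lemma chain_succ {k i : ℕ} (y : ℕ → ℝ) (hik : i ≤ k) :
    chain (k + 1) y i = chain k y i + coef (k + 1 - i) * y (k + 1) := by
  unfold chain
  rw [Finset.sum_Ioc_succ_top hik]

lemma chain_self (k : ℕ) (y : ℕ → ℝ) : chain k y k = 0 := by simp [chain]

/-- The renewal identity `A(y) = ∑ G_i c_i(y)`. -/
lemma chain_zero_eq (k : ℕ) (y : ℕ → ℝ) :
    chain k y 0 = ∑ i ∈ Finset.Icc 1 k, gRen i * slackAt k y i := by
  induction k with
  | zero => simp [chain]
  | succ k ih =>
    rw [chain_succ y (Nat.zero_le k), ih, Finset.sum_Icc_succ_top (by omega)]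
    have hs : ∀ i ∈ Finset.Icc 1 k, gRen i * slackAt (k + 1) y i =
        gRen i * slackAt k y i - (coef (k + 1 - i) * gRen i) * y (k + 1) := by
      intro i hi
      rw [Finset.mem_Icc] at hi
      unfold slackAt
      rw [chain_succ y hi.2]; ring
    rw [Finset.sum_congr rfl hs, Finset.sum_sub_distrib, ← Finset.sum_mul]
    have hg : gRen (k + 1) = coef (k + 1) + ∑ i ∈ Finset.Icc 1 k, coef (k + 1 - i) * gRen i := by
      rw [gRen_succ_eq, Finset.range_eq_Ico, Finset.sum_eq_sum_Ico_succ_bot (Nat.succ_pos k),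
        gRen_zero]
      rw [show Finset.Ico (0 + 1) (k + 1) = Finset.Icc 1 k by ext; simp]
      simp
    have hlast : slackAt (k + 1) y (k + 1) = y (k + 1) := by simp [slackAt, chain_self]
    rw [hlast, hg]
    simp only [Nat.sub_zero]
    ring

lemma chain_mono_top {i k l : ℕ} (y : ℕ → ℝ) (hy : ∀ j, 0 ≤ y j) (hik : i ≤ k) :
    chain i y l ≤ chain k y l := by
  unfold chain
  refine Finset.sum_le_sum_of_subset_of_nonneg (Finset.Ioc_subset_Ioc_right hik) ?_
  intro j hj _
  rw [Finset.mem_Ioc] at hj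
  exact mul_nonneg (coef_nonneg (by omega)) (hy j)

/-- Bound on one coordinate from the slack bounds below it. -/
lemma gRen_mul_coord_le (k : ℕ) (y e : ℕ → ℝ) {i : ℕ} (hi : 1 ≤ i) (hik : i ≤ k)
    (hy : ∀ j, 0 ≤ y j) (hs : ∀ l, 1 ≤ l → l < i → -(e l) ≤ slackAt k y l) :
    gRen i * y i ≤ chain k y 0 + ∑ l ∈ Finset.Ico 1 i, gRen l * e l := by
  have h0 := chain_zero_eq i y
  rw [← Finset.sum_Ico_add_eq_sum_Icc hi] at h0
  have hlast : slackAt i y i = y i := by simp [slackAt, chain_self]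
  rw [hlast] at h0
  have h1 : ∑ l ∈ Finset.Ico 1 i, gRen l * (-(e l)) ≤
      ∑ l ∈ Finset.Ico 1 i, gRen l * slackAt i y l := by
    refine Finset.sum_le_sum fun l hl => ?_
    rw [Finset.mem_Ico] at hl
    refine mul_le_mul_of_nonneg_left ((hs l hl.1 hl.2).trans ?_) (gRen_pos l).le
    unfold slackAt
    linarith [chain_mono_top (l := l) y hy hik]
  simp only [mul_neg, Finset.sum_neg_distrib] at h1
  linarith [chain_mono_top (l := 0) y hy hik]

lemma gRen_lower (n : ℕ) : coef 1 * (1 + coef 1) ^ n ≤ gRen (n + 1) := by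
  induction n with
  | zero => simp [gRen_one]
  | succ n ih =>
    refine le_trans ?_ (gRen_succ_ge (by omega))
    rw [pow_succ]
    nlinarith [coef_one_bounds.1]

lemma gRen_upper (n : ℕ) : gRen n ≤ 4 ^ n := by
  induction n with
  | zero => simp [gRen_zero]
  | succ n ih =>
    calc gRen (n + 1) ≤ 4 * gRen n := gRen_succ_le n
      _ ≤ 4 * 4 ^ n := by linarith
      _ = 4 ^ (n + 1) := by rw [pow_succ]; ring

lemma gRen_growth {i : ℕ} (hi : 1 ≤ i) (m : ℕ) : (1 + coef 1) ^ m * gRen i ≤ gRen (i + m) := by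
  induction m with
  | zero => simp
  | succ m ih =>
    refine le_trans ?_ (gRen_succ_ge (show 1 ≤ i + m by omega))
    rw [pow_succ, mul_comm ((1 + coef 1) ^ m), mul_assoc]
    exact mul_le_mul_of_nonneg_left ih (by linarith [coef_one_bounds.1])

lemma gRen_mono {i j : ℕ} (hi : 1 ≤ i) (hij : i ≤ j) : gRen i ≤ gRen j := by
  obtain ⟨m, rfl⟩ := Nat.exists_eq_add_of_le hij
  refine le_trans ?_ (gRen_growth hi m)
  exact le_mul_of_one_le_left (gRen_pos i).le (one_le_pow₀ (by linarith [coef_one_bounds.1]))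

lemma tendsto_LL : Tendsto LL atTop atTop := Real.tendsto_log_atTop

lemma eventually_LL_pow_le (e : ℕ) (c : ℝ) (hc : 0 < c) :
    ∀ᶠ u : ℝ in atTop, LL u ^ e ≤ c * u := by
  have h := (isLittleO_pow_log_id_atTop (n := e)).def hc
  filter_upwards [h, eventually_ge_atTop (1 : ℝ)] with u hu h1
  rw [Real.norm_eq_abs, Real.norm_eq_abs, id, abs_of_nonneg (by linarith : (0 : ℝ) ≤ u)] at hu
  exact le_trans (le_abs_self _) hu

lemma levelK_spec (e : ℕ) : ∀ᶠ u : ℝ in atTop,
    gRen (levelK u e) ≤ u / LL u ^ e ∧ u / LL u ^ e < gRen (levelK u e + 1) ∧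
      gRen (levelK u e + 1) ≤ 4 * gRen (levelK u e) ∧
      LL u / 4 ≤ levelK u e ∧ (levelK u e : ℝ) ≤ 8 * LL u := by
  have hloglog : ∀ᶠ u : ℝ in atTop, (e : ℝ) * Real.log (LL u) ≤ LL u / 8 := by
    have h := (Real.isLittleO_log_id_atTop).def (show (0 : ℝ) < 1 / (8 * ((e : ℝ) + 1)) by positivity)
    filter_upwards [tendsto_LL.eventually h, tendsto_LL.eventually_ge_atTop 1] with u hu hL
    rw [Real.norm_eq_abs, Real.norm_eq_abs, id, abs_of_nonneg (by linarith : (0 : ℝ) ≤ LL u),
      abs_of_nonneg (Real.log_nonneg hL)] at hu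
    have he : (0 : ℝ) ≤ e := by positivity
    calc (e : ℝ) * Real.log (LL u) ≤ ((e : ℝ) + 1) * (1 / (8 * ((e : ℝ) + 1)) * LL u) :=
          mul_le_mul (by linarith) hu (Real.log_nonneg hL) (by linarith)
      _ = LL u / 8 := by field_simp
  filter_upwards [eventually_LL_pow_le e 1 one_pos, hloglog, tendsto_LL.eventually_ge_atTop 16,
    eventually_ge_atTop (2000 : ℝ)] with u hpow hll hL hu
  have hLe : (0 : ℝ) < LL u ^ e := by positivity
  have hT1 : 1 ≤ u / LL u ^ e := by rw [le_div_iff₀ hLe]; linarith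
  have hTu : u / LL u ^ e ≤ u := div_le_self (by linarith) (one_le_pow₀ (by linarith))
  have hP0 : gRen 0 ≤ u / LL u ^ e := by rw [gRen_zero]; exact hT1
  classical
  have hspec : gRen (levelK u e) ≤ u / LL u ^ e :=
    Nat.findGreatest_spec (P := fun i => gRen i ≤ u / LL u ^ e) (Nat.zero_le _) hP0
  have ha := coef_one_bounds.1
  have hbig : u < gRen ⌈u⌉₊ := by
    obtain ⟨n, hn⟩ : ∃ n, ⌈u⌉₊ = n + 1 := ⟨⌈u⌉₊ - 1, by
      have : 0 < ⌈u⌉₊ := Nat.ceil_pos.2 (by linarith)
      omega⟩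
    rw [hn]
    refine lt_of_lt_of_le ?_ (gRen_lower n)
    have hn' : u ≤ (n : ℝ) + 1 := by
      have := Nat.le_ceil u
      rw [hn] at this
      exact_mod_cast this
    obtain ⟨m, hm⟩ : ∃ m, 2 * m ≤ n ∧ n ≤ 2 * m + 1 := ⟨n / 2, by omega⟩
    have hm' : (n : ℝ) ≤ 2 * (m : ℝ) + 1 := by exact_mod_cast hm.2
    have hbern : 1 + (m : ℝ) * coef 1 ≤ (1 + coef 1) ^ m :=
      one_add_mul_le_pow (by linarith) m
    have hsq : (1 + (m : ℝ) * coef 1) ^ 2 ≤ (1 + coef 1) ^ n := by
      calc (1 + (m : ℝ) * coef 1) ^ 2 ≤ ((1 + coef 1) ^ m) ^ 2 := by gcongr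
        _ = (1 + coef 1) ^ (m * 2) := by rw [pow_mul]
        _ ≤ (1 + coef 1) ^ n := pow_le_pow_right₀ (by linarith) (by omega)
    have h3 : (m : ℝ) / 3 ≤ 1 + (m : ℝ) * coef 1 := by
      nlinarith [Nat.cast_nonneg (α := ℝ) m]
    have hm0 : 900 ≤ (m : ℝ) := by linarith
    have h4 : ((m : ℝ) / 3) ^ 2 ≤ (1 + coef 1) ^ n :=
      le_trans (by gcongr) hsq
    calc u ≤ 2 * (m : ℝ) + 2 := by linarith
      _ < 1 / 3 * ((m : ℝ) / 3) ^ 2 := by nlinarith
      _ ≤ coef 1 * (1 + coef 1) ^ n := by gcongr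
  have hne : levelK u e ≠ ⌈u⌉₊ := by
    intro h
    rw [h] at hspec
    linarith
  have hlt : levelK u e < ⌈u⌉₊ := lt_of_le_of_ne (Nat.findGreatest_le _) hne
  have hnext : u / LL u ^ e < gRen (levelK u e + 1) := by
    by_contra h
    exact Nat.findGreatest_is_greatest (P := fun i => gRen i ≤ u / LL u ^ e)
      (show levelK u e < levelK u e + 1 by omega) (by omega) (not_lt.1 h)
  have hlogT : Real.log (u / LL u ^ e) = LL u - (e : ℝ) * Real.log (LL u) := by
    rw [Real.log_div (by linarith) hLe.ne', Real.log_pow]; rfl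
  have hlow : LL u / 4 ≤ levelK u e := by
    have h4 : u / LL u ^ e < (4 : ℝ) ^ (levelK u e + 1) := lt_of_lt_of_le hnext (gRen_upper _)
    have := Real.log_lt_log (by linarith) h4
    rw [hlogT, Real.log_pow] at this
    push_cast at this
    have l4 : Real.log (4 : ℝ) ≤ 3 / 2 := by
      rw [show (4 : ℝ) = 2 ^ 2 by norm_num, Real.log_pow]
      push_cast; linarith [Real.log_two_lt_d9]
    nlinarith [Nat.cast_nonneg (α := ℝ) (levelK u e)]
  refine ⟨hspec, hnext, gRen_succ_le _, hlow, ?_⟩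
  rcases Nat.eq_zero_or_pos (levelK u e) with hz | hz
  · rw [hz]; push_cast; linarith
  · obtain ⟨n, hn⟩ : ∃ n, levelK u e = n + 1 := ⟨levelK u e - 1, by omega⟩
    have h1 : coef 1 * (1 + coef 1) ^ n ≤ u := by
      refine le_trans (gRen_lower n) ?_
      rw [← hn]
      linarith
    have := Real.log_le_log (by positivity) h1
    rw [Real.log_mul (by linarith) (by positivity), Real.log_pow] at this
    have hla : -2 ≤ Real.log (coef 1) := by
      have := Real.log_le_sub_one_of_pos (show (0 : ℝ) < 1 / coef 1 by positivity)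
      rw [one_div, Real.log_inv] at this
      have h3 : (coef 1)⁻¹ ≤ 3 := by
        rw [inv_le_comm₀ (by linarith) (by norm_num)]; linarith
      linarith
    have hl1 : 1 / 4 ≤ Real.log (1 + coef 1) := by
      have := Real.log_le_sub_one_of_pos (show (0 : ℝ) < 1 / (1 + coef 1) by positivity)
      rw [one_div, Real.log_inv] at this
      have h3 : (1 + coef 1)⁻¹ ≤ 3 / 4 := by
        rw [inv_le_comm₀ (by linarith) (by norm_num)]; linarith
      linarith
    have : Real.log u = LL u := rfl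
    rw [hn]; push_cast
    nlinarith [Nat.cast_nonneg (α := ℝ) n]

lemma levelK_lt {e d : ℕ} (h : d < e) : ∀ᶠ u : ℝ in atTop, levelK u e < levelK u d := by
  filter_upwards [levelK_spec e, eventually_LL_pow_le e (1 / 4) (by norm_num),
    eventually_LL_pow_le 1 (1 / 16) (by norm_num),
    tendsto_LL.eventually_ge_atTop 4, eventually_gt_atTop (0 : ℝ)] with u hs hpow h16 hL hu
  have hLe : (0 : ℝ) < LL u ^ e := by positivity
  have hLd : (0 : ℝ) < LL u ^ d := by positivity
  have hP : gRen (levelK u e + 1) ≤ u / LL u ^ d := by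
    have h4 : 4 * LL u ^ d ≤ LL u ^ e := by
      calc 4 * LL u ^ d ≤ LL u * LL u ^ d := by gcongr
        _ = LL u ^ (d + 1) := by rw [pow_succ]; ring
        _ ≤ LL u ^ e := pow_le_pow_right₀ (by linarith) (by omega)
    calc gRen (levelK u e + 1) ≤ 4 * (u / LL u ^ e) := by linarith [hs.2.2.1, hs.1]
      _ ≤ u / LL u ^ d := by
        rw [← mul_div_assoc, div_le_div_iff₀ hLe hLd]
        nlinarith
  have hlt : levelK u e + 1 ≤ ⌈u⌉₊ := by
    have h0 : 4 ≤ u / LL u ^ e := by rw [le_div_iff₀ hLe]; linarith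
    by_contra hc
    have hle : ⌈u⌉₊ ≤ levelK u e := by omega
    have h8 : ((⌈u⌉₊ : ℕ) : ℝ) ≤ 8 * LL u := le_trans (by exact_mod_cast hle) hs.2.2.2.2
    have hq : LL u ^ 1 ≤ LL u ^ e := pow_le_pow_right₀ (by linarith) (by omega)
    have := Nat.le_ceil u
    rw [pow_one] at h16
    linarith
  classical
  exact lt_of_lt_of_le (Nat.lt_succ_self _)
    (Nat.le_findGreatest (P := fun i => gRen i ≤ u / LL u ^ d) hlt hP)

lemma levelK_sub_le (e d : ℕ) : ∃ C : ℝ, ∀ᶠ u : ℝ in atTop,
    (levelK u d : ℝ) - levelK u e ≤ C * Real.log (LL u) := by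
  refine ⟨4 * ((e : ℝ) + 1), ?_⟩
  filter_upwards [levelK_spec e, levelK_spec d, tendsto_LL.eventually_ge_atTop 4,
    eventually_gt_atTop (0 : ℝ)] with u he hd hL hu
  have hlL : 0 ≤ Real.log (LL u) := Real.log_nonneg (by linarith)
  rcases Nat.le_total (levelK u d) (levelK u e) with h | h
  · have : (levelK u d : ℝ) ≤ levelK u e := by exact_mod_cast h
    have : 0 ≤ 4 * ((e : ℝ) + 1) * Real.log (LL u) := by positivity
    linarith
  · obtain ⟨m, hm⟩ := Nat.exists_eq_add_of_le h
    have hpos : 1 ≤ levelK u e := by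
      have h1 : (1 : ℝ) ≤ levelK u e := by linarith [he.2.2.2.1]
      exact_mod_cast h1
    have hg := gRen_growth hpos m
    rw [← hm] at hg
    have hd' : gRen (levelK u d) ≤ u :=
      le_trans hd.1 (div_le_self (by linarith) (one_le_pow₀ (by linarith)))
    have hge : u / LL u ^ e ≤ 4 * gRen (levelK u e) := le_trans he.2.1.le he.2.2.1
    have hLe : (0 : ℝ) < LL u ^ e := by positivity
    rw [div_le_iff₀ hLe] at hge
    have key : (1 + coef 1) ^ m ≤ 4 * LL u ^ e := by
      by_contra hc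
      rw [not_le] at hc
      have := gRen_pos (levelK u e)
      nlinarith
    have ha := coef_one_bounds.1
    have hlog := Real.log_le_log (by positivity) key
    rw [Real.log_mul (by norm_num) hLe.ne', Real.log_pow, Real.log_pow] at hlog
    have hl1 : 1 / 4 ≤ Real.log (1 + coef 1) := by
      have := Real.log_le_sub_one_of_pos (show (0 : ℝ) < 1 / (1 + coef 1) by positivity)
      rw [one_div, Real.log_inv] at this
      have h3 : (1 + coef 1)⁻¹ ≤ 3 / 4 := by
        rw [inv_le_comm₀ (by linarith) (by norm_num)]; linarith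
      linarith
    have h4 : Real.log (4 : ℝ) ≤ Real.log (LL u) := Real.log_le_log (by norm_num) hL
    rw [hm]; push_cast
    nlinarith [Nat.cast_nonneg (α := ℝ) m]

end Vale.Agent.P031
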