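import Vale.Agent.P031.Sieve

/-! Sums over systems of integers with prescribed prime forms. -/

open Finset Real Filter

namespace Vale.Agent.P031

/-- `Q_s = ∏_{c ∈ phi s} r_c`. -/
def formVal {ι σ : Type} (phi : σ → Finset ι) (r : ι → ℕ) (s : σ) : ℕ := ∏ c ∈ phi s, r c

/-- Conditions on one system. -/
structure GenCond {ι σ : Type} (phi : σ → Finset ι) (U : ℝ) (T : σ → ℝ) (r : ι → ℕ) : Prop where
  pos : ∀ c, 1 ≤ r c
  size : ∀ c, Real.log (r c) ≤ Real.exp U
  prime : ∀ s, (formVal phi r s + 1).Prime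
  big : ∀ s, T s ≤ Real.log ((formVal phi r s : ℝ) + 1)
  top : ∀ s, Real.log ((formVal phi r s : ℝ) + 1) ≤ U ^ 3 * Real.log (topPrime (formVal phi r s))
  inj : Function.Injective (formVal phi r)

/-- The common bound. -/
noncomputable def genBound {ι σ : Type} [Fintype ι] [Fintype σ] (C : ℕ) (U B : ℝ)
    (f : ι → ℕ → ℝ) (T : σ → ℝ) : ℝ :=
  (((C : ℝ) * B * U * (2 + Fintype.card ι + Fintype.card σ)) ^ C) ^ (Fintype.card σ + 1) *
    (∏ c, Real.exp (∑ p ∈ Nat.primesLE ⌊Real.exp (Real.exp U)⌋₊, f c p / ((p : ℝ) - 1))) /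
      ∏ s, T s

namespace Gen

theorem one_le_card_bound (a b : ℕ) : (1 : ℝ) ≤ 2 + (a : ℝ) + (b : ℝ) := by
  linarith [(Nat.cast_nonneg a : (0 : ℝ) ≤ a), (Nat.cast_nonneg b : (0 : ℝ) ≤ b)]

section
variable {ι σ : Type} [Fintype ι] [DecidableEq ι] [Fintype σ] [DecidableEq σ]

/-- The largest prime over all forms. -/
def topAll (phi : σ → Finset ι) (r : ι → ℕ) : ℕ :=
  Finset.univ.sup fun s => topPrime (formVal phi r s)

/-- The forms through the cell `c`. -/
def through (phi : σ → Finset ι) (c : ι) : Finset σ := Finset.univ.filter fun s => c ∈ phi s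

/-- The system with a prime taken out of the cell `c`. -/
def strip (phi : σ → Finset ι) (c : ι) (r : ι → ℕ) : ι → ℕ :=
  Function.update r c (r c / topAll phi r)

/-- The systems whose largest prime sits in the cell `c`. -/
def atCell (phi : σ → Finset ι) (R : Finset (ι → ℕ)) (c : ι) : Finset (ι → ℕ) :=
  R.filter fun r => (through phi c).Nonempty ∧ topAll phi r ∣ r c

omit [Fintype σ] [DecidableEq σ] [Fintype ι] [DecidableEq ι] in
theorem formVal_pos {phi : σ → Finset ι} {r : ι → ℕ} (h : ∀ c, 1 ≤ r c) (s : σ) :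
    1 ≤ formVal phi r s :=
  Finset.one_le_prod' fun c _ => h c

theorem topPrime_spec {k : ℕ} (hk : 2 ≤ k) : (topPrime k).Prime ∧ topPrime k ∣ k := by
  have hne : k.primeFactorsList ≠ [] := by simp; omega
  have hmem : topPrime k ∈ k.primeFactorsList := by
    rw [topPrime, List.getLastD_eq_getLast?, List.getLast?_eq_some_getLast hne, Option.getD_some]
    exact List.getLast_mem hne
  exact ⟨Nat.prime_of_mem_primeFactorsList hmem, Nat.dvd_of_mem_primeFactorsList hmem⟩

omit [Fintype σ] [DecidableEq σ] [Fintype ι] [DecidableEq ι] in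
theorem two_le_formVal {phi : σ → Finset ι} {U : ℝ} {T : σ → ℝ} {r : ι → ℕ}
    (h : GenCond phi U T r) (hT : ∀ s, 1 ≤ T s) (s : σ) : 2 ≤ formVal phi r s := by
  by_contra hlt
  have h1 : formVal phi r s = 1 := by have := formVal_pos (phi := phi) h.pos s; omega
  have := (hT s).trans (h.big s)
  rw [h1] at this
  norm_num at this
  linarith [Real.log_two_lt_d9]

omit [DecidableEq σ] [DecidableEq ι] [Fintype ι] in
theorem top_facts {phi : σ → Finset ι} {U : ℝ} {T : σ → ℝ} {r : ι → ℕ}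
    (h : GenCond phi U T r) (hT : ∀ s, 1 ≤ T s) (hU : 0 < U) (s₀ : σ) :
    (topAll phi r).Prime ∧ (∃ c, (∃ s, c ∈ phi s) ∧ topAll phi r ∣ r c) ∧
      ∀ s, T s / U ^ 3 ≤ Real.log (topAll phi r) := by
  obtain ⟨s, -, hs⟩ := Finset.exists_mem_eq_sup Finset.univ ⟨s₀, Finset.mem_univ _⟩
    (fun s => topPrime (formVal phi r s))
  obtain ⟨hp, hd⟩ := topPrime_spec (two_le_formVal h hT s)
  have e : topAll phi r = topPrime (formVal phi r s) := hs
  refine ⟨e ▸ hp, ?_, fun s' => ?_⟩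
  · obtain ⟨c, hc, hdc⟩ := (Prime.dvd_finsetProd_iff hp.prime _).1 hd
    exact ⟨c, ⟨s, hc⟩, e ▸ hdc⟩
  · rw [div_le_iff₀ (by positivity)]
    refine (h.big s').trans ((h.top s').trans ?_)
    rw [mul_comm]
    refine mul_le_mul_of_nonneg_right (Real.log_le_log ?_ ?_) (by positivity)
    · exact_mod_cast (topPrime_spec (two_le_formVal h hT s')).1.pos
    · exact_mod_cast (Finset.le_sup (f := fun s => topPrime (formVal phi r s)) (Finset.mem_univ s'))

omit [DecidableEq σ] in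
/-- What taking out one prime does. -/
theorem strip_facts {phi : σ → Finset ι} {U : ℝ} {T : σ → ℝ} {r : ι → ℕ} {c : ι}
    (h : GenCond phi U T r) (hd : topAll phi r ∣ r c) (hp : (topAll phi r).Prime) :
    (∀ d, 1 ≤ strip phi c r d ∧ Real.log (strip phi c r d : ℕ) ≤ Real.exp U) ∧
      (∀ s, c ∈ phi s → formVal phi r s = topAll phi r * formVal phi (strip phi c r) s) ∧
      (∀ s, c ∉ phi s → formVal phi r s = formVal phi (strip phi c r) s) ∧
      (∏ d, r d) = topAll phi r * ∏ d, strip phi c r d := by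
  have hc : 1 ≤ r c := h.pos c
  have hq : 1 ≤ r c / topAll phi r := Nat.div_pos (Nat.le_of_dvd hc hd) hp.pos
  have hsame : ∀ d, d ≠ c → strip phi c r d = r d := fun d hd' => Function.update_of_ne hd' _ _
  have hat : strip phi c r c = r c / topAll phi r := Function.update_self _ _ _
  have hsplit : ∀ F : Finset ι, c ∈ F →
      ∏ d ∈ F, r d = topAll phi r * ∏ d ∈ F, strip phi c r d := by
    intro F hF
    rw [← Finset.mul_prod_erase F r hF, ← Finset.mul_prod_erase F (strip phi c r) hF, hat,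
      ← mul_assoc, Nat.mul_div_cancel' hd]
    congr 1
    exact Finset.prod_congr rfl fun d hd' => (hsame d (Finset.ne_of_mem_erase hd')).symm
  refine ⟨fun d => ?_, fun s hs => hsplit _ hs, fun s hs => ?_, hsplit _ (Finset.mem_univ c)⟩
  · by_cases hdc : d = c
    · subst hdc
      rw [hat]
      refine ⟨hq, (Real.log_le_log (by exact_mod_cast hq) ?_).trans (h.size d)⟩
      exact_mod_cast Nat.div_le_self _ _
    · rw [hsame d hdc]
      exact ⟨h.pos d, h.size d⟩
  · exact Finset.prod_congr rfl fun d hd' => (hsame d fun e => hs (e ▸ hd')).symm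

theorem pw_prime_mul_le {f : ℕ → ℝ} {B : ℝ} (hB : 1 ≤ B) (hf : ∀ p, 0 ≤ f p ∧ f p ≤ B)
    {p k : ℕ} (hp : p.Prime) (hk : 1 ≤ k) : pw f (p * k) ≤ B * pw f k := by
  have h0 : 0 ≤ pw f k := Finset.prod_nonneg fun q _ => (hf q).1
  rw [pw, Nat.primeFactors_mul hp.ne_zero (by omega), hp.primeFactors, ← Finset.insert_eq]
  by_cases hmem : p ∈ k.primeFactors
  · rw [Finset.insert_eq_of_mem hmem]
    exact le_mul_of_one_le_left h0 hB
  · rw [Finset.prod_insert hmem]
    exact mul_le_mul_of_nonneg_right (hf p).2 h0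

omit [DecidableEq σ] in
theorem weight_strip {phi : σ → Finset ι} {B : ℝ} {f : ι → ℕ → ℝ} {r : ι → ℕ} {c : ι}
    (hB : 1 ≤ B) (hf : ∀ c p, 0 ≤ f c p ∧ f c p ≤ B) (hr : 1 ≤ r c)
    (hd : topAll phi r ∣ r c) (hp : (topAll phi r).Prime) :
    ∏ d, pw (f d) (r d) ≤ B * ∏ d, pw (f d) (strip phi c r d) := by
  have hat : strip phi c r c = r c / topAll phi r := Function.update_self _ _ _
  rw [← Finset.mul_prod_erase _ (fun d => pw (f d) (r d)) (Finset.mem_univ c),
    ← Finset.mul_prod_erase _ (fun d => pw (f d) (strip phi c r d)) (Finset.mem_univ c),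
    ← mul_assoc, hat]
  refine mul_le_mul (le_of_eq_of_le ?_ (pw_prime_mul_le hB (hf c) hp
      (Nat.div_pos (Nat.le_of_dvd hr hd) hp.pos))) (le_of_eq (Finset.prod_congr rfl fun d hd' => ?_))
    (Finset.prod_nonneg fun d _ => Finset.prod_nonneg fun q _ => (hf d q).1)
    (mul_nonneg (zero_le_one.trans hB) (Finset.prod_nonneg fun q _ => (hf c q).1))
  · rw [Nat.mul_div_cancel' hd]
  · rw [strip, Function.update_of_ne (Finset.ne_of_mem_erase hd')]

/-- Sum over pairs, grouped by the first component. -/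
theorem sum_fibre_le {α β : Type} [DecidableEq β] (R : Finset α) (g : α → β) (t : α → ℕ)
    (w K : β → ℝ) (v : ℕ → ℝ) (hw : ∀ b ∈ R.image g, 0 ≤ w b)
    (hinj : Set.InjOn (fun a => (g a, t a)) R)
    (hK : ∀ b ∈ R.image g, ∑ p ∈ (R.filter fun a => g a = b).image t, v p ≤ K b) :
    ∑ a ∈ R, w (g a) * v (t a) ≤ ∑ b ∈ R.image g, w b * K b := by
  rw [← Finset.sum_fiberwise_of_maps_to (g := g) (t := R.image g)
    (fun a ha => Finset.mem_image_of_mem _ ha)]
  refine Finset.sum_le_sum fun b hb => ?_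
  refine le_of_eq_of_le ?_ (mul_le_mul_of_nonneg_left (hK b hb) (hw b hb))
  rw [Finset.mul_sum, Finset.sum_image]
  · exact Finset.sum_congr rfl fun a ha => by rw [(Finset.mem_filter.1 ha).2]
  · intro a ha a' ha' e
    simp only [Finset.coe_filter, Set.mem_ofPred_eq] at ha ha'
    exact hinj ha.1 ha'.1 (by simp [ha.2, ha'.2, e])

omit [DecidableEq σ] [Fintype ι] in
theorem pair_injOn {phi : σ → Finset ι} {R : Finset (ι → ℕ)} {c : ι} :
    Set.InjOn (fun r => (strip phi c r, topAll phi r)) (atCell phi R c) := by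
  intro r hr r' hr' e
  simp only [atCell, Finset.coe_filter, Set.mem_ofPred_eq] at hr hr'
  simp only [Prod.mk.injEq] at e
  funext d
  have h := congrFun e.1 d
  by_cases hd : d = c
  · subst hd
    rw [strip, strip, Function.update_self, Function.update_self] at h
    rw [← Nat.mul_div_cancel' hr.2.2, ← Nat.mul_div_cancel' hr'.2.2, h, e.2]
  · rwa [strip, strip, Function.update_of_ne hd, Function.update_of_ne hd] at h

/-- The multipliers handed to the sieve. -/
def mults (phi : σ → Finset ι) (c : ι) (r' : ι → ℕ) : Finset ℕ :=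
  (through phi c).image (formVal phi r')

omit [DecidableEq σ] in
theorem mults_facts {phi : σ → Finset ι} {U : ℝ} {T : σ → ℝ} {r : ι → ℕ} {c : ι}
    (h : GenCond phi U T r) (hd : topAll phi r ∣ r c) (hp : (topAll phi r).Prime)
    (h2 : (through phi c).card ≤ 2) :
    (∀ A ∈ mults phi c (strip phi c r), 0 < A ∧ (A * topAll phi r + 1).Prime ∧
      Real.log (A : ℕ) ≤ (Fintype.card ι : ℝ) * Real.exp U) ∧
    (mults phi c (strip phi c r)).card = (through phi c).card ∧
    (mults phi c (strip phi c r)).card ≤ 2 := by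
  obtain ⟨hsz, hin, -, -⟩ := strip_facts h hd hp
  have hcard : (mults phi c (strip phi c r)).card = (through phi c).card := by
    refine Finset.card_image_of_injOn fun s hs s' hs' e => ?_
    simp only [through, Finset.coe_filter, Set.mem_ofPred_eq, Finset.mem_univ, true_and] at hs hs'
    exact h.inj (by rw [hin s hs, hin s' hs', e])
  refine ⟨fun A hA => ?_, hcard, hcard ▸ h2⟩
  obtain ⟨s, hs, rfl⟩ := Finset.mem_image.1 hA
  refine ⟨formVal_pos (fun d => (hsz d).1) s, ?_, ?_⟩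
  · rw [mul_comm, ← hin s (Finset.mem_filter.1 hs).2]
    exact h.prime s
  · rw [formVal, Nat.cast_prod, Real.log_prod (fun d _ => by
      exact_mod_cast Nat.one_le_iff_ne_zero.1 (hsz d).1)]
    calc ∑ d ∈ phi s, Real.log (strip phi c r d : ℕ) ≤ ((phi s).card : ℝ) * Real.exp U := by
          have := Finset.sum_le_card_nsmul (phi s) _ _ fun d _ => (hsz d).2
          simpa [nsmul_eq_mul] using this
      _ ≤ _ := mul_le_mul_of_nonneg_right (by exact_mod_cast Finset.card_le_univ _)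
          (Real.exp_pos _).le

/-- The sieve loss is a power of `U (2 + #cells + #forms)`. -/
theorem loss_bound (A : Finset ℕ) (X C n m : ℕ) (U : ℝ) (hU : 10 ≤ U) (hX : 2 ≤ X)
    (hXU : Real.log X ≤ Real.exp U) (hA : A.card ≤ 2)
    (hlog : ∀ a ∈ A, 0 < a ∧ Real.log a ≤ (n : ℝ) * Real.exp U) :
    sieveLoss A X C ≤ (3 * (C : ℝ) * (U * (2 + n + m))) ^ C := by
  have hn : (0 : ℝ) ≤ n := n.cast_nonneg
  have hm : (0 : ℝ) ≤ m := m.cast_nonneg
  have hX' : (2 : ℝ) ≤ X := by exact_mod_cast hX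
  have hlX : Real.log 2 ≤ Real.log X := Real.log_le_log two_pos hX'
  have hlX0 : 0 < Real.log X := (Real.log_pos one_lt_two).trans_le hlX
  have h1 : |Real.log (Real.log X)| ≤ U := by
    refine abs_le.2 ⟨?_, (Real.log_le_iff_le_exp hlX0).2 hXU⟩
    rw [Real.le_log_iff_exp_le hlX0]
    have : Real.exp (-U) ≤ 1 / 2 := by
      rw [Real.exp_neg, one_div]
      exact inv_anti₀ two_pos (by linarith [Real.add_one_le_exp U])
    linarith [Real.log_two_gt_d9]
  set P : ℝ := ((∏ a ∈ A, a : ℕ) : ℝ) with hP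
  have hP1 : 1 ≤ P := by
    rw [hP]
    exact_mod_cast Finset.prod_pos fun a ha => (hlog a ha).1
  have hlP : Real.log P ≤ 2 * n * Real.exp U := by
    rw [hP, Nat.cast_prod, Real.log_prod (fun a ha => by exact_mod_cast (hlog a ha).1.ne')]
    refine (Finset.sum_le_card_nsmul A _ _ fun a ha => (hlog a ha).2).trans ?_
    rw [nsmul_eq_mul, mul_assoc 2 (n : ℝ)]
    exact mul_le_mul_of_nonneg_right (by exact_mod_cast hA) (by positivity)
  have hl4 : 1 ≤ Real.log (P + 3) := by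
    rw [Real.le_log_iff_exp_le (by linarith)]
    linarith [Real.exp_one_lt_d9]
  have hlP3 : Real.log (P + 3) ≤ 2 * (n + 1) * Real.exp U := by
    calc Real.log (P + 3) ≤ Real.log (4 * P) := Real.log_le_log (by linarith) (by linarith)
      _ = Real.log 4 + Real.log P := Real.log_mul (by norm_num) (by linarith)
      _ ≤ _ := by
          have : Real.log 4 ≤ 2 := by
            rw [show (4 : ℝ) = 2 ^ 2 by norm_num, Real.log_pow]
            push_cast
            linarith [Real.log_two_lt_d9]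
          nlinarith [Real.one_le_exp (show 0 ≤ U by linarith)]
  have h2 : Real.log (Real.log (P + 3)) ≤ 2 * (n + 1) + U := by
    refine (Real.log_le_log (by linarith) hlP3).trans ?_
    rw [Real.log_mul (by positivity) (Real.exp_pos _).ne', Real.log_exp]
    linarith [Real.log_le_sub_one_of_pos (show (0 : ℝ) < 2 * (n + 1) by positivity)]
  have h2' : 0 ≤ Real.log (Real.log (P + 3)) := Real.log_nonneg hl4
  refine pow_le_pow_left₀ (by positivity) ?_ C
  rw [mul_comm 3 (C : ℝ), mul_assoc (C : ℝ)]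
  refine mul_le_mul_of_nonneg_left ?_ C.cast_nonneg
  nlinarith [mul_nonneg (show (0 : ℝ) ≤ U by linarith) hn,
    mul_nonneg (show (0 : ℝ) ≤ U by linarith) hm]

/-- All constants of one step fit in one power. -/
theorem step_const (C D k : ℕ) (hD : 3 * C + 12 ≤ D) (hk : k ≤ 9) (B U M n : ℝ) (hB : 1 ≤ B)
    (hU : 10 ≤ U) (hn : 0 ≤ n) (hnM : n + 2 ≤ M) :
    n * B * U ^ k * ((3 * (C : ℝ) * (U * M)) ^ C + 1) ≤ ((D : ℝ) * B * U * M) ^ D := by
  set Z : ℝ := B * U * M with hZ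
  have hUM : 2 ≤ U * M := by nlinarith
  have hBU : 1 ≤ B * U := by nlinarith
  have hMZ : M ≤ Z := by rw [hZ]; exact le_mul_of_one_le_left (by linarith) hBU
  have hUMZ : U * M ≤ Z := by rw [hZ, mul_assoc]; exact le_mul_of_one_le_left (by linarith) hB
  have hUZ : U ≤ Z := le_trans (le_mul_of_one_le_right (by linarith) (by linarith)) hUMZ
  have hBZ : B ≤ Z := by
    rw [hZ, mul_assoc]; exact le_mul_of_one_le_right (by linarith) (by linarith)
  have hZ1 : 1 ≤ Z := by linarith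
  have hC1 : (1 : ℝ) ≤ (3 * (C : ℝ)) ^ C := by
    rcases Nat.eq_zero_or_pos C with rfl | hC
    · simp
    · exact one_le_pow₀ (by have : (1 : ℝ) ≤ C := by exact_mod_cast hC
                            linarith)
  have hp : (3 * (C : ℝ) * (U * M)) ^ C + 1 ≤ 2 * (3 * (C : ℝ)) ^ C * Z ^ C := by
    have h1 : (3 * (C : ℝ) * (U * M)) ^ C ≤ (3 * (C : ℝ)) ^ C * Z ^ C := by
      rw [← mul_pow]
      exact pow_le_pow_left₀ (by positivity) (by gcongr) C
    have h2 : (1 : ℝ) ≤ (3 * (C : ℝ)) ^ C * Z ^ C := one_le_mul_of_one_le_of_one_le hC1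
      (one_le_pow₀ hZ1)
    linarith
  have hUk : U ^ k ≤ Z ^ 9 :=
    (pow_le_pow_left₀ (by linarith) hUZ k).trans (pow_le_pow_right₀ hZ1 hk)
  calc n * B * U ^ k * ((3 * (C : ℝ) * (U * M)) ^ C + 1)
      ≤ Z * Z * Z ^ 9 * (2 * (3 * (C : ℝ)) ^ C * Z ^ C) := by
        gcongr
        linarith
    _ = (2 * (3 * (C : ℝ)) ^ C) * Z ^ (C + 11) := by ring
    _ ≤ ((D : ℝ) * (D : ℝ) ^ C) * Z ^ (C + 11) := by
        have h3 : (3 * (C : ℝ)) ≤ D := by exact_mod_cast (show 3 * C ≤ D by omega)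
        have h4 : (2 : ℝ) ≤ D := by exact_mod_cast (show 2 ≤ D by omega)
        gcongr
    _ ≤ (D : ℝ) ^ D * Z ^ D := by
        rw [← pow_succ' (D : ℝ) C]
        refine mul_le_mul (pow_le_pow_right₀ ?_ (by omega)) (pow_le_pow_right₀ hZ1 (by omega))
          (by positivity) (by positivity)
        exact_mod_cast (show 1 ≤ D by omega)
    _ = ((D : ℝ) * B * U * M) ^ D := by rw [← mul_pow, hZ]; ring

theorem base_one (D : ℕ) (hD : 1 ≤ D) (B U M : ℝ) (hB : 1 ≤ B) (hU : 10 ≤ U) (hM : 1 ≤ M) :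
    1 ≤ ((D : ℝ) * B * U * M) ^ D := by
  refine one_le_pow₀ ?_
  have : (1 : ℝ) ≤ D := by exact_mod_cast hD
  exact one_le_mul_of_one_le_of_one_le
    (one_le_mul_of_one_le_of_one_le (one_le_mul_of_one_le_of_one_le this hB) (by linarith)) hM

/-- The exponential of the Mertens sums. -/
noncomputable def eul (U : ℝ) (f : ι → ℕ → ℝ) : ℝ :=
  ∏ c, Real.exp (∑ p ∈ Nat.primesLE ⌊Real.exp (Real.exp U)⌋₊, f c p / ((p : ℝ) - 1))

omit [DecidableEq ι] in
theorem eul_pos (U : ℝ) (f : ι → ℕ → ℝ) : 0 < eul U f :=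
  Finset.prod_pos fun _ _ => Real.exp_pos _

omit [DecidableEq σ] in
theorem sum_le_cells {phi : σ → Finset ι} {U : ℝ} {T : σ → ℝ} {R : Finset (ι → ℕ)}
    (hT : ∀ s, 1 ≤ T s) (hU : 0 < U) (hR : ∀ r ∈ R, GenCond phi U T r) (s₀ : σ)
    (w : (ι → ℕ) → ℝ) (hw : ∀ r ∈ R, 0 ≤ w r) :
    ∑ r ∈ R, w r ≤ ∑ c, ∑ r ∈ atCell phi R c, w r := by
  simp only [atCell, Finset.sum_filter]
  rw [Finset.sum_comm]
  refine Finset.sum_le_sum fun r hr => ?_
  obtain ⟨-, ⟨c, ⟨s, hs⟩, hd⟩, -⟩ := top_facts (hR r hr) hT hU s₀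
  refine le_trans ?_ (Finset.single_le_sum (fun d _ => ?_) (Finset.mem_univ c))
  · rw [if_pos ⟨⟨s, Finset.mem_filter.2 ⟨Finset.mem_univ _, hs⟩⟩, hd⟩]
  · split_ifs
    · exact hw r hr
    · exact le_rfl

omit [DecidableEq ι] in
theorem weight_nonneg {f : ι → ℕ → ℝ} (hf : ∀ c p, 0 ≤ f c p) (r : ι → ℕ) :
    0 ≤ ∏ c, pw (f c) (r c) / (r c : ℝ) :=
  Finset.prod_nonneg fun c _ => div_nonneg (Finset.prod_nonneg fun q _ => hf c q) (Nat.cast_nonneg _)

omit [DecidableEq σ] in
/-- The forms away from `c`, on the stripped systems. -/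
theorem strip_cond {phi : σ → Finset ι} {U : ℝ} {T : σ → ℝ} {r : ι → ℕ} {c : ι}
    (h : GenCond phi U T r) (hd : topAll phi r ∣ r c) (hp : (topAll phi r).Prime) :
    GenCond (fun s : {s // s ∉ through phi c} => phi s.1) U (fun s => T s.1) (strip phi c r) := by
  obtain ⟨hsz, -, hout, -⟩ := strip_facts h hd hp
  have e : ∀ s : {s // s ∉ through phi c},
      formVal (fun s : {s // s ∉ through phi c} => phi s.1) (strip phi c r) s
        = formVal phi r s.1 := fun s =>
    (hout s.1 fun hc => s.2 (Finset.mem_filter.2 ⟨Finset.mem_univ _, hc⟩)).symm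
  refine ⟨fun d => (hsz d).1, fun d => (hsz d).2, fun s => ?_, fun s => ?_, fun s => ?_, ?_⟩
  · rw [e]; exact h.prime s.1
  · rw [e]; exact h.big s.1
  · rw [e]; exact h.top s.1
  · intro s s' he
    rw [e, e] at he
    exact Subtype.ext (h.inj he)

/-- The remaining forms cost one power less. -/
theorem rest_bound {phi : σ → Finset ι} {D : ℕ} (hD : 1 ≤ D) {B U : ℝ} (hB : 1 ≤ B)
    (hU : 10 ≤ U) (f : ι → ℕ → ℝ) {T : σ → ℝ} (hT : ∀ s, 1 ≤ T s) (c : ι)
    (hne : (through phi c).Nonempty) :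
    (genBound D U B f fun s : {s // s ∉ through phi c} => T s.1) / ∏ s ∈ through phi c, T s
      ≤ ((((D : ℝ) * B * U * (2 + Fintype.card ι + Fintype.card σ)) ^ D) ^ Fintype.card σ)
          * eul U f / ∏ s, T s := by
  obtain ⟨s₁, hs₁⟩ := hne
  have hlt : Fintype.card {s // s ∉ through phi c} < Fintype.card σ :=
    Fintype.card_subtype_lt (x := s₁) (not_not.2 hs₁)
  have hprod : ∏ s, T s
      = (∏ s ∈ through phi c, T s) * ∏ s : {s // s ∉ through phi c}, T s.1 := by
    rw [← Finset.prod_subtype (Finset.univ \ through phi c) (fun x => by simp), mul_comm,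
      Finset.prod_sdiff (Finset.subset_univ _)]
  rw [hprod, genBound, div_div, mul_comm (∏ s : {s // s ∉ through phi c}, T s.1)]
  refine div_le_div_of_nonneg_right (mul_le_mul_of_nonneg_right ?_ (eul_pos U f).le)
    (mul_nonneg (Finset.prod_nonneg fun s _ => zero_le_one.trans (hT s))
      (Finset.prod_nonneg fun s _ => zero_le_one.trans (hT s.1)))
  refine le_trans ?_ (pow_le_pow_right₀ (base_one D hD B U _ hB hU ?_)
    (show Fintype.card {s // s ∉ through phi c} + 1 ≤ Fintype.card σ by omega))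
  · have : (Fintype.card {s // s ∉ through phi c} : ℝ) ≤ Fintype.card σ := by
      exact_mod_cast hlt.le
    gcongr
  · linarith [(Fintype.card ι).cast_nonneg (α := ℝ), (Fintype.card σ).cast_nonneg (α := ℝ)]

end

/-- No forms: an Euler product. -/
theorem sum_no_forms {ι : Type} [Fintype ι] [DecidableEq ι] (f : ι → ℕ → ℝ)
    (hf : ∀ c p, 0 ≤ f c p) (N : ℕ) (R : Finset (ι → ℕ))
    (hR : ∀ r ∈ R, ∀ c, 1 ≤ r c ∧ r c ≤ N) :
    ∑ r ∈ R, ∏ c, pw (f c) (r c) / (r c : ℝ) ≤
      ∏ c, Real.exp (∑ p ∈ Nat.primesLE N, f c p / ((p : ℝ) - 1)) := by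
  have h1 : ∑ r ∈ R, ∏ c, pw (f c) (r c) / (r c : ℝ) ≤
      ∑ r ∈ Fintype.piFinset (fun _ : ι => Finset.Icc 1 N),
        ∏ c, pw (f c) (r c) / (r c : ℝ) :=
    Finset.sum_le_sum_of_subset_of_nonneg
      (fun r hr => Fintype.mem_piFinset.2 fun c => Finset.mem_Icc.2 (hR r hr c))
      fun r _ _ => weight_nonneg hf r
  refine h1.trans ?_
  rw [← Finset.prod_univ_sum (fun _ : ι => Finset.Icc 1 N) (fun c k => pw (f c) k / (k : ℝ))]
  refine Finset.prod_le_prod (fun c _ => ?_) (fun c _ => euler_bound (f c) (hf c) N)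
  exact Finset.sum_nonneg fun k _ =>
    div_nonneg (Finset.prod_nonneg fun q _ => hf c q) k.cast_nonneg

theorem recip_fibre {C : ℕ}
    (hS : ∀ (S : Finset ℕ) (X : ℕ) (T : ℝ), (∀ A ∈ S, 0 < A) →
    1 ≤ S.card → S.card ≤ 2 → 2 ≤ X → 1 ≤ T →
    ∑ R ∈ (tuplePrimes S X).filter (fun R => T ≤ Real.log (R : ℕ)), 1 / (R : ℝ) ≤
      sieveLoss S X C / T ^ S.card)
    {ι σ : Type} [Fintype ι] [DecidableEq ι] [Fintype σ] [DecidableEq σ] {U : ℝ} (hU : 10 ≤ U)
    (phi : σ → Finset ι) (T : σ → ℝ) (hT : ∀ s, 1 ≤ T s) {R : Finset (ι → ℕ)}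
    (hR : ∀ r ∈ R, GenCond phi U T r) (c : ι) (hne : (through phi c).Nonempty)
    (hS2 : (through phi c).card ≤ 2) (s₀ : σ) :
    ∀ b ∈ (atCell phi R c).image (strip phi c),
      ∑ p ∈ ((atCell phi R c).filter fun r => strip phi c r = b).image (topAll phi), 1 / (p : ℝ)
        ≤ U ^ 6 * ((3 * (C : ℝ) * (U * (2 + Fintype.card ι + Fintype.card σ))) ^ C + 1)
          / ∏ s ∈ through phi c, T s := by
  set N : ℕ := ⌊Real.exp (Real.exp U)⌋₊ with hN
  set M : ℝ := 2 + Fintype.card ι + Fintype.card σ with hM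
  have hN2 : 2 ≤ N := Nat.le_floor (by
    push_cast
    linarith [Real.add_one_le_exp (Real.exp U), Real.add_one_le_exp U])
  have hNU : Real.log N ≤ Real.exp U := by
    rw [Real.log_le_iff_le_exp (by exact_mod_cast (show 0 < N by omega))]
    exact Nat.floor_le (Real.exp_pos _).le
  have hle : ∀ {k : ℕ}, 1 ≤ k → Real.log k ≤ Real.exp U → k ≤ N := fun hk h =>
    Nat.le_floor ((Real.log_le_iff_le_exp (by exact_mod_cast hk)).1 h)
  have hM1 : 1 ≤ M := by rw [hM]; exact one_le_card_bound _ _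
  set S := through phi c
  have hT' : 0 < ∏ s ∈ S, T s := Finset.prod_pos fun s _ => zero_lt_one.trans_le (hT s)
  have facts : ∀ r ∈ atCell phi R c, GenCond phi U T r ∧ topAll phi r ∣ r c ∧
      (topAll phi r).Prime ∧ ∀ s, T s / U ^ 3 ≤ Real.log (topAll phi r) := fun r hr => by
    obtain ⟨hrR, -, hd⟩ := Finset.mem_filter.1 hr
    obtain ⟨hp, -, hlog⟩ := top_facts (hR r hrR) hT (by linarith) s₀
    exact ⟨hR r hrR, hd, hp, hlog⟩
  intro b hb
  obtain ⟨r₁, hr₁, rfl⟩ := Finset.mem_image.1 hb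
  set A := mults phi c (strip phi c r₁)
  obtain ⟨hc₁, hd₁, hp₁, -⟩ := facts r₁ hr₁
  obtain ⟨hA, hAcard, hA2⟩ := mults_facts hc₁ hd₁ hp₁ hS2
  set F := ((atCell phi R c).filter fun r => strip phi c r = strip phi c r₁).image
    (topAll phi)
  have hF : ∀ p ∈ F, p ∈ tuplePrimes A N ∧ ∀ s, T s / U ^ 3 ≤ Real.log (p : ℕ) := by
    intro p hp
    obtain ⟨r, hr, rfl⟩ := Finset.mem_image.1 hp
    obtain ⟨hr, he⟩ := Finset.mem_filter.1 hr
    obtain ⟨hc, hd, hpr, hlog⟩ := facts r hr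
    refine ⟨Finset.mem_filter.2 ⟨Finset.mem_Icc.2 ⟨hpr.pos, ?_⟩, hpr, fun a ha => ?_⟩, hlog⟩
    · exact (Nat.le_of_dvd (hc.pos c) hd).trans (hle (hc.pos c) (hc.size c))
    · exact ((mults_facts hc hd hpr hS2).1 a (he.symm ▸ ha)).2.1
  set a : σ → ℝ := fun s => T s / U ^ 3
  have ha : ∀ s, 0 < a s := fun s => div_pos (zero_lt_one.trans_le (hT s)) (by positivity)
  set P := ∏ s ∈ S, a s with hP
  have hP0 : 0 < P := Finset.prod_pos fun s _ => ha s
  obtain ⟨s₁, hs₁, hmax⟩ := S.exists_max_image a hne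
  set T' := max 1 (a s₁) with hT''
  have hloss := loss_bound A N C (Fintype.card ι) (Fintype.card σ) U hU hN2 hNU hA2
    fun x hx => ⟨(hA x hx).1, (hA x hx).2.2⟩
  have hbig : ∑ p ∈ F.filter (fun p => 1 ≤ Real.log (p : ℕ)), 1 / (p : ℝ)
      ≤ (3 * (C : ℝ) * (U * M)) ^ C / P := by
    calc _ ≤ ∑ p ∈ (tuplePrimes A N).filter (fun p => T' ≤ Real.log (p : ℕ)), 1 / (p : ℝ) := by
          refine Finset.sum_le_sum_of_subset_of_nonneg ?_ fun p _ _ => by positivity
          intro p hp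
          obtain ⟨hp, h1⟩ := Finset.mem_filter.1 hp
          exact Finset.mem_filter.2 ⟨(hF p hp).1, max_le h1 ((hF p hp).2 s₁)⟩
      _ ≤ sieveLoss A N C / T' ^ A.card :=
          hS A N T' (fun x hx => (hA x hx).1)
            (hAcard ▸ Finset.one_le_card.2 hne) hA2 hN2 (le_max_left _ _)
      _ ≤ _ := by
          refine div_le_div₀ (by positivity) hloss hP0 ?_
          rw [hAcard, hP, ← Finset.prod_const]
          exact Finset.prod_le_prod (fun s _ => (ha s).le)
            fun s hs => (hmax s hs).trans (le_max_right _ _)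
  have hsmall : ∑ p ∈ F.filter (fun p => ¬ 1 ≤ Real.log (p : ℕ)), 1 / (p : ℝ) ≤ 1 / P := by
    rcases (F.filter fun p => ¬ 1 ≤ Real.log (p : ℕ)).eq_empty_or_nonempty with he | ⟨q, hq⟩
    · rw [he, Finset.sum_empty]; positivity
    obtain ⟨hqF, hq1⟩ := Finset.mem_filter.1 hq
    have hP1 : P ≤ 1 := Finset.prod_le_one (fun s _ => (ha s).le)
      fun s _ => ((hF q hqF).2 s).trans (le_of_not_ge hq1)
    calc _ ≤ ∑ p ∈ ({2} : Finset ℕ), 1 / (p : ℝ) := by
          refine Finset.sum_le_sum_of_subset_of_nonneg ?_ fun p _ _ => by positivity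
          intro p hp
          obtain ⟨hpF, hp1⟩ := Finset.mem_filter.1 hp
          have hpp : p.Prime := (Finset.mem_filter.1 (hF p hpF).1).2.1
          rw [Finset.mem_singleton]
          by_contra hne2
          refine hp1 ?_
          rw [Real.le_log_iff_exp_le (by exact_mod_cast hpp.pos)]
          have : (3 : ℝ) ≤ p := by
            exact_mod_cast (show 3 ≤ p by have := hpp.two_le; omega)
          linarith [Real.exp_one_lt_d9]
      _ ≤ 1 := by norm_num
      _ ≤ 1 / P := (one_le_div hP0).2 hP1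
  rw [← Finset.sum_filter_add_sum_filter_not F (fun p => 1 ≤ Real.log (p : ℕ))]
  refine (add_le_add hbig hsmall).trans ?_
  rw [← add_div, hP, Finset.prod_div_distrib, Finset.prod_const, div_div_eq_mul_div,
    mul_comm _ (((U : ℝ) ^ 3) ^ S.card)]
  refine div_le_div_of_nonneg_right (mul_le_mul_of_nonneg_right ?_ (by positivity)) hT'.le
  rw [← pow_mul]
  exact pow_le_pow_right₀ (by linarith) (by omega)

theorem recip_aux {C D : ℕ} (hD : 3 * C + 12 ≤ D)
    (hS : ∀ (S : Finset ℕ) (X : ℕ) (T : ℝ), (∀ A ∈ S, 0 < A) →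
    1 ≤ S.card → S.card ≤ 2 → 2 ≤ X → 1 ≤ T →
    ∑ R ∈ (tuplePrimes S X).filter (fun R => T ≤ Real.log (R : ℕ)), 1 / (R : ℝ) ≤
      sieveLoss S X C / T ^ S.card)
    {ι : Type} [Fintype ι] [DecidableEq ι] (U B : ℝ) (hU : 10 ≤ U) (hB : 1 ≤ B)
    (f : ι → ℕ → ℝ) (hf : ∀ c p, 0 ≤ f c p ∧ f c p ≤ B) :
    ∀ (n : ℕ) (σ : Type) [Fintype σ] [DecidableEq σ], Fintype.card σ = n →
    ∀ (phi : σ → Finset ι) (T : σ → ℝ) (R : Finset (ι → ℕ)),
    (∀ c, (Finset.univ.filter fun s => c ∈ phi s).card ≤ 2) → (∀ s, 1 ≤ T s) →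
    (∀ r ∈ R, GenCond phi U T r) →
    ∑ r ∈ R, ∏ c, pw (f c) (r c) / (r c : ℝ) ≤ genBound D U B f T := by
  intro n
  induction n using Nat.strong_induction_on with
  | _ n ih =>
  intro σ _ _ hn phi T R h2 hT hR
  set N : ℕ := ⌊Real.exp (Real.exp U)⌋₊ with hN
  set M : ℝ := 2 + Fintype.card ι + Fintype.card σ with hM
  have hM1 : 1 ≤ M := by rw [hM]; exact one_le_card_bound _ _
  have hN2 : 2 ≤ N := Nat.le_floor (by
    push_cast
    linarith [Real.add_one_le_exp (Real.exp U), Real.add_one_le_exp U])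
  have hNU : Real.log N ≤ Real.exp U := by
    rw [Real.log_le_iff_le_exp (by exact_mod_cast (show 0 < N by omega))]
    exact Nat.floor_le (Real.exp_pos _).le
  have hle : ∀ {k : ℕ}, 1 ≤ k → Real.log k ≤ Real.exp U → k ≤ N := fun hk h =>
    Nat.le_floor ((Real.log_le_iff_le_exp (by exact_mod_cast hk)).1 h)
  rcases isEmpty_or_nonempty σ with hσ | ⟨⟨s₀⟩⟩
  · refine (sum_no_forms f (fun c p => (hf c p).1) N R fun r hr c =>
      ⟨(hR r hr).pos c, hle ((hR r hr).pos c) ((hR r hr).size c)⟩).trans ?_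
    simp only [genBound, Fintype.card_eq_zero (α := σ), Finset.univ_eq_empty (α := σ),
      Finset.prod_empty, div_one, zero_add, pow_one, ← hN]
    refine le_mul_of_one_le_left (Finset.prod_nonneg fun c _ => (Real.exp_pos _).le) ?_
    exact base_one D (by omega) B U _ hB hU (one_le_card_bound _ _)
  · have hT0 : 0 < ∏ s, T s := Finset.prod_pos fun s _ => zero_lt_one.trans_le (hT s)
    set K : ℝ := ((((D : ℝ) * B * U * M) ^ D) ^ Fintype.card σ) * eul U f / ∏ s, T s with hK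
    set L : ℝ := B * U ^ 6 * ((3 * (C : ℝ) * (U * M)) ^ C + 1) with hL
    have hL0 : 0 ≤ L := by positivity
    have hK0 : 0 ≤ K := div_nonneg (mul_nonneg (by positivity) (eul_pos U f).le) hT0.le
    have hcell : ∀ c, ∑ r ∈ atCell phi R c, ∏ d, pw (f d) (r d) / (r d : ℝ) ≤ L * K := by
      intro c
      rcases (atCell phi R c).eq_empty_or_nonempty with he | ⟨r₀, hr₀⟩
      · rw [he, Finset.sum_empty]; positivity
      have hne : (through phi c).Nonempty := (Finset.mem_filter.1 hr₀).2.1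
      set S := through phi c
      have hS2 : S.card ≤ 2 := h2 c
      have hT' : 0 < ∏ s ∈ S, T s := Finset.prod_pos fun s _ => zero_lt_one.trans_le (hT s)
      have facts : ∀ r ∈ atCell phi R c, GenCond phi U T r ∧ topAll phi r ∣ r c ∧
          (topAll phi r).Prime ∧ ∀ s, T s / U ^ 3 ≤ Real.log (topAll phi r) := fun r hr => by
        obtain ⟨hrR, -, hd⟩ := Finset.mem_filter.1 hr
        obtain ⟨hp, -, hlog⟩ := top_facts (hR r hrR) hT (by linarith) s₀
        exact ⟨hR r hrR, hd, hp, hlog⟩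
      set W : ℝ := U ^ 6 * ((3 * (C : ℝ) * (U * M)) ^ C + 1) / ∏ s ∈ S, T s with hW
      have hfib : ∀ b ∈ (atCell phi R c).image (strip phi c),
          ∑ p ∈ ((atCell phi R c).filter fun r => strip phi c r = b).image (topAll phi),
            1 / (p : ℝ) ≤ W :=
        recip_fibre hS hU phi T hT hR c hne hS2 s₀
      have hinner : ∑ b ∈ (atCell phi R c).image (strip phi c), ∏ d, pw (f d) (b d) / (b d : ℝ)
          ≤ genBound D U B f fun s : {s // s ∉ through phi c} => T s.1 := by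
        obtain ⟨s₁, hs₁⟩ := hne
        refine ih _ (hn ▸ Fintype.card_subtype_lt (x := s₁) (not_not.2 hs₁)) _ rfl
          (fun s : {s // s ∉ through phi c} => phi s.1) _ _ (fun d => ?_) (fun s => hT s.1) ?_
        · refine le_trans ?_ (h2 d)
          rw [← Finset.card_image_of_injective _ Subtype.val_injective]
          exact Finset.card_le_card fun x hx => by
            obtain ⟨y, hy, rfl⟩ := Finset.mem_image.1 hx
            simpa using hy
        · intro b hb
          obtain ⟨r, hr, rfl⟩ := Finset.mem_image.1 hb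
          obtain ⟨hc, hd, hp, -⟩ := facts r hr
          exact strip_cond hc hd hp
      calc ∑ r ∈ atCell phi R c, ∏ d, pw (f d) (r d) / (r d : ℝ)
          ≤ ∑ r ∈ atCell phi R c,
              B * ((∏ d, pw (f d) (strip phi c r d) / (strip phi c r d : ℝ))
                * (1 / (topAll phi r : ℝ))) := by
            refine Finset.sum_le_sum fun r hr => ?_
            obtain ⟨hc, hd, hp, -⟩ := facts r hr
            obtain ⟨hsz, -, -, hprod⟩ := strip_facts hc hd hp
            rw [Finset.prod_div_distrib, Finset.prod_div_distrib, ← Nat.cast_prod, ← Nat.cast_prod,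
              hprod, Nat.cast_mul, div_mul_div_comm, mul_one, ← mul_div_assoc,
              mul_comm (topAll phi r : ℝ)]
            exact div_le_div_of_nonneg_right (weight_strip hB hf (hc.pos c) hd hp) (by positivity)
        _ ≤ B * ∑ b ∈ (atCell phi R c).image (strip phi c),
              (∏ d, pw (f d) (b d) / (b d : ℝ)) * W := by
            rw [← Finset.mul_sum]
            exact mul_le_mul_of_nonneg_left (sum_fibre_le (atCell phi R c) (strip phi c)
              (topAll phi) (fun b => ∏ d, pw (f d) (b d) / (b d : ℝ)) (fun _ => W)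
              (fun p => 1 / (p : ℝ)) (fun b _ => weight_nonneg (fun c p => (hf c p).1) b)
              pair_injOn hfib) (by linarith)
        _ ≤ L * ((genBound D U B f fun s : {s // s ∉ through phi c} => T s.1)
              / ∏ s ∈ S, T s) := by
            rw [← Finset.sum_mul, hW, hL]
            have h0 : 0 ≤ B * (U ^ 6 * ((3 * (C : ℝ) * (U * M)) ^ C + 1) / ∏ s ∈ S, T s) := by
              positivity
            calc _ = B * (U ^ 6 * ((3 * (C : ℝ) * (U * M)) ^ C + 1) / ∏ s ∈ S, T s) *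
                  ∑ b ∈ (atCell phi R c).image (strip phi c),
                    ∏ d, pw (f d) (b d) / (b d : ℝ) := by ring
              _ ≤ _ := mul_le_mul_of_nonneg_left hinner h0
              _ = _ := by ring
        _ ≤ L * K := mul_le_mul_of_nonneg_left (rest_bound (by omega) hB hU f hT c hne) hL0
    calc ∑ r ∈ R, ∏ c, pw (f c) (r c) / (r c : ℝ)
        ≤ ∑ c, ∑ r ∈ atCell phi R c, ∏ d, pw (f d) (r d) / (r d : ℝ) :=
          sum_le_cells hT (by linarith) hR s₀ _ fun r _ => weight_nonneg (fun c p => (hf c p).1) r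
      _ ≤ ∑ _c : ι, L * K := Finset.sum_le_sum fun c _ => hcell c
      _ = ((Fintype.card ι : ℝ) * B * U ^ 6 * ((3 * (C : ℝ) * (U * M)) ^ C + 1)) * K := by
          rw [Finset.sum_const, Finset.card_univ, nsmul_eq_mul, hL]; ring
      _ ≤ (((D : ℝ) * B * U * M) ^ D) * K := by
          refine mul_le_mul_of_nonneg_right
            (step_const C D 6 hD (by norm_num) B U M _ hB hU (Nat.cast_nonneg _) ?_) hK0
          rw [hM]; linarith [(Fintype.card σ).cast_nonneg (α := ℝ)]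
      _ = genBound D U B f T := by
          rw [hK, genBound, ← hM, ← mul_div_assoc, ← mul_assoc, ← pow_succ', eul]

theorem count_fibre {C : ℕ}
    (hSc : ∀ (S : Finset ℕ) (X : ℕ), (∀ A ∈ S, 0 < A) → S.card ≤ 2 → 2 ≤ X →
    ((tuplePrimes S X).card : ℝ) ≤ sieveLoss S X C * X / Real.log X ^ (S.card + 1))
    {ι σ : Type} [Fintype ι] [DecidableEq ι] [Fintype σ] [DecidableEq σ] {U : ℝ} (hU : 10 ≤ U)
    (phi : σ → Finset ι) (T : σ → ℝ) (hT : ∀ s, 1 ≤ T s) {R : Finset (ι → ℕ)}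
    (hR : ∀ r ∈ R, GenCond phi U T r) (X : ℕ) (hX : ∀ r ∈ R, (∏ c, r c) ≤ X)
    (hXU : Real.log X ≤ Real.exp U) (c : ι) (hS2 : (through phi c).card ≤ 2) (s₀ : σ) :
    ∀ b ∈ (atCell phi R c).image (strip phi c),
      ∑ p ∈ ((atCell phi R c).filter fun r => strip phi c r = b).image (topAll phi), (1 : ℝ)
        ≤ (X : ℝ) * (U ^ 9 * ((3 * (C : ℝ) * (U * (2 + Fintype.card ι + Fintype.card σ))) ^ C + 1)
          / (T s₀ * ∏ s ∈ through phi c, T s)) / ((∏ d, b d : ℕ) : ℝ) := by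
  set M : ℝ := 2 + Fintype.card ι + Fintype.card σ with hM
  have hM1 : 1 ≤ M := by rw [hM]; exact one_le_card_bound _ _
  set S := through phi c
  have hts : 0 < T s₀ := zero_lt_one.trans_le (hT s₀)
  have hT' : 0 < ∏ s ∈ S, T s := Finset.prod_pos fun s _ => zero_lt_one.trans_le (hT s)
  have facts : ∀ r ∈ atCell phi R c, GenCond phi U T r ∧ topAll phi r ∣ r c ∧
      (topAll phi r).Prime ∧ (∀ s, T s / U ^ 3 ≤ Real.log (topAll phi r)) ∧
      (∏ d, r d) ≤ X := fun r hr => by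
    obtain ⟨hrR, -, hd⟩ := Finset.mem_filter.1 hr
    obtain ⟨hp, -, hlog⟩ := top_facts (hR r hrR) hT (by linarith) s₀
    exact ⟨hR r hrR, hd, hp, hlog, hX r hrR⟩
  intro b hb
  obtain ⟨r₁, hr₁, rfl⟩ := Finset.mem_image.1 hb
  set A := mults phi c (strip phi c r₁)
  obtain ⟨hc₁, hd₁, hp₁, hlog₁, hX₁⟩ := facts r₁ hr₁
  obtain ⟨hA, hAcard, hA2⟩ := mults_facts hc₁ hd₁ hp₁ hS2
  obtain ⟨hsz₁, -, -, hprod₁⟩ := strip_facts hc₁ hd₁ hp₁
  set Pb : ℕ := ∏ d, strip phi c r₁ d with hPb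
  have hPb0 : 0 < Pb := Finset.prod_pos fun d _ => (hsz₁ d).1
  set X' : ℕ := X / Pb with hX'
  have hle₁ : topAll phi r₁ ≤ X' := by
    rw [hX', Nat.le_div_iff_mul_le hPb0, ← hprod₁]; exact hX₁
  have hX'2 : 2 ≤ X' := hp₁.two_le.trans hle₁
  have hX'X : X' ≤ X := Nat.div_le_self _ _
  have hlX' : 0 < Real.log X' := Real.log_pos (by exact_mod_cast hX'2)
  have hX'U : Real.log X' ≤ Real.exp U :=
    (Real.log_le_log (by exact_mod_cast (show 0 < X' by omega))
      (by exact_mod_cast hX'X)).trans hXU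
  set F := ((atCell phi R c).filter fun r => strip phi c r = strip phi c r₁).image
    (topAll phi)
  have hF : F ⊆ tuplePrimes A X' := by
    intro p hp
    obtain ⟨r, hr, rfl⟩ := Finset.mem_image.1 hp
    obtain ⟨hr, he⟩ := Finset.mem_filter.1 hr
    obtain ⟨hc, hd, hpr, -, hXr⟩ := facts r hr
    refine Finset.mem_filter.2 ⟨Finset.mem_Icc.2 ⟨hpr.pos, ?_⟩, hpr, fun a ha => ?_⟩
    · rw [hX', Nat.le_div_iff_mul_le hPb0, hPb, ← he, ← (strip_facts hc hd hpr).2.2.2]
      exact hXr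
    · exact ((mults_facts hc hd hpr hS2).1 a (he.symm ▸ ha)).2.1
  set a : σ → ℝ := fun s => T s / U ^ 3
  have ha : ∀ s, 0 < a s := fun s => div_pos (zero_lt_one.trans_le (hT s)) (by positivity)
  have haX : ∀ s, a s ≤ Real.log X' := fun s =>
    (hlog₁ s).trans (Real.log_le_log (by exact_mod_cast hp₁.pos) (by exact_mod_cast hle₁))
  have hloss := loss_bound A X' C (Fintype.card ι) (Fintype.card σ) U hU hX'2 hX'U hA2
    fun x hx => ⟨(hA x hx).1, (hA x hx).2.2⟩
  have hden : a s₀ * ∏ s ∈ S, a s ≤ Real.log X' ^ (A.card + 1) := by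
    rw [hAcard, pow_succ', ← Finset.prod_const]
    exact mul_le_mul (haX s₀) (Finset.prod_le_prod (fun s _ => (ha s).le) fun s _ => haX s)
      (Finset.prod_nonneg fun s _ => (ha s).le) hlX'.le
  have hdiv : (X' : ℝ) ≤ (X : ℝ) / (Pb : ℝ) := Nat.cast_div_le
  have hs0 : 0 < a s₀ * ∏ s ∈ S, a s := mul_pos (ha s₀) (Finset.prod_pos fun s _ => ha s)
  have hnum : 0 ≤ (X : ℝ) * ((3 * (C : ℝ) * (U * M)) ^ C + 1) / Pb := by positivity
  calc ∑ p ∈ F, (1 : ℝ) = (F.card : ℝ) := by simp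
    _ ≤ ((tuplePrimes A X').card : ℝ) := by exact_mod_cast Finset.card_le_card hF
    _ ≤ sieveLoss A X' C * X' / Real.log X' ^ (A.card + 1) :=
        hSc A X' (fun x hx => (hA x hx).1) hA2 hX'2
    _ ≤ (X : ℝ) * ((3 * (C : ℝ) * (U * M)) ^ C + 1) / Pb / (a s₀ * ∏ s ∈ S, a s) := by
        refine div_le_div₀ hnum ?_ hs0 hden
        rw [mul_comm (X : ℝ), mul_div_assoc]
        exact mul_le_mul (hloss.trans (le_add_of_nonneg_right zero_le_one)) hdiv
          (Nat.cast_nonneg _) (by positivity)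
    _ = (X : ℝ) * ((3 * (C : ℝ) * (U * M)) ^ C + 1) * (U ^ 3) ^ (S.card + 1)
          / ((T s₀ * ∏ s ∈ S, T s) * Pb) := by
        simp only [a, Finset.prod_div_distrib, Finset.prod_const, pow_succ]
        field_simp
    _ ≤ (X : ℝ) * ((3 * (C : ℝ) * (U * M)) ^ C + 1) * U ^ 9
          / ((T s₀ * ∏ s ∈ S, T s) * Pb) := by
        refine div_le_div_of_nonneg_right (mul_le_mul_of_nonneg_left ?_ (by positivity))
          (by positivity)
        rw [← pow_mul]
        exact pow_le_pow_right₀ (by linarith) (by omega)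
    _ = _ := by field_simp

theorem count_aux {C C₁ D : ℕ} (hD : 3 * (C + C₁) + 12 ≤ D)
    (hS : ∀ (S : Finset ℕ) (X : ℕ) (T : ℝ), (∀ A ∈ S, 0 < A) →
    1 ≤ S.card → S.card ≤ 2 → 2 ≤ X → 1 ≤ T →
    ∑ R ∈ (tuplePrimes S X).filter (fun R => T ≤ Real.log (R : ℕ)), 1 / (R : ℝ) ≤
      sieveLoss S X C₁ / T ^ S.card)
    (hSc : ∀ (S : Finset ℕ) (X : ℕ), (∀ A ∈ S, 0 < A) → S.card ≤ 2 → 2 ≤ X →
    ((tuplePrimes S X).card : ℝ) ≤ sieveLoss S X C * X / Real.log X ^ (S.card + 1))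
    {ι σ : Type} [Fintype ι] [DecidableEq ι] [Fintype σ] [DecidableEq σ]
    (phi : σ → Finset ι) (U B : ℝ) (f : ι → ℕ → ℝ) (T : σ → ℝ) (R : Finset (ι → ℕ))
    (X : ℕ) (s₀ : σ) (h2 : ∀ c, (Finset.univ.filter fun s => c ∈ phi s).card ≤ 2)
    (hU : 10 ≤ U) (hB : 1 ≤ B) (hf : ∀ c p, 0 ≤ f c p ∧ f c p ≤ B) (hT : ∀ s, 1 ≤ T s)
    (hR : ∀ r ∈ R, GenCond phi U T r) (hX : ∀ r ∈ R, (∏ c, r c) ≤ X)
    (hXU : Real.log X ≤ Real.exp U) :
    ∑ r ∈ R, ∏ c, pw (f c) (r c) ≤ X * genBound D U B f T / T s₀ := by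
  set M : ℝ := 2 + Fintype.card ι + Fintype.card σ with hM
  have hM1 : 1 ≤ M := by rw [hM]; exact one_le_card_bound _ _
  have hT0 : 0 < ∏ s, T s := Finset.prod_pos fun s _ => zero_lt_one.trans_le (hT s)
  have hts : 0 < T s₀ := zero_lt_one.trans_le (hT s₀)
  set K : ℝ := ((((D : ℝ) * B * U * M) ^ D) ^ Fintype.card σ) * eul U f / ∏ s, T s with hK
  set L : ℝ := B * U ^ 9 * ((3 * (C : ℝ) * (U * M)) ^ C + 1) with hL
  have hL0 : 0 ≤ L := by positivity
  have hK0 : 0 ≤ K := div_nonneg (mul_nonneg (by positivity) (eul_pos U f).le) hT0.le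
  have hcell : ∀ c, ∑ r ∈ atCell phi R c, ∏ d, pw (f d) (r d) ≤ X / T s₀ * L * K := by
    intro c
    rcases (atCell phi R c).eq_empty_or_nonempty with he | ⟨r₀, hr₀⟩
    · rw [he, Finset.sum_empty]; positivity
    have hne : (through phi c).Nonempty := (Finset.mem_filter.1 hr₀).2.1
    set S := through phi c
    have hS2 : S.card ≤ 2 := h2 c
    have hT' : 0 < ∏ s ∈ S, T s := Finset.prod_pos fun s _ => zero_lt_one.trans_le (hT s)
    have facts : ∀ r ∈ atCell phi R c, GenCond phi U T r ∧ topAll phi r ∣ r c ∧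
        (topAll phi r).Prime ∧ (∀ s, T s / U ^ 3 ≤ Real.log (topAll phi r)) ∧
        (∏ d, r d) ≤ X := fun r hr => by
      obtain ⟨hrR, -, hd⟩ := Finset.mem_filter.1 hr
      obtain ⟨hp, -, hlog⟩ := top_facts (hR r hrR) hT (by linarith) s₀
      exact ⟨hR r hrR, hd, hp, hlog, hX r hrR⟩
    set W : ℝ := U ^ 9 * ((3 * (C : ℝ) * (U * M)) ^ C + 1) / (T s₀ * ∏ s ∈ S, T s) with hW
    have hfib : ∀ b ∈ (atCell phi R c).image (strip phi c),
        ∑ p ∈ ((atCell phi R c).filter fun r => strip phi c r = b).image (topAll phi),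
          (1 : ℝ) ≤ (X : ℝ) * W / ((∏ d, b d : ℕ) : ℝ) :=
      count_fibre hSc hU phi T hT hR X hX hXU c hS2 s₀
    have hcard2 : ∀ d, (Finset.univ.filter
        fun s : {s // s ∉ through phi c} => d ∈ phi s.1).card ≤ 2 := by
      intro d
      refine le_trans ?_ (h2 d)
      rw [← Finset.card_image_of_injective _ Subtype.val_injective]
      exact Finset.card_le_card fun x hx => by
        obtain ⟨y, hy, rfl⟩ := Finset.mem_image.1 hx
        simpa using hy
    have hinner : ∑ b ∈ (atCell phi R c).image (strip phi c), ∏ d, pw (f d) (b d) / (b d : ℝ)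
        ≤ genBound D U B f fun s : {s // s ∉ through phi c} => T s.1 := by
      refine recip_aux (C := C₁) (D := D) (by omega) hS U B hU hB f hf _
        {s // s ∉ through phi c} rfl (fun s => phi s.1) _ _ hcard2 (fun s => hT s.1) ?_
      intro b hb
      obtain ⟨r, hr, rfl⟩ := Finset.mem_image.1 hb
      obtain ⟨hc, hd, hp, -⟩ := facts r hr
      exact strip_cond hc hd hp
    calc ∑ r ∈ atCell phi R c, ∏ d, pw (f d) (r d)
        ≤ ∑ r ∈ atCell phi R c, B * ((∏ d, pw (f d) (strip phi c r d)) * 1) := by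
          refine Finset.sum_le_sum fun r hr => ?_
          obtain ⟨hc, hd, hp, -⟩ := facts r hr
          rw [mul_one]
          exact weight_strip hB hf (hc.pos c) hd hp
      _ ≤ B * ∑ b ∈ (atCell phi R c).image (strip phi c),
            (∏ d, pw (f d) (b d)) * ((X : ℝ) * W / ((∏ d, b d : ℕ) : ℝ)) := by
          rw [← Finset.mul_sum]
          exact mul_le_mul_of_nonneg_left (sum_fibre_le (atCell phi R c) (strip phi c)
            (topAll phi) (fun b => ∏ d, pw (f d) (b d))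
            (fun b => (X : ℝ) * W / ((∏ d, b d : ℕ) : ℝ)) (fun _ => 1)
            (fun b _ => Finset.prod_nonneg fun d _ => Finset.prod_nonneg fun q _ => (hf d q).1)
            pair_injOn hfib) (by linarith)
      _ = B * (X : ℝ) * W * ∑ b ∈ (atCell phi R c).image (strip phi c),
            ∏ d, pw (f d) (b d) / (b d : ℝ) := by
          rw [Finset.mul_sum, Finset.mul_sum]
          refine Finset.sum_congr rfl fun b _ => ?_
          rw [Finset.prod_div_distrib, Nat.cast_prod]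
          ring
      _ ≤ B * (X : ℝ) * W * genBound D U B f fun s : {s // s ∉ through phi c} => T s.1 :=
          mul_le_mul_of_nonneg_left hinner (by rw [hW]; positivity)
      _ = (X : ℝ) / T s₀ * L *
            ((genBound D U B f fun s : {s // s ∉ through phi c} => T s.1) / ∏ s ∈ S, T s) := by
          rw [hW, hL]; field_simp
      _ ≤ (X : ℝ) / T s₀ * L * K :=
          mul_le_mul_of_nonneg_left (rest_bound (by omega) hB hU f hT c hne) (by positivity)
  calc ∑ r ∈ R, ∏ c, pw (f c) (r c)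
      ≤ ∑ c, ∑ r ∈ atCell phi R c, ∏ d, pw (f d) (r d) :=
        sum_le_cells hT (by linarith) hR s₀ _ fun r _ =>
          Finset.prod_nonneg fun d _ => Finset.prod_nonneg fun q _ => (hf d q).1
    _ ≤ ∑ _c : ι, (X : ℝ) / T s₀ * L * K := Finset.sum_le_sum fun c _ => hcell c
    _ = (X : ℝ) / T s₀ *
          (((Fintype.card ι : ℝ) * B * U ^ 9 * ((3 * (C : ℝ) * (U * M)) ^ C + 1)) * K) := by
        rw [Finset.sum_const, Finset.card_univ, nsmul_eq_mul, hL]; ring
    _ ≤ (X : ℝ) / T s₀ * ((((D : ℝ) * B * U * M) ^ D) * K) := by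
        refine mul_le_mul_of_nonneg_left (mul_le_mul_of_nonneg_right
          (step_const C D 9 (by omega) le_rfl B U M _ hB hU (Nat.cast_nonneg _) ?_) hK0)
          (by positivity)
        rw [hM]; linarith [(Fintype.card σ).cast_nonneg (α := ℝ)]
    _ = X * genBound D U B f T / T s₀ := by
        rw [hK, genBound, ← hM, eul, pow_succ']; ring

end Gen

theorem gen_recip : ∃ C : ℕ, ∀ (ι σ : Type) [Fintype ι] [DecidableEq ι] [Fintype σ]
    [DecidableEq σ] (phi : σ → Finset ι) (U B : ℝ) (f : ι → ℕ → ℝ) (T : σ → ℝ)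
    (R : Finset (ι → ℕ)), (∀ c, (Finset.univ.filter fun s => c ∈ phi s).card ≤ 2) →
    10 ≤ U → 1 ≤ B → (∀ c p, 0 ≤ f c p ∧ f c p ≤ B) → (∀ s, 1 ≤ T s) →
    (∀ r ∈ R, GenCond phi U T r) →
    ∑ r ∈ R, ∏ c, pw (f c) (r c) / (r c : ℝ) ≤ genBound C U B f T := by
  obtain ⟨C, hC⟩ := sieve_recip
  refine ⟨3 * C + 12, ?_⟩
  intro ι σ _ _ _ _ phi U B f T R h2 hU hB hf hT hR
  exact Gen.recip_aux le_rfl hC U B hU hB f hf _ σ rfl phi T R h2 hT hR

theorem gen_count : ∃ C : ℕ, ∀ (ι σ : Type) [Fintype ι] [DecidableEq ι] [Fintype σ]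
    [DecidableEq σ] (phi : σ → Finset ι) (U B : ℝ) (f : ι → ℕ → ℝ) (T : σ → ℝ)
    (R : Finset (ι → ℕ)) (X : ℕ) (s₀ : σ), (∀ c, (Finset.univ.filter fun s => c ∈ phi s).card ≤ 2) →
    10 ≤ U → 1 ≤ B → (∀ c p, 0 ≤ f c p ∧ f c p ≤ B) → (∀ s, 1 ≤ T s) →
    (∀ r ∈ R, GenCond phi U T r) → (∀ r ∈ R, (∏ c, r c) ≤ X) → Real.log X ≤ Real.exp U →
    ∑ r ∈ R, ∏ c, pw (f c) (r c) ≤ X * genBound C U B f T / T s₀ := by
  obtain ⟨C₁, hC₁⟩ := sieve_recip
  obtain ⟨C, hC⟩ := sieve_count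
  refine ⟨3 * (C + C₁) + 12, ?_⟩
  intro ι σ _ _ _ _ phi U B f T R X s₀ h2 hU hB hf hT hR hX hXU
  exact Gen.count_aux le_rfl hC₁ hC phi U B f T R X s₀ h2 hU hB hf hT hR hX hXU

end Vale.Agent.P031
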