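import Vale.Agent.P031.Coef
import Vale.Agent.P031.Gen

/-! Helpers for the collision bound: discrete Abel summation, levels, weights, matrices. -/

open Finset Real

namespace Vale.Agent.P031.CA

/-- Abel summation: sub-unit density plus `E` against a decreasing weight. -/
lemma coll_abel {α : Type*} (a : ℕ) (B : ℕ) : ∀ (s : Finset α) (c : α → ℝ) (j : α → ℕ) (E : ℝ)
    (w : ℕ → ℝ), (∀ x ∈ s, 0 ≤ c x) → (∀ x ∈ s, a < j x ∧ j x ≤ B) → 0 ≤ E → (∀ i, 0 ≤ w i) →
    (∀ i k, a < i → i ≤ k → k ≤ B → w k ≤ w i) →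
    (∀ i, a < i → i ≤ B → ∑ x ∈ s.filter (fun x => j x ≤ i), c x ≤ (i : ℝ) - a + E) →
    ∑ x ∈ s, c x * w (j x) ≤ (∑ i ∈ Finset.Ioc a B, w i) + E * w (a + 1) := by
  induction B with
  | zero =>
    intro s c j E w _ hj hE hw _ _
    have hs : s = ∅ := Finset.eq_empty_of_forall_notMem fun x hx => by
      have := hj x hx
      omega
    subst hs
    simp [mul_nonneg hE (hw (a + 1))]
  | succ B ih =>
    intro s c j E w hc hj hE hw hmono hcount
    by_cases haB : B < a
    · have hs : s = ∅ := Finset.eq_empty_of_forall_notMem fun x hx => by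
        have := hj x hx
        omega
      subst hs
      have : Finset.Ioc a (B + 1) = ∅ := Finset.Ioc_eq_empty_of_le (by omega)
      simp [this, mul_nonneg hE (hw (a + 1))]
    push Not at haB
    set m := w (B + 1) with hm
    set w' : ℕ → ℝ := fun i => max (w i - m) 0 with hw'
    have hw'eq : ∀ i, a < i → i ≤ B + 1 → w' i = w i - m := fun i h1 h2 =>
      max_eq_left (sub_nonneg.2 (hmono i (B + 1) h1 h2 le_rfl))
    set s' := s.filter (fun x => j x ≤ B) with hs'
    have hi : ∑ x ∈ s', c x * w' (j x) ≤ (∑ i ∈ Finset.Ioc a B, w' i) + E * w' (a + 1) := by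
      refine ih s' c j E w' (fun x hx => hc x (Finset.mem_filter.1 hx).1)
        (fun x hx => ⟨(hj x (Finset.mem_filter.1 hx).1).1, (Finset.mem_filter.1 hx).2⟩) hE
        (fun i => le_max_right _ _) (fun i k h1 h2 h3 => ?_) (fun i h1 h2 => ?_)
      · rw [hw'eq i h1 (by omega), hw'eq k (by omega) (by omega)]
        linarith [hmono i k h1 h2 (by omega)]
      · refine le_trans (le_of_eq ?_) (hcount i h1 (by omega))
        refine Finset.sum_congr ?_ fun _ _ => rfl
        ext x
        simp only [hs', Finset.mem_filter]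
        exact ⟨fun h => ⟨h.1.1, h.2⟩, fun h => ⟨⟨h.1, by omega⟩, h.2⟩⟩
    have hsplit : ∑ x ∈ s, c x * w (j x) = ∑ x ∈ s', c x * w' (j x) + m * ∑ x ∈ s, c x := by
      rw [hs', Finset.sum_filter, Finset.mul_sum, ← Finset.sum_add_distrib]
      refine Finset.sum_congr rfl fun x hx => ?_
      obtain ⟨h1, h2⟩ := hj x hx
      split_ifs with h
      · rw [hw'eq _ h1 (by omega)]
        ring
      · have : j x = B + 1 := by omega
        rw [this, hm]
        ring
    have hall : ∑ x ∈ s, c x ≤ ((B + 1 : ℕ) : ℝ) - a + E := by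
      have := hcount (B + 1) (by omega) le_rfl
      rwa [Finset.filter_true_of_mem fun x hx => (hj x hx).2] at this
    have hsum : ∑ i ∈ Finset.Ioc a B, w' i = (∑ i ∈ Finset.Ioc a B, w i) - ((B : ℝ) - a) * m := by
      rw [Finset.sum_congr rfl fun i hi => hw'eq i (Finset.mem_Ioc.1 hi).1
        (by have := (Finset.mem_Ioc.1 hi).2; omega), Finset.sum_sub_distrib, Finset.sum_const,
        Nat.card_Ioc, nsmul_eq_mul, Nat.cast_sub haB]
    rw [hsplit, Finset.sum_Ioc_succ_top (by omega)]
    rw [hsum, hw'eq (a + 1) (by omega) (by omega)] at hi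
    have hm0 : 0 ≤ m := hw _
    have := mul_le_mul_of_nonneg_left hall hm0
    push_cast at this
    linarith

/-- The mirrored form, for increasing weights. -/
lemma coll_abel_up {α : Type*} (a B : ℕ) (hab : a < B) (s : Finset α) (c : α → ℝ) (j : α → ℕ)
    (E : ℝ) (w : ℕ → ℝ) (hc : ∀ x ∈ s, 0 ≤ c x) (hj : ∀ x ∈ s, a < j x ∧ j x ≤ B) (hE : 0 ≤ E)
    (hw : ∀ i, 0 ≤ w i) (hmono : ∀ i k, a < i → i ≤ k → k ≤ B → w i ≤ w k)
    (hcount : ∀ i, a ≤ i → i < B → ∑ x ∈ s.filter (fun x => i < j x), c x ≤ (B : ℝ) - i + E) :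
    ∑ x ∈ s, c x * w (j x) ≤ (∑ i ∈ Finset.Ioc a B, w i) + E * w B := by
  have h := coll_abel a B s c (fun x => a + B + 1 - j x) E (fun i => w (a + B + 1 - i)) hc
    (fun x hx => by have := hj x hx; omega) hE (fun i => hw _)
    (fun i k h1 h2 h3 => hmono _ _ (by omega) (by omega) (by omega))
    (fun i h1 h2 => ?_)
  · have e1 : ∑ x ∈ s, c x * w (a + B + 1 - (a + B + 1 - j x)) = ∑ x ∈ s, c x * w (j x) := by
      refine Finset.sum_congr rfl fun x hx => ?_
      have := hj x hx
      rw [show a + B + 1 - (a + B + 1 - j x) = j x by omega]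
    have e2 : ∑ i ∈ Finset.Ioc a B, w (a + B + 1 - i) = ∑ i ∈ Finset.Ioc a B, w i := by
      refine Finset.sum_nbij' (fun i => a + B + 1 - i) (fun i => a + B + 1 - i) ?_ ?_ ?_ ?_ ?_
      · intro i hi; simp only [Finset.mem_Ioc] at hi ⊢; omega
      · intro i hi; simp only [Finset.mem_Ioc] at hi ⊢; omega
      · intro i hi; simp only [Finset.mem_Ioc] at hi; omega
      · intro i hi; simp only [Finset.mem_Ioc] at hi; omega
      · intro i _; rfl
    rw [e1, e2, show a + B + 1 - (a + 1) = B by omega] at h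
    exact h
  · have := hcount (a + B - i) (by omega) (by omega)
    rw [Nat.cast_sub (by omega), Nat.cast_add] at this
    refine le_trans (le_of_eq (Finset.sum_congr ?_ fun _ _ => rfl)) (this.trans (by linarith))
    ext x
    simp only [Finset.mem_filter, and_congr_right_iff]
    intro hx
    have := hj x hx
    omega

/-- `⌈ll p⌉`. -/
noncomputable def lev (p : ℕ) : ℕ := ⌈ll p⌉₊

lemma lev_le_iff (p i : ℕ) : lev p ≤ i ↔ ll p ≤ (i : ℝ) := Nat.ceil_le

lemma lt_lev_iff (p i : ℕ) : i < lev p ↔ (i : ℝ) < ll p := Nat.lt_ceil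

lemma ll_mono {p q : ℕ} (h : p ≤ q) : ll p ≤ ll q := by
  rcases Nat.lt_or_ge p 2 with hp | hp
  · have h0 : ll p = 0 := by
      interval_cases p <;> simp [ll]
    rw [h0]
    exact le_max_left _ _
  · refine max_le_max le_rfl (Real.log_le_log (Real.log_pos (by exact_mod_cast hp)) ?_)
    exact Real.log_le_log (by positivity) (by exact_mod_cast h)

lemma lev_mono {p q : ℕ} (h : p ≤ q) : lev p ≤ lev q := Nat.ceil_mono (ll_mono h)

lemma log_le_exp_ll (p : ℕ) : Real.log p ≤ Real.exp (ll p) := by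
  rcases le_or_gt (Real.log p) 0 with h | h
  · exact h.trans (Real.exp_pos _).le
  · calc Real.log p = Real.exp (Real.log (Real.log p)) := (Real.exp_log h).symm
      _ ≤ _ := Real.exp_le_exp.2 (le_max_right _ _)

lemma exp_ll_eq {p : ℕ} (h : 0 < ll p) : Real.exp (ll p) = Real.log p := by
  have h1 : ll p = Real.log (Real.log p) := by
    rcases max_cases (0 : ℝ) (Real.log (Real.log p)) with ⟨h2, -⟩ | ⟨h2, -⟩
    · unfold ll at h; rw [h2] at h; exact absurd h (lt_irrefl 0)
    · exact h2
  rw [h1, Real.exp_log]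
  rcases lt_trichotomy (Real.log p) 0 with h2 | h2 | h2
  · exact absurd (Real.log_natCast_nonneg p) (not_le.2 h2)
  · rw [h1, h2, Real.log_zero] at h; exact absurd h (lt_irrefl 0)
  · exact h2

lemma prime_dvd_totient_le {p m : ℕ} (hp : p.Prime) (hm : 0 < m) (h : p ∣ Nat.totient m) :
    ∃ q ∈ m.primeFactors, p ≤ q := by
  rw [Nat.totient_eq_prod_factorization hm.ne', Finsupp.prod] at h
  obtain ⟨q, hq, hd⟩ := (hp.prime.dvd_finsetProd_iff _).1 h
  have hqm : q ∈ m.primeFactors := by rwa [← Nat.support_factorization]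
  have hq2 := (Nat.prime_of_mem_primeFactors hqm).two_le
  refine ⟨q, hqm, ?_⟩
  rcases hp.dvd_mul.1 hd with hd | hd
  · exact Nat.le_of_dvd (by omega) (hp.dvd_of_dvd_pow hd)
  · exact (Nat.le_of_dvd (by omega) hd).trans (Nat.sub_le _ _)

lemma sub_one_dvd_totient {q n : ℕ} (hq : q ∈ n.primeFactors) : q - 1 ∣ Nat.totient n := by
  have := Nat.totient_dvd_of_dvd (Nat.dvd_of_mem_primeFactors hq)
  rwa [Nat.totient_prime (Nat.prime_of_mem_primeFactors hq)] at this

/-- Removing primes of exponent one. -/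
lemma totient_split {n : ℕ} (hn : 0 < n) : ∀ P : Finset ℕ, P ⊆ n.primeFactors →
    (∀ q ∈ P, ¬ q ^ 2 ∣ n) →
    ∃ m, n = (∏ q ∈ P, q) * m ∧ (∀ p ∈ m.primeFactors, p ∈ n.primeFactors ∧ p ∉ P) ∧
      Nat.totient n = (∏ q ∈ P, (q - 1)) * Nat.totient m := by
  intro P
  induction P using Finset.induction_on with
  | empty => exact fun _ _ => ⟨n, by simp, fun p hp => ⟨hp, by simp⟩, by simp⟩
  | @insert q P hq ih =>
    intro hsub hsq
    obtain ⟨m, hmn, hmp, htot⟩ := ih (fun p hp => hsub (Finset.mem_insert_of_mem hp))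
      (fun p hp => hsq p (Finset.mem_insert_of_mem hp))
    have hqn := hsub (Finset.mem_insert_self q P)
    have hqp := Nat.prime_of_mem_primeFactors hqn
    have hqm : q ∣ m := by
      refine (hqp.dvd_mul.1 (hmn ▸ Nat.dvd_of_mem_primeFactors hqn)).resolve_left fun h => ?_
      obtain ⟨p, hp, hd⟩ := (hqp.prime.dvd_finsetProd_iff _).1 h
      have hpp := Nat.prime_of_mem_primeFactors (hsub (Finset.mem_insert_of_mem hp))
      exact hq ((Nat.prime_dvd_prime_iff_eq hqp hpp).1 hd ▸ hp)
    obtain ⟨m', rfl⟩ := hqm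
    have hm0 : q * m' ≠ 0 := by
      intro h
      rw [h, mul_zero] at hmn
      omega
    have hnd : ¬ q ∣ m' := fun h => hsq q (Finset.mem_insert_self q P)
      ((pow_two q ▸ mul_dvd_mul_left q h).trans (Dvd.intro_left _ hmn.symm))
    refine ⟨m', by rw [Finset.prod_insert hq, hmn]; ring, fun p hp => ?_, ?_⟩
    · have hp' : p ∈ (q * m').primeFactors := Nat.primeFactors_mono (dvd_mul_left m' q) hm0 hp
      refine ⟨(hmp p hp').1, fun h => ?_⟩
      rcases Finset.mem_insert.1 h with rfl | h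
      · exact hnd (Nat.dvd_of_mem_primeFactors hp)
      · exact (hmp p hp').2 h
    · rw [Finset.prod_insert hq, htot, Nat.totient_mul (hqp.coprime_iff_not_dvd.2 hnd),
        Nat.totient_prime hqp]
      ring

/-- A divisor of a product splits along the factors. -/
lemma split_dvd {α : Type*} [DecidableEq α] (A : α → ℕ) : ∀ (s : Finset α) (d : ℕ),
    d ∣ ∏ a ∈ s, A a → ∃ e : α → ℕ, (∀ a ∈ s, e a ∣ A a) ∧ ∏ a ∈ s, e a = d := by
  intro s
  induction s using Finset.induction_on with
  | empty => exact fun d hd => ⟨fun _ => 1, by simp, by simp [Nat.dvd_one.1 (by simpa using hd)]⟩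
  | @insert a s ha ih =>
    intro d hd
    rw [Finset.prod_insert ha] at hd
    obtain ⟨d1, d2, h1, h2, rfl⟩ := exists_dvd_and_dvd_of_dvd_mul hd
    obtain ⟨e, he1, he2⟩ := ih d2 h2
    refine ⟨Function.update e a d1, fun b hb => ?_, ?_⟩
    · rcases Finset.mem_insert.1 hb with rfl | hb
      · simpa using h1
      · rw [Function.update_of_ne (ne_of_mem_of_not_mem hb ha)]
        exact he1 b hb
    · rw [Finset.prod_insert ha, Function.update_self, ← he2]
      congr 1
      exact Finset.prod_congr rfl fun b hb => Function.update_of_ne (ne_of_mem_of_not_mem hb ha) _ _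

/-- Two factorisations of one number refine to a matrix. -/
lemma exists_matrix {α β : Type*} [Fintype α] [DecidableEq α] [DecidableEq β] :
    ∀ (t : Finset β) (A : α → ℕ) (B : β → ℕ), (∀ a, 0 < A a) → ∏ a, A a = ∏ b ∈ t, B b →
      ∃ r : α → β → ℕ, (∀ a, ∏ b ∈ t, r a b = A a) ∧ ∀ b ∈ t, ∏ a, r a b = B b := by
  intro t
  induction t using Finset.induction_on with
  | empty =>
    intro A B _ h
    refine ⟨fun _ _ => 1, fun a => ?_, by simp⟩
    simp only [Finset.prod_empty] at h ⊢
    exact (Finset.prod_eq_one_iff.1 h a (Finset.mem_univ a)).symm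
  | @insert b t hb ih =>
    intro A B hA h
    rw [Finset.prod_insert hb] at h
    obtain ⟨e, he1, he2⟩ := split_dvd A Finset.univ (B b) (Dvd.intro _ h.symm)
    have hepos : ∀ a, 0 < e a := fun a => Nat.pos_of_dvd_of_pos (he1 a (Finset.mem_univ a)) (hA a)
    have hmul : ∀ a, e a * (A a / e a) = A a := fun a =>
      Nat.mul_div_cancel' (he1 a (Finset.mem_univ a))
    have hprod : ∏ a, A a / e a = ∏ c ∈ t, B c := by
      have : B b * ∏ a, A a / e a = B b * ∏ c ∈ t, B c := by
        rw [← h, ← he2, ← Finset.prod_mul_distrib, Finset.prod_congr rfl fun a _ => hmul a]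
      have hb0 : 0 < B b := he2 ▸ Finset.prod_pos fun a _ => hepos a
      exact Nat.eq_of_mul_eq_mul_left hb0 this
    obtain ⟨r, hr1, hr2⟩ := ih (fun a => A a / e a) B (fun a => Nat.div_pos
      (Nat.le_of_dvd (hA a) (he1 a (Finset.mem_univ a))) (hepos a)) hprod
    refine ⟨fun a c => if c = b then e a else r a c, fun a => ?_, fun c hc => ?_⟩
    · simp only
      rw [Finset.prod_insert hb, if_pos rfl, ← hmul a, ← hr1 a]
      congr 1
      exact Finset.prod_congr rfl fun c hc => if_neg (ne_of_mem_of_not_mem hc hb)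
    · rcases Finset.mem_insert.1 hc with rfl | hc
      · simp [he2]
      · simp [ne_of_mem_of_not_mem hc hb, hr2 c hc]

/-- Elementary symmetric sums are at most powers of the sum. -/
lemma sum_powersetCard_prod_le {α : Type*} [DecidableEq α] (w : α → ℝ) (hw : ∀ a, 0 ≤ w a) :
    ∀ (s : Finset α) (i : ℕ), ∑ t ∈ s.powersetCard i, ∏ a ∈ t, w a ≤ (∑ a ∈ s, w a) ^ i := by
  intro s
  induction s using Finset.induction_on with
  | empty =>
    intro i
    cases i with
    | zero => simp
    | succ i => simp [Finset.powersetCard_eq_empty.2 (show (∅ : Finset α).card < i + 1 by simp)]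
  | @insert a s ha ih =>
    intro i
    cases i with
    | zero => simp
    | succ i =>
      have hS : 0 ≤ ∑ b ∈ s, w b := Finset.sum_nonneg fun b _ => hw b
      rw [Finset.powersetCard_succ_insert ha, Finset.sum_union, Finset.sum_image, Finset.sum_insert ha]
      · calc _ ≤ (∑ b ∈ s, w b) ^ (i + 1) + w a * (∑ b ∈ s, w b) ^ i := by
              refine add_le_add (ih _) ?_
              refine le_trans (le_of_eq ?_) (mul_le_mul_of_nonneg_left (ih i) (hw a))
              rw [Finset.mul_sum]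
              refine Finset.sum_congr rfl fun t ht => Finset.prod_insert fun h => ha ?_
              exact (Finset.mem_powersetCard.1 ht).1 h
          _ = (∑ b ∈ s, w b + w a) * (∑ b ∈ s, w b) ^ i := by ring
          _ ≤ (∑ b ∈ s, w b + w a) * (∑ b ∈ s, w b + w a) ^ i := by
              gcongr
              · linarith [hw a]
              · linarith [hw a]
          _ = _ := by ring
      · intro t ht t' ht' htt
        simp only [Finset.mem_coe, Finset.mem_powersetCard] at ht ht'
        have h1 : a ∉ t := fun h => ha (ht.1 h)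
        have h2 : a ∉ t' := fun h => ha (ht'.1 h)
        rw [← Finset.erase_insert h1, htt, Finset.erase_insert h2]
      · refine Finset.disjoint_left.2 fun t ht ht' => ?_
        obtain ⟨t', -, rfl⟩ := Finset.mem_image.1 ht'
        exact ha ((Finset.mem_powersetCard.1 ht).1 (Finset.mem_insert_self a t'))

/-- Number of rows reaching level `j`. -/
def rowN {α : Type*} [Fintype α] (b : α → ℕ) (j : ℕ) : ℕ :=
  (Finset.univ.filter fun i => j ≤ b i).card

/-- `log` of the number of rows. -/
noncomputable def lnN {α : Type*} [Fintype α] (b : α → ℕ) (j : ℕ) : ℝ :=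
  Real.log ((max 1 (rowN b j) : ℕ) : ℝ)

lemma lnN_nonneg {α : Type*} [Fintype α] (b : α → ℕ) (j : ℕ) : 0 ≤ lnN b j :=
  Real.log_natCast_nonneg _

lemma lnN_anti {α : Type*} [Fintype α] (b : α → ℕ) {i j : ℕ} (h : i ≤ j) :
    lnN b j ≤ lnN b i := by
  refine Real.log_le_log (by positivity) (Nat.cast_le.2 (max_le_max le_rfl ?_))
  exact Finset.card_le_card (Finset.monotone_filter_right _ fun x _ hx => h.trans hx)

lemma lnN_le {α : Type*} [Fintype α] (b : α → ℕ) (j : ℕ) :
    lnN b j ≤ Fintype.card α := by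
  have h1 : ((max 1 (rowN b j) : ℕ) : ℝ) ≤ (Fintype.card α : ℝ) + 1 := by
    have : max 1 (rowN b j) ≤ Fintype.card α + 1 :=
      max_le (Nat.le_add_left 1 _) ((Finset.card_le_univ _).trans (Nat.le_succ _))
    exact_mod_cast this
  have h2 := Real.log_le_sub_one_of_pos
    (show (0 : ℝ) < ((max 1 (rowN b j) : ℕ) : ℝ) by positivity)
  unfold lnN
  linarith

/-- The weight of a cell of top level `M`. -/
noncomputable def cellF {α : Type*} [Fintype α] (b : α → ℕ) (y0 M : ℕ) (p : ℕ) : ℝ :=
  if lev p ≤ y0 then 1 else if lev p ≤ M then Real.exp (-lnN b (lev p)) else 0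

lemma cellF_nonneg {α : Type*} [Fintype α] (b : α → ℕ) (y0 M p : ℕ) :
    0 ≤ cellF b y0 M p ∧ cellF b y0 M p ≤ 1 := by
  have := Real.exp_le_one_iff.2 (neg_nonpos.2 (lnN_nonneg b (lev p)))
  unfold cellF
  split_ifs <;> constructor <;> first | positivity | linarith

/-- Euler exponent of one cell. -/
lemma cellF_sum_le {C : ℝ} (hC : ∀ a c : ℝ, 0 ≤ a → a ≤ c →
    |∑ p ∈ llPrimes a c, 1 / ((p : ℝ) - 1) - (c - a)| ≤ C)
    {α : Type*} [Fintype α] (b : α → ℕ) (y0 M N : ℕ) :
    ∑ p ∈ Nat.primesLE N, cellF b y0 M p / ((p : ℝ) - 1) ≤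
      1 + y0 + 2 * C + ∑ j ∈ Finset.Ioc y0 M, Real.exp (-lnN b j) := by
  classical
  have hC0 : 0 ≤ C := le_trans (abs_nonneg _) (hC 0 0 le_rfl le_rfl)
  have hpos : ∀ p : ℕ, p.Prime → 0 ≤ 1 / ((p : ℝ) - 1) := fun p hp => by
    have : (2 : ℝ) ≤ p := by exact_mod_cast hp.two_le
    exact div_nonneg zero_le_one (by linarith)
  set P := Nat.primesLE N
  have key : ∀ p ∈ P, cellF b y0 M p / ((p : ℝ) - 1) =
      (if lev p ≤ y0 then 1 / ((p : ℝ) - 1) else 0) +
      (if y0 < lev p ∧ lev p ≤ M then 1 / ((p : ℝ) - 1) * Real.exp (-lnN b (lev p)) else 0) := by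
    intro p _
    unfold cellF
    by_cases h : lev p ≤ y0
    · simp [h, not_lt.2 h]
    · by_cases h' : lev p ≤ M
      · simp [h, h', not_le.1 h]; ring
      · simp [h, h']
  rw [Finset.sum_congr rfl key, Finset.sum_add_distrib, ← Finset.sum_filter, ← Finset.sum_filter]
  have h1 : ∑ p ∈ P.filter (fun p => lev p ≤ y0), 1 / ((p : ℝ) - 1) ≤ 1 + y0 + C := by
    calc _ ≤ ∑ p ∈ insert 2 (llPrimes 0 y0), 1 / ((p : ℝ) - 1) := by
          refine Finset.sum_le_sum_of_subset_of_nonneg (fun p hp => ?_) (fun p hp _ => ?_)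
          · obtain ⟨hp1, hp2⟩ := Finset.mem_filter.1 hp
            have hpp := Nat.prime_of_mem_primesLE hp1
            rcases Nat.lt_or_ge p 3 with h | h
            · have := hpp.two_le
              exact Finset.mem_insert.2 (Or.inl (by omega))
            · refine Finset.mem_insert_of_mem (mem_llPrimes.2 ⟨hpp, ?_, (lev_le_iff _ _).1 hp2⟩)
              refine lt_max_of_lt_right (Real.log_pos ?_)
              rw [Real.lt_log_iff_exp_lt (by positivity)]
              have : (3 : ℝ) ≤ p := by exact_mod_cast h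
              linarith [Real.exp_one_lt_d9]
          · rcases Finset.mem_insert.1 hp with rfl | hp
            · norm_num
            · exact hpos p (mem_llPrimes.1 hp).1
      _ ≤ 1 + ∑ p ∈ llPrimes 0 y0, 1 / ((p : ℝ) - 1) := by
          by_cases h : 2 ∈ llPrimes (0 : ℝ) y0
          · rw [Finset.insert_eq_of_mem h]; linarith
          · rw [Finset.sum_insert h]; norm_num
      _ ≤ _ := by linarith [(abs_le.1 (hC 0 y0 le_rfl (Nat.cast_nonneg _))).2]
  have h2 : ∑ p ∈ P.filter (fun p => y0 < lev p ∧ lev p ≤ M),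
      1 / ((p : ℝ) - 1) * Real.exp (-lnN b (lev p)) ≤
      C + ∑ j ∈ Finset.Ioc y0 M, Real.exp (-lnN b j) := by
    by_cases hM : y0 < M
    · have h := coll_abel_up y0 M hM (P.filter (fun p => y0 < lev p ∧ lev p ≤ M))
        (fun p => 1 / ((p : ℝ) - 1)) lev C (fun j => Real.exp (-lnN b j))
        (fun p hp => hpos p (Nat.prime_of_mem_primesLE (Finset.mem_filter.1 hp).1))
        (fun p hp => (Finset.mem_filter.1 hp).2) hC0 (fun i => (Real.exp_pos _).le)
        (fun i k _ hik _ => Real.exp_le_exp.2 (neg_le_neg (lnN_anti b hik)))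
        (fun i _ hi => ?_)
      · refine h.trans ?_
        have := mul_le_mul_of_nonneg_left
          (Real.exp_le_one_iff.2 (neg_nonpos.2 (lnN_nonneg b M))) hC0
        linarith
      · have hsub := Finset.sum_le_sum_of_subset_of_nonneg
          (f := fun p : ℕ => 1 / ((p : ℝ) - 1))
          (s := (P.filter (fun p => y0 < lev p ∧ lev p ≤ M)).filter (fun p => i < lev p))
          (t := llPrimes i M) (fun p hp => by
            simp only [Finset.mem_filter] at hp
            exact mem_llPrimes.2 ⟨Nat.prime_of_mem_primesLE hp.1.1, (lt_lev_iff _ _).1 hp.2,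
              (lev_le_iff _ _).1 hp.1.2.2⟩)
          (fun p hp _ => hpos p (mem_llPrimes.1 hp).1)
        have := (abs_le.1 (hC i M (Nat.cast_nonneg _) (Nat.cast_le.2 hi.le))).2
        linarith
    · rw [Finset.filter_false_of_mem fun p _ h => hM (h.1.trans_le h.2), Finset.sum_empty,
        Finset.Ioc_eq_empty hM, Finset.sum_empty]
      linarith
  linarith

/-- Cells against columns: the exponents cancel. -/
lemma cells_cancel {α β : Type*} [Fintype α] [Fintype β] (b : α → ℕ) (b' : β → ℕ) (y0 : ℕ) :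
    ∑ k, ∑ i, ∑ j ∈ Finset.Ioc y0 (min (b i) (b' k)), Real.exp (-lnN b j) ≤
      ∑ k, (b' k : ℝ) := by
  refine Finset.sum_le_sum fun k _ => ?_
  calc ∑ i, ∑ j ∈ Finset.Ioc y0 (min (b i) (b' k)), Real.exp (-lnN b j)
      = ∑ i, ∑ j ∈ Finset.Ioc y0 (b' k), if j ≤ b i then Real.exp (-lnN b j) else 0 := by
        refine Finset.sum_congr rfl fun i _ => ?_
        rw [← Finset.sum_filter]
        congr 1
        ext j
        simp only [Finset.mem_Ioc, Finset.mem_filter, le_min_iff]
        tauto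
    _ = ∑ j ∈ Finset.Ioc y0 (b' k), (rowN b j : ℝ) * Real.exp (-lnN b j) := by
        rw [Finset.sum_comm]
        refine Finset.sum_congr rfl fun j _ => ?_
        rw [← Finset.sum_filter, Finset.sum_const, nsmul_eq_mul]
        rfl
    _ ≤ ∑ _j ∈ Finset.Ioc y0 (b' k), (1 : ℝ) := by
        refine Finset.sum_le_sum fun j _ => ?_
        rw [lnN, Real.exp_neg, Real.exp_log (by positivity), ← div_eq_mul_inv,
          div_le_one (by positivity)]
        exact_mod_cast le_max_right 1 (rowN b j)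
    _ ≤ b' k := by
        rw [Finset.sum_const, Nat.card_Ioc, nsmul_eq_mul, mul_one]
        exact_mod_cast Nat.sub_le _ _

/-- `N log N - N`. -/
noncomputable def gibbs (N : ℕ) : ℝ := (N : ℝ) * (Real.log ((max 1 N : ℕ) : ℝ) - 1)

/-- Its increments. -/
noncomputable def gibbsStep : ℕ → ℝ
  | 0 => -1
  | i + 1 => coef (i + 1)

lemma gibbs_succ (N : ℕ) : gibbs (N + 1) = gibbs N + gibbsStep N := by
  cases N with
  | zero => simp [gibbs, gibbsStep]
  | succ i =>
    have h1 : max 1 (i + 1) = i + 1 := by omega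
    have h2 : max 1 (i + 1 + 1) = i + 1 + 1 := by omega
    simp only [gibbs, gibbsStep, coef, h1, h2]
    push_cast
    ring

lemma gibbs_eq_sum (N : ℕ) : gibbs N = ∑ i ∈ Finset.range N, gibbsStep i := by
  induction N with
  | zero => simp [gibbs]
  | succ N ih => rw [gibbs_succ, ih, Finset.sum_range_succ]

lemma gibbs_mono {M N : ℕ} (hM : 1 ≤ M) (h : M ≤ N) : gibbs M ≤ gibbs N := by
  induction N, h using Nat.le_induction with
  | base => rfl
  | succ N hN ih =>
    rw [gibbs_succ]
    obtain ⟨i, rfl⟩ : ∃ i, N = i + 1 := ⟨N - 1, by omega⟩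
    have : 0 < coef (i + 1) := coef_pos (by omega)
    simp only [gibbsStep]
    linarith

/-- Rows bounded by a profile `B`: the exponent is at most `-B₁ + ∑ a_{i-1} B_i`. -/
lemma rows_exponent {α : Type*} [Fintype α] (b : α → ℕ) (B : ℕ → ℕ) (K y0 : ℕ) (hK : 1 ≤ K)
    (hanti : ∀ i k, 1 ≤ i → i ≤ k → B k ≤ B i) (hy : y0 ≤ B 1) (hbB : ∀ a, b a ≤ B 1)
    (htop : ∃ a, b a = B 1)
    (hdom : ∀ j, rowN b j ≤ ((Finset.Icc 1 K).filter fun i => j ≤ B i).card) :
    ∑ a, ((∑ j ∈ Finset.Ioc y0 (b a), lnN b j) - b a) ≤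
      -(B 1 : ℝ) + y0 + ∑ i ∈ Finset.Ioc 1 K, coef (i - 1) * B i := by
  set J := Finset.Ioc y0 (B 1)
  have e1 : ∑ a, ((∑ j ∈ Finset.Ioc y0 (b a), lnN b j) - b a) ≤
      ∑ j ∈ J, gibbs (rowN b j) := by
    calc _ ≤ ∑ a, ∑ j ∈ Finset.Ioc y0 (b a), (lnN b j - 1) := by
          refine Finset.sum_le_sum fun a _ => ?_
          rw [Finset.sum_sub_distrib, Finset.sum_const, Nat.card_Ioc, nsmul_eq_mul, mul_one]
          have : ((b a - y0 : ℕ) : ℝ) ≤ b a := by exact_mod_cast Nat.sub_le _ _
          linarith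
      _ = ∑ a, ∑ j ∈ J, if j ≤ b a then lnN b j - 1 else 0 := by
          refine Finset.sum_congr rfl fun a _ => ?_
          rw [← Finset.sum_filter]
          congr 1
          ext j
          simp only [J, Finset.mem_Ioc, Finset.mem_filter]
          have := hbB a
          omega
      _ = _ := by
          rw [Finset.sum_comm]
          refine Finset.sum_congr rfl fun j _ => ?_
          rw [← Finset.sum_filter, Finset.sum_const, nsmul_eq_mul]
          rfl
  have e2 : ∀ j ∈ J, gibbs (rowN b j) ≤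
      ∑ i ∈ Finset.Icc 1 K, if j ≤ B i then gibbsStep (i - 1) else 0 := by
    intro j hj
    set s := (Finset.Icc 1 K).filter fun i => j ≤ B i with hs
    have hinit : s = Finset.Icc 1 s.card := by
      refine Finset.eq_of_subset_of_card_le (fun i hi => ?_) (by simp)
      have hi' := Finset.mem_filter.1 hi
      have hsub : Finset.Icc 1 i ⊆ s := fun k hk => by
        obtain ⟨h1, h2⟩ := Finset.mem_Icc.1 hk
        exact Finset.mem_filter.2 ⟨Finset.mem_Icc.2 ⟨h1, h2.trans (Finset.mem_Icc.1 hi'.1).2⟩,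
          hi'.2.trans (hanti k i h1 h2)⟩
      have := Finset.card_le_card hsub
      simp only [Nat.card_Icc] at this
      exact Finset.mem_Icc.2 ⟨(Finset.mem_Icc.1 hi'.1).1, by omega⟩
    obtain ⟨a, ha⟩ := htop
    have hN : 1 ≤ rowN b j := Finset.card_pos.2 ⟨a, Finset.mem_filter.2
      ⟨Finset.mem_univ _, by have := Finset.mem_Ioc.1 hj; omega⟩⟩
    calc gibbs (rowN b j) ≤ gibbs s.card := gibbs_mono hN (hdom j)
      _ = ∑ i ∈ Finset.Icc 1 s.card, gibbsStep (i - 1) := by
          rw [gibbs_eq_sum]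
          refine Finset.sum_nbij' (fun i => i + 1) (fun i => i - 1) ?_ ?_ ?_ ?_ ?_
          · intro i hi; simp only [Finset.mem_range, Finset.mem_Icc] at hi ⊢; omega
          · intro i hi; simp only [Finset.mem_range, Finset.mem_Icc] at hi ⊢; omega
          · intro i _; simp
          · intro i hi; simp only [Finset.mem_Icc] at hi; omega
          · intro i _; simp
      _ = ∑ i ∈ s, gibbsStep (i - 1) := by rw [← hinit]
      _ = _ := by rw [hs, Finset.sum_filter]
  refine e1.trans ((Finset.sum_le_sum e2).trans ?_)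
  rw [Finset.sum_comm, ← Finset.add_sum_Ioc_eq_sum_Icc hK]
  refine add_le_add ?_ (Finset.sum_le_sum fun i hi => ?_)
  · simp only [J, gibbsStep, Nat.sub_self]
    rw [Finset.sum_congr rfl fun j hj => if_pos (Finset.mem_Ioc.1 hj).2, Finset.sum_const,
      Nat.card_Ioc, nsmul_eq_mul, Nat.cast_sub hy]
    linarith
  · have hi1 := (Finset.mem_Ioc.1 hi).1
    obtain ⟨k, rfl⟩ : ∃ k, i = k + 2 := ⟨i - 2, by omega⟩
    rw [← Finset.sum_filter, Finset.sum_const, nsmul_eq_mul]
    simp only [show k + 2 - 1 = k + 1 by omega, gibbsStep]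
    rw [mul_comm]
    refine mul_le_mul_of_nonneg_left ?_ (coef_pos (by omega)).le
    have hsub : (J.filter fun j => j ≤ B (k + 2)) ⊆ Finset.Icc 1 (B (k + 2)) := fun j hj => by
      simp only [J, Finset.mem_filter, Finset.mem_Ioc, Finset.mem_Icc] at hj ⊢
      omega
    exact_mod_cast (Finset.card_le_card hsub).trans (by simp)

lemma nthPrime_mem (n i : ℕ) : nthPrime n i ∈ n.primeFactors ∨ nthPrime n i = 1 := by
  unfold nthPrime
  rcases Nat.lt_or_ge (i - 1) n.primeFactorsList.reverse.length with h | h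
  · rw [List.getD_eq_getElem _ _ h]
    exact Or.inl (List.mem_toFinset.2 (List.mem_reverse.1 (List.getElem_mem h)))
  · exact Or.inr (List.getD_eq_default _ _ h)

lemma exists_nthPrime {n p : ℕ} (hp : p ∈ n.primeFactors) : ∃ i, 1 ≤ i ∧ nthPrime n i = p := by
  have h : p ∈ n.primeFactorsList.reverse := List.mem_reverse.2 (List.mem_toFinset.1 hp)
  obtain ⟨i, hi, rfl⟩ := List.mem_iff_getElem.1 h
  exact ⟨i + 1, by omega, by rw [nthPrime, Nat.add_sub_cancel, List.getD_eq_getElem _ _ hi]⟩

lemma nthPrime_anti (n : ℕ) {i k : ℕ} (hik : i ≤ k) : nthPrime n k ≤ nthPrime n i := by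
  rcases Nat.lt_or_ge (k - 1) n.primeFactorsList.reverse.length with hk | hk
  · have hi : i - 1 < n.primeFactorsList.reverse.length := by omega
    unfold nthPrime
    rw [List.getD_eq_getElem _ _ hk, List.getD_eq_getElem _ _ hi, List.getElem_reverse,
      List.getElem_reverse]
    exact (Nat.primeFactorsList_sorted n).getElem_le_getElem_of_le (by omega)
  · rw [nthPrime, List.getD_eq_default _ _ hk]
    rcases nthPrime_mem n i with h | h
    · exact (Nat.prime_of_mem_primeFactors h).one_le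
    · rw [h]

lemma le_nthPrime_one {n p : ℕ} (hp : p ∈ n.primeFactors) : p ≤ nthPrime n 1 := by
  obtain ⟨i, hi, rfl⟩ := exists_nthPrime hp
  exact nthPrime_anti n hi

lemma le_nthPrime_two {n p : ℕ} (hp : p ∈ n.primeFactors) (hne : p ≠ nthPrime n 1) :
    p ≤ nthPrime n 2 := by
  obtain ⟨i, hi, rfl⟩ := exists_nthPrime hp
  exact nthPrime_anti n (lt_of_le_of_ne hi fun h => hne (h ▸ rfl))

lemma log_le_len_mul {n : ℕ} (hn : 0 < n) {t : ℝ} (ht : ∀ p ∈ n.primeFactors, Real.log p ≤ t) :
    Real.log n ≤ n.primeFactorsList.length * t := by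
  have h : ∀ l : List ℕ, (∀ p ∈ l, p ≠ 0 ∧ Real.log p ≤ t) →
      Real.log (l.prod : ℕ) ≤ l.length * t ∧ l.prod ≠ 0 := by
    intro l
    induction l with
    | nil => simp
    | cons a l ih =>
      intro hl
      obtain ⟨h1, h2⟩ := ih fun p hp => hl p (List.mem_cons_of_mem a hp)
      obtain ⟨ha0, hat⟩ := hl a List.mem_cons_self
      refine ⟨?_, by simp [ha0, h2]⟩
      simp only [List.prod_cons, List.length_cons, Nat.cast_mul]
      rw [Real.log_mul (by exact_mod_cast ha0) (by exact_mod_cast h2)]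
      simp only [Nat.cast_add, Nat.cast_one]
      linarith
  have := (h n.primeFactorsList fun p hp => ⟨(Nat.prime_of_mem_primeFactorsList hp).ne_zero,
    ht p (List.mem_toFinset.2 hp)⟩).1
  rwa [Nat.prod_primeFactorsList hn.ne'] at this

end Vale.Agent.P031.CA
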