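import Vale.Agent.P031.Coef
import Vale.Agent.P031.Gen
import Vale.Agent.P031.CollAux

/-! Two representations of one value are negligible. -/

open Finset Real Filter

namespace Vale.Agent.P031

open CA

/-- One side of a collision. -/
structure CollSide (u g : ℝ) (n : ℕ) : Prop where
  pos : 0 < n
  sq : ∀ p : ℕ, p.Prime → yLow u < ll p → ¬ p ^ 2 ∣ n
  sqTot : ∀ p : ℕ, p.Prime → yLow u < ll p → ¬ p ^ 2 ∣ Nat.totient n
  normal : ∀ q : ℕ, q.Prime → q ∣ n → NormalPrime u q
  few : (n.primeFactorsList.length : ℝ) ≤ 2 * u ^ 3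
  rows : ∀ i : ℕ, K2 u + 1 < i → prof n i ≤ yLump u
  first : prof n 1 ≤ 3 * u
  noise : LL u ^ 8 * prof n 1 ^ ((5 : ℝ) / 8) ≤ g
  gap : prof n 2 ≤ prof n 1 - g / 4
  top : chain (K2 u + 1) (prof n) 1 ≤ prof n 1 - g

/-- The large primes and the value. -/
noncomputable def collKey (u : ℝ) (n : ℕ) : Finset ℕ × ℕ := by
  classical exact (n.primeFactors.filter (fun p => yLump u < ll p), Nat.totient n)

/-- A set of colliding pairs. -/
structure CollPairs (u g : ℝ) (S : Finset (ℕ × ℕ)) : Prop where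
  left : ∀ q ∈ S, CollSide u g q.1
  right : ∀ q ∈ S, CollSide u g q.2
  same : ∀ q ∈ S, Nat.totient q.1 = Nat.totient q.2
  diff : ∀ q ∈ S, nthPrime q.1 1 ≠ nthPrime q.2 1
  inj : ∀ q ∈ S, ∀ q' ∈ S, collKey u q.1 = collKey u q'.1 → collKey u q.2 = collKey u q'.2 → q = q'

/-- The primes above the lump. -/
noncomputable def bigSet (u : ℝ) (n : ℕ) : Finset ℕ := (collKey u n).1

lemma mem_bigSet {u : ℝ} {n p : ℕ} :
    p ∈ bigSet u n ↔ p ∈ n.primeFactors ∧ yLump u < ll p := by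
  simp [bigSet, collKey]

/-- Where the scales hold. -/
structure CollScale (u : ℝ) : Prop where
  four : 4 ≤ LL u
  ten : 10 ≤ u
  levels : (K2 u : ℝ) ≤ 8 * LL u

namespace CollScale

variable {u g : ℝ}

lemma L_le (h : CollScale u) : LL u ≤ u := by
  have := Real.log_le_sub_one_of_pos (show 0 < u by linarith [h.ten])
  unfold LL
  linarith

lemma K_le (h : CollScale u) : ((K2 u + 1 : ℕ) : ℝ) ≤ 9 * LL u := by
  push_cast
  linarith [h.levels, h.four]

lemma low_le (h : CollScale u) : yLow u ≤ yLump u :=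
  pow_le_pow_right₀ (by linarith [h.four]) (by norm_num)

lemma one_le_low (h : CollScale u) : 1 ≤ yLow u := one_le_pow₀ (by linarith [h.four])

lemma lump_lt (h : CollScale u) (hg : LL u ^ 90 ≤ g) : 4 * yLump u + 8 < g := by
  have h1 : (4 : ℝ) ^ 24 ≤ LL u ^ 24 := pow_le_pow_left₀ (by norm_num) h.four 24
  have h2 : (1 : ℝ) ≤ yLump u := one_le_pow₀ (by linarith [h.four])
  have h3 : LL u ^ 90 = LL u ^ 24 * yLump u := by unfold yLump; ring
  nlinarith

end CollScale

lemma two_mul_rpow_le {y : ℝ} (hy : 0 ≤ y) :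
    (2 * y) ^ ((5 : ℝ) / 8) ≤ 2 * y ^ ((5 : ℝ) / 8) := by
  rw [Real.mul_rpow zero_le_two hy]
  refine mul_le_mul_of_nonneg_right ?_ (Real.rpow_nonneg hy _)
  calc (2 : ℝ) ^ ((5 : ℝ) / 8) ≤ 2 ^ (1 : ℝ) :=
        Real.rpow_le_rpow_of_exponent_le one_le_two (by norm_num)
    _ = 2 := Real.rpow_one 2

namespace CollSide

variable {u g : ℝ} {n : ℕ}

lemma chain_nonneg (_h : CollSide u g n) : 0 ≤ chain (K2 u + 1) (prof n) 1 :=
  Finset.sum_nonneg fun j hj => mul_nonneg
    (coef_pos (by have := (Finset.mem_Ioc.1 hj).1; omega)).le (le_max_left _ _)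

lemma g_le_top (h : CollSide u g n) : g ≤ prof n 1 := by
  linarith [h.chain_nonneg, h.top]

lemma top_mem (h : CollSide u g n) (hu : CollScale u) (hg : LL u ^ 90 ≤ g) :
    nthPrime n 1 ∈ bigSet u n := by
  have h1 : yLump u < prof n 1 := by
    linarith [h.g_le_top, hu.lump_lt hg, hu.one_le_low, hu.low_le]
  refine mem_bigSet.2 ⟨(nthPrime_mem n 1).resolve_right fun h2 => ?_, h1⟩
  rw [prof, h2] at h1
  simp [ll] at h1
  linarith [hu.one_le_low, hu.low_le]

lemma noise_le (h : CollSide u g n) (hu : CollScale u) (hg : LL u ^ 90 ≤ g) {i : ℕ}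
    (hi : (i : ℝ) ≤ prof n 1 + 1) : (i : ℝ) ^ ((5 : ℝ) / 8) ≤ 2 * g / LL u ^ 8 := by
  have hy : 1 ≤ prof n 1 := by
    linarith [h.g_le_top, hu.lump_lt hg, hu.one_le_low, hu.low_le]
  have h8 : 0 < LL u ^ 8 := pow_pos (by linarith [hu.four]) 8
  calc (i : ℝ) ^ ((5 : ℝ) / 8) ≤ (2 * prof n 1) ^ ((5 : ℝ) / 8) :=
        Real.rpow_le_rpow (Nat.cast_nonneg _) (by linarith) (by norm_num)
    _ ≤ 2 * prof n 1 ^ ((5 : ℝ) / 8) := two_mul_rpow_le (by linarith)
    _ ≤ _ := by
      rw [le_div_iff₀ h8]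
      nlinarith [h.noise]

lemma big_index (h : CollSide u g n) {p : ℕ} (hp : p ∈ bigSet u n) :
    ∃ i ∈ Finset.Icc 1 (K2 u + 1), nthPrime n i = p := by
  obtain ⟨hp1, hp2⟩ := mem_bigSet.1 hp
  obtain ⟨i, hi, rfl⟩ := exists_nthPrime hp1
  refine ⟨i, Finset.mem_Icc.2 ⟨hi, ?_⟩, rfl⟩
  by_contra hh
  exact absurd (h.rows i (not_le.1 hh)) (not_le.2 hp2)

lemma card_big (h : CollSide u g n) : (bigSet u n).card ≤ K2 u + 1 := by
  refine le_trans (Finset.card_le_card
    (t := (Finset.Icc 1 (K2 u + 1)).image (nthPrime n)) fun p hp => ?_)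
    (Finset.card_image_le.trans (by simp))
  obtain ⟨i, hi, rfl⟩ := h.big_index hp
  exact Finset.mem_image_of_mem _ hi

/-- The top prime of one side is not a prime of the other side. -/
lemma top_not_mem {n' : ℕ} (h : CollSide u g n) (h' : CollSide u g n') (hu : CollScale u)
    (hg : LL u ^ 90 ≤ g) (hsame : Nat.totient n = Nat.totient n')
    (hdiff : nthPrime n 1 ≠ nthPrime n' 1) : nthPrime n 1 ∉ bigSet u n' := by
  intro hmem
  set a := nthPrime n 1
  set a' := nthPrime n' 1 with ha'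
  obtain ⟨ha1, -⟩ := mem_bigSet.1 hmem
  have hlla : ll a ≤ prof n' 2 := ll_mono (le_nthPrime_two ha1 hdiff)
  obtain ⟨ha'1, ha'2⟩ := mem_bigSet.1 (h'.top_mem hu hg)
  have hy : g ≤ ll a' := h'.g_le_top
  have hlump := hu.lump_lt hg
  have hlow := hu.low_le
  have hone := hu.one_le_low
  have hgap : prof n' 2 ≤ ll a' - g / 4 := h'.gap
  set A := max ⌈yLow u⌉₊ ⌈ll a⌉₊ with hA
  set B := ⌈ll a'⌉₊ with hB
  have hA1 : yLow u ≤ A := (Nat.le_ceil _).trans (Nat.cast_le.2 (le_max_left _ _))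
  have hA2 : ll a ≤ A := (Nat.le_ceil _).trans (Nat.cast_le.2 (le_max_right _ _))
  have hA3 : (A : ℝ) ≤ ll a' - g / 4 + 1 := by
    rcases max_choice ⌈yLow u⌉₊ ⌈ll a⌉₊ with h1 | h1 <;> rw [hA, h1]
    · linarith [Nat.ceil_lt_add_one (show (0 : ℝ) ≤ yLow u by linarith)]
    · linarith [Nat.ceil_lt_add_one (show (0 : ℝ) ≤ ll a from le_max_left _ _)]
  have hB0 : ll a' ≤ B := Nat.le_ceil _
  have hB1 : (B : ℝ) ≤ ll a' + 1 := (Nat.ceil_lt_add_one (le_max_left _ _)).le
  have hAB : A < B := by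
    have : (A : ℝ) < B := by linarith
    exact_mod_cast this
  have hnoise : (B : ℝ) ^ ((5 : ℝ) / 8) ≤ 2 * g / LL u ^ 8 := h'.noise_le hu hg hB1
  have h8 : 2 * g / LL u ^ 8 ≤ g / 16 := by
    rw [div_le_div_iff₀ (pow_pos (by linarith [hu.four]) 8) (by norm_num)]
    nlinarith [pow_le_pow_left₀ (by norm_num) hu.four 8]
  have hnorm := (h'.normal a' (Nat.prime_of_mem_primeFactors ha'1)
    (Nat.dvd_of_mem_primeFactors ha'1) (lt_of_le_of_lt hlow ha'2)).2 A B hA1 hAB hB1
  rw [min_eq_right hB0] at hnorm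
  have hpos : 0 < (omegaIn A B (a' - 1) : ℝ) := by linarith [(abs_le.1 hnorm).1]
  have hne : 0 < omegaIn A B (a' - 1) := by exact_mod_cast hpos
  obtain ⟨p, hp⟩ := Finset.card_pos.1 hne
  simp only [Finset.mem_filter] at hp
  obtain ⟨q, hq, hpq⟩ := prime_dvd_totient_le (Nat.prime_of_mem_primeFactors hp.1) h.pos
    (hsame ▸ (Nat.dvd_of_mem_primeFactors hp.1).trans (sub_one_dvd_totient ha'1))
  linarith [ll_mono (hpq.trans (le_nthPrime_one hq)), hp.2.1]

end CollSide

/-- The rows, the columns and the common primes of a pair. -/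
structure CollShape (u : ℝ) (n n' : ℕ) {k k' : ℕ} (b : Fin k → ℕ) (b' : Fin k' → ℕ)
    (Cm : Finset ℕ) : Prop where
  common : bigSet u n ∩ bigSet u n' = Cm
  rows : ∃ e : Fin k ↪ ℕ, Finset.univ.map e = bigSet u n \ bigSet u n' ∧ ∀ i, lev (e i) = b i
  cols : ∃ e : Fin k' ↪ ℕ, Finset.univ.map e = bigSet u n' \ bigSet u n ∧ ∀ i, lev (e i) = b' i

/-- Cells. -/
abbrev Cell (k k' : ℕ) := Option (Fin k) × Option (Fin k')

/-- Forms. -/
def cphi {k k' : ℕ} : Fin k ⊕ Fin k' → Finset (Cell k k')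
  | Sum.inl i => Finset.univ.map ⟨fun o => (some i, o), fun _ _ h => (Prod.ext_iff.1 h).2⟩
  | Sum.inr j => Finset.univ.map ⟨fun o => (o, some j), fun _ _ h => (Prod.ext_iff.1 h).1⟩

lemma cphi_two {k k' : ℕ} (c : Cell k k') :
    (Finset.univ.filter fun s : Fin k ⊕ Fin k' => c ∈ cphi s).card ≤ 2 := by
  obtain ⟨o, o'⟩ := c
  refine le_trans (Finset.card_le_card (t := (o.map Sum.inl).toFinset ∪ (o'.map Sum.inr).toFinset)
    fun s hs => ?_) ((Finset.card_union_le _ _).trans ?_)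
  · obtain i | j := s
    · obtain ⟨-, hs⟩ := Finset.mem_filter.1 hs
      obtain ⟨o'', -, ho⟩ := Finset.mem_map.1 hs
      cases ho
      simp
    · obtain ⟨-, hs⟩ := Finset.mem_filter.1 hs
      obtain ⟨o'', -, ho⟩ := Finset.mem_map.1 hs
      cases ho
      simp
  · cases o <;> cases o' <;> simp

/-- Top level of a cell. -/
def cellTop {k k' : ℕ} (b : Fin k → ℕ) (b' : Fin k' → ℕ) (c : Cell k k') : ℕ :=
  min (c.1.elim 0 b) (c.2.elim 0 b')

/-- The lower bounds `T`. -/
noncomputable def cellT {k k' : ℕ} (b : Fin k → ℕ) (b' : Fin k' → ℕ) (s : Fin k ⊕ Fin k') : ℝ :=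
  Real.exp (((Sum.elim b b' s : ℕ) : ℝ) - 1)

/-- The weight that every configuration carries. -/
noncomputable def rowWeight (u g : ℝ) {k : ℕ} (b : Fin k → ℕ) : ℝ :=
  (∑ i, ∑ j ∈ Finset.Ioc ⌈yLump u⌉₊ (b i), lnN b j) + (k : ℝ) * k * (2 * g / LL u ^ 8)

lemma log_le_row {u g : ℝ} {n q : ℕ} (hu : CollScale u) (hg : LL u ^ 90 ≤ g)
    (h : CollSide u g n) (hq : q ∈ bigSet u n) {k : ℕ} (b : Fin k → ℕ) :
    ∑ p ∈ (q - 1).primeFactors.filter (fun p => ⌈yLump u⌉₊ < lev p), lnN b (lev p) ≤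
      (∑ j ∈ Finset.Ioc ⌈yLump u⌉₊ (lev q), lnN b j) + k * (2 * g / LL u ^ 8) := by
  obtain ⟨hq1, hq2⟩ := mem_bigSet.1 hq
  set y0 := ⌈yLump u⌉₊
  have hlow : yLow u ≤ (y0 : ℝ) := hu.low_le.trans (Nat.le_ceil _)
  have hq3 : ll q ≤ prof n 1 := ll_mono (le_nthPrime_one hq1)
  have hE : 0 ≤ 2 * g / LL u ^ 8 := by
    have : 0 ≤ g := le_trans (pow_nonneg (by linarith [hu.four]) _) hg
    positivity
  have h2 := coll_abel y0 (lev q) ((q - 1).primeFactors.filter (fun p => y0 < lev p))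
    (fun _ => 1) lev (2 * g / LL u ^ 8) (lnN b) (fun _ _ => zero_le_one)
    (fun p hp => ⟨(Finset.mem_filter.1 hp).2, lev_mono ((Nat.le_of_mem_primeFactors
      (Finset.mem_filter.1 hp).1).trans (Nat.sub_le _ _))⟩) hE (lnN_nonneg b)
    (fun i j _ hij _ => lnN_anti b hij) (fun i hi1 hi2 => ?_)
  · simp only [one_mul] at h2
    refine h2.trans ?_
    rw [mul_comm (2 * g / LL u ^ 8)]
    refine add_le_add le_rfl (mul_le_mul_of_nonneg_right ((lnN_le b _).trans ?_) hE)
    simp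
  · have hi3 : (i : ℝ) ≤ ll q + 1 :=
      (Nat.cast_le.2 hi2).trans (Nat.ceil_lt_add_one (le_max_left _ _)).le
    have hn := (h.normal q (Nat.prime_of_mem_primeFactors hq1)
      (Nat.dvd_of_mem_primeFactors hq1) (lt_of_le_of_lt hu.low_le hq2)).2 y0 i hlow hi1 hi3
    rw [Finset.sum_const, nsmul_eq_mul, mul_one]
    have hsub : (((q - 1).primeFactors.filter (fun p => y0 < lev p)).filter
        (fun p => lev p ≤ i)).card ≤ omegaIn y0 i (q - 1) := by
      refine Finset.card_le_card fun p hp => ?_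
      simp only [Finset.mem_filter] at hp ⊢
      exact ⟨hp.1.1, (lt_lev_iff _ _).1 hp.1.2, (lev_le_iff _ _).1 hp.2⟩
    refine (Nat.cast_le.2 hsub).trans ?_
    have := (abs_le.1 hn).2
    linarith [min_le_left (i : ℝ) (ll q), h.noise_le hu hg (show (i : ℝ) ≤ prof n 1 + 1 by linarith)]

/-- The configuration of a pair. -/
lemma exists_config {u g : ℝ} {n n' k k' : ℕ} {b : Fin k → ℕ} {b' : Fin k' → ℕ} {Cm : Finset ℕ}
    (hu : CollScale u) (hg : LL u ^ 90 ≤ g) (h : CollSide u g n) (h' : CollSide u g n')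
    (hsame : Nat.totient n = Nat.totient n') (hs : CollShape u n n' b b' Cm) :
    ∃ r : Cell k k' → ℕ,
      GenCond cphi (4 * u) (cellT b b') r ∧
      Nat.totient n = (∏ q ∈ Cm, (q - 1)) * ∏ c, r c ∧
      (Finset.univ.image fun i => formVal cphi r (Sum.inl i) + 1) = bigSet u n \ bigSet u n' ∧
      (Finset.univ.image fun j => formVal cphi r (Sum.inr j) + 1) = bigSet u n' \ bigSet u n ∧
      1 ≤ (∏ c, pw (cellF b ⌈yLump u⌉₊ (cellTop b b' c)) (r c)) *
        Real.exp (rowWeight u g b) := by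
  obtain ⟨e, he, heb⟩ := hs.rows
  obtain ⟨e', he', heb'⟩ := hs.cols
  have hsq : ∀ {m : ℕ}, CollSide u g m → ∀ q ∈ bigSet u m, ¬ q ^ 2 ∣ m := fun {m} hm q hq =>
    hm.sq q (Nat.prime_of_mem_primeFactors (mem_bigSet.1 hq).1)
      (lt_of_le_of_lt hu.low_le (mem_bigSet.1 hq).2)
  obtain ⟨m, hm, hmp, hmt⟩ := totient_split h.pos (bigSet u n)
    (fun q hq => (mem_bigSet.1 hq).1) (hsq h)
  obtain ⟨m', hm', hmp', hmt'⟩ := totient_split h'.pos (bigSet u n')
    (fun q hq => (mem_bigSet.1 hq).1) (hsq h')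
  have hmem : ∀ i, e i ∈ bigSet u n ∧ e i ∉ bigSet u n' := fun i =>
    Finset.mem_sdiff.1 (he ▸ Finset.mem_map_of_mem e (Finset.mem_univ i))
  have hmem' : ∀ j, e' j ∈ bigSet u n' ∧ e' j ∉ bigSet u n := fun j =>
    Finset.mem_sdiff.1 (he' ▸ Finset.mem_map_of_mem e' (Finset.mem_univ j))
  have hprime : ∀ i, (e i).Prime := fun i =>
    Nat.prime_of_mem_primeFactors (mem_bigSet.1 (hmem i).1).1
  have hprime' : ∀ j, (e' j).Prime := fun j =>
    Nat.prime_of_mem_primeFactors (mem_bigSet.1 (hmem' j).1).1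
  set A : Option (Fin k) → ℕ := fun o => o.elim (Nat.totient m) (fun i => e i - 1) with hA
  set B : Option (Fin k') → ℕ := fun o => o.elim (Nat.totient m') (fun j => e' j - 1) with hB
  set D := ∏ q ∈ Cm, (q - 1) with hD
  have hm0 : 0 < m := by
    rcases Nat.eq_zero_or_pos m with h0 | h0
    · rw [h0, mul_zero] at hm; exact absurd hm h.pos.ne'
    · exact h0
  have hm'0 : 0 < m' := by
    rcases Nat.eq_zero_or_pos m' with h0 | h0
    · rw [h0, mul_zero] at hm'; exact absurd hm' h'.pos.ne'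
    · exact h0
  have hCm : Cm ⊆ bigSet u n := hs.common ▸ Finset.inter_subset_left
  have hCm' : Cm ⊆ bigSet u n' := hs.common ▸ Finset.inter_subset_right
  have hsd : bigSet u n \ Cm = bigSet u n \ bigSet u n' := by
    rw [← hs.common]; exact Finset.sdiff_inter_self_left _ _
  have hsd' : bigSet u n' \ Cm = bigSet u n' \ bigSet u n := by
    rw [← hs.common, Finset.inter_comm]; exact Finset.sdiff_inter_self_left _ _
  have hphi : Nat.totient n = D * ∏ o, A o := by
    rw [hmt, ← Finset.prod_sdiff hCm, Fintype.prod_option, hsd, ← he, Finset.prod_map]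
    simp only [hA, Option.elim_none, Option.elim_some, hD]
    ring
  have hphi' : Nat.totient n' = D * ∏ o, B o := by
    rw [hmt', ← Finset.prod_sdiff hCm', Fintype.prod_option, hsd', ← he', Finset.prod_map]
    simp only [hB, Option.elim_none, Option.elim_some, hD]
    ring
  have hD0 : 0 < D := Finset.prod_pos fun q hq => by
    have := (Nat.prime_of_mem_primeFactors (mem_bigSet.1 (hCm hq)).1).two_le
    omega
  have hAB : ∏ o, A o = ∏ o, B o := Nat.eq_of_mul_eq_mul_left hD0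
    (by rw [← hphi, ← hphi', hsame])
  have hA0 : ∀ o, 0 < A o := fun o => by
    cases o with
    | none => exact Nat.totient_pos.2 hm0
    | some i => simp only [hA, Option.elim_some]; have := (hprime i).two_le; omega
  obtain ⟨r, hr1, hr2⟩ := exists_matrix Finset.univ A B hA0 hAB
  set R : Cell k k' → ℕ := fun c => r c.1 c.2 with hR
  have hf1 : ∀ i, formVal cphi R (Sum.inl i) = e i - 1 := fun i => by
    simp only [formVal, cphi, Finset.prod_map, hR]
    exact hr1 (some i)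
  have hf2 : ∀ j, formVal cphi R (Sum.inr j) = e' j - 1 := fun j => by
    simp only [formVal, cphi, Finset.prod_map, hR]
    exact hr2 (some j) (Finset.mem_univ _)
  have hg1 : ∀ i, formVal cphi R (Sum.inl i) + 1 = e i := fun i => by
    rw [hf1]; have := (hprime i).two_le; omega
  have hg2 : ∀ j, formVal cphi R (Sum.inr j) + 1 = e' j := fun j => by
    rw [hf2]; have := (hprime' j).two_le; omega
  have hprod : ∏ c, R c = ∏ o, A o := by
    rw [Fintype.prod_prod_type]
    exact Finset.prod_congr rfl fun o _ => hr1 o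
  have htot : Nat.totient n = D * ∏ c, R c := by rw [hprod, hphi]
  have hdn : ∀ c, R c ∣ Nat.totient n := fun c =>
    htot ▸ (Finset.dvd_prod_of_mem R (Finset.mem_univ c)).trans (dvd_mul_left _ D)
  have hdA : ∀ c : Cell k k', R c ∣ A c.1 := fun c =>
    hr1 c.1 ▸ Finset.dvd_prod_of_mem (fun o => r c.1 o) (Finset.mem_univ c.2)
  have hdB : ∀ c : Cell k k', R c ∣ B c.2 := fun c =>
    hr2 c.2 (Finset.mem_univ _) ▸ Finset.dvd_prod_of_mem (fun o => r o c.2) (Finset.mem_univ c.1)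
  set y0 := ⌈yLump u⌉₊ with hy0
  have hsmall : ∀ {d w : ℕ}, 0 < d → (∀ q ∈ d.primeFactors, ll q ≤ yLump u) →
      ∀ p : ℕ, p.Prime → p ∣ w → w ∣ Nat.totient d → lev p ≤ y0 := by
    intro d w hd hd' p hp hpw hw
    obtain ⟨q, hq, hpq⟩ := prime_dvd_totient_le hp hd (hpw.trans hw)
    exact Nat.ceil_mono ((ll_mono hpq).trans (hd' q hq))
  have hlump : ∀ q ∈ m.primeFactors, ll q ≤ yLump u := fun q hq =>
    not_lt.1 fun hlt => (hmp q hq).2 (mem_bigSet.2 ⟨(hmp q hq).1, hlt⟩)
  have hlump' : ∀ q ∈ m'.primeFactors, ll q ≤ yLump u := fun q hq =>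
    not_lt.1 fun hlt => (hmp' q hq).2 (mem_bigSet.2 ⟨(hmp' q hq).1, hlt⟩)
  have hlev : ∀ c, ∀ p ∈ (R c).primeFactors, lev p ≤ y0 ∨ lev p ≤ cellTop b b' c := by
    rintro ⟨o, o'⟩ p hp
    have hpp := Nat.prime_of_mem_primeFactors hp
    have hpd := Nat.dvd_of_mem_primeFactors hp
    rcases o with - | i
    · exact Or.inl (hsmall hm0 hlump p hpp hpd (hdA (none, o')))
    rcases o' with - | j
    · exact Or.inl (hsmall hm'0 hlump' p hpp hpd (hdB (some i, none)))
    refine Or.inr (le_min ?_ ?_)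
    · have h1 : p ≤ e i - 1 := Nat.le_of_dvd (hA0 (some i)) (hpd.trans (hdA (some i, some j)))
      exact (lev_mono (h1.trans (Nat.sub_le _ _))).trans_eq (heb i)
    · have h1 : p ≤ e' j - 1 := Nat.le_of_dvd (by have := (hprime' j).two_le; omega)
        (hpd.trans (hdB (some i, some j)))
      exact (lev_mono (h1.trans (Nat.sub_le _ _))).trans_eq (heb' j)
  refine ⟨R, ⟨fun c => ?_, fun c => ?_, fun s => ?_, fun s => ?_, fun s => ?_, ?_⟩, htot, ?_, ?_, ?_⟩
  · exact Nat.pos_of_dvd_of_pos (hdn c) (Nat.totient_pos.2 h.pos)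
  · calc Real.log (R c) ≤ Real.log n := by
          rcases Nat.eq_zero_or_pos (R c) with h0 | h0
          · rw [h0]; simp [Real.log_natCast_nonneg]
          · exact Real.log_le_log (by exact_mod_cast h0) (Nat.cast_le.2
              ((Nat.le_of_dvd (Nat.totient_pos.2 h.pos) (hdn c)).trans (Nat.totient_le n)))
      _ ≤ n.primeFactorsList.length * Real.exp (3 * u) := log_le_len_mul h.pos fun p hp =>
          (log_le_exp_ll p).trans (Real.exp_le_exp.2 ((ll_mono (le_nthPrime_one hp)).trans h.first))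
      _ ≤ 2 * u ^ 3 * Real.exp (3 * u) := mul_le_mul_of_nonneg_right h.few (Real.exp_pos _).le
      _ ≤ Real.exp (4 * u) := by
          rw [show 4 * u = u + 3 * u by ring, Real.exp_add]
          refine mul_le_mul_of_nonneg_right ?_ (Real.exp_pos _).le
          have hu0 : (0 : ℝ) ≤ u := by linarith [hu.ten]
          have h1 := Real.pow_div_factorial_le_exp u hu0 8
          norm_num [Nat.factorial] at h1
          have h2 : (100000 : ℝ) ≤ u ^ 5 := by
            have := pow_le_pow_left₀ (by norm_num) hu.ten 5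
            norm_num at this
            exact this
          have h3 : 100000 * u ^ 3 ≤ u ^ 5 * u ^ 3 :=
            mul_le_mul_of_nonneg_right h2 (pow_nonneg hu0 3)
          have h4 : u ^ 5 * u ^ 3 = u ^ 8 := by ring
          have h5 := Real.exp_pos u
          linarith
  · obtain i | j := s
    · rw [hg1]; exact hprime i
    · rw [hg2]; exact hprime' j
  · obtain i | j := s
    · have hq := mem_bigSet.1 (hmem i).1
      have hpos : 0 < ll (e i) := by linarith [hu.one_le_low, hu.low_le, hq.2]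
      rw [← Nat.cast_add_one, hg1, ← exp_ll_eq hpos]
      exact Real.exp_le_exp.2 (by
        simp only [Sum.elim_inl, ← heb i, lev]
        linarith [Nat.ceil_lt_add_one hpos.le])
    · have hq := mem_bigSet.1 (hmem' j).1
      have hpos : 0 < ll (e' j) := by linarith [hu.one_le_low, hu.low_le, hq.2]
      rw [← Nat.cast_add_one, hg2, ← exp_ll_eq hpos]
      exact Real.exp_le_exp.2 (by
        simp only [Sum.elim_inr, ← heb' j, lev]
        linarith [Nat.ceil_lt_add_one hpos.le])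
  · have hup : ∀ v : ℕ, u ^ 3 * Real.log (topPrime v) ≤ (4 * u) ^ 3 * Real.log (topPrime v) :=
      fun v => mul_le_mul_of_nonneg_right (pow_le_pow_left₀ (by linarith [hu.ten])
        (by linarith [hu.ten]) 3) (Real.log_natCast_nonneg _)
    obtain i | j := s
    · rw [← Nat.cast_add_one, hg1, hf1]
      obtain ⟨hq1, hq2⟩ := mem_bigSet.1 (hmem i).1
      exact (h.normal _ (hprime i) (Nat.dvd_of_mem_primeFactors hq1)
        (lt_of_le_of_lt hu.low_le hq2)).1.trans (hup _)
    · rw [← Nat.cast_add_one, hg2, hf2]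
      obtain ⟨hq1, hq2⟩ := mem_bigSet.1 (hmem' j).1
      exact (h'.normal _ (hprime' j) (Nat.dvd_of_mem_primeFactors hq1)
        (lt_of_le_of_lt hu.low_le hq2)).1.trans (hup _)
  · intro s t hst
    have h1 : formVal cphi R s + 1 = formVal cphi R t + 1 := by rw [hst]
    obtain i | j := s <;> obtain i' | j' := t <;> simp only [hg1, hg2] at h1
    · rw [e.injective h1]
    · exact absurd (h1 ▸ (hmem' j').1) (hmem i).2
    · exact absurd (h1.symm ▸ (hmem' j).1) (hmem i').2
    · rw [e'.injective h1]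
  · simp only [hg1]
    rw [← he, Finset.map_eq_image]
  · simp only [hg2]
    rw [← he', Finset.map_eq_image]
  · have hpw : ∏ c, pw (cellF b y0 (cellTop b b' c)) (R c) =
        Real.exp (-∑ c, ∑ p ∈ (R c).primeFactors.filter (fun p => y0 < lev p), lnN b (lev p)) := by
      rw [← Finset.sum_neg_distrib, Real.exp_sum]
      refine Finset.prod_congr rfl fun c _ => ?_
      rw [← Finset.sum_neg_distrib, Real.exp_sum, Finset.prod_filter, pw]
      refine Finset.prod_congr rfl fun p hp => ?_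
      unfold cellF
      rcases hlev c p hp with h1 | h1
      · simp [h1, not_lt.2 h1]
      · by_cases h2 : lev p ≤ y0
        · simp [h2, not_lt.2 h2]
        · simp [h1, h2, not_le.1 h2]
    rw [hpw, ← Real.exp_add]
    refine Real.one_le_exp ?_
    suffices hsuf : ∑ c, ∑ p ∈ (R c).primeFactors.filter (fun p => y0 < lev p), lnN b (lev p) ≤
        rowWeight u g b by linarith
    rw [Fintype.sum_prod_type, Fintype.sum_option]
    have hnone : ∀ o' : Option (Fin k'),
        ∑ p ∈ (R (none, o')).primeFactors.filter (fun p => y0 < lev p), lnN b (lev p) = 0 := by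
      intro o'
      rw [Finset.filter_false_of_mem, Finset.sum_empty]
      intro p hp
      exact not_lt.2 (hsmall hm0 hlump p (Nat.prime_of_mem_primeFactors hp)
        (Nat.dvd_of_mem_primeFactors hp) (hdA (none, o')))
    rw [Finset.sum_eq_zero fun o' _ => hnone o', zero_add]
    calc ∑ i : Fin k, ∑ o' : Option (Fin k'),
          ∑ p ∈ (R (some i, o')).primeFactors.filter (fun p => y0 < lev p), lnN b (lev p)
        ≤ ∑ i : Fin k, ((∑ j ∈ Finset.Ioc y0 (b i), lnN b j) + k * (2 * g / LL u ^ 8)) := by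
          refine Finset.sum_le_sum fun i _ => ?_
          rw [← Finset.sum_biUnion]
          · refine le_trans (Finset.sum_le_sum_of_subset_of_nonneg ?_ fun p _ _ => lnN_nonneg _ _)
              (heb i ▸ log_le_row hu hg h (hmem i).1 b)
            intro p hp
            simp only [Finset.mem_biUnion, Finset.mem_filter] at hp ⊢
            obtain ⟨o', -, hp1, hp2⟩ := hp
            refine ⟨Nat.primeFactors_mono ?_ ?_ hp1, hp2⟩
            · exact hdA (some i, o')
            · have := (hprime i).two_le; omega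
          · intro o1 _ o2 _ hne
            refine Finset.disjoint_left.2 fun p hp1 hp2 => ?_
            simp only [Finset.mem_filter] at hp1 hp2
            refine h.sqTot p (Nat.prime_of_mem_primeFactors hp1.1) (lt_of_le_of_lt
              (hu.low_le.trans (Nat.le_ceil _)) ((lt_lev_iff _ _).1 hp1.2)) ?_
            have h3 : (R (some i, o1)) * (R (some i, o2)) ∣ Nat.totient n := by
              refine dvd_trans ?_ (htot ▸ dvd_mul_left (∏ c, R c) D)
              rw [← Finset.prod_pair (show ((some i, o1) : Cell k k') ≠ (some i, o2) from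
                fun hh => hne (Prod.ext_iff.1 hh).2)]
              exact Finset.prod_dvd_prod_of_subset _ _ R (Finset.subset_univ _)
            rw [pow_two]
            exact (mul_dvd_mul (Nat.dvd_of_mem_primeFactors hp1.1)
              (Nat.dvd_of_mem_primeFactors hp2.1)).trans h3
      _ = rowWeight u g b := by
          rw [Finset.sum_add_distrib, Finset.sum_const, Finset.card_univ, Fintype.card_fin,
            nsmul_eq_mul, rowWeight, mul_assoc]

lemma scale_eventually (Λ : ℝ) : ∀ᶠ u : ℝ in atTop, CollScale u ∧ Λ ≤ LL u := by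
  filter_upwards [levelK_spec 64, eventually_ge_atTop (10 : ℝ),
    Real.tendsto_log_atTop.eventually_ge_atTop (max 4 Λ)] with u h1 h2 h3
  exact ⟨⟨(le_max_left _ _).trans h3, h2, h1.2.2.2.2⟩, (le_max_right _ _).trans h3⟩

/-- The powers lost in the general bound. -/
lemma fac_le {u : ℝ} (hu : CollScale u) (C : ℕ) {k k' : ℕ} (hk : k ≤ K2 u + 1)
    (hk' : k' ≤ K2 u + 1) :
    (((C : ℝ) * 1 * (4 * u) * (2 + Fintype.card (Cell k k') + Fintype.card (Fin k ⊕ Fin k'))) ^ C) ^
        (Fintype.card (Fin k ⊕ Fin k') + 1) ≤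
      Real.exp (((C : ℝ) * 19 * (800 * C + 3)) * LL u ^ 2) := by
  have hL := hu.four
  have hkR : (k : ℝ) ≤ 9 * LL u := (Nat.cast_le.2 hk).trans hu.K_le
  have hkR' : (k' : ℝ) ≤ 9 * LL u := (Nat.cast_le.2 hk').trans hu.K_le
  have hk0 : (0 : ℝ) ≤ k := Nat.cast_nonneg k
  have hk0' : (0 : ℝ) ≤ k' := Nat.cast_nonneg k'
  simp only [Fintype.card_prod, Fintype.card_option, Fintype.card_fin, Fintype.card_sum]
  push_cast
  rcases Nat.eq_zero_or_pos C with rfl | hC
  · simp
  set X := (C : ℝ) * 1 * (4 * u) * (2 + ((k : ℝ) + 1) * ((k' : ℝ) + 1) + ((k : ℝ) + k'))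
  have hu10 := hu.ten
  have hX : 0 < X := by positivity
  rw [← pow_mul, ← Real.exp_log (pow_pos hX _), Real.exp_le_exp, Real.log_pow]
  have h1 : 2 + ((k : ℝ) + 1) * ((k' : ℝ) + 1) + ((k : ℝ) + k') ≤ 200 * LL u ^ 2 := by nlinarith
  have h2 : X ≤ (800 * (C : ℝ)) * u * LL u ^ 2 := by
    calc X ≤ (C : ℝ) * 1 * (4 * u) * (200 * LL u ^ 2) :=
          mul_le_mul_of_nonneg_left h1 (by positivity)
      _ = _ := by ring
  have hL0 : 0 < LL u := by linarith
  have h3 : Real.log X ≤ (800 * (C : ℝ) + 3) * LL u := by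
    have hC1 : (1 : ℝ) ≤ C := by exact_mod_cast hC
    refine (Real.log_le_log hX h2).trans ?_
    rw [Real.log_mul (by positivity) (by positivity), Real.log_mul (by positivity) (by positivity),
      Real.log_pow]
    have h4 := Real.log_le_sub_one_of_pos (show (0 : ℝ) < 800 * C by positivity)
    have h5 := Real.log_le_sub_one_of_pos hL0
    have h6 : Real.log u = LL u := rfl
    push_cast
    nlinarith
  have h7 : ((C * (k + k' + 1) : ℕ) : ℝ) ≤ (C : ℝ) * 19 * LL u := by
    push_cast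
    calc (C : ℝ) * ((k : ℝ) + k' + 1) ≤ C * (19 * LL u) :=
          mul_le_mul_of_nonneg_left (by linarith) (Nat.cast_nonneg C)
      _ = _ := by ring
  calc ((C * (k + k' + 1) : ℕ) : ℝ) * Real.log X
      ≤ ((C * (k + k' + 1) : ℕ) : ℝ) * ((800 * (C : ℝ) + 3) * LL u) :=
        mul_le_mul_of_nonneg_left h3 (Nat.cast_nonneg _)
    _ ≤ (C : ℝ) * 19 * LL u * ((800 * (C : ℝ) + 3) * LL u) :=
        mul_le_mul_of_nonneg_right h7 (by positivity)
    _ = _ := by ring

lemma bigSet_count {u g : ℝ} {n n' k : ℕ} (h : CollSide u g n) (e : Fin k ↪ ℕ)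
    (he : Finset.univ.map e = bigSet u n \ bigSet u n') : k ≤ K2 u + 1 := by
  have := (congrArg Finset.card he).trans_le (Finset.card_le_card Finset.sdiff_subset)
  rw [Finset.card_map, Finset.card_univ, Fintype.card_fin] at this
  exact this.trans h.card_big

/-- The exponent of a shape is `-g` up to small terms. -/
lemma shape_bound : ∃ Λ : ℝ, ∀ (C : ℕ), ∃ D : ℝ, ∀ (u g : ℝ), CollScale u → Λ ≤ LL u →
    D ≤ LL u → LL u ^ 90 ≤ g → ∀ (n n' k k' : ℕ) (b : Fin k → ℕ) (b' : Fin k' → ℕ)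
    (Cm : Finset ℕ), CollSide u g n → CollSide u g n' → Nat.totient n = Nat.totient n' →
    nthPrime n 1 ≠ nthPrime n' 1 → CollShape u n n' b b' Cm →
    Real.exp (rowWeight u g b) *
      genBound C (4 * u) 1 (fun c => cellF b ⌈yLump u⌉₊ (cellTop b b' c)) (cellT b b') ≤
        Real.exp (-(4 * g / 5)) := by
  obtain ⟨M, hM⟩ := mertens_ll
  have hM0 : 0 ≤ M := le_trans (abs_nonneg _) (hM 0 0 le_rfl le_rfl)
  refine ⟨max 4 0, fun C => ⟨20 * ((C : ℝ) * 19 * (800 * C + 3) + 100 * (3 + 2 * M) + 200), ?_⟩⟩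
  intro u g hu _ hD hg n n' k k' b b' Cm h h' hsame hdiff hs
  obtain ⟨e, he, heb⟩ := hs.rows
  obtain ⟨e', he', heb'⟩ := hs.cols
  set y0 := ⌈yLump u⌉₊ with hy0
  set K := K2 u + 1 with hK
  have hk : k ≤ K := bigSet_count h e he
  have hk' : k' ≤ K := bigSet_count h' e' he'
  have hmem : ∀ i, e i ∈ bigSet u n := fun i =>
    (Finset.mem_sdiff.1 (he ▸ Finset.mem_map_of_mem e (Finset.mem_univ i))).1
  set Bf : ℕ → ℕ := fun i => lev (nthPrime n i) with hBf
  have hanti : ∀ i j, 1 ≤ i → i ≤ j → Bf j ≤ Bf i := fun i j _ hij =>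
    lev_mono (nthPrime_anti n hij)
  have hbB : ∀ a, b a ≤ Bf 1 := fun a =>
    heb a ▸ lev_mono (le_nthPrime_one (mem_bigSet.1 (hmem a)).1)
  have htopm : nthPrime n 1 ∈ bigSet u n \ bigSet u n' :=
    Finset.mem_sdiff.2 ⟨h.top_mem hu hg, h.top_not_mem h' hu hg hsame hdiff⟩
  have htop : ∃ a, b a = Bf 1 := by
    rw [← he] at htopm
    obtain ⟨a, -, ha⟩ := Finset.mem_map.1 htopm
    exact ⟨a, by rw [← heb a, ha]⟩
  have hy0B : y0 ≤ Bf 1 := Nat.ceil_mono (mem_bigSet.1 (h.top_mem hu hg)).2.le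
  have hdom : ∀ j, rowN b j ≤ ((Finset.Icc 1 K).filter fun i => j ≤ Bf i).card := by
    intro j
    have hcard : rowN b j = ((Finset.univ.filter fun a => j ≤ b a).map e).card :=
      (Finset.card_map _).symm
    rw [hcard]
    refine le_trans (Finset.card_le_card fun p hp => ?_) (Finset.card_image_le (f := nthPrime n))
    obtain ⟨a, ha, rfl⟩ := Finset.mem_map.1 hp
    obtain ⟨i, hi, hie⟩ := h.big_index (hmem a)
    refine Finset.mem_image.2 ⟨i, Finset.mem_filter.2 ⟨hi, ?_⟩, hie⟩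
    simp only [hBf, hie, heb a]
    exact (Finset.mem_filter.1 ha).2
  have hrows := rows_exponent b Bf K y0 (by omega) hanti hy0B hbB htop hdom
  have hKR : (K : ℝ) ≤ 9 * LL u := hu.K_le
  have hchain : ∑ i ∈ Finset.Ioc 1 K, coef (i - 1) * Bf i ≤
      chain K (prof n) 1 + (K : ℝ) * K := by
    calc _ ≤ ∑ i ∈ Finset.Ioc 1 K, (coef (i - 1) * prof n i + K) := by
          refine Finset.sum_le_sum fun i hi => ?_
          obtain ⟨hi1, hi2⟩ := Finset.mem_Ioc.1 hi
          have h1 : (Bf i : ℝ) ≤ prof n i + 1 := (Nat.ceil_lt_add_one (le_max_left _ _)).le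
          have h2 : coef (i - 1) ≤ K := by
            have h3 := coef_le (show 1 ≤ i - 1 by omega)
            rw [show ((i - 1 : ℕ) : ℝ) + 1 = i by rw [Nat.cast_sub (by omega)]; simp] at h3
            have h4 := Real.log_le_sub_one_of_pos (show (0 : ℝ) < i by exact_mod_cast (by omega : 0 < i))
            have h5 : (i : ℝ) ≤ K := Nat.cast_le.2 hi2
            linarith
          have h6 := coef_pos (show 1 ≤ i - 1 by omega)
          nlinarith [mul_le_mul_of_nonneg_left h1 h6.le]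
      _ ≤ _ := by
          rw [Finset.sum_add_distrib, Finset.sum_const, Nat.card_Ioc, nsmul_eq_mul, chain]
          refine add_le_add le_rfl (mul_le_mul_of_nonneg_right ?_ (Nat.cast_nonneg _))
          exact_mod_cast Nat.sub_le _ _
  have hB1 : prof n 1 ≤ (Bf 1 : ℝ) := Nat.le_ceil _
  have hmain : (∑ i, ∑ j ∈ Finset.Ioc y0 (b i), lnN b j) - ∑ i, (b i : ℝ) ≤
      -g + y0 + (K : ℝ) * K := by
    rw [← Finset.sum_sub_distrib]
    linarith [h.top]
  set ι := Cell k k'
  set Sg := fun c : ι => ∑ p ∈ Nat.primesLE ⌊Real.exp (Real.exp (4 * u))⌋₊,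
    cellF b y0 (cellTop b b' c) p / ((p : ℝ) - 1)
  have hcells : ∑ c, Sg c ≤ (Fintype.card ι : ℝ) * (1 + y0 + 2 * M) + ∑ j, (b' j : ℝ) := by
    calc ∑ c, Sg c ≤ ∑ c : ι, ((1 + (y0 : ℝ) + 2 * M) +
          ∑ j ∈ Finset.Ioc y0 (cellTop b b' c), Real.exp (-lnN b j)) :=
          Finset.sum_le_sum fun c _ => cellF_sum_le hM b y0 _ _
      _ ≤ _ := by
          rw [Finset.sum_add_distrib, Finset.sum_const, Finset.card_univ, nsmul_eq_mul]
          refine add_le_add le_rfl ?_
          refine le_trans (le_of_eq ?_) (cells_cancel b b' y0)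
          have hz : ∀ o o', (o = none ∨ o' = none) →
              ∑ j ∈ Finset.Ioc y0 (cellTop b b' (o, o')), Real.exp (-lnN b j) = 0 := by
            intro o o' ho
            have : cellTop b b' (o, o') = 0 := by
              rcases ho with rfl | rfl <;> simp [cellTop]
            rw [this, Finset.Ioc_eq_empty (Nat.not_lt_zero y0), Finset.sum_empty]
          rw [Fintype.sum_prod_type_right, Fintype.sum_option,
            Finset.sum_eq_zero fun o _ => hz o none (Or.inr rfl), zero_add]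
          refine Finset.sum_congr rfl fun j _ => ?_
          rw [Fintype.sum_option, hz none (some j) (Or.inl rfl), zero_add]
          rfl
  have hcard : (Fintype.card ι : ℝ) ≤ 100 * LL u ^ 2 := by
    simp only [ι, Fintype.card_prod, Fintype.card_option, Fintype.card_fin]
    push_cast
    have h1 : (k : ℝ) ≤ 9 * LL u := (Nat.cast_le.2 hk).trans hKR
    have h2 : (k' : ℝ) ≤ 9 * LL u := (Nat.cast_le.2 hk').trans hKR
    nlinarith [hu.four, Nat.cast_nonneg (α := ℝ) k, Nat.cast_nonneg (α := ℝ) k']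
  have hT : ∏ s, cellT b b' s =
      Real.exp ((∑ i, ((b i : ℝ) - 1)) + ∑ j, ((b' j : ℝ) - 1)) := by
    rw [Real.exp_add, Real.exp_sum, Real.exp_sum, Fintype.prod_sum_type]
    rfl
  unfold genBound
  rw [hT, ← Real.exp_sum]
  refine (mul_le_mul_of_nonneg_left (div_le_div_of_nonneg_right
    (mul_le_mul_of_nonneg_right (fac_le hu C hk hk') (Real.exp_pos _).le) (Real.exp_pos _).le)
    (Real.exp_pos _).le).trans ?_
  rw [← Real.exp_add, ← Real.exp_sub, ← Real.exp_add, Real.exp_le_exp]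
  unfold rowWeight
  simp only [Finset.sum_sub_distrib, Finset.sum_const, Finset.card_univ, Fintype.card_fin,
    nsmul_eq_mul, mul_one]
  have hL := hu.four
  have hL1 : 1 ≤ LL u := by linarith
  have hy0R : (y0 : ℝ) ≤ 2 * LL u ^ 66 := by
    have := Nat.ceil_lt_add_one (show (0 : ℝ) ≤ yLump u from pow_nonneg (by linarith) _)
    have h1 : 1 ≤ LL u ^ 66 := one_le_pow₀ hL1
    simp only [hy0, yLump] at this ⊢
    linarith
  have hkR : (k : ℝ) ≤ 9 * LL u := (Nat.cast_le.2 hk).trans hKR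
  have hkR' : (k' : ℝ) ≤ 9 * LL u := (Nat.cast_le.2 hk').trans hKR
  have hg0 : 0 ≤ g := le_trans (pow_nonneg (by linarith) _) hg
  have hnoise : (k : ℝ) * k * (2 * g / LL u ^ 8) ≤ g / 20 := by
    calc (k : ℝ) * k * (2 * g / LL u ^ 8) ≤ 81 * LL u ^ 2 * (2 * g / LL u ^ 8) := by
          refine mul_le_mul_of_nonneg_right ?_ (by positivity)
          nlinarith [Nat.cast_nonneg (α := ℝ) k]
      _ = 162 * g / LL u ^ 6 := by field_simp; ring
      _ ≤ _ := by
          rw [div_le_div_iff₀ (by positivity) (by norm_num)]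
          nlinarith [pow_le_pow_left₀ (by norm_num) hL 6]
  have h68 : (1 : ℝ) ≤ LL u ^ 68 := one_le_pow₀ hL1
  have hterm1 : (Fintype.card ι : ℝ) * (1 + y0 + 2 * M) ≤ 100 * (3 + 2 * M) * LL u ^ 68 := by
    calc _ ≤ 100 * LL u ^ 2 * ((3 + 2 * M) * LL u ^ 66) := by
          refine mul_le_mul hcard ?_ (by linarith [Nat.cast_nonneg (α := ℝ) y0])
            (mul_nonneg (by norm_num) (sq_nonneg _))
          have h1 : 1 ≤ LL u ^ 66 := one_le_pow₀ hL1
          nlinarith
      _ = _ := by ring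
  have hterm2 : (C : ℝ) * 19 * (800 * C + 3) * LL u ^ 2 ≤
      (C : ℝ) * 19 * (800 * C + 3) * LL u ^ 68 :=
    mul_le_mul_of_nonneg_left (pow_le_pow_right₀ hL1 (by norm_num)) (by positivity)
  have hterm3 : (y0 : ℝ) + (K : ℝ) * K + k + k' ≤ 200 * LL u ^ 68 := by
    have h1 : LL u ^ 66 ≤ LL u ^ 68 := pow_le_pow_right₀ hL1 (by norm_num)
    have h2 : LL u ^ 2 ≤ LL u ^ 68 := pow_le_pow_right₀ hL1 (by norm_num)
    have h3 : LL u ≤ LL u ^ 68 := le_self_pow₀ hL1 (by norm_num)
    nlinarith [Nat.cast_nonneg (α := ℝ) K]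
  have hfinal : 20 * (((C : ℝ) * 19 * (800 * C + 3) + 100 * (3 + 2 * M) + 200) * LL u ^ 68) ≤ g := by
    calc _ = 20 * ((C : ℝ) * 19 * (800 * C + 3) + 100 * (3 + 2 * M) + 200) * LL u ^ 68 := by ring
      _ ≤ LL u * LL u ^ 68 := mul_le_mul_of_nonneg_right hD (by positivity)
      _ = LL u ^ 69 := by ring
      _ ≤ LL u ^ 90 := pow_le_pow_right₀ hL1 (by norm_num)
      _ ≤ g := hg
  linarith

/-- One shape. -/
lemma fiber_bound : ∃ Λ : ℝ, ∀ (u g : ℝ), CollScale u → Λ ≤ LL u → LL u ^ 90 ≤ g →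
    ∀ (S : Finset (ℕ × ℕ)), CollPairs u g S → ∀ (k k' : ℕ) (b : Fin k → ℕ) (b' : Fin k' → ℕ)
    (Cm : Finset ℕ), (∀ q ∈ S, CollShape u q.1 q.2 b b' Cm) →
    ∑ q ∈ S, 1 / (Nat.totient q.1 : ℝ) ≤
      Real.exp (-(3 * g / 4)) / ((∏ q ∈ Cm, (q - 1) : ℕ) : ℝ) ∧
    ∀ x : ℝ, 1 < x → |Real.log (Real.log x) - u| ≤ 1 →
      (∀ q ∈ S, (Nat.totient q.1 : ℝ) ≤ x ∧ Real.log x / u ^ 4 ≤ Real.log (nthPrime q.1 1)) →
      (S.card : ℝ) ≤
        Real.exp (-(3 * g / 4)) * (x / Real.log x) / ((∏ q ∈ Cm, (q - 1) : ℕ) : ℝ) := by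
  obtain ⟨C₁, hC₁⟩ := gen_recip
  obtain ⟨C₂, hC₂⟩ := gen_count
  obtain ⟨Λ₀, hshape⟩ := shape_bound
  obtain ⟨D₁, hD₁⟩ := hshape C₁
  obtain ⟨D₂, hD₂⟩ := hshape C₂
  refine ⟨max (max Λ₀ D₁) D₂, fun u g hu hΛ hg S hS k k' b b' Cm hsh => ?_⟩
  simp only [max_le_iff] at hΛ
  classical
  set D : ℕ := ∏ q ∈ Cm, (q - 1) with hD
  rcases S.eq_empty_or_nonempty with rfl | ⟨q0, hq0⟩
  · simp only [Finset.sum_empty, Finset.card_empty, Nat.cast_zero]
    refine ⟨by positivity, fun x hx _ _ => ?_⟩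
    have := Real.log_pos hx
    positivity
  have hex : ∀ q : ℕ × ℕ, ∃ r : Cell k k' → ℕ, q ∈ S →
      GenCond cphi (4 * u) (cellT b b') r ∧
      Nat.totient q.1 = D * ∏ c, r c ∧
      (Finset.univ.image fun i => formVal cphi r (Sum.inl i) + 1) = bigSet u q.1 \ bigSet u q.2 ∧
      (Finset.univ.image fun j => formVal cphi r (Sum.inr j) + 1) = bigSet u q.2 \ bigSet u q.1 ∧
      1 ≤ (∏ c, pw (cellF b ⌈yLump u⌉₊ (cellTop b b' c)) (r c)) *
        Real.exp (rowWeight u g b) := by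
    intro q
    by_cases hq : q ∈ S
    · obtain ⟨r, hr⟩ := exists_config hu hg (hS.left q hq) (hS.right q hq) (hS.same q hq) (hsh q hq)
      exact ⟨r, fun _ => hr⟩
    · exact ⟨fun _ => 1, fun h => absurd h hq⟩
  choose r hr using hex
  have hinj : Set.InjOn r S := by
    intro q hq q' hq' hrr
    obtain ⟨-, ht, hl, hR, -⟩ := hr q hq
    obtain ⟨-, ht', hl', hR', -⟩ := hr q' hq'
    rw [← hrr] at ht' hl' hR'
    have htot : Nat.totient q.1 = Nat.totient q'.1 := ht.trans ht'.symm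
    have hu1 : bigSet u q.1 = bigSet u q'.1 := by
      rw [← Finset.sdiff_union_inter (bigSet u q.1) (bigSet u q.2), ← hl, hl',
        (hsh q hq).common, ← (hsh q' hq').common, Finset.sdiff_union_inter]
    have hu2 : bigSet u q.2 = bigSet u q'.2 := by
      rw [← Finset.sdiff_union_inter (bigSet u q.2) (bigSet u q.1), ← hR, hR',
        Finset.inter_comm, (hsh q hq).common, ← (hsh q' hq').common, Finset.inter_comm,
        Finset.sdiff_union_inter]
    refine hS.inj q hq q' hq' (Prod.ext hu1 ?_) (Prod.ext hu2 ?_)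
    · simpa [collKey] using htot
    · simpa [collKey, ← hS.same q hq, ← hS.same q' hq'] using htot
  set R := S.image r with hRdef
  have hRc : ∀ v ∈ R, GenCond cphi (4 * u) (cellT b b') v := fun v hv => by
    obtain ⟨q, hq, rfl⟩ := Finset.mem_image.1 hv
    exact (hr q hq).1
  have hD0 : (0 : ℝ) < D := by
    obtain ⟨-, ht, -, -, -⟩ := hr q0 hq0
    have : 0 < Nat.totient q0.1 := Nat.totient_pos.2 (hS.left q0 hq0).pos
    rw [ht] at this
    exact_mod_cast Nat.pos_of_mul_pos_right this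
  have hT1 : ∀ s, 1 ≤ cellT b b' s := fun s => by
    refine Real.one_le_exp (sub_nonneg.2 ?_)
    have hlev : ∀ {n p : ℕ}, p ∈ bigSet u n → (1 : ℝ) ≤ lev p := fun {n p} hp =>
      Nat.one_le_cast.2 (Nat.one_le_iff_ne_zero.2 fun h0 => by
        have := (lev_le_iff p 0).1 (le_of_eq h0)
        have := (mem_bigSet.1 hp).2
        simp at *
        linarith [hu.one_le_low, hu.low_le])
    obtain i | j := s
    · obtain ⟨e, he, heb⟩ := (hsh q0 hq0).rows
      simp only [Sum.elim_inl, ← heb i]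
      exact hlev (Finset.mem_sdiff.1 (he ▸ Finset.mem_map_of_mem e (Finset.mem_univ i))).1
    · obtain ⟨e, he, heb⟩ := (hsh q0 hq0).cols
      simp only [Sum.elim_inr, ← heb j]
      exact hlev (Finset.mem_sdiff.1 (he ▸ Finset.mem_map_of_mem e (Finset.mem_univ j))).1
  set f : Cell k k' → ℕ → ℝ := fun c => cellF b ⌈yLump u⌉₊ (cellTop b b' c) with hf
  have hf1 : ∀ c p, 0 ≤ f c p ∧ f c p ≤ 1 := fun c p => cellF_nonneg _ _ _ _
  have hpw : ∀ (c : Cell k k') (m : ℕ), 0 ≤ pw (f c) m := fun c m =>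
    Finset.prod_nonneg fun p _ => (hf1 c p).1
  have hU : (10 : ℝ) ≤ 4 * u := by linarith [hu.ten]
  have hg0 : 0 < g := lt_of_lt_of_le (pow_pos (by linarith [hu.four]) _) hg
  refine ⟨?_, fun x hx hxu hx2 => ?_⟩
  · have hb := hC₁ (Cell k k') (Fin k ⊕ Fin k') cphi (4 * u) 1 f (cellT b b') R cphi_two hU
      le_rfl hf1 hT1 hRc
    calc ∑ q ∈ S, 1 / (Nat.totient q.1 : ℝ)
        ≤ ∑ q ∈ S, (Real.exp (rowWeight u g b) / D) * ∏ c, pw (f c) (r q c) / (r q c : ℝ) := by
          refine Finset.sum_le_sum fun q hq => ?_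
          obtain ⟨hc, ht, -, -, hw⟩ := hr q hq
          have hprodpos : (0 : ℝ) < ∏ c, (r q c : ℝ) :=
            Finset.prod_pos fun c _ => Nat.cast_pos.2 (hc.pos c)
          rw [ht, Finset.prod_div_distrib, div_mul_div_comm]
          push_cast
          refine div_le_div_of_nonneg_right ?_ (by positivity)
          rwa [mul_comm]
      _ = (Real.exp (rowWeight u g b) / D) * ∑ v ∈ R, ∏ c, pw (f c) (v c) / (v c : ℝ) := by
          rw [hRdef, Finset.sum_image hinj, Finset.mul_sum]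
      _ ≤ (Real.exp (rowWeight u g b) / D) * genBound C₁ (4 * u) 1 f (cellT b b') :=
          mul_le_mul_of_nonneg_left hb (by positivity)
      _ = (Real.exp (rowWeight u g b) * genBound C₁ (4 * u) 1 f (cellT b b')) / D := by ring
      _ ≤ _ := by
          refine div_le_div_of_nonneg_right ((hD₁ u g hu hΛ.1.1 hΛ.1.2 hg q0.1 q0.2 k k' b b' Cm
            (hS.left q0 hq0) (hS.right q0 hq0) (hS.same q0 hq0) (hS.diff q0 hq0)
            (hsh q0 hq0)).trans (Real.exp_le_exp.2 (by linarith))) hD0.le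
  · obtain ⟨e, he, heb⟩ := (hsh q0 hq0).rows
    have htop : nthPrime q0.1 1 ∈ Finset.univ.map e := by
      rw [he]
      exact Finset.mem_sdiff.2 ⟨(hS.left q0 hq0).top_mem hu hg,
        (hS.left q0 hq0).top_not_mem (hS.right q0 hq0) hu hg (hS.same q0 hq0) (hS.diff q0 hq0)⟩
    obtain ⟨i0, -, hi0⟩ := Finset.mem_map.1 htop
    set X := ⌊x⌋₊ / D with hX
    have hDn : 0 < D := Nat.cast_pos.1 hD0
    have hXle : ∀ v ∈ R, ∏ c, v c ≤ X := fun v hv => by
      obtain ⟨q, hq, rfl⟩ := Finset.mem_image.1 hv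
      rw [hX, Nat.le_div_iff_mul_le hDn, mul_comm, ← (hr q hq).2.1]
      exact Nat.le_floor (hx2 q hq).1
    have hlogX : Real.log (X : ℝ) ≤ Real.exp (4 * u) := by
      have h1 : Real.log (X : ℝ) ≤ Real.log x := by
        rcases Nat.eq_zero_or_pos X with h0 | h0
        · rw [h0]; simpa using (Real.log_pos hx).le
        · refine Real.log_le_log (Nat.cast_pos.2 h0) ?_
          exact (Nat.cast_le.2 (Nat.div_le_self _ _)).trans (Nat.floor_le (by linarith))
      refine h1.trans ((Real.exp_log (Real.log_pos hx)).symm.le.trans (Real.exp_le_exp.2 ?_))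
      linarith [(abs_le.1 hxu).2, hu.ten]
    have hb := hC₂ (Cell k k') (Fin k ⊕ Fin k') cphi (4 * u) 1 f (cellT b b') R X (Sum.inl i0)
      cphi_two hU le_rfl hf1 hT1 hRc hXle hlogX
    have hlogx := Real.log_pos hx
    have hu0 : 0 < u := by linarith [hu.ten]
    have hgen : 0 ≤ genBound C₂ (4 * u) 1 f (cellT b b') :=
      div_nonneg (mul_nonneg (pow_nonneg (pow_nonneg (by positivity) _) _)
        (Finset.prod_nonneg fun c _ => (Real.exp_pos _).le))
        (Finset.prod_nonneg fun c _ => (Real.exp_pos _).le)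
    have hTlow : Real.log x / (u ^ 4 * Real.exp 1) ≤ cellT b b' (Sum.inl i0) := by
      rw [cellT, Sum.elim_inl, ← heb i0, hi0, Real.exp_sub, ← div_div]
      refine div_le_div_of_nonneg_right ((hx2 q0 hq0).2.trans ?_) (Real.exp_pos _).le
      exact (log_le_exp_ll _).trans (Real.exp_le_exp.2 (Nat.le_ceil _))
    have hXT : (X : ℝ) / cellT b b' (Sum.inl i0) ≤
        x / D * (u ^ 4 * Real.exp 1 / Real.log x) := by
      calc (X : ℝ) / cellT b b' (Sum.inl i0) ≤ (x / D) / cellT b b' (Sum.inl i0) := by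
            refine div_le_div_of_nonneg_right ?_ (Real.exp_pos _).le
            exact Nat.cast_div_le.trans
              (div_le_div_of_nonneg_right (Nat.floor_le (by linarith)) hD0.le)
        _ ≤ (x / D) / (Real.log x / (u ^ 4 * Real.exp 1)) :=
            div_le_div_of_nonneg_left (by positivity) (by positivity) hTlow
        _ = _ := by rw [div_div_eq_mul_div, mul_div_assoc]
    calc (S.card : ℝ) = ∑ q ∈ S, (1 : ℝ) := by simp
      _ ≤ ∑ q ∈ S, Real.exp (rowWeight u g b) * ∏ c, pw (f c) (r q c) := by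
          refine Finset.sum_le_sum fun q hq => ?_
          rw [mul_comm]
          exact (hr q hq).2.2.2.2
      _ = Real.exp (rowWeight u g b) * ∑ v ∈ R, ∏ c, pw (f c) (v c) := by
          rw [hRdef, Finset.sum_image hinj, Finset.mul_sum]
      _ ≤ Real.exp (rowWeight u g b) *
          ((X : ℝ) * genBound C₂ (4 * u) 1 f (cellT b b') / cellT b b' (Sum.inl i0)) :=
          mul_le_mul_of_nonneg_left hb (Real.exp_pos _).le
      _ = Real.exp (rowWeight u g b) * genBound C₂ (4 * u) 1 f (cellT b b') *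
          ((X : ℝ) / cellT b b' (Sum.inl i0)) := by ring
      _ ≤ Real.exp (-(4 * g / 5)) * (x / D * (u ^ 4 * Real.exp 1 / Real.log x)) := by
          refine mul_le_mul (hD₂ u g hu hΛ.1.1 hΛ.2 hg q0.1 q0.2 k k' b b' Cm
            (hS.left q0 hq0) (hS.right q0 hq0) (hS.same q0 hq0) (hS.diff q0 hq0) (hsh q0 hq0))
            hXT ?_ (Real.exp_pos _).le
          exact div_nonneg (Nat.cast_nonneg _) (Real.exp_pos _).le
      _ = Real.exp (-(4 * g / 5)) * (u ^ 4 * Real.exp 1) * (x / Real.log x) / D := by ring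
      _ ≤ _ := by
          refine div_le_div_of_nonneg_right (mul_le_mul_of_nonneg_right ?_ (by positivity)) hD0.le
          have h4 : u ^ 4 = Real.exp (4 * LL u) := by
            rw [LL, show (4 : ℝ) * Real.log u = ((4 : ℕ) : ℝ) * Real.log u by norm_num,
              Real.exp_nat_mul, Real.exp_log hu0]
          rw [h4, ← Real.exp_add, ← Real.exp_add, Real.exp_le_exp]
          have h6 : LL u * 4 ^ 20 ≤ LL u ^ 90 := by
            calc LL u * 4 ^ 20 ≤ LL u * LL u ^ 20 :=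
                  mul_le_mul_of_nonneg_left (pow_le_pow_left₀ (by norm_num) hu.four 20)
                    (by linarith [hu.four])
              _ = LL u ^ 21 := by ring
              _ ≤ _ := pow_le_pow_right₀ (by linarith [hu.four]) (by norm_num)
          norm_num at h6
          linarith [hu.four]

/-- The `i`-th level of a set of primes (0 beyond its cardinality). -/
noncomputable def lvlOf (P : Finset ℕ) (i : ℕ) : ℕ :=
  if h : i < P.card then lev (P.orderEmbOfFin rfl ⟨i, h⟩) else 0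

lemma lvlOf_emb (P : Finset ℕ) (k : ℕ) (hk : P.card = k) :
    ∃ e : Fin k ↪ ℕ, Finset.univ.map e = P ∧ ∀ i : Fin k, lev (e i) = lvlOf P i := by
  subst hk
  refine ⟨(P.orderEmbOfFin rfl).toEmbedding, Finset.map_orderEmbOfFin_univ P rfl, fun i => ?_⟩
  rw [lvlOf, dif_pos i.isLt]
  rfl

/-- Discrete data of a pair. -/
abbrev CollIdx (K M : ℕ) :=
  (Fin (K + 1) × Fin (K + 1)) × (Fin K → Fin (M + 1)) × (Fin K → Fin (M + 1))

/-- Grouping pairs by their shapes. -/
lemma assemble {u g : ℝ} (hu : CollScale u) {C : ℝ}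
    (hC : ∀ a c : ℝ, 0 ≤ a → a ≤ c → |∑ p ∈ llPrimes a c, 1 / ((p : ℝ) - 1) - (c - a)| ≤ C)
    (hΛ : 110 + 9 * C ≤ LL u) (hg : LL u ^ 90 ≤ g) (S : Finset (ℕ × ℕ)) (hS : CollPairs u g S)
    (F : ℕ × ℕ → ℝ) (X : ℝ) (hX : 0 ≤ X)
    (hfib : ∀ T ⊆ S, ∀ (k k' : ℕ) (b : Fin k → ℕ) (b' : Fin k' → ℕ) (Cm : Finset ℕ),
      (∀ q ∈ T, CollShape u q.1 q.2 b b' Cm) →
      ∑ q ∈ T, F q ≤ Real.exp (-(3 * g / 4)) * X / ((∏ q ∈ Cm, (q - 1) : ℕ) : ℝ)) :
    ∑ q ∈ S, F q ≤ Real.exp (-(g / 2)) * X := by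
  classical
  set K := K2 u + 1
  set M := ⌈3 * u⌉₊
  set Q := llPrimes 0 (3 * u) with hQ
  set Cms := (Finset.range (K + 1)).biUnion fun i => Q.powersetCard i with hCms
  let key : ℕ × ℕ → CollIdx K M × Finset ℕ := fun q =>
    (((⟨min K (bigSet u q.1 \ bigSet u q.2).card, by omega⟩,
      ⟨min K (bigSet u q.2 \ bigSet u q.1).card, by omega⟩),
      (fun i => ⟨min M (lvlOf (bigSet u q.1 \ bigSet u q.2) i), by omega⟩),
      (fun i => ⟨min M (lvlOf (bigSet u q.2 \ bigSet u q.1) i), by omega⟩)),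
     bigSet u q.1 ∩ bigSet u q.2)
  have hlvl : ∀ {n : ℕ}, CollSide u g n → ∀ T : Finset ℕ, ∀ i, lvlOf (bigSet u n \ T) i ≤ M := by
    intro n hn T i
    unfold lvlOf
    split_ifs with h
    · have hm := (Finset.mem_sdiff.1 (Finset.orderEmbOfFin_mem (bigSet u n \ T) rfl ⟨i, h⟩)).1
      exact Nat.ceil_mono ((ll_mono (le_nthPrime_one (mem_bigSet.1 hm).1)).trans hn.first)
    · exact Nat.zero_le _
  have hcard : ∀ {n : ℕ}, CollSide u g n → ∀ T : Finset ℕ, (bigSet u n \ T).card ≤ K :=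
    fun hn T => (Finset.card_le_card Finset.sdiff_subset).trans hn.card_big
  have hmaps : ∀ q ∈ S, key q ∈ (Finset.univ : Finset (CollIdx K M)) ×ˢ Cms := by
    intro q hq
    refine Finset.mem_product.2 ⟨Finset.mem_univ _, ?_⟩
    refine Finset.mem_biUnion.2 ⟨(bigSet u q.1 ∩ bigSet u q.2).card, Finset.mem_range.2 ?_,
      Finset.mem_powersetCard.2 ⟨fun p hp => ?_, rfl⟩⟩
    · have := (Finset.card_le_card (Finset.inter_subset_left (s₂ := bigSet u q.2))).trans
        (hS.left q hq).card_big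
      omega
    · obtain ⟨h1, h2⟩ := mem_bigSet.1 (Finset.mem_inter.1 hp).1
      exact mem_llPrimes.2 ⟨Nat.prime_of_mem_primeFactors h1,
        lt_of_le_of_lt (pow_nonneg (by linarith [hu.four]) _) h2,
        (ll_mono (le_nthPrime_one h1)).trans (hS.left q hq).first⟩
  rw [← Finset.sum_fiberwise_of_maps_to hmaps]
  refine (Finset.sum_le_sum (g := fun κ : CollIdx K M × Finset ℕ =>
    Real.exp (-(3 * g / 4)) * X / ((∏ q ∈ κ.2, (q - 1) : ℕ) : ℝ)) fun κ _ => ?_).trans ?_
  · obtain ⟨⟨⟨k, k'⟩, b, b'⟩, Cm⟩ := κ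
    refine hfib _ (Finset.filter_subset _ _) k k' (fun i => b ⟨i, by omega⟩)
      (fun i => b' ⟨i, by omega⟩) Cm fun q hq => ?_
    obtain ⟨hqS, hkey⟩ := Finset.mem_filter.1 hq
    simp only [key, Prod.mk.injEq] at hkey
    obtain ⟨⟨⟨hk, hk'⟩, hb, hb'⟩, hCm⟩ := hkey
    have hk1 : (bigSet u q.1 \ bigSet u q.2).card = k := by
      rw [← hk]; exact (min_eq_right (hcard (hS.left q hqS) _)).symm
    have hk2 : (bigSet u q.2 \ bigSet u q.1).card = k' := by
      rw [← hk']; exact (min_eq_right (hcard (hS.right q hqS) _)).symm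
    refine ⟨hCm, ?_, ?_⟩
    · obtain ⟨e, he, hel⟩ := lvlOf_emb _ k hk1
      refine ⟨e, he, fun i => ?_⟩
      rw [hel, ← hb]
      exact (min_eq_right (hlvl (hS.left q hqS) _ _)).symm
    · obtain ⟨e, he, hel⟩ := lvlOf_emb _ k' hk2
      refine ⟨e, he, fun i => ?_⟩
      rw [hel, ← hb']
      exact (min_eq_right (hlvl (hS.right q hqS) _ _)).symm
  rw [Finset.sum_product]
  simp only [Finset.sum_const, Finset.card_univ, nsmul_eq_mul]
  have hu10 := hu.ten
  have hL4 := hu.four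
  have hC0 : 0 ≤ C := le_trans (abs_nonneg _) (hC 0 0 le_rfl le_rfl)
  set W := ∑ p ∈ Q, 1 / ((p : ℝ) - 1) with hW
  have hW0 : ∀ p ∈ Q, 0 ≤ 1 / ((p : ℝ) - 1) := fun p hp => by
    have : (2 : ℝ) ≤ p := by exact_mod_cast (mem_llPrimes.1 hp).1.two_le
    exact div_nonneg zero_le_one (by linarith)
  have hWle : W ≤ 3 * u + C := by
    linarith [(abs_le.1 (hC 0 (3 * u) le_rfl (by linarith))).2]
  have hsum : ∑ Cm ∈ Cms, 1 / ((∏ q ∈ Cm, (q - 1) : ℕ) : ℝ) ≤
      (K + 1 : ℝ) * (3 * u + C + 1) ^ K := by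
    rw [hCms, Finset.sum_biUnion]
    · calc _ ≤ ∑ _i ∈ Finset.range (K + 1), (3 * u + C + 1) ^ K := by
            refine Finset.sum_le_sum fun i hi => ?_
            have h1 : ∀ Cm ∈ Q.powersetCard i, 1 / ((∏ q ∈ Cm, (q - 1) : ℕ) : ℝ) =
                ∏ q ∈ Cm, max 0 (1 / ((q : ℝ) - 1)) := by
              intro Cm hCm
              rw [Nat.cast_prod, one_div, ← Finset.prod_inv_distrib]
              refine Finset.prod_congr rfl fun q hq => ?_
              have hqQ := (Finset.mem_powersetCard.1 hCm).1 hq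
              rw [max_eq_right (hW0 q hqQ), Nat.cast_sub (mem_llPrimes.1 hqQ).1.one_le,
                Nat.cast_one, one_div]
            rw [Finset.sum_congr rfl h1]
            refine (sum_powersetCard_prod_le _ (fun q => le_max_left _ _) Q i).trans ?_
            rw [Finset.sum_congr rfl fun q hq => max_eq_right (hW0 q hq)]
            have hi' := Finset.mem_range.1 hi
            calc W ^ i ≤ (3 * u + C + 1) ^ i :=
                  pow_le_pow_left₀ (Finset.sum_nonneg hW0) (by linarith) i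
              _ ≤ _ := pow_le_pow_right₀ (by linarith) (by omega)
        _ = _ := by simp
    · exact (Finset.pairwise_disjoint_powersetCard Q).set_pairwise _
  have hsplit : ∑ Cm ∈ Cms, Real.exp (-(3 * g / 4)) * X / ((∏ q ∈ Cm, (q - 1) : ℕ) : ℝ) =
      Real.exp (-(3 * g / 4)) * X * ∑ Cm ∈ Cms, 1 / ((∏ q ∈ Cm, (q - 1) : ℕ) : ℝ) := by
    rw [Finset.mul_sum]
    exact Finset.sum_congr rfl fun Cm _ => by ring
  rw [hsplit]
  refine le_trans (mul_le_mul_of_nonneg_left (mul_le_mul_of_nonneg_left hsum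
    (mul_nonneg (Real.exp_pos _).le hX)) (Nat.cast_nonneg _)) ?_
  rw [show (Fintype.card (CollIdx K M) : ℝ) *
      (Real.exp (-(3 * g / 4)) * X * (((K : ℝ) + 1) * (3 * u + C + 1) ^ K)) =
      ((Fintype.card (CollIdx K M) : ℝ) * (((K : ℝ) + 1) * (3 * u + C + 1) ^ K) *
        Real.exp (-(3 * g / 4))) * X by ring]
  refine mul_le_mul_of_nonneg_right ?_ hX
  simp only [Fintype.card_prod, Fintype.card_fin, Fintype.card_fun]
  push_cast
  have hKR : (K : ℝ) ≤ 9 * LL u := hu.K_le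
  have hM1 : ((M : ℝ) + 1) ≤ 5 * u := by
    linarith [Nat.ceil_lt_add_one (show (0 : ℝ) ≤ 3 * u by linarith)]
  have hexpK : (K : ℝ) + 1 ≤ Real.exp (10 * LL u) :=
    le_trans (by linarith) (Real.add_one_le_exp _)
  have hu5 : (5 : ℝ) * u ≤ Real.exp (2 * LL u) := by
    have h1 : Real.exp (LL u) = u := Real.exp_log (by linarith)
    rw [two_mul, Real.exp_add, h1]
    nlinarith [Real.add_one_le_exp (LL u)]
  have hu3 : 3 * u + C + 1 ≤ Real.exp ((C + 4) + LL u) := by
    have h1 : Real.exp (LL u) = u := Real.exp_log (by linarith)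
    rw [Real.exp_add, h1]
    nlinarith [Real.add_one_le_exp (C + 4)]
  calc ((K : ℝ) + 1) * ((K : ℝ) + 1) * (((M : ℝ) + 1) ^ K * ((M : ℝ) + 1) ^ K) *
        (((K : ℝ) + 1) * (3 * u + C + 1) ^ K) * Real.exp (-(3 * g / 4))
      ≤ Real.exp (10 * LL u) * Real.exp (10 * LL u) *
        (Real.exp (2 * LL u) ^ K * Real.exp (2 * LL u) ^ K) *
        (Real.exp (10 * LL u) * Real.exp ((C + 4) + LL u) ^ K) * Real.exp (-(3 * g / 4)) := by
        gcongr <;> linarith
    _ = Real.exp (30 * LL u + (K : ℝ) * (5 * LL u + C + 4) + -(3 * g / 4)) := by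
        simp only [← Real.exp_nat_mul, ← Real.exp_add]
        ring_nf
    _ ≤ _ := by
        rw [Real.exp_le_exp]
        have h1 : (K : ℝ) * (5 * LL u + C + 4) ≤ 9 * LL u * (5 * LL u + C + 4) :=
          mul_le_mul_of_nonneg_right hKR (by linarith)
        have h2 : 4 * LL u ^ 3 ≤ g := by
          have h5 : 4 * LL u ^ 3 ≤ LL u ^ 4 := by
            rw [pow_succ' _ 3]
            exact mul_le_mul_of_nonneg_right hL4 (by positivity)
          exact h5.trans ((pow_le_pow_right₀ (by linarith) (by norm_num)).trans hg)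
        nlinarith [mul_le_mul_of_nonneg_left hΛ (sq_nonneg (LL u))]

theorem collision_recip : ∀ᶠ u : ℝ in atTop, ∀ (g : ℝ) (S : Finset (ℕ × ℕ)),
    LL u ^ 90 ≤ g → CollPairs u g S →
    ∑ q ∈ S, 1 / (Nat.totient q.1 : ℝ) ≤ Real.exp (-(g / 2)) := by
  obtain ⟨Λ, hΛ⟩ := fiber_bound
  obtain ⟨C, hC⟩ := mertens_ll
  filter_upwards [scale_eventually (max Λ (110 + 9 * C))] with u hu g S hg hS
  obtain ⟨hu1, hu2⟩ := hu
  simp only [max_le_iff] at hu2
  have := assemble hu1 hC hu2.2 hg S hS (fun q => 1 / (Nat.totient q.1 : ℝ)) 1 zero_le_one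
    fun T hT k k' b b' Cm hsh => by
      rw [mul_one]
      exact (hΛ u g hu1 hu2.1 hg T ⟨fun q hq => hS.left q (hT hq), fun q hq => hS.right q (hT hq),
        fun q hq => hS.same q (hT hq), fun q hq => hS.diff q (hT hq),
        fun q hq q' hq' => hS.inj q (hT hq) q' (hT hq')⟩ k k' b b' Cm hsh).1
  simpa using this

theorem collision_count : ∀ᶠ u : ℝ in atTop, ∀ (x g : ℝ) (S : Finset (ℕ × ℕ)), 1 < x →
    LL u ^ 90 ≤ g → CollPairs u g S → |Real.log (Real.log x) - u| ≤ 1 →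
    (∀ q ∈ S, (Nat.totient q.1 : ℝ) ≤ x ∧ Real.log x / u ^ 4 ≤ Real.log (nthPrime q.1 1)) →
    (S.card : ℝ) ≤ Real.exp (-(g / 2)) * x / Real.log x := by
  obtain ⟨Λ, hΛ⟩ := fiber_bound
  obtain ⟨C, hC⟩ := mertens_ll
  filter_upwards [scale_eventually (max Λ (110 + 9 * C))] with u hu x g S hx hg hS hxu hx2
  obtain ⟨hu1, hu2⟩ := hu
  simp only [max_le_iff] at hu2
  have hlog := Real.log_pos hx
  have := assemble hu1 hC hu2.2 hg S hS (fun _ => 1) (x / Real.log x) (by positivity)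
    fun T hT k k' b b' Cm hsh => by
      rw [Finset.sum_const, nsmul_eq_mul, mul_one]
      exact (hΛ u g hu1 hu2.1 hg T ⟨fun q hq => hS.left q (hT hq), fun q hq => hS.right q (hT hq),
        fun q hq => hS.same q (hT hq), fun q hq => hS.diff q (hT hq),
        fun q hq q' hq' => hS.inj q (hT hq) q' (hT hq')⟩ k k' b b' Cm hsh).2 x hx hxu
          (fun q hq => hx2 q (hT hq))
  rw [Finset.sum_const, nsmul_eq_mul, mul_one] at this
  rwa [mul_div_assoc]

end Vale.Agent.P031
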