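import Mathlib

/-!
P031, second question: definitions shared by all modules.
`u` is always `log (log x)` (a real parameter), `L = log u`.
-/

open Finset Real

namespace Vale.Agent.P031

/-- The totient values. -/
def IsTot (v : ℕ) : Prop := ∃ n : ℕ, 0 < n ∧ Nat.totient n = v

/-- Totient values in `[1, X]`. -/
noncomputable def totSet (X : ℝ) : Finset ℕ := by
  classical exact (Finset.Icc 1 ⌊X⌋₊).filter IsTot

/-- `V(X)`. -/
noncomputable def V (X : ℝ) : ℕ := (totSet X).card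

/-- `F(X) = ∑ 1/m` over totient values `m ≤ X`. -/
noncomputable def totRecip (X : ℝ) : ℝ := ∑ m ∈ totSet X, (1 : ℝ) / m

/-- `log log p`, cut at zero. -/
noncomputable def ll (p : ℕ) : ℝ := max 0 (Real.log (Real.log p))

/-- Distinct primes `p ∣ k` with `a < ll p ≤ b`. -/
noncomputable def omegaIn (a b : ℝ) (k : ℕ) : ℕ := by
  classical exact (k.primeFactors.filter (fun p => a < ll p ∧ ll p ≤ b)).card

/-- The largest prime factor (1 for `k ≤ 1`). -/
def topPrime (k : ℕ) : ℕ := k.primeFactorsList.getLastD 1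

/-- The `i`-th largest prime of `n` with multiplicity, 1-indexed; 1 if absent. -/
def nthPrime (n : ℕ) (i : ℕ) : ℕ := n.primeFactorsList.reverse.getD (i - 1) 1

/-- Profile: `y_i(n)`, `i ≥ 1`. -/
noncomputable def prof (n : ℕ) (i : ℕ) : ℝ := ll (nthPrime n i)

/-- `a_j = (j+1) log (j+1) - j log j - 1`. -/
noncomputable def coef (j : ℕ) : ℝ :=
  ((j : ℝ) + 1) * Real.log ((j : ℝ) + 1) - (j : ℝ) * Real.log j - 1

/-- `G_0 = 1`, `G_i = ∑_{j=1}^i a_j G_{i-j}`. -/
noncomputable def gRen : ℕ → ℝ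
  | 0 => 1
  | i + 1 => ∑ j : Fin (i + 1), coef (i + 1 - j.1) * gRen j.1

/-- `∑_{j=i+1}^{k} a_{j-i} y_j`; for `i = 0` this is `A(y)`. -/
noncomputable def chain (k : ℕ) (y : ℕ → ℝ) (i : ℕ) : ℝ :=
  ∑ j ∈ Finset.Ioc i k, coef (j - i) * y j

/-- Slack `c_i(y)`. -/
noncomputable def slackAt (k : ℕ) (y : ℕ → ℝ) (i : ℕ) : ℝ := y i - chain k y i

noncomputable def LL (u : ℝ) : ℝ := Real.log u

/-- Cut level: the largest `i ≤ ⌈u⌉` with `G_i ≤ u / L^e`. -/
noncomputable def levelK (u : ℝ) (e : ℕ) : ℕ := by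
  classical exact Nat.findGreatest (fun i => gRen i ≤ u / LL u ^ e) ⌈u⌉₊

/-- Bottom scale of normality, `L^16`. -/
noncomputable def yLow (u : ℝ) : ℝ := LL u ^ 16

/-- Lump threshold, `L^66`. -/
noncomputable def yLump (u : ℝ) : ℝ := LL u ^ 66

/-- Number of controlled levels. -/
noncomputable def K2 (u : ℝ) : ℕ := levelK u 64

/-- Number of levels with unique representation. -/
noncomputable def K1 (u : ℝ) : ℕ := levelK u 128

/-- Number of scaled levels. -/
noncomputable def K0 (u : ℝ) : ℕ := levelK u 256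

/-- Width of a cell, `L^3`. -/
noncomputable def cellW (u : ℝ) : ℝ := LL u ^ 3

/-- `h_i = (u/G_i)^{3/4}`; `h_0 = u^{3/4}`. -/
noncomputable def hgt (u : ℝ) (i : ℕ) : ℝ := (u / gRen i) ^ ((3 : ℝ) / 4)

/-- A prime `q` is normal: `q-1` has a large prime and the expected number of primes in every
interval of the `log log` scale. -/
def NormalPrime (u : ℝ) (q : ℕ) : Prop :=
  yLow u < ll q →
    Real.log q ≤ u ^ 3 * Real.log (topPrime (q - 1)) ∧
    ∀ a b : ℕ, yLow u ≤ a → a < b → (b : ℝ) ≤ ll q + 1 →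
      |(omegaIn a b (q - 1) : ℝ) - (min (b : ℝ) (ll q) - a)| ≤ (b : ℝ) ^ ((5 : ℝ) / 8)

/-- The part of admissibility free of the profile inequalities. -/
structure Reg (u : ℝ) (n : ℕ) : Prop where
  pos : 0 < n
  sq : ∀ p : ℕ, p.Prime → yLow u < ll p → ¬ p ^ 2 ∣ n
  sqTot : ∀ p : ℕ, p.Prime → yLow u < ll p → ¬ p ^ 2 ∣ Nat.totient n
  few : (n.primeFactorsList.length : ℝ) ≤ u ^ 3
  normal : ∀ q : ℕ, q.Prime → q ∣ n → NormalPrime u q

/-- A preimage (of a value `m` of size at most `exp exp u`) with the upper structure. -/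
structure Adm (u : ℝ) (n : ℕ) : Prop where
  reg : Reg u n
  first : prof n 1 ≤ u + 3
  slack : ∀ i : ℕ, 1 ≤ i → i ≤ K2 u → -(hgt u i) ≤ slackAt (K2 u) (prof n) i

/-- `v = (P-1) * φ(n')` with the upper structure at the top level. -/
def Struct (u x : ℝ) (v : ℕ) : Prop :=
  ∃ P n' : ℕ, P.Prime ∧ (∀ p ∈ n'.primeFactors, p < P) ∧ Real.log x / u ^ 4 ≤ Real.log P ∧
    Adm u n' ∧ chain (K2 u) (prof n') 0 ≤ u + hgt u 0 ∧ v = (P - 1) * Nat.totient n'

/-- `∏_{p ∣ k} f p`. -/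
def pw (f : ℕ → ℝ) (k : ℕ) : ℝ := ∏ p ∈ k.primeFactors, f p

end Vale.Agent.P031
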