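import Vale.Agent.P031.Peel

/-! Integers built from a decreasing list of large primes and a small cofactor. -/

open Finset Real

namespace Vale.Agent.P031

/-- `ps` is a decreasing list of primes, all larger than the primes of `m`. -/
def Desc (ps : List ℕ) (m : ℕ) : Prop :=
  m ≠ 0 ∧ (∀ x ∈ ps, x.Prime) ∧ ps.Pairwise (· > ·) ∧ ∀ x ∈ ps, ∀ p ∈ m.primeFactors, p < x

lemma Desc.tail {q : ℕ} {ps : List ℕ} {m : ℕ} (h : Desc (q :: ps) m) : Desc ps m :=
  ⟨h.1, fun x hx => h.2.1 x (List.mem_cons_of_mem _ hx), (List.pairwise_cons.1 h.2.2.1).2,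
    fun x hx => h.2.2.2 x (List.mem_cons_of_mem _ hx)⟩

lemma Desc.drop {ps : List ℕ} {m : ℕ} (h : Desc ps m) (i : ℕ) : Desc (ps.drop i) m :=
  ⟨h.1, fun x hx => h.2.1 x (List.mem_of_mem_drop hx), h.2.2.1.sublist (List.drop_sublist i ps),
    fun x hx => h.2.2.2 x (List.mem_of_mem_drop hx)⟩

lemma Desc.ne_zero {ps : List ℕ} {m : ℕ} (h : Desc ps m) : ps.prod * m ≠ 0 :=
  mul_ne_zero (List.prod_ne_zero (fun h0 => (h.2.1 0 h0).ne_zero rfl)) h.1

lemma Desc.dvd_cases {ps : List ℕ} {m p : ℕ} (h : Desc ps m) (hp : p.Prime)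
    (hd : p ∣ ps.prod * m) : p ∈ ps ∨ p ∈ m.primeFactors := by
  rcases hp.dvd_mul.1 hd with h' | h'
  · obtain ⟨x, hx, hpx⟩ := (Prime.dvd_prod_iff hp.prime).1 h'
    exact Or.inl ((Nat.prime_dvd_prime_iff_eq hp (h.2.1 x hx)).1 hpx ▸ hx)
  · exact Or.inr (Nat.mem_primeFactors.2 ⟨hp, h', h.1⟩)

lemma Desc.lt_head {q : ℕ} {ps : List ℕ} {m p : ℕ} (h : Desc (q :: ps) m)
    (hp : p ∈ (ps.prod * m).primeFactors) : p < q := by
  obtain ⟨hpp, hpd, -⟩ := Nat.mem_primeFactors.1 hp
  rcases h.tail.dvd_cases hpp hpd with h' | h'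
  · exact (List.pairwise_cons.1 h.2.2.1).1 p h'
  · exact h.2.2.2 q (List.mem_cons_self ..) p h'

lemma Desc.primeFactorsList {ps : List ℕ} {m : ℕ} (h : Desc ps m) :
    (ps.prod * m).primeFactorsList = m.primeFactorsList ++ ps.reverse := by
  induction ps with
  | nil => simp
  | cons q ps ih =>
    rw [List.prod_cons, mul_assoc, primeFactorsList_mul_top (h.2.1 q (List.mem_cons_self ..))
      h.tail.ne_zero fun p hp => (h.lt_head hp).le, ih h.tail, List.reverse_cons, List.append_assoc]

lemma Desc.length {ps : List ℕ} {m : ℕ} (h : Desc ps m) :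
    (ps.prod * m).primeFactorsList.length = m.primeFactorsList.length + ps.length := by
  simp [h.primeFactorsList]

lemma Desc.nthPrime_low {ps : List ℕ} {m t : ℕ} (h : Desc ps m) (h1 : 1 ≤ t)
    (ht : t ≤ ps.length) : nthPrime (ps.prod * m) t = ps.getD (t - 1) 1 := by
  unfold nthPrime
  rw [h.primeFactorsList, List.reverse_append, List.reverse_reverse,
    List.getD_append _ _ _ _ (by omega)]

lemma Desc.nthPrime_high {ps : List ℕ} {m t : ℕ} (h : Desc ps m) (ht : ps.length < t) :
    nthPrime (ps.prod * m) t = nthPrime m (t - ps.length) := by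
  unfold nthPrime
  rw [h.primeFactorsList, List.reverse_append, List.reverse_reverse,
    List.getD_append_right _ _ _ _ (by omega), show t - 1 - ps.length = t - ps.length - 1 by omega]

lemma Desc.nthPrime_drop {ps : List ℕ} {m i t : ℕ} (h : Desc ps m) (hi : i ≤ ps.length)
    (ht : 1 ≤ t) : nthPrime ((ps.drop i).prod * m) t = nthPrime (ps.prod * m) (t + i) := by
  have hl : (ps.drop i).length = ps.length - i := List.length_drop
  rcases Nat.lt_or_ge (ps.length - i) t with h' | h'
  · rw [(h.drop i).nthPrime_high (by omega), h.nthPrime_high (by omega), hl]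
    congr 1
    omega
  · rw [(h.drop i).nthPrime_low ht (by omega), h.nthPrime_low (by omega) (by omega),
      List.getD_eq_getElem _ _ (by omega), List.getD_eq_getElem _ _ (by omega), List.getElem_drop]
    congr 1
    omega

lemma Desc.totient {ps : List ℕ} {m : ℕ} (h : Desc ps m) :
    Nat.totient (ps.prod * m) = (ps.map Nat.totient).prod * Nat.totient m := by
  induction ps with
  | nil => simp
  | cons q ps ih =>
    rw [List.prod_cons, mul_assoc, totient_mul_top (h.2.1 q (List.mem_cons_self ..))
      (fun p hp => h.lt_head hp) h.tail.ne_zero, ih h.tail, List.map_cons, List.prod_cons,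
      Nat.totient_prime (h.2.1 q (List.mem_cons_self ..)), mul_assoc]

lemma Desc.sq {ps : List ℕ} {m p : ℕ} (h : Desc ps m) (hp : p.Prime)
    (hd : p ^ 2 ∣ ps.prod * m) : p ^ 2 ∣ m := by
  induction ps with
  | nil => simpa using hd
  | cons q ps ih =>
    have hq : q.Prime := h.2.1 q (List.mem_cons_self ..)
    rw [List.prod_cons, mul_assoc] at hd
    refine ih h.tail ?_
    by_cases hpq : p = q
    · subst hpq
      rw [pow_two] at hd
      have : p ∣ ps.prod * m := Nat.dvd_of_mul_dvd_mul_left hp.pos hd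
      exact absurd (h.lt_head (Nat.mem_primeFactors.2 ⟨hp, this, h.tail.ne_zero⟩)) (lt_irrefl _)
    · exact ((Nat.coprime_primes hp hq).2 hpq).pow_left 2 |>.dvd_of_dvd_mul_left hd

lemma Desc.primeFactors {ps : List ℕ} {m : ℕ} (h : Desc ps m) :
    (ps.prod * m).primeFactors = ps.toFinset ∪ m.primeFactors := by
  ext p
  rw [← Nat.toFinset_factors, List.mem_toFinset, h.primeFactorsList, List.mem_append,
    List.mem_reverse, Finset.mem_union, List.mem_toFinset, ← Nat.toFinset_factors m,
    List.mem_toFinset]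
  exact or_comm

/-- A decreasing list above a set is recovered from the union. -/
lemma desc_unique : ∀ (ps ps' : List ℕ) (X X' : Finset ℕ), ps.length = ps'.length →
    ps.Pairwise (· > ·) → ps'.Pairwise (· > ·) → (∀ a ∈ ps, ∀ x ∈ X, x < a) →
    (∀ a ∈ ps', ∀ x ∈ X', x < a) → ps.toFinset ∪ X = ps'.toFinset ∪ X' → ps = ps' := by
  intro ps
  induction ps with
  | nil => intro ps' X X' hl _ _ _ _ _; exact (List.length_eq_zero_iff.1 hl.symm).symm
  | cons a l ih =>
    intro ps' X X' hl hp hp' hX hX' he
    cases ps' with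
    | nil => simp at hl
    | cons a' l' =>
      obtain ⟨hp1, hp2⟩ := List.pairwise_cons.1 hp
      obtain ⟨hp1', hp2'⟩ := List.pairwise_cons.1 hp'
      have le1 : ∀ y ∈ (a :: l).toFinset ∪ X, y ≤ a := by
        intro y hy
        rcases Finset.mem_union.1 hy with h | h
        · rcases List.mem_cons.1 (List.mem_toFinset.1 h) with rfl | h
          · exact le_rfl
          · exact (hp1 y h).le
        · exact (hX a (List.mem_cons_self ..) y h).le
      have le2 : ∀ y ∈ (a' :: l').toFinset ∪ X', y ≤ a' := by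
        intro y hy
        rcases Finset.mem_union.1 hy with h | h
        · rcases List.mem_cons.1 (List.mem_toFinset.1 h) with rfl | h
          · exact le_rfl
          · exact (hp1' y h).le
        · exact (hX' a' (List.mem_cons_self ..) y h).le
      obtain rfl : a = a' := le_antisymm
        (le2 a (he ▸ Finset.mem_union_left _ (by simp))) (le1 a' (he ▸ Finset.mem_union_left _ (by simp)))
      have n1 : a ∉ l.toFinset ∪ X := by
        simp only [Finset.mem_union, List.mem_toFinset, not_or]
        exact ⟨fun h => lt_irrefl a (hp1 a h), fun h => lt_irrefl a (hX a (List.mem_cons_self ..) a h)⟩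
      have n2 : a ∉ l'.toFinset ∪ X' := by
        simp only [Finset.mem_union, List.mem_toFinset, not_or]
        exact ⟨fun h => lt_irrefl a (hp1' a h),
          fun h => lt_irrefl a (hX' a (List.mem_cons_self ..) a h)⟩
      have he' : l.toFinset ∪ X = l'.toFinset ∪ X' := by
        have := congrArg (Finset.erase · a) he
        simpa [List.toFinset_cons, Finset.insert_union, Finset.erase_insert n1,
          Finset.erase_insert n2] using this
      rw [ih l' X X' (by simpa using hl) hp2 hp2' (fun x hx => hX x (List.mem_cons_of_mem _ hx))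
        (fun x hx => hX' x (List.mem_cons_of_mem _ hx)) he']

end Vale.Agent.P031
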