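import Vale.Agent.P031.GeomTools

/-! The boundary layer of the simplex is negligible. -/

open Finset Real Filter

namespace Vale.Agent.P031

/-- The vector of a cell tuple and a tail. -/
noncomputable def vecOf (u : ℝ) (c : Fin (K1 u) → ℕ) (r : ℕ → ℝ) (i : ℕ) : ℝ :=
  if h : 1 ≤ i ∧ i ≤ K1 u then cellW u * c ⟨i - 1, by omega⟩ else if K1 u < i then r i else 0

/-- Admissible tails. -/
def TailVec (u : ℝ) (r : ℕ → ℝ) : Prop :=
  ∀ i, K1 u < i → 0 ≤ r i ∧ r i ≤ 8 * u / gRen (K1 u) ∧ r (i + 1) ≤ r i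

structure GUpper (u : ℝ) (c : Fin (K1 u) → ℕ) (r : ℕ → ℝ) : Prop where
  mono : ∀ i, 1 ≤ i → i < K1 u → vecOf u c r (i + 1) ≤ vecOf u c r i
  join : vecOf u c r (K1 u + 1) ≤ vecOf u c r (K1 u) + cellW u
  slack : ∀ i, 1 ≤ i → i ≤ K1 u → -(2 * hgt u i) ≤ slackAt (K2 u) (vecOf u c r) i
  first : vecOf u c r 1 ≤ u + 2 * hgt u 0
  top : chain (K2 u) (vecOf u c r) 0 ≤ u + 2 * hgt u 0

structure GLower (u : ℝ) (c : Fin (K1 u) → ℕ) (r : ℕ → ℝ) : Prop where
  pos : ∀ j, 1 ≤ c j
  mono : ∀ i, 1 ≤ i → i < K1 u →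
    vecOf u c r (i + 1) + 2 * cellW u + hgt u i / 4 ≤ vecOf u c r i
  join : vecOf u c r (K1 u + 1) + hgt u (K1 u) / 4 ≤ vecOf u c r (K1 u)
  slack : ∀ i, 1 ≤ i → i ≤ K1 u → hgt u i ≤ slackAt (K2 u) (vecOf u c r) i
  first : vecOf u c r 1 ≤ u - hgt u 0
  top : chain (K2 u) (vecOf u c r) 0 ≤ u - hgt u 0

/-- Cells compatible with some tail in `R`. -/
def upperCells (u : ℝ) (R : Set (ℕ → ℝ)) : Set (Fin (K1 u) → ℕ) :=
  {c | ∃ r ∈ R, GUpper u c r}

def lowerCells (u : ℝ) (R : Set (ℕ → ℝ)) : Set (Fin (K1 u) → ℕ) :=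
  {c | ∃ r ∈ R, GLower u c r}

/-- A natural vector as a function on `ℕ`, supported on `1..K`. -/
def cext {K : ℕ} (c : Fin K → ℕ) (i : ℕ) : ℕ :=
  if h : 1 ≤ i ∧ i ≤ K then c ⟨i - 1, by omega⟩ else 0

lemma cext_succ {K : ℕ} (c : Fin K → ℕ) (j : Fin K) : cext c (j.1 + 1) = c j := by
  unfold cext
  rw [dif_pos ⟨by omega, by omega⟩]
  exact congrArg c (Fin.ext (by simp))

/-- The coordinates of a cell tuple. -/
noncomputable def cvec (u : ℝ) (c : Fin (K1 u) → ℕ) (i : ℕ) : ℝ := cellW u * cext c i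

/-- The ratio bounds available for large `u`. -/
structure Big (u : ℝ) : Prop where
  hL : 1000 ≤ LL u
  hlogL : 10 ≤ Real.log (LL u)
  hu : 0 < u
  h160 : LL u ^ 160 ≤ u
  k01 : K0 u < K1 u
  k12 : K1 u < K2 u
  hk2 : (K2 u : ℝ) ≤ 8 * LL u
  hk0 : LL u / 4 ≤ K0 u
  hgap : (K1 u : ℝ) ≤ 9 / 8 * K0 u
  g1 : gRen (K1 u) ≤ u / LL u ^ 128
  g1' : u / LL u ^ 128 ≤ 4 * gRen (K1 u)
  g0 : gRen (K0 u) ≤ u / LL u ^ 256
  h256 : LL u ^ 256 ≤ u

lemma eventually_big : ∀ᶠ u : ℝ in atTop, Big u := by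
  obtain ⟨C, hC⟩ := levelK_sub_le 256 128
  have hl : ∀ᶠ u : ℝ in atTop, C * Real.log (LL u) ≤ LL u / 32 := by
    have h := (Real.isLittleO_log_id_atTop).def
      (show (0 : ℝ) < 1 / (32 * (|C| + 1)) by positivity)
    filter_upwards [tendsto_LL.eventually h, tendsto_LL.eventually_ge_atTop 1] with u hu hL
    rw [Real.norm_eq_abs, Real.norm_eq_abs, id, abs_of_nonneg (by linarith : (0 : ℝ) ≤ LL u),
      abs_of_nonneg (Real.log_nonneg hL)] at hu
    calc C * Real.log (LL u) ≤ (|C| + 1) * Real.log (LL u) :=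
          mul_le_mul_of_nonneg_right (by linarith [le_abs_self C]) (Real.log_nonneg hL)
      _ ≤ (|C| + 1) * (1 / (32 * (|C| + 1)) * LL u) :=
          mul_le_mul_of_nonneg_left hu (by positivity)
      _ = LL u / 32 := by field_simp
  filter_upwards [levelK_spec 256, levelK_spec 128, levelK_spec 64,
    levelK_lt (show 128 < 256 by norm_num), levelK_lt (show 64 < 128 by norm_num), hC, hl,
    eventually_LL_pow_le 160 1 one_pos, eventually_LL_pow_le 256 1 one_pos,
    tendsto_LL.eventually_ge_atTop 1000,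
    (Real.tendsto_log_atTop.comp tendsto_LL).eventually_ge_atTop 10,
    eventually_gt_atTop (0 : ℝ)] with u a b c d e f g h160 h256 hL hlogL hu
  exact
    { hL := hL, hlogL := hlogL, hu := hu, h160 := by linarith, k01 := d, k12 := e,
      hk2 := c.2.2.2.2, hk0 := a.2.2.2.1,
      hgap := by
        have := a.2.2.2.1
        unfold K1 K0
        linarith
      g1 := b.1, g1' := b.2.1.le.trans b.2.2.1, g0 := a.1, h256 := by linarith }

lemma vecOf_low {u : ℝ} (c : Fin (K1 u) → ℕ) (r : ℕ → ℝ) {i : ℕ} (h1 : 1 ≤ i) (h2 : i ≤ K1 u) :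
    vecOf u c r i = cvec u c i := by
  unfold vecOf cvec cext
  rw [dif_pos ⟨h1, h2⟩, dif_pos ⟨h1, h2⟩]

lemma vecOf_high {u : ℝ} (c : Fin (K1 u) → ℕ) (r : ℕ → ℝ) {i : ℕ} (h : K1 u < i) :
    vecOf u c r i = r i := by
  unfold vecOf
  rw [dif_neg (by omega), if_pos h]

lemma cvec_high {u : ℝ} (c : Fin (K1 u) → ℕ) {i : ℕ} (h : K1 u < i) : cvec u c i = 0 := by
  unfold cvec cext
  rw [dif_neg (by omega)]; simp

namespace Big

variable {u : ℝ}

lemma Lpos (B : Big u) : 0 < LL u := by linarith [B.hL]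

lemma L_one (B : Big u) : 1 ≤ LL u := by linarith [B.hL]

lemma cW (B : Big u) : 0 < cellW u := pow_pos B.Lpos 3

lemma k0_pos (B : Big u) : 1 ≤ K0 u := by
  have h : (1 : ℝ) ≤ K0 u := by linarith [B.hk0, B.hL]
  exact_mod_cast h

lemma g_le (B : Big u) {i : ℕ} (hi : i ≤ K1 u) : gRen i ≤ u / LL u ^ 128 := by
  rcases Nat.eq_zero_or_pos i with rfl | h
  · rw [gRen_zero, le_div_iff₀ (pow_pos B.Lpos _), one_mul]
    exact (pow_le_pow_right₀ B.L_one (by norm_num)).trans B.h256
  · exact (gRen_mono h hi).trans B.g1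

lemma g_le0 (B : Big u) {i : ℕ} (hi : i ≤ K0 u) : gRen i ≤ u / LL u ^ 256 := by
  rcases Nat.eq_zero_or_pos i with rfl | h
  · rw [gRen_zero, le_div_iff₀ (pow_pos B.Lpos _), one_mul]
    exact B.h256
  · exact (gRen_mono h hi).trans B.g0

lemma rpow_pow (B : Big u) (n m : ℕ) (h : m * 4 = n * 3) :
    (LL u ^ n) ^ ((3 : ℝ) / 4) = LL u ^ m := by
  rw [← Real.rpow_natCast, ← Real.rpow_mul B.Lpos.le, ← Real.rpow_natCast (LL u) m]
  congr 1
  have : (m : ℝ) * 4 = (n : ℝ) * 3 := by exact_mod_cast h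
  linarith

lemma hgt_ge (B : Big u) {i : ℕ} (hi : i ≤ K1 u) : LL u ^ 96 ≤ hgt u i := by
  rw [← B.rpow_pow 128 96 (by norm_num)]
  refine Real.rpow_le_rpow (pow_pos B.Lpos _).le ?_ (by norm_num)
  rw [le_div_iff₀ (gRen_pos i)]
  have := B.g_le hi
  rw [le_div_iff₀ (pow_pos B.Lpos _)] at this
  linarith

lemma hgt_ge0 (B : Big u) {i : ℕ} (hi : i ≤ K0 u) : LL u ^ 192 ≤ hgt u i := by
  rw [← B.rpow_pow 256 192 (by norm_num)]
  refine Real.rpow_le_rpow (pow_pos B.Lpos _).le ?_ (by norm_num)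
  rw [le_div_iff₀ (gRen_pos i)]
  have := B.g_le0 hi
  rw [le_div_iff₀ (pow_pos B.Lpos _)] at this
  linarith

lemma hgt_nonneg (B : Big u) (i : ℕ) : 0 ≤ hgt u i :=
  Real.rpow_nonneg (div_nonneg B.hu.le (gRen_pos i).le) _

lemma g_hgt (B : Big u) {i : ℕ} (hi : i ≤ K1 u) : gRen i * hgt u i * LL u ^ 32 ≤ u := by
  have hG := gRen_pos i
  have hq : 0 < u / gRen i := div_pos B.hu hG
  have h1 : LL u ^ 32 ≤ (u / gRen i) ^ ((1 : ℝ) / 4) := by
    have e : (LL u ^ 128) ^ ((1 : ℝ) / 4) = LL u ^ 32 := by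
      rw [← Real.rpow_natCast, ← Real.rpow_mul B.Lpos.le, ← Real.rpow_natCast (LL u) 32]
      norm_num
    rw [← e]
    refine Real.rpow_le_rpow (pow_pos B.Lpos _).le ?_ (by norm_num)
    rw [le_div_iff₀ hG]
    have := B.g_le hi
    rw [le_div_iff₀ (pow_pos B.Lpos _)] at this
    linarith
  calc gRen i * hgt u i * LL u ^ 32
      ≤ gRen i * hgt u i * (u / gRen i) ^ ((1 : ℝ) / 4) :=
        mul_le_mul_of_nonneg_left h1 (mul_nonneg hG.le (B.hgt_nonneg i))
    _ = u := by
      rw [hgt, mul_assoc, ← Real.rpow_add hq]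
      norm_num
      field_simp

lemma hgt_zero (B : Big u) : hgt u 0 * LL u ^ 40 ≤ u := by
  have h : LL u ^ 40 ≤ u ^ ((1 : ℝ) / 4) := by
    have e : (LL u ^ 160) ^ ((1 : ℝ) / 4) = LL u ^ 40 := by
      rw [← Real.rpow_natCast, ← Real.rpow_mul B.Lpos.le, ← Real.rpow_natCast (LL u) 40]
      norm_num
    rw [← e]
    exact Real.rpow_le_rpow (pow_pos B.Lpos _).le B.h160 (by norm_num)
  calc hgt u 0 * LL u ^ 40 ≤ hgt u 0 * u ^ ((1 : ℝ) / 4) :=
        mul_le_mul_of_nonneg_left h (B.hgt_nonneg 0)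
    _ = u := by
      rw [hgt, gRen_zero, div_one, ← Real.rpow_add B.hu]
      norm_num

lemma hk1 (B : Big u) : (K1 u : ℝ) ≤ 8 * LL u :=
  le_trans (by exact_mod_cast B.k12.le) B.hk2

lemma chainW_le' (B : Big u) {k : ℕ} (hk : k ≤ K2 u) : chainW k ≤ LL u ^ 3 := by
  have h : (k : ℝ) ≤ 8 * LL u := le_trans (by exact_mod_cast hk) B.hk2
  refine (chainW_le k).trans ?_
  have := B.hL
  calc (k : ℝ) * ((k : ℝ) + 1) ≤ (8 * LL u) * (9 * LL u) :=
        mul_le_mul h (by linarith) (by positivity) (by linarith)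
    _ ≤ LL u ^ 3 := by
      nlinarith [mul_le_mul_of_nonneg_right (show (72 : ℝ) ≤ LL u by linarith) (sq_nonneg (LL u))]

/-- Rounding by `W` in every coordinate moves a slack by at most `2 L^6`. -/
lemma round_slack (B : Big u) {k i : ℕ} (hk : k ≤ K2 u) {y z : ℕ → ℝ}
    (hi : |y i - z i| ≤ cellW u) (h : ∀ j, i < j → j ≤ k → |y j - z j| ≤ cellW u) :
    slackAt k z i - 2 * LL u ^ 6 ≤ slackAt k y i := by
  have h1 := slackAt_ge_of_near B.cW.le (by linarith [(abs_le.1 hi).1]) h
  have h2 := mul_le_mul_of_nonneg_right (B.chainW_le' hk) B.cW.le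
  have h3 : cellW u ≤ LL u ^ 6 := pow_le_pow_right₀ B.L_one (by norm_num)
  have h4 : LL u ^ 3 * cellW u = LL u ^ 6 := by rw [cellW]; ring
  linarith

lemma round_chain (B : Big u) {k i : ℕ} (hk : k ≤ K2 u) {y z : ℕ → ℝ}
    (h : ∀ j, i < j → j ≤ k → |y j - z j| ≤ cellW u) :
    chain k y i ≤ chain k z i + LL u ^ 6 := by
  have h1 := (abs_le.1 (abs_chain_sub_le B.cW.le h)).2
  have h2 := mul_le_mul_of_nonneg_right (B.chainW_le' hk) B.cW.le
  have h4 : LL u ^ 3 * cellW u = LL u ^ 6 := by rw [cellW]; ring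
  rw [chainW] at h2
  linarith

end Big

lemma cvec_nonneg {u : ℝ} (B : Big u) (c : Fin (K1 u) → ℕ) (i : ℕ) : 0 ≤ cvec u c i :=
  mul_nonneg B.cW.le (Nat.cast_nonneg _)

lemma vecOf_nonneg {u : ℝ} (B : Big u) (c : Fin (K1 u) → ℕ) {r : ℕ → ℝ} (hr : TailVec u r)
    (i : ℕ) : 0 ≤ vecOf u c r i := by
  unfold vecOf
  split_ifs with h1 h2
  · exact mul_nonneg B.cW.le (Nat.cast_nonneg _)
  · exact (hr i h2).1
  · exact le_rfl

/-- The tail only adds a little to each chain. -/
lemma chain_tail {u : ℝ} (B : Big u) (c : Fin (K1 u) → ℕ) {r : ℕ → ℝ} (hr : TailVec u r) {i : ℕ}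
    (hi : i ≤ K1 u) :
    chain (K1 u) (cvec u c) i ≤ chain (K2 u) (vecOf u c r) i ∧
      chain (K2 u) (vecOf u c r) i ≤ chain (K1 u) (cvec u c) i + LL u ^ 132 := by
  have e : chain (K2 u) (vecOf u c r) i = chain (K1 u) (cvec u c) i
      + chain (K2 u) (fun j => if K1 u < j then r j else 0) i := by
    rw [chain_split hi B.k12.le, chain_split hi B.k12.le (fun j => if K1 u < j then r j else 0)]
    have z : chain (K1 u) (fun j => if K1 u < j then r j else 0) i = 0 :=
      Finset.sum_eq_zero fun j hj => by simp [not_lt.2 (Finset.mem_Ioc.1 hj).2]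
    rw [z, zero_add]
    congr 1
    · exact chain_congr fun j hj hjk => vecOf_low c r (by omega) hjk
    · exact Finset.sum_congr rfl fun j hj => by
        rw [Finset.mem_Ioc] at hj
        rw [vecOf_high c r hj.1, if_pos hj.1]
  have h0 : 0 ≤ chain (K2 u) (fun j => if K1 u < j then r j else 0) i :=
    chain_nonneg fun j _ _ => by
      split_ifs with hj
      · exact (hr j hj).1
      · exact le_rfl
  refine ⟨by linarith, ?_⟩
  have hg := gRen_pos (K1 u)
  have hb : 8 * u / gRen (K1 u) ≤ 32 * LL u ^ 128 := by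
    rw [div_le_iff₀ hg]
    have := B.g1'
    rw [div_le_iff₀ (pow_pos B.Lpos _)] at this
    linarith
  have hb0 : (0 : ℝ) ≤ 32 * LL u ^ 128 := mul_nonneg (by norm_num) (pow_pos B.Lpos _).le
  have h1 := chain_const_le (k := K2 u) (i := i) hb0
    (y := fun j => if K1 u < j then r j else 0) fun j _ _ => by
      split_ifs with hj
      · exact (hr j hj).2.1.trans hb
      · exact hb0
  have h2 := mul_le_mul_of_nonneg_right (B.chainW_le' le_rfl) hb0
  rw [chainW] at h2
  have h3 : LL u ^ 3 * (32 * LL u ^ 128) ≤ LL u ^ 132 := by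
    rw [show LL u ^ 3 * (32 * LL u ^ 128) = 32 * LL u ^ 131 by ring,
      show LL u ^ 132 = LL u * LL u ^ 131 by ring]
    exact mul_le_mul_of_nonneg_right (by linarith [B.hL]) (pow_pos B.Lpos _).le
  linarith

lemma slack_tail {u : ℝ} (B : Big u) (c : Fin (K1 u) → ℕ) {r : ℕ → ℝ} (hr : TailVec u r) {i : ℕ}
    (h1 : 1 ≤ i) (hi : i ≤ K1 u) :
    slackAt (K2 u) (vecOf u c r) i ≤ slackAt (K1 u) (cvec u c) i ∧
      slackAt (K1 u) (cvec u c) i ≤ slackAt (K2 u) (vecOf u c r) i + LL u ^ 132 := by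
  obtain ⟨a, b⟩ := chain_tail B c hr hi
  unfold slackAt
  rw [vecOf_low c r h1 hi]
  constructor <;> linarith

/-- Changing the cells changes chains linearly. -/
lemma chain_change {u : ℝ} (B : Big u) (c c' : Fin (K1 u) → ℕ) (r : ℕ → ℝ) {i : ℕ}
    (hi : i ≤ K1 u) :
    chain (K2 u) (vecOf u c' r) i = chain (K2 u) (vecOf u c r) i
      + chain (K1 u) (fun j => cvec u c' j - cvec u c j) i := by
  have e : ∀ d : Fin (K1 u) → ℕ, chain (K2 u) (vecOf u d r) i = chain (K1 u) (cvec u d) i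
      + ∑ j ∈ Finset.Ioc (K1 u) (K2 u), coef (j - i) * r j := fun d => by
    rw [chain_split hi B.k12.le]
    congr 1
    · exact chain_congr fun j a b => vecOf_low d r (by omega) b
    · exact Finset.sum_congr rfl fun j hj => by rw [vecOf_high d r (Finset.mem_Ioc.1 hj).1]
  rw [e, e, chain_sub]
  ring

lemma slack_change {u : ℝ} (B : Big u) (c c' : Fin (K1 u) → ℕ) (r : ℕ → ℝ) {i : ℕ}
    (h1 : 1 ≤ i) (hi : i ≤ K1 u) :
    slackAt (K2 u) (vecOf u c' r) i = slackAt (K2 u) (vecOf u c r) i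
      + slackAt (K1 u) (fun j => cvec u c' j - cvec u c j) i := by
  unfold slackAt
  rw [chain_change B c c' r hi, vecOf_low c r h1 hi, vecOf_low c' r h1 hi]
  ring

/-- Cells with decreasing coordinates and bounded first coordinate. -/
lemma cells_finite {u : ℝ} (hW : 0 < cellW u) (b : ℝ) (S : Set (Fin (K1 u) → ℕ))
    (h : ∀ c ∈ S, ∃ r, (∀ i, 1 ≤ i → i < K1 u → vecOf u c r (i + 1) ≤ vecOf u c r i) ∧
      vecOf u c r 1 ≤ b) : S.Finite := by
  refine Set.Finite.subset (Set.Finite.pi fun _ : Fin (K1 u) => Set.finite_Iic ⌈b / cellW u⌉₊)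
    fun c hc => ?_
  obtain ⟨r, hm, h1⟩ := h c hc
  have key : ∀ i, 1 ≤ i → i ≤ K1 u → vecOf u c r i ≤ b := by
    intro i hi
    induction i, hi using Nat.le_induction with
    | base => exact fun _ => h1
    | succ i hi ih => exact fun hk => (hm i hi (by omega)).trans (ih (by omega))
  intro j _
  have hj := key (j.1 + 1) (by omega) (by omega)
  rw [vecOf_low c r (by omega) (by omega), cvec, cext_succ] at hj
  refine Set.mem_Iic.2 ?_
  have : (c j : ℝ) ≤ (⌈b / cellW u⌉₊ : ℕ) := by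
    refine le_trans ?_ (Nat.le_ceil _)
    rw [le_div_iff₀ hW]
    linarith
  exact_mod_cast this

theorem lowerCells_subset : ∀ᶠ u : ℝ in atTop, ∀ R, lowerCells u R ⊆ upperCells u R := by
  filter_upwards [eventually_big] with u B R
  rintro c ⟨r, hr, h⟩
  have hW := B.cW
  exact ⟨r, hr,
    { mono := fun i h1 h2 => by linarith [h.mono i h1 h2, B.hgt_nonneg i]
      join := by linarith [h.join, B.hgt_nonneg (K1 u)]
      slack := fun i h1 h2 => by linarith [h.slack i h1 h2, B.hgt_nonneg i]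
      first := by linarith [h.first, B.hgt_nonneg 0]
      top := by linarith [h.top, B.hgt_nonneg 0] }⟩

theorem upperCells_finite : ∀ᶠ u : ℝ in atTop, ∀ R, (upperCells u R).Finite := by
  filter_upwards [eventually_big] with u B R
  refine cells_finite B.cW (u + 2 * hgt u 0) _ ?_
  rintro c ⟨r, -, h⟩
  exact ⟨r, h.mono, h.first⟩

/-- The upper conditions after the translation. -/
structure GWide (u : ℝ) (c : Fin (K1 u) → ℕ) (r : ℕ → ℝ) : Prop where
  mono : ∀ i, 1 ≤ i → i < K1 u → vecOf u c r (i + 1) + 5 * hgt u i ≤ vecOf u c r i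
  join : vecOf u c r (K1 u + 1) + 5 * hgt u (K1 u) ≤ vecOf u c r (K1 u)
  slack : ∀ i, 1 ≤ i → i ≤ K1 u → 4 * hgt u i ≤ slackAt (K2 u) (vecOf u c r) i
  first : vecOf u c r 1 ≤ u + 4 * u / LL u ^ 25
  top : chain (K2 u) (vecOf u c r) 0 ≤ u + 4 * u / LL u ^ 25

lemma exists_translation {u : ℝ} (B : Big u) : ∃ D : Fin (K1 u) → ℕ,
    ∀ c r, GUpper u c r → GWide u (c + D) r := by
  set K := K1 u with hK
  set W := cellW u with hW
  set e : ℕ → ℝ := fun i => ∑ l ∈ Finset.Icc i K, 7 * hgt u l with he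
  set y := renew K e with hy
  let D : Fin K → ℕ := fun j => ⌈y (j.1 + 1) / W⌉₊
  refine ⟨D, fun c r h => ?_⟩
  have hWp : 0 < W := B.cW
  have e0 : ∀ i, 0 ≤ e i := fun i =>
    Finset.sum_nonneg fun l _ => mul_nonneg (by norm_num) (B.hgt_nonneg l)
  have y0 : ∀ i, 0 ≤ y i := fun i => renew_nonneg _ _ _ fun l _ _ => e0 l
  have p_near : ∀ i, 1 ≤ i → i ≤ K →
      y i ≤ cvec u (c + D) i - cvec u c i ∧ cvec u (c + D) i - cvec u c i ≤ y i + W := by
    intro i h1 h2
    have ed : cvec u (c + D) i - cvec u c i = W * (⌈y i / W⌉₊ : ℕ) := by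
      have h12 : 1 ≤ i ∧ i ≤ K1 u := ⟨h1, h2⟩
      simp only [cvec, cext]
      rw [dif_pos h12, dif_pos h12]
      simp only [Pi.add_apply, D, show i - 1 + 1 = i by omega]
      push_cast
      ring
    rw [ed]
    have a1 := Nat.le_ceil (y i / W)
    have a2 := Nat.ceil_lt_add_one (div_nonneg (y0 i) hWp.le)
    constructor
    · calc y i = W * (y i / W) := by field_simp
        _ ≤ _ := mul_le_mul_of_nonneg_left a1 hWp.le
    · calc W * ((⌈y i / W⌉₊ : ℕ) : ℝ) ≤ W * (y i / W + 1) :=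
            mul_le_mul_of_nonneg_left a2.le hWp.le
        _ = y i + W := by field_simp
  have near : ∀ j, 1 ≤ j → j ≤ K → |cvec u (c + D) j - cvec u c j - y j| ≤ W := fun j h1 h2 => by
    rw [abs_le]; constructor <;> linarith [p_near j h1 h2]
  have hsmall : ∀ i, i ≤ K → 2 * LL u ^ 6 + 2 * W ≤ hgt u i := fun i hi => by
    refine le_trans ?_ (B.hgt_ge hi)
    have a1 : W ≤ LL u ^ 6 := pow_le_pow_right₀ B.L_one (by norm_num)
    have a2 : LL u * LL u ^ 6 ≤ LL u ^ 96 := by
      rw [← pow_succ']; exact pow_le_pow_right₀ B.L_one (by norm_num)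
    have a3 : 4 * LL u ^ 6 ≤ LL u * LL u ^ 6 :=
      mul_le_mul_of_nonneg_right (by linarith [B.hL]) (pow_pos B.Lpos _).le
    linarith
  have gap : ∀ i, 1 ≤ i → i < K → 7 * hgt u i ≤ y i - y (i + 1) := by
    intro i h1 h2
    have s1 := slackAt_renew K e h2.le
    have s2 := slackAt_renew K e (show i + 1 ≤ K by omega)
    have s3 := chain_step (y := y) h2 fun j _ _ => y0 j
    have s4 : e i = 7 * hgt u i + e (i + 1) := by
      simp only [he]
      rw [← Finset.insert_Icc_succ_left_eq_Icc h2.le, Finset.sum_insert (by simp)]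
      rfl
    have s5 : 0 ≤ coef 1 * y (i + 1) := mul_nonneg (coef_nonneg le_rfl) (y0 _)
    rw [← hy, slackAt] at s1 s2
    linarith
  have htop : chain K (fun j => cvec u (c + D) j - cvec u c j) 0 ≤ 450 * u / LL u ^ 29 := by
    refine (B.round_chain B.k12.le fun j a b => near j (by omega) b).trans ?_
    rw [hy, chain_renew_zero]
    have hterm : ∀ l ∈ Finset.Icc 1 K, gRen l * e l ≤ 8 * LL u * (7 * (u / LL u ^ 32)) := by
      intro l hl
      rw [Finset.mem_Icc] at hl
      rw [he, Finset.mul_sum]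
      refine (Finset.sum_le_card_nsmul _ _ (7 * (u / LL u ^ 32)) fun m hm => ?_).trans ?_
      · rw [Finset.mem_Icc] at hm
        have hg := B.g_hgt hm.2
        rw [← le_div_iff₀ (pow_pos B.Lpos _)] at hg
        have := mul_le_mul_of_nonneg_right (gRen_mono hl.1 hm.1) (B.hgt_nonneg m)
        linarith
      · rw [nsmul_eq_mul, Nat.card_Icc]
        refine mul_le_mul_of_nonneg_right (le_trans ?_ B.hk1) ?_
        · exact_mod_cast (show K + 1 - l ≤ K by omega)
        · have := B.hu; have := B.Lpos; positivity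
    refine le_trans (add_le_add_left (Finset.sum_le_card_nsmul _ _ _ hterm) _) ?_
    rw [nsmul_eq_mul, Nat.card_Icc, Nat.add_sub_cancel]
    have hu := B.hu
    have hL := B.Lpos
    have c1 : (K : ℝ) * (8 * LL u * (7 * (u / LL u ^ 32)))
        ≤ 8 * LL u * (8 * LL u * (7 * (u / LL u ^ 32))) :=
      mul_le_mul_of_nonneg_right B.hk1 (by positivity)
    have c2 : 8 * LL u * (8 * LL u * (7 * (u / LL u ^ 32))) ≤ 449 * u / LL u ^ 29 := by
      rw [show 8 * LL u * (8 * LL u * (7 * (u / LL u ^ 32))) = (448 * u / LL u ^ 29) * (1 / LL u) by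
        field_simp; ring]
      refine le_trans (mul_le_of_le_one_right (by positivity) ?_) ?_
      · rw [div_le_one hL]; linarith [B.L_one]
      · gcongr; norm_num
    have c3 : LL u ^ 6 ≤ u / LL u ^ 29 := by
      rw [le_div_iff₀ (by positivity), ← pow_add]
      exact (pow_le_pow_right₀ B.L_one (by norm_num)).trans B.h160
    have c4 : 449 * u / LL u ^ 29 + u / LL u ^ 29 = 450 * u / LL u ^ 29 := by ring
    linarith
  have hE : 450 * u / LL u ^ 29 * 3 + 2 * hgt u 0 + W ≤ 4 * u / LL u ^ 25 := by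
    have hu := B.hu
    have hL := B.Lpos
    have c2 : 2 * hgt u 0 ≤ 2 * (u / LL u ^ 25) := by
      have h40 : hgt u 0 ≤ u / LL u ^ 40 := by
        rw [le_div_iff₀ (by positivity)]; exact B.hgt_zero
      have : u / LL u ^ 40 ≤ u / LL u ^ 25 :=
        div_le_div_of_nonneg_left hu.le (by positivity) (pow_le_pow_right₀ B.L_one (by norm_num))
      linarith
    have c1 : 450 * u / LL u ^ 29 * 3 ≤ u / LL u ^ 25 := by
      rw [div_mul_eq_mul_div, div_le_div_iff₀ (by positivity) (by positivity),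
        show LL u ^ 29 = LL u ^ 4 * LL u ^ 25 by ring]
      have : (450 * 3 : ℝ) ≤ LL u ^ 4 :=
        le_trans (by norm_num) (pow_le_pow_left₀ (by norm_num) B.hL 4)
      nlinarith [mul_le_mul_of_nonneg_right this (mul_nonneg hu.le (pow_pos hL 25).le)]
    have c3 : W ≤ u / LL u ^ 25 := by
      rw [le_div_iff₀ (by positivity), hW, cellW, ← pow_add]
      exact (pow_le_pow_right₀ B.L_one (by norm_num)).trans B.h160
    have c4 : u / LL u ^ 25 + 2 * (u / LL u ^ 25) + u / LL u ^ 25 = 4 * u / LL u ^ 25 := by ring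
    linarith
  constructor
  · intro i h1 h2
    rw [vecOf_low (c + D) r h1 h2.le, vecOf_low (c + D) r (by omega) (by omega)]
    have := h.mono i h1 h2
    rw [vecOf_low c r h1 h2.le, vecOf_low c r (by omega) (by omega)] at this
    linarith [p_near i h1 h2.le, p_near (i + 1) (by omega) (by omega), gap i h1 h2,
      hsmall i h2.le, pow_pos B.Lpos 6]
  · have hK1 : 1 ≤ K := by have := B.k01; omega
    rw [vecOf_high (c + D) r (Nat.lt_succ_self _), vecOf_low (c + D) r hK1 le_rfl]
    have := h.join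
    rw [vecOf_high c r (Nat.lt_succ_self _), vecOf_low c r hK1 le_rfl] at this
    have h7 : 7 * hgt u K ≤ y K := by
      rw [hy, renew_top]
      simp [he]
    linarith [p_near K hK1 le_rfl, hsmall K le_rfl, pow_pos B.Lpos 6]
  · intro i h1 h2
    rw [slack_change B c (c + D) r h1 h2]
    have s1 := B.round_slack B.k12.le (near i h1 h2) fun j a b => near j (by omega) b
    rw [hy, slackAt_renew K e h2] at s1
    have s2 : 7 * hgt u i ≤ e i := by
      rw [he]
      exact Finset.single_le_sum (f := fun l => 7 * hgt u l)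
        (fun l _ => mul_nonneg (by norm_num) (B.hgt_nonneg l)) (Finset.mem_Icc.2 ⟨le_rfl, h2⟩)
    linarith [h.slack i h1 h2, hsmall i h2, pow_pos B.Lpos 6]
  · have hK1 : 1 ≤ K := by have := B.k01; omega
    rw [vecOf_low (c + D) r le_rfl hK1]
    have := h.first
    rw [vecOf_low c r le_rfl hK1] at this
    have hp := first_le_three_chain (y := fun j => cvec u (c + D) j - cvec u c j) hK1
      fun j a b => le_trans (y0 j) (p_near j a b).1
    linarith
  · rw [chain_change B c (c + D) r (Nat.zero_le _)]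
    have hp : 0 ≤ chain K (fun j => cvec u (c + D) j - cvec u c j) 0 :=
      chain_nonneg fun j a b => le_trans (y0 j) (p_near j a b).1
    linarith [h.top, B.cW]


/-- The number of subdivisions of a cell. -/
noncomputable def dilM (u : ℝ) : ℕ := ⌈LL u ^ 15⌉₊

/-- Every displaced coordinate is short: the thin set. -/
def GThin (u : ℝ) (c : Fin (K1 u) → ℕ) : Prop :=
  ∀ i, 1 ≤ i → i ≤ K0 u →
    gRen i * dilVec (K1 u) (K0 u) (cvec u c) i ≤ 4 * (u / LL u ^ 8)

lemma dilOK_of_wide {u : ℝ} (B : Big u) {c : Fin (K1 u) → ℕ} {r : ℕ → ℝ} (hr : TailVec u r)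
    (h : GWide u c r) : DilOK (K1 u) (K0 u) (cvec u c) where
  lt := B.k01
  nonneg := cvec_nonneg B c
  slack i h1 h2 := by
    have hi : i ≤ K1 u := h2.trans B.k01.le
    linarith [(slack_tail B c hr h1 hi).1, h.slack i h1 hi, B.hgt_nonneg i]
  mono := by
    have hk0 := B.k0_pos
    have := h.mono (K0 u) hk0 B.k01
    rw [vecOf_low c r hk0 B.k01.le, vecOf_low c r (by omega) (by have := B.k01; omega)] at this
    linarith [B.hgt_nonneg (K0 u)]

lemma gLower_of_dilated {u : ℝ} (B : Big u) {c c' : Fin (K1 u) → ℕ} {r : ℕ → ℝ}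
    (hr : TailVec u r) (h : GWide u c r) (hn : ¬ GThin u c)
    (hlow : ∀ i, 1 ≤ i → i ≤ K0 u → |cvec u c' i - (cvec u c i
      - 1 / ((dilM u : ℝ) + 1) * dilVec (K1 u) (K0 u) (cvec u c) i)| ≤ cellW u)
    (hhigh : ∀ i, K0 u < i → cvec u c' i = cvec u c i) : GLower u c' r := by
  set W := cellW u with hW
  set t : ℝ := 1 / ((dilM u : ℝ) + 1) with ht
  set d := dilVec (K1 u) (K0 u) (cvec u c) with hd
  have hdil := dilOK_of_wide B hr h
  have hL := B.hL
  have hu := B.hu
  have hLp := B.Lpos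
  have hk01 := B.k01
  have hk0 := B.k0_pos
  have hWp : 0 < W := B.cW
  have hM : LL u ^ 15 ≤ (dilM u : ℝ) := Nat.le_ceil _
  have hM' : (dilM u : ℝ) < LL u ^ 15 + 1 := Nat.ceil_lt_add_one (by positivity)
  have hL15 : 1000 ≤ LL u ^ 15 := hL.trans (le_self_pow₀ B.L_one (by norm_num))
  have ht0 : 0 ≤ t := by positivity
  have ht1 : t ≤ 1 / 2 := by
    rw [ht, div_le_div_iff₀ (by positivity) (by norm_num)]; linarith
  have ht2 : 1 / (2 * LL u ^ 15) ≤ t := by
    rw [ht]; exact div_le_div_of_nonneg_left zero_le_one (by positivity) (by linarith)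
  have htL : t * LL u ^ 132 ≤ LL u ^ 132 :=
    mul_le_of_le_one_left (by positivity) (by linarith)
  have hW6 : W ≤ LL u ^ 6 := pow_le_pow_right₀ B.L_one (by norm_num)
  have hsm : ∀ i, i ≤ K1 u → 4 * LL u ^ 6 ≤ hgt u i := fun i hi => by
    refine le_trans ?_ (B.hgt_ge hi)
    calc 4 * LL u ^ 6 ≤ LL u * LL u ^ 6 := by gcongr; linarith
      _ = LL u ^ 7 := by ring
      _ ≤ LL u ^ 96 := pow_le_pow_right₀ B.L_one (by norm_num)
  have hbg : ∀ i, i ≤ K0 u → LL u ^ 132 + 2 * LL u ^ 6 ≤ hgt u i := fun i hi => by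
    refine le_trans ?_ (B.hgt_ge0 hi)
    have a1 : LL u ^ 6 ≤ LL u ^ 132 := pow_le_pow_right₀ B.L_one (by norm_num)
    calc LL u ^ 132 + 2 * LL u ^ 6 ≤ LL u * LL u ^ 132 := by
          nlinarith [pow_pos hLp 132]
      _ = LL u ^ 133 := by ring
      _ ≤ LL u ^ 192 := pow_le_pow_right₀ B.L_one (by norm_num)
  set p : ℕ → ℝ := fun j => cvec u c' j - cvec u c j with hp
  set z : ℕ → ℝ := fun j => -t * d j with hz
  have near : ∀ j, 1 ≤ j → |p j - z j| ≤ W := fun j hj => by
    rcases Nat.lt_or_ge (K0 u) j with hk | hk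
    · simp only [hp, hz, hd, hhigh j hk, dilVec_high hk]
      simpa using hWp.le
    · have e : p j - z j = cvec u c' j - (cvec u c j - t * d j) := by
        simp only [hp, hz]; ring
      rw [e]; exact hlow j hj hk
  have slk : ∀ i, 1 ≤ i → i ≤ K1 u → hgt u i ≤ slackAt (K2 u) (vecOf u c' r) i := by
    intro i h1 hi
    rw [slack_change B c c' r h1 hi]
    have S4 := h.slack i h1 hi
    rcases Nat.lt_or_ge (K0 u) i with hk | hk
    · have e : slackAt (K1 u) p i = 0 := by
        unfold slackAt chain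
        rw [Finset.sum_eq_zero fun j hj => ?_]
        · simp [hp, hhigh i hk]
        · rw [Finset.mem_Ioc] at hj
          simp [hp, hhigh j (by omega)]
      rw [← hp, e]
      linarith [B.hgt_nonneg i]
    · have s1 := B.round_slack B.k12.le (near i h1) fun j a _ => near j (by omega)
      have e : slackAt (K1 u) z i = -t * slackAt (K1 u) d i := by
        simp only [slackAt, hz, chain_smul]; ring
      rw [e, hd, slackAt_dilVec hk01.le h1 hk] at s1
      have a1 : deltaVec (K1 u) (K0 u) (cvec u c) i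
          ≤ slackAt (K2 u) (vecOf u c r) i + LL u ^ 132 :=
        deltaVec_le.trans (slack_tail B c hr h1 hi).2
      have a2 := mul_le_mul_of_nonneg_left a1 ht0
      have a3 := mul_le_mul_of_nonneg_right ht1
        (show 0 ≤ slackAt (K2 u) (vecOf u c r) i by linarith [B.hgt_nonneg i])
      rw [← hp]
      linarith [hbg i hk]
  have hgain : u / (2 * LL u ^ 23) ≤ t * (u / LL u ^ 8) := by
    refine le_trans (le_of_eq ?_) (mul_le_mul_of_nonneg_right ht2 (by positivity))
    field_simp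
  have hsmall : 4 * u / LL u ^ 25 + hgt u 0 + 2 * LL u ^ 6 ≤ u / (2 * LL u ^ 23) := by
    have b1 : hgt u 0 ≤ u / LL u ^ 25 := by
      rw [le_div_iff₀ (by positivity)]
      exact le_trans (mul_le_mul_of_nonneg_left (pow_le_pow_right₀ B.L_one (by norm_num))
        (B.hgt_nonneg 0)) B.hgt_zero
    have b2 : LL u ^ 6 ≤ u / LL u ^ 25 := by
      rw [le_div_iff₀ (by positivity), ← pow_add]
      exact (pow_le_pow_right₀ B.L_one (by norm_num)).trans B.h160
    have b3 : 7 * u / LL u ^ 25 ≤ u / (2 * LL u ^ 23) := by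
      rw [div_le_div_iff₀ (by positivity) (by positivity),
        show LL u ^ 25 = LL u ^ 2 * LL u ^ 23 by ring]
      nlinarith [mul_le_mul_of_nonneg_right (show (14 : ℝ) ≤ LL u ^ 2 by nlinarith)
        (mul_nonneg hu.le (pow_pos hLp 23).le)]
    have b4 : 4 * u / LL u ^ 25 + u / LL u ^ 25 + 2 * (u / LL u ^ 25) = 7 * u / LL u ^ 25 := by
      ring
    linarith
  obtain ⟨i, h1, hi, hbig⟩ : ∃ i, 1 ≤ i ∧ i ≤ K0 u ∧ 4 * (u / LL u ^ 8) < gRen i * d i := by
    by_contra hc
    exact hn fun i a b => not_lt.1 fun hlt => hc ⟨i, a, b, hlt⟩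
  have e8 : 0 ≤ u / LL u ^ 8 := by positivity
  have hS : u / LL u ^ 8 ≤ chain (K1 u) d 0 := by
    have := gRen_mul_dilVec_le_top hdil h1 hi
    rw [← hd] at this
    linarith
  have hd1 : u / LL u ^ 8 ≤ d 1 := by
    have a1 := gRen_mul_dilVec_le_first hdil h1 hi
    rw [← hd] at a1
    have a2 : gRen i ≤ 4 * gRen (i - 1) := by
      have := gRen_succ_le (i - 1)
      rwa [show i - 1 + 1 = i by omega] at this
    have a3 := mul_le_mul_of_nonneg_right a2 (dilVec_nonneg hdil i)
    rw [← hd] at a3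
    linarith
  refine
    { pos := fun j => ?_, mono := fun m h1 h2 => ?_, join := ?_, slack := slk, first := ?_,
      top := ?_ }
  · have a1 := slk (j.1 + 1) (by omega) (by omega)
    have a2 : 0 ≤ chain (K2 u) (vecOf u c' r) (j.1 + 1) :=
      chain_nonneg fun l _ _ => vecOf_nonneg B c' hr l
    have a3 : 0 < hgt u (j.1 + 1) := Real.rpow_pos_of_pos (div_pos hu (gRen_pos _)) _
    rw [slackAt, vecOf_low c' r (by omega) (by omega), cvec, cext_succ] at a1
    by_contra hc
    rw [show c' j = 0 by omega] at a1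
    simp at a1
    linarith
  · have g := h.mono m h1 h2
    rw [vecOf_low c r h1 h2.le, vecOf_low c r (by omega) (by omega)] at g
    rw [vecOf_low c' r h1 h2.le, vecOf_low c' r (by omega) (by omega)]
    have hh := hsm m h2.le
    rcases Nat.lt_or_ge (K0 u) m with hk | hk
    · rw [hhigh m hk, hhigh (m + 1) (by omega)]
      linarith [B.hgt_nonneg m]
    · have n1 := abs_le.1 (near m h1)
      have n2 := abs_le.1 (near (m + 1) (by omega))
      simp only [hp, hz] at n1 n2
      have a1 := dilVec_gap hdil h1 hk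
      rw [← hd] at a1
      have a2 := mul_le_mul_of_nonneg_left a1 ht0
      have a3 := mul_le_mul_of_nonneg_right ht1
        (show 0 ≤ cvec u c m - cvec u c (m + 1) by linarith [B.hgt_nonneg m])
      linarith [B.hgt_nonneg m]
  · have g := h.join
    rw [vecOf_high c r (Nat.lt_succ_self _), vecOf_low c r (by omega) le_rfl] at g
    rw [vecOf_high c' r (Nat.lt_succ_self _), vecOf_low c' r (by omega) le_rfl, hhigh _ hk01]
    linarith [B.hgt_nonneg (K1 u)]
  · have n1 := abs_le.1 (near 1 le_rfl)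
    simp only [hp, hz] at n1
    have a1 := mul_le_mul_of_nonneg_left hd1 ht0
    have g := h.first
    rw [vecOf_low c r le_rfl (by omega)] at g
    rw [vecOf_low c' r le_rfl (by omega)]
    linarith [pow_pos hLp 6]
  · rw [chain_change B c c' r (Nat.zero_le _), ← hp]
    have a0 := B.round_chain B.k12.le (i := 0) (fun j a _ => near j (by omega))
    have e : chain (K1 u) z 0 = -t * chain (K1 u) d 0 := by
      simp only [hz, chain_smul]
    rw [e] at a0
    have a1 := mul_le_mul_of_nonneg_left hS ht0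
    linarith [h.top, pow_pos hLp 6]

/-- Non-thin wide cells are at most `(1 + 1/L)` times the lower cells. -/
lemma card_good_le {u : ℝ} (B : Big u) {R : Set (ℕ → ℝ)} (hR : ∀ r ∈ R, TailVec u r)
    (A Bs : Finset (Fin (K1 u) → ℕ))
    (hA : ∀ c ∈ A, (∃ r ∈ R, GWide u c r) ∧ ¬ GThin u c)
    (hB : ∀ c, c ∈ lowerCells u R → c ∈ Bs) :
    (A.card : ℝ) ≤ (1 + 1 / LL u) * Bs.card := by
  set W := cellW u with hW
  set M := dilM u with hM
  let s : (Fin (K1 u) → ℕ) → ℕ → ℕ := fun c i =>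
    ⌊muVec (K1 u) (K0 u) (cvec u c) i / W⌋₊
  let n : (Fin (K1 u) → ℕ) → (Fin (K0 u) → Fin M) → Fin (K0 u) → ℕ := fun c j i =>
    M * c (Fin.castLE B.k01.le i) + (j i).1 + s c (i.1 + 1)
  let img : (Fin (K1 u) → ℕ) → (Fin (K0 u) → Fin M) → Fin (K1 u) → ℕ := fun c j i =>
    if h : i.1 < K0 u then n c j ⟨i.1, h⟩ / (M + 1) else c i
  let Φ : (Fin (K1 u) → ℕ) × (Fin (K0 u) → Fin M) →
      (Fin (K1 u) → ℕ) × (Fin (K0 u) → Fin (M + 1)) := fun q =>
    (img q.1 q.2, fun i => ⟨n q.1 q.2 i % (M + 1), Nat.mod_lt _ (Nat.succ_pos _)⟩)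
  have hmaps : ∀ q ∈ A ×ˢ (Finset.univ : Finset (Fin (K0 u) → Fin M)),
      Φ q ∈ Bs ×ˢ (Finset.univ : Finset (Fin (K0 u) → Fin (M + 1))) := by
    rintro ⟨c, j⟩ hq
    rw [Finset.mem_product] at hq ⊢
    obtain ⟨⟨r, hr, hw⟩, hn⟩ := hA c hq.1
    refine ⟨hB _ ⟨r, hr, gLower_of_dilated B (hR r hr) hw hn ?_ ?_⟩, Finset.mem_univ _⟩
    · intro i h1 hi
      obtain ⟨i, rfl⟩ : ∃ l, i = l + 1 := ⟨i - 1, by omega⟩
      have hl : i < K1 u := by have := B.k01; omega
      have e1 : cvec u (Φ (c, j)).1 (i + 1) = W * (n c j ⟨i, by omega⟩ / (M + 1) : ℕ) := by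
        rw [cvec, cext_succ _ ⟨i, hl⟩]
        simp only [Φ, img, dif_pos (show i < K0 u by omega), hW]
      have e2 : cvec u c (i + 1) = W * (c ⟨i, hl⟩ : ℕ) := by rw [cvec, cext_succ c ⟨i, hl⟩]
      have e3 : dilVec (K1 u) (K0 u) (cvec u c) (i + 1)
          = W * (c ⟨i, hl⟩ : ℕ) - muVec (K1 u) (K0 u) (cvec u c) (i + 1) := by
        rw [muVec, e2]; ring
      rw [e1, e2, e3]
      exact round_dilate B.cW (muVec_nonneg (dilOK_of_wide B (hR r hr) hw) _ (by omega))
        (j ⟨i, by omega⟩).2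
    · intro i hi
      rcases Nat.lt_or_ge (K1 u) i with hk | hk
      · rw [cvec_high _ hk, cvec_high _ hk]
      · obtain ⟨i, rfl⟩ : ∃ l, i = l + 1 := ⟨i - 1, by omega⟩
        rw [cvec, cvec, cext_succ _ ⟨i, by omega⟩, cext_succ c ⟨i, by omega⟩]
        simp only [Φ, img, dif_neg (show ¬ i < K0 u by omega)]
  have hinj : Set.InjOn Φ
      (A ×ˢ (Finset.univ : Finset (Fin (K0 u) → Fin M)) : Set _) := by
    rintro ⟨c, j⟩ _ ⟨c', j'⟩ _ he
    simp only [Φ, Prod.mk.injEq] at he
    obtain ⟨he1, he2⟩ := he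
    have hh : ∀ i : Fin (K1 u), ¬ i.1 < K0 u → c i = c' i := fun i hi => by
      have := congrFun he1 i
      simp only [img, dif_neg hi] at this
      exact this
    have hs : ∀ l, 1 ≤ l → s c l = s c' l := fun l hl => by
      simp only [s]
      rw [muVec_congr B.k01 (fun m hm => ?_) l hl]
      rcases Nat.lt_or_ge (K1 u) m with hk | hk
      · rw [cvec_high _ hk, cvec_high _ hk]
      · obtain ⟨m, rfl⟩ : ∃ l, m = l + 1 := ⟨m - 1, by omega⟩
        rw [cvec, cvec, cext_succ c ⟨m, by omega⟩, cext_succ c' ⟨m, by omega⟩,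
          hh ⟨m, by omega⟩ (show ¬ m < K0 u by omega)]
    have hn : ∀ i : Fin (K0 u), c (Fin.castLE B.k01.le i) = c' (Fin.castLE B.k01.le i)
        ∧ j i = j' i := fun i => by
      have a1 := congrFun he1 (Fin.castLE B.k01.le i)
      have a2 := congrArg Fin.val (congrFun he2 i)
      simp only [img, Fin.val_castLE, dif_pos i.2] at a1
      have a3 : n c j i = n c' j' i := by
        rw [← Nat.div_add_mod (n c j i) (M + 1), ← Nat.div_add_mod (n c' j' i) (M + 1)]
        simp only [Fin.eta] at a1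
        rw [a1]
        exact congrArg _ a2
      simp only [n, hs (i.1 + 1) (by omega)] at a3
      have a4 : M * c (Fin.castLE B.k01.le i) + (j i).1
          = M * c' (Fin.castLE B.k01.le i) + (j' i).1 := by omega
      have hM0 : 0 < M := lt_of_le_of_lt (Nat.zero_le _) (j i).2
      have a5 := congrArg (· / M) a4
      simp only [Nat.mul_add_div hM0, Nat.div_eq_of_lt (j i).2, Nat.div_eq_of_lt (j' i).2,
        add_zero] at a5
      rw [a5] at a4
      exact ⟨a5, Fin.ext (by omega)⟩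
    refine Prod.ext (funext fun i => ?_) (funext fun i => (hn i).2)
    by_cases hi : i.1 < K0 u
    · exact (hn ⟨i.1, hi⟩).1
    · exact hh i hi
  have hc := Finset.card_le_card_of_injOn Φ (fun q hq => hmaps q hq) (by simpa using hinj)
  rw [Finset.card_product, Finset.card_product, Finset.card_univ, Finset.card_univ,
    Fintype.card_fun, Fintype.card_fun, Fintype.card_fin, Fintype.card_fin, Fintype.card_fin] at hc
  have hc' : (A.card : ℝ) * (M : ℝ) ^ K0 u ≤ Bs.card * ((M : ℝ) + 1) ^ K0 u := by exact_mod_cast hc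
  have hL := B.hL
  have hLp := B.Lpos
  have hMp : LL u ^ 15 ≤ (M : ℝ) := Nat.le_ceil _
  have hM0 : (0 : ℝ) < M := lt_of_lt_of_le (by positivity) hMp
  have hx : (K0 u : ℝ) * (1 / M) ≤ 1 / (2 * LL u) := by
    have a0 : (K0 u : ℝ) ≤ 8 * LL u := le_trans (by exact_mod_cast B.k01.le) B.hk1
    rw [mul_one_div, div_le_div_iff₀ hM0 (by positivity)]
    have a1 : LL u ^ 3 ≤ LL u ^ 15 := pow_le_pow_right₀ B.L_one (by norm_num)
    nlinarith [mul_le_mul_of_nonneg_right a0 (show (0 : ℝ) ≤ 2 * LL u by positivity)]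
  have hpow : ((M : ℝ) + 1) ^ K0 u ≤ (1 + 1 / LL u) * (M : ℝ) ^ K0 u := by
    rw [show (M : ℝ) + 1 = (1 + 1 / M) * M by field_simp, mul_pow]
    refine mul_le_mul_of_nonneg_right ?_ (by positivity)
    have a1 : (1 + 1 / (M : ℝ)) ^ K0 u ≤ Real.exp (K0 u * (1 / M)) := by
      rw [Real.exp_nat_mul]
      exact pow_le_pow_left₀ (by positivity) (by linarith [Real.add_one_le_exp (1 / (M : ℝ))]) _
    have a0 : 0 ≤ (K0 u : ℝ) * (1 / M) := by positivity
    have a1' : (K0 u : ℝ) * (1 / M) ≤ 1 := hx.trans (by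
      rw [div_le_one (by positivity)]; linarith)
    have a2 := Real.abs_exp_sub_one_le (x := (K0 u : ℝ) * (1 / M)) (by rwa [abs_of_nonneg a0])
    rw [abs_of_nonneg a0] at a2
    have a3 := (abs_le.1 a2).2
    have a4 : 2 * ((K0 u : ℝ) * (1 / M)) ≤ 1 / LL u := by
      refine le_trans (mul_le_mul_of_nonneg_left hx (by norm_num)) (le_of_eq ?_)
      field_simp
    linarith
  have := mul_le_mul_of_nonneg_left hpow (Nat.cast_nonneg Bs.card)
  exact le_of_mul_le_mul_right (by linarith) (pow_pos hM0 (K0 u))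

/-- The bound for one coordinate of a thin cell. -/
noncomputable def thinB (u : ℝ) (i : ℕ) : ℝ :=
  if i ≤ K0 u then 6 * u / (LL u ^ 8 * gRen i * cellW u) else 4 * u / (gRen i * cellW u)

lemma card_thin_le {u : ℝ} (B : Big u) {R : Set (ℕ → ℝ)} (hR : ∀ r ∈ R, TailVec u r)
    (A : Finset (Fin (K1 u) → ℕ)) (hA : ∀ c ∈ A, (∃ r ∈ R, GWide u c r) ∧ GThin u c) :
    (A.card : ℝ) ≤ ∏ i : Fin (K1 u), thinB u (i.1 + 1) := by
  set W := cellW u with hW
  have hWp : 0 < W := B.cW
  have hL := B.hL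
  have hu := B.hu
  have hLp := B.Lpos
  let x : Fin (K1 u) → ℝ := fun i =>
    if i.1 < K0 u then 4 * u / (LL u ^ 8 * gRen (i.1 + 1) * W)
    else 3 * u / (gRen (i.1 + 1) * W)
  let N : Fin (K1 u) → ℕ := fun i => ⌊x i⌋₊ + (if i.1 < K0 u then 2 else 1)
  let f : (Fin (K1 u) → ℕ) → Fin (K1 u) → ℕ := fun c i =>
    if i.1 < K0 u then c i - ⌊muVec (K1 u) (K0 u) (cvec u c) (i.1 + 1) / W⌋₊ else c i
  have hs : ∀ c ∈ A, ∀ i : Fin (K1 u), i.1 < K0 u →
      ⌊muVec (K1 u) (K0 u) (cvec u c) (i.1 + 1) / W⌋₊ ≤ c i := fun c hc i _ => by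
    obtain ⟨⟨r, hr, hw⟩, -⟩ := hA c hc
    refine Nat.floor_le_of_le ?_
    have := dilVec_nonneg (dilOK_of_wide B (hR r hr) hw) (i.1 + 1)
    rw [div_le_iff₀ hWp, muVec, cvec, cext_succ]
    linarith
  have hmap : ∀ c ∈ A, f c ∈ Fintype.piFinset fun i => Finset.range (N i) := fun c hc => by
    obtain ⟨⟨r, hr, hw⟩, ht⟩ := hA c hc
    have hdil := dilOK_of_wide B (hR r hr) hw
    refine Fintype.mem_piFinset.2 fun i => Finset.mem_range.2 ?_
    have hG := gRen_pos (i.1 + 1)
    by_cases hi : i.1 < K0 u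
    · simp only [f, N, x, if_pos hi]
      set μ := muVec (K1 u) (K0 u) (cvec u c) (i.1 + 1) with hμ
      have hd := ht (i.1 + 1) (by omega) (by omega)
      have e : dilVec (K1 u) (K0 u) (cvec u c) (i.1 + 1) = W * (c i : ℕ) - μ := by
        rw [hμ, muVec, cvec, cext_succ]; ring
      rw [e] at hd
      have a1 : ((c i - ⌊μ / W⌋₊ : ℕ) : ℝ) < 4 * u / (LL u ^ 8 * gRen (i.1 + 1) * W) + 1 := by
        rw [Nat.cast_sub (hs c hc i hi)]
        have a2 := Nat.lt_floor_add_one (μ / W)
        have a3 : (c i : ℝ) - μ / W ≤ 4 * u / (LL u ^ 8 * gRen (i.1 + 1) * W) := by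
          rw [show (c i : ℝ) - μ / W = gRen (i.1 + 1) * (W * (c i : ℕ) - μ) /
            (gRen (i.1 + 1) * W) by field_simp,
            show 4 * u / (LL u ^ 8 * gRen (i.1 + 1) * W) = 4 * (u / LL u ^ 8) /
            (gRen (i.1 + 1) * W) by field_simp]
          exact div_le_div_of_nonneg_right hd (by positivity)
        linarith
      have a4 := Nat.lt_floor_add_one (4 * u / (LL u ^ 8 * gRen (i.1 + 1) * W))
      have a5 : ((c i - ⌊μ / W⌋₊ : ℕ) : ℝ) <
          ((⌊4 * u / (LL u ^ 8 * gRen (i.1 + 1) * W)⌋₊ + 2 : ℕ) : ℝ) := by push_cast; linarith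
      exact_mod_cast a5
    · simp only [f, N, x, if_neg hi]
      have hy : ∀ j, 0 ≤ vecOf u c r j := vecOf_nonneg B c (hR r hr)
      have b1 := gRen_mul_coord_le (K2 u) (vecOf u c r) (fun _ => 0) (i := i.1 + 1) (by omega)
        (le_trans (by omega) B.k12.le) hy fun l l1 l2 => by
          linarith [hw.slack l l1 (by omega), B.hgt_nonneg l]
      simp only [mul_zero, Finset.sum_const_zero, add_zero] at b1
      rw [vecOf_low c r (by omega) (by omega), cvec, cext_succ] at b1
      have b2 : chain (K2 u) (vecOf u c r) 0 ≤ 3 * u := by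
        refine hw.top.trans ?_
        have : 4 * u / LL u ^ 25 ≤ 2 * u := by
          rw [div_le_iff₀ (by positivity)]
          nlinarith [mul_le_mul_of_nonneg_left (one_le_pow₀ B.L_one (n := 25) |>.trans' (le_refl 1))
            hu.le, mul_le_mul_of_nonneg_left (show 2 ≤ LL u ^ 25 from
              le_trans (by linarith) (le_self_pow₀ B.L_one (n := 25) (by norm_num))) hu.le]
        linarith
      have b3 : (c i : ℝ) ≤ 3 * u / (gRen (i.1 + 1) * W) := by
        rw [le_div_iff₀ (by positivity)]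
        linarith
      exact Nat.lt_succ_iff.2 (Nat.le_floor b3)
  have hinj : Set.InjOn f (A : Set (Fin (K1 u) → ℕ)) := by
    intro c hc c' hc' he
    have hh : ∀ i : Fin (K1 u), ¬ i.1 < K0 u → c i = c' i := fun i hi => by
      have := congrFun he i
      simpa only [f, if_neg hi] using this
    funext i
    by_cases hi : i.1 < K0 u
    · have := congrFun he i
      simp only [f, if_pos hi] at this
      have e : muVec (K1 u) (K0 u) (cvec u c) (i.1 + 1)
          = muVec (K1 u) (K0 u) (cvec u c') (i.1 + 1) := by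
        refine muVec_congr B.k01 (fun m hm => ?_) _ (by omega)
        rcases Nat.lt_or_ge (K1 u) m with hk | hk
        · rw [cvec_high _ hk, cvec_high _ hk]
        · obtain ⟨m, rfl⟩ : ∃ l, m = l + 1 := ⟨m - 1, by omega⟩
          rw [cvec, cvec, cext_succ c ⟨m, by omega⟩, cext_succ c' ⟨m, by omega⟩,
            hh ⟨m, by omega⟩ (show ¬ m < K0 u by omega)]
      have h1 := hs c (Finset.mem_coe.1 hc) i hi
      have h2 := hs c' (Finset.mem_coe.1 hc') i hi
      rw [e] at this h1
      omega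
    · exact hh i hi
  have hcard := Finset.card_le_card_of_injOn f hmap hinj
  rw [Fintype.card_piFinset] at hcard
  refine (Nat.cast_le.2 hcard).trans ?_
  rw [Nat.cast_prod]
  refine Finset.prod_le_prod (fun i _ => Nat.cast_nonneg _) fun i _ => ?_
  rw [Finset.card_range]
  have hG := gRen_pos (i.1 + 1)
  simp only [N, x, thinB]
  by_cases hi : i.1 < K0 u
  · rw [if_pos hi, if_pos hi, if_pos (show i.1 + 1 ≤ K0 u by omega)]
    push_cast
    have h1 : 1 ≤ u / (LL u ^ 8 * gRen (i.1 + 1) * W) := by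
      rw [one_le_div (by positivity)]
      have g := B.g_le0 (show i.1 + 1 ≤ K0 u by omega)
      rw [le_div_iff₀ (by positivity)] at g
      have : LL u ^ 8 * W ≤ LL u ^ 256 := by
        rw [hW, cellW, ← pow_add]; exact pow_le_pow_right₀ B.L_one (by norm_num)
      nlinarith
    have h2 := Nat.floor_le (show 0 ≤ 4 * u / (LL u ^ 8 * gRen (i.1 + 1) * W) by positivity)
    rw [show 6 * u / (LL u ^ 8 * gRen (i.1 + 1) * W)
      = 4 * u / (LL u ^ 8 * gRen (i.1 + 1) * W) + 2 * (u / (LL u ^ 8 * gRen (i.1 + 1) * W)) by ring]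
    linarith
  · rw [if_neg hi, if_neg hi, if_neg (show ¬ i.1 + 1 ≤ K0 u by omega)]
    push_cast
    have h1 : 1 ≤ u / (gRen (i.1 + 1) * W) := by
      rw [one_le_div (by positivity)]
      have g := B.g_le (show i.1 + 1 ≤ K1 u by omega)
      rw [le_div_iff₀ (by positivity)] at g
      have : W ≤ LL u ^ 128 := pow_le_pow_right₀ B.L_one (by norm_num)
      nlinarith
    have h2 := Nat.floor_le (show 0 ≤ 3 * u / (gRen (i.1 + 1) * W) by positivity)
    rw [show 4 * u / (gRen (i.1 + 1) * W)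
      = 3 * u / (gRen (i.1 + 1) * W) + u / (gRen (i.1 + 1) * W) by ring]
    linarith

lemma zero_tail {u : ℝ} (B : Big u) : TailVec u (fun _ => 0) := fun i _ =>
  ⟨le_rfl, div_nonneg (mul_nonneg (by norm_num) B.hu.le) (gRen_pos _).le, le_rfl⟩

/-- A box of lower cells with zero tail. -/
lemma box_le_lower {u : ℝ} (B : Big u) :
    ∏ i : Fin (K1 u), u / (20 * LL u ^ 3 * gRen (i.1 + 1) * cellW u)
      ≤ ((lowerCells u {fun _ => 0}).ncard : ℝ) := by
  set W := cellW u with hW
  set K := K1 u with hK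
  have hWp : 0 < W := B.cW
  have hL := B.hL
  have hu := B.hu
  have hLp := B.Lpos
  let w : ℕ → ℝ := fun l => u / (LL u ^ 3 * gRen l)
  let N : Fin K → ℕ := fun i => ⌊w (i.1 + 1) / (10 * W)⌋₊
  let kv : (Fin K → ℕ) → ℕ → ℕ := fun e l => ⌈w l / W⌉₊ + cext e l
  let S : (Fin K → ℕ) → ℕ → ℝ := fun e i => ∑ l ∈ Finset.Ioc i K, gRen (l - i) * (kv e l : ℝ)
  let cOf : (Fin K → ℕ) → Fin K → ℕ := fun e i => kv e (i.1 + 1) + ⌈S e (i.1 + 1)⌉₊
  have hw0 : ∀ l, 0 < w l := fun l => div_pos hu (mul_pos (pow_pos hLp 3) (gRen_pos l))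
  have hw : ∀ l, l ≤ K → LL u ^ 29 * hgt u l ≤ w l := fun l hl => by
    simp only [w]
    rw [le_div_iff₀ (mul_pos (pow_pos hLp 3) (gRen_pos l))]
    calc LL u ^ 29 * hgt u l * (LL u ^ 3 * gRen l) = gRen l * hgt u l * LL u ^ 32 := by ring
      _ ≤ u := B.g_hgt hl
  have hW6 : W ≤ LL u ^ 6 := pow_le_pow_right₀ B.L_one (by norm_num)
  have hsm : ∀ l, l ≤ K → 20 * (LL u ^ 6) ≤ hgt u l := fun l hl => by
    refine le_trans ?_ (B.hgt_ge hl)
    calc 20 * LL u ^ 6 ≤ LL u * LL u ^ 6 := by gcongr; linarith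
      _ = LL u ^ 7 := by ring
      _ ≤ LL u ^ 96 := pow_le_pow_right₀ B.L_one (by norm_num)
  have h20 : ∀ l, l ≤ K → 20 * hgt u l ≤ w l := fun l hl => by
    refine le_trans (mul_le_mul_of_nonneg_right ?_ (B.hgt_nonneg l)) (hw l hl)
    exact le_trans (by linarith) (le_self_pow₀ B.L_one (by norm_num))
  have hlow : ∀ e ∈ Fintype.piFinset (fun i => Finset.range (N i)),
      cOf e ∈ lowerCells u {fun _ => 0} := by
    intro e he
    set z : ℕ → ℝ := fun l => W * (kv e l : ℝ) with hz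
    set y := renew K z with hy
    have hz1 : ∀ l, 1 ≤ l → l ≤ K → w l ≤ z l ∧ z l ≤ 11 / 10 * w l + W := by
      intro l h1 hl
      obtain ⟨m, rfl⟩ : ∃ m, l = m + 1 := ⟨l - 1, by omega⟩
      have e1 : cext e (m + 1) = e ⟨m, by omega⟩ := cext_succ e ⟨m, by omega⟩
      have a1 := Nat.le_ceil (w (m + 1) / W)
      have a2 := Nat.ceil_lt_add_one (div_nonneg (hw0 (m + 1)).le hWp.le)
      have a3 : (e ⟨m, by omega⟩ : ℝ) ≤ w (m + 1) / (10 * W) := by
        have a4 := Finset.mem_range.1 (Fintype.mem_piFinset.1 he ⟨m, by omega⟩)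
        refine le_trans ?_ (Nat.floor_le (div_nonneg (hw0 _).le (by positivity)))
        exact_mod_cast a4.le
      simp only [hz, kv, e1]
      push_cast
      constructor
      · calc w (m + 1) = W * (w (m + 1) / W) := by field_simp
          _ ≤ _ := mul_le_mul_of_nonneg_left
            (le_add_of_le_of_nonneg a1 (Nat.cast_nonneg _)) hWp.le
      · calc W * (((⌈w (m + 1) / W⌉₊ : ℕ) : ℝ) + (e ⟨m, by omega⟩ : ℕ))
            ≤ W * (w (m + 1) / W + 1 + w (m + 1) / (10 * W)) :=
              mul_le_mul_of_nonneg_left (by linarith) hWp.le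
          _ = _ := by field_simp; ring
    have hz0 : ∀ l, 0 ≤ z l := fun l => mul_nonneg hWp.le (Nat.cast_nonneg _)
    have hy0 : ∀ l, 0 ≤ y l := fun l => renew_nonneg _ _ _ fun m _ _ => hz0 m
    have near : ∀ j, 1 ≤ j → j ≤ K → |cvec u (cOf e) j - y j| ≤ W := by
      intro j h1 hj
      obtain ⟨m, rfl⟩ : ∃ m, j = m + 1 := ⟨j - 1, by omega⟩
      have e1 : y (m + 1) = W * ((kv e (m + 1) : ℝ) + S e (m + 1)) := by
        simp only [hy, renew, S, hz]
        rw [← Finset.sum_Ioc_add_eq_sum_Icc hj, Nat.sub_self, gRen_zero, mul_add, Finset.mul_sum,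
          one_mul, add_comm]
        congr 1
        exact Finset.sum_congr rfl fun l _ => by ring
      rw [e1, cvec, cext_succ (cOf e) ⟨m, by omega⟩]
      have a0 : 0 ≤ S e (m + 1) :=
        Finset.sum_nonneg fun l _ => mul_nonneg (gRen_pos _).le (Nat.cast_nonneg _)
      have a1 := Nat.le_ceil (S e (m + 1))
      have a2 := Nat.ceil_lt_add_one a0
      simp only [cOf]
      push_cast
      rw [← hW, abs_le]
      constructor <;> nlinarith
    have slk : ∀ i, 1 ≤ i → i ≤ K →
        hgt u i ≤ slackAt (K2 u) (vecOf u (cOf e) fun _ => 0) i := by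
      intro i h1 hi
      have a1 := slack_tail B (cOf e) (zero_tail B) h1 hi
      have a2 : slackAt (K2 u) (vecOf u (cOf e) fun _ => 0) i = slackAt K (cvec u (cOf e)) i := by
        unfold slackAt
        rw [vecOf_low _ _ h1 hi, chain_split hi B.k12.le,
          Finset.sum_eq_zero fun j hj => by rw [vecOf_high _ _ (Finset.mem_Ioc.1 hj).1, mul_zero],
          add_zero, chain_congr fun j a b => vecOf_low (cOf e) _ (by omega) b]
      have a3 := B.round_slack B.k12.le (near i h1 hi) fun j a b => near j (by omega) b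
      rw [hy, slackAt_renew K z hi] at a3
      linarith [(hz1 i h1 hi).1, h20 i hi, hsm i hi, B.hgt_nonneg i, pow_pos hLp 6]
    have htop : chain (K2 u) (vecOf u (cOf e) fun _ => 0) 0 ≤ u / 5 := by
      have a2 : chain (K2 u) (vecOf u (cOf e) fun _ => 0) 0 = chain K (cvec u (cOf e)) 0 := by
        rw [chain_split (Nat.zero_le K) B.k12.le,
          Finset.sum_eq_zero fun j hj => by rw [vecOf_high _ _ (Finset.mem_Ioc.1 hj).1, mul_zero],
          add_zero, chain_congr fun j a b => vecOf_low (cOf e) _ (by omega) b]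
      rw [a2]
      refine (B.round_chain B.k12.le fun j a b => near j (by omega) b).trans ?_
      rw [hy, chain_renew_zero]
      have a3 : ∀ l ∈ Finset.Icc 1 K, gRen l * z l ≤ 3 * (u / LL u ^ 3) := fun l hl => by
        rw [Finset.mem_Icc] at hl
        have b1 := mul_le_mul_of_nonneg_left (hz1 l hl.1 hl.2).2 (gRen_pos l).le
        have b2 : gRen l * w l = u / LL u ^ 3 := by
          simp only [w]; field_simp [(gRen_pos l).ne']
        have b3 : gRen l * W ≤ u / LL u ^ 3 := by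
          rw [le_div_iff₀ (by positivity)]
          have g := B.g_le hl.2
          rw [le_div_iff₀ (by positivity)] at g
          have : W * LL u ^ 3 ≤ LL u ^ 128 := by
            rw [hW, cellW, ← pow_add]; exact pow_le_pow_right₀ B.L_one (by norm_num)
          nlinarith [gRen_pos l]
        have b4 : gRen l * (11 / 10 * w l + W) = 11 / 10 * (gRen l * w l) + gRen l * W := by ring
        rw [b4, b2] at b1
        linarith [show 0 ≤ u / LL u ^ 3 by positivity]
      refine le_trans (add_le_add_left (Finset.sum_le_card_nsmul _ _ _ a3) _) ?_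
      rw [nsmul_eq_mul, Nat.card_Icc, Nat.add_sub_cancel]
      have a4 : (K : ℝ) * (3 * (u / LL u ^ 3)) ≤ 8 * LL u * (3 * (u / LL u ^ 3)) :=
        mul_le_mul_of_nonneg_right B.hk1 (by positivity)
      have a5 : 8 * LL u * (3 * (u / LL u ^ 3)) ≤ u / 10 := by
        rw [show 8 * LL u * (3 * (u / LL u ^ 3)) = 24 * u / LL u ^ 2 by field_simp; ring,
          div_le_div_iff₀ (by positivity) (by norm_num)]
        nlinarith [mul_le_mul_of_nonneg_left (show (240 : ℝ) ≤ LL u ^ 2 by nlinarith) hu.le]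
      have a6 : LL u ^ 6 ≤ u / 10 := by
        rw [le_div_iff₀ (by norm_num)]
        refine le_trans ?_ B.h160
        calc LL u ^ 6 * 10 ≤ LL u ^ 6 * LL u := by gcongr; linarith
          _ = LL u ^ 7 := by ring
          _ ≤ LL u ^ 160 := pow_le_pow_right₀ B.L_one (by norm_num)
      linarith
    have hh0 : hgt u 0 ≤ u / 5 := by
      have := B.hgt_zero
      have : 5 ≤ LL u ^ 40 := le_trans (by linarith) (le_self_pow₀ B.L_one (by norm_num))
      nlinarith [mul_le_mul_of_nonneg_left this (B.hgt_nonneg 0)]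
    have hK1 : 1 ≤ K := by have := B.k01; omega
    refine ⟨fun _ => 0, rfl,
      { pos := fun j => ?_, mono := fun i h1 h2 => ?_, join := ?_, slack := slk, first := ?_,
        top := by linarith }⟩
    · refine le_add_right ?_
      refine le_add_right (Nat.ceil_pos.2 (div_pos (hw0 _) hWp))
    · rw [vecOf_low _ _ h1 h2.le, vecOf_low _ _ (by omega) (by omega)]
      have n1 := abs_le.1 (near i h1 h2.le)
      have n2 := abs_le.1 (near (i + 1) (by omega) (by omega))
      have s1 := slackAt_renew K z h2.le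
      have s2 := slackAt_renew K z (show i + 1 ≤ K by omega)
      have s3 := chain_step (y := y) h2 fun j _ _ => hy0 j
      have s5 : 0 ≤ coef 1 * y (i + 1) := mul_nonneg (coef_nonneg le_rfl) (hy0 _)
      rw [← hy, slackAt] at s1 s2
      have s6 : w (i + 1) ≤ 3 / 4 * w i := by
        simp only [w]
        rw [← mul_div_assoc, div_le_div_iff₀ (by have := gRen_pos (i + 1); positivity)
          (by have := gRen_pos i; positivity)]
        have g := gRen_succ_ge h1
        have g' : gRen i ≤ 3 / 4 * gRen (i + 1) := by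
          have := mul_le_mul_of_nonneg_right coef_one_bounds.1 (gRen_pos i).le
          linarith
        linarith [mul_le_mul_of_nonneg_left g' (mul_nonneg hu.le (pow_pos hLp 3).le)]
      linarith [(hz1 i h1 h2.le).1, (hz1 (i + 1) (by omega) (by omega)).2, h20 i h2.le,
        hsm i h2.le, B.hgt_nonneg i]
    · rw [vecOf_high _ _ (Nat.lt_succ_self _), vecOf_low _ _ hK1 le_rfl]
      have n1 := abs_le.1 (near K hK1 le_rfl)
      rw [hy, renew_top] at n1
      linarith [(hz1 K hK1 le_rfl).1, h20 K le_rfl, hsm K le_rfl, B.hgt_nonneg K]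
    · have f1 := first_le_three_chain (k := K) (y := cvec u (cOf e)) hK1
        fun j _ _ => cvec_nonneg B (cOf e) j
      have f2 := (chain_tail B (cOf e) (zero_tail B) (Nat.zero_le K)).1
      rw [vecOf_low _ _ le_rfl hK1]
      linarith
  have hinj : Set.InjOn cOf
      (Fintype.piFinset (fun i => Finset.range (N i)) : Set (Fin K → ℕ)) := by
    intro e _ e' _ he
    suffices H : ∀ m (i : Fin K), K ≤ i.1 + m → e i = e' i from funext fun i => H K i (by omega)
    intro m
    induction m with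
    | zero => intro i hi; exact absurd i.2 (by omega)
    | succ m ih =>
      intro i hi
      have a1 := congrFun he i
      have a2 : S e (i.1 + 1) = S e' (i.1 + 1) := Finset.sum_congr rfl fun l hl => by
        rw [Finset.mem_Ioc] at hl
        obtain ⟨l, rfl⟩ : ∃ l', l = l' + 1 := ⟨l - 1, by omega⟩
        simp only [kv, cext_succ e ⟨l, by omega⟩, cext_succ e' ⟨l, by omega⟩]
        rw [ih ⟨l, by omega⟩ (show K ≤ l + m by omega)]
      simp only [cOf, kv, a2, cext_succ e i, cext_succ e' i] at a1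
      omega
  have hfin : (lowerCells u {fun _ => 0}).Finite := by
    refine cells_finite B.cW (u - hgt u 0) _ ?_
    rintro c ⟨r, -, h⟩
    exact ⟨r, fun i h1 h2 => by linarith [h.mono i h1 h2, B.hgt_nonneg i], h.first⟩
  have hcard : (Fintype.piFinset fun i => Finset.range (N i)).card
      ≤ (lowerCells u {fun _ => 0}).ncard := by
    rw [Set.ncard_eq_toFinset_card _ hfin]
    exact Finset.card_le_card_of_injOn cOf (fun e he => hfin.mem_toFinset.2 (hlow e he)) hinj
  rw [Fintype.card_piFinset] at hcard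
  refine le_trans ?_ (Nat.cast_le.2 hcard)
  rw [Nat.cast_prod]
  refine Finset.prod_le_prod (fun i _ => ?_) fun i _ => ?_
  · have := gRen_pos (i.1 + 1); positivity
  rw [Finset.card_range]
  have hG := gRen_pos (i.1 + 1)
  have e : u / (20 * LL u ^ 3 * gRen (i.1 + 1) * W) = w (i.1 + 1) / (10 * W) / 2 := by
    simp only [w]; field_simp; ring
  rw [e]
  have h1 : 2 ≤ w (i.1 + 1) / (10 * W) := by
    rw [le_div_iff₀ (by positivity)]
    linarith [h20 (i.1 + 1) (by omega), hsm (i.1 + 1) (by omega)]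
  have := Nat.lt_floor_add_one (w (i.1 + 1) / (10 * W))
  simp only [N]
  linarith

lemma thin_mul_exp_le {u : ℝ} (B : Big u) :
    (∏ i : Fin (K1 u), thinB u (i.1 + 1)) * Real.exp (LL u) ≤ 1 / LL u *
      ∏ i : Fin (K1 u), u / (20 * LL u ^ 3 * gRen (i.1 + 1) * cellW u) := by
  have hL := B.hL
  have hu := B.hu
  have hLp := B.Lpos
  set a : ℕ → ℝ := fun i => if i ≤ K0 u then 1 / LL u ^ 4 else LL u ^ 4 with ha
  have h1 : ∀ i : Fin (K1 u), 0 ≤ thinB u (i.1 + 1) ∧ thinB u (i.1 + 1)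
      ≤ a (i.1 + 1) * (u / (20 * LL u ^ 3 * gRen (i.1 + 1) * cellW u)) := by
    intro i
    have hG := gRen_pos (i.1 + 1)
    have hW := B.cW
    simp only [thinB, ha]
    have hp : 0 ≤ u * (gRen (i.1 + 1) * cellW u) := by positivity
    split_ifs
    · refine ⟨by positivity, ?_⟩
      rw [div_mul_div_comm, one_mul, div_le_div_iff₀ (by positivity) (by positivity)]
      have : 120 * LL u ^ 7 ≤ LL u ^ 8 := by
        rw [pow_succ (LL u) 7, mul_comm (LL u ^ 7)]; gcongr; linarith
      calc 6 * u * (LL u ^ 4 * (20 * LL u ^ 3 * gRen (i.1 + 1) * cellW u))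
          = 120 * LL u ^ 7 * (u * (gRen (i.1 + 1) * cellW u)) := by ring
        _ ≤ LL u ^ 8 * (u * (gRen (i.1 + 1) * cellW u)) := mul_le_mul_of_nonneg_right this hp
        _ = _ := by ring
    · refine ⟨by positivity, ?_⟩
      rw [← mul_div_assoc, div_le_div_iff₀ (by positivity) (by positivity)]
      have : 80 * LL u ^ 3 ≤ LL u ^ 4 := by
        rw [pow_succ (LL u) 3, mul_comm (LL u ^ 3)]; gcongr; linarith
      calc 4 * u * (20 * LL u ^ 3 * gRen (i.1 + 1) * cellW u)
          = 80 * LL u ^ 3 * (u * (gRen (i.1 + 1) * cellW u)) := by ring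
        _ ≤ LL u ^ 4 * (u * (gRen (i.1 + 1) * cellW u)) := mul_le_mul_of_nonneg_right this hp
        _ = _ := by ring
  have h2 : (∏ i : Fin (K1 u), a (i.1 + 1))
      = (1 / LL u ^ 4) ^ K0 u * (LL u ^ 4) ^ (K1 u - K0 u) := by
    rw [Fin.prod_univ_eq_prod_range (fun i => a (i + 1)) (K1 u),
      ← Finset.prod_range_mul_prod_Ico _ B.k01.le]
    congr 1
    · rw [Finset.prod_congr rfl fun i hi => ?_, Finset.prod_const, Finset.card_range]
      rw [Finset.mem_range] at hi
      exact if_pos (by omega)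
    · rw [Finset.prod_congr rfl fun i hi => ?_, Finset.prod_const, Nat.card_Ico]
      rw [Finset.mem_Ico] at hi
      exact if_neg (by omega)
  have h3 : (LL u ^ 4) ^ (K1 u - K0 u) * Real.exp (LL u) * LL u ≤ (LL u ^ 4) ^ K0 u := by
    rw [← Real.log_le_log_iff (by positivity) (by positivity),
      Real.log_mul (by positivity) (by positivity), Real.log_mul (by positivity) (by positivity),
      Real.log_exp]
    simp only [Real.log_pow]
    rw [Nat.cast_sub B.k01.le]
    push_cast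
    have hl := B.hlogL
    have a1 := mul_le_mul_of_nonneg_right B.hgap (show 0 ≤ Real.log (LL u) by linarith)
    have a2 := mul_le_mul_of_nonneg_right B.hk0 (show 0 ≤ Real.log (LL u) by linarith)
    have a3 : LL u * 10 ≤ LL u * Real.log (LL u) := mul_le_mul_of_nonneg_left hl hLp.le
    have a4 : 1000 * Real.log (LL u) ≤ LL u * Real.log (LL u) :=
      mul_le_mul_of_nonneg_right hL (by linarith)
    nlinarith
  refine le_trans (mul_le_mul_of_nonneg_right (Finset.prod_le_prod (fun i _ => (h1 i).1)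
    fun i _ => (h1 i).2) (Real.exp_pos _).le) ?_
  rw [Finset.prod_mul_distrib, h2]
  rw [mul_right_comm]
  refine mul_le_mul_of_nonneg_right ?_ (Finset.prod_nonneg fun i _ => by
    have := gRen_pos (i.1 + 1); have := B.cW; positivity)
  rw [one_div_pow, div_mul_eq_mul_div, one_mul, div_mul_eq_mul_div, div_le_div_iff₀ (by positivity) hLp,
    one_mul]
  exact h3

theorem layer_negligible : ∃ eta Th : ℝ → ℝ, Tendsto eta atTop (nhds 0) ∧ ∀ᶠ u : ℝ in atTop,
    (∀ R : Set (ℕ → ℝ), R.Nonempty → (∀ r ∈ R, TailVec u r) →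
      ((upperCells u R).ncard : ℝ) ≤ (1 + eta u) * (lowerCells u R).ncard + Th u) ∧
    0 ≤ Th u ∧ 0 < ((lowerCells u {fun _ => 0}).ncard : ℝ) ∧
    Th u * Real.exp (LL u) ≤ eta u * (lowerCells u {fun _ => 0}).ncard := by
  classical
  refine ⟨fun u => 1 / LL u, fun u => ∏ i : Fin (K1 u), thinB u (i.1 + 1),
    tendsto_const_nhds.div_atTop tendsto_LL, ?_⟩
  filter_upwards [eventually_big, upperCells_finite, lowerCells_subset] with u B hfin hsub
  have hu := B.hu
  have hLp := B.Lpos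
  have hW := B.cW
  refine ⟨fun R _ hR => ?_, Finset.prod_nonneg fun i _ => ?_, ?_, ?_⟩
  · obtain ⟨D, hD⟩ := exists_translation B
    have hwfin : {c | ∃ r ∈ R, GWide u c r}.Finite := by
      refine cells_finite B.cW (u + 4 * u / LL u ^ 25) _ ?_
      rintro c ⟨r, -, h⟩
      exact ⟨r, fun i h1 h2 => by linarith [h.mono i h1 h2, B.hgt_nonneg i], h.first⟩
    have hlfin : (lowerCells u R).Finite := (hfin R).subset (hsub R)
    have h1 : (upperCells u R).ncard ≤ hwfin.toFinset.card := by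
      rw [Set.ncard_eq_toFinset_card _ (hfin R)]
      refine Finset.card_le_card_of_injOn (fun c => c + D) (fun c hc => ?_)
        (fun c _ c' _ he => add_right_cancel he)
      rw [Finset.mem_coe, Set.Finite.mem_toFinset] at hc
      obtain ⟨r, hr, h⟩ := hc
      exact hwfin.mem_toFinset.2 ⟨r, hr, hD c r h⟩
    have h2 := card_good_le B hR (hwfin.toFinset.filter fun c => ¬ GThin u c) hlfin.toFinset
      (fun c hc => by
        rw [Finset.mem_filter, Set.Finite.mem_toFinset] at hc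
        exact hc)
      fun c hc => hlfin.mem_toFinset.2 hc
    have h3 := card_thin_le B hR (hwfin.toFinset.filter fun c => GThin u c) fun c hc => by
      rw [Finset.mem_filter, Set.Finite.mem_toFinset] at hc
      exact hc
    rw [← Set.ncard_eq_toFinset_card _ hlfin] at h2
    have h4 := Finset.card_filter_add_card_filter_not (s := hwfin.toFinset)
      (fun c => GThin u c)
    have h5 : ((upperCells u R).ncard : ℝ) ≤
        ((hwfin.toFinset.filter fun c => GThin u c).card : ℝ)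
          + (hwfin.toFinset.filter fun c => ¬ GThin u c).card := by
      rw [← Nat.cast_add, h4]; exact_mod_cast h1
    linarith
  · have := gRen_pos (i.1 + 1)
    unfold thinB
    split_ifs <;> positivity
  · refine lt_of_lt_of_le (Finset.prod_pos fun i _ => ?_) (box_le_lower B)
    have := gRen_pos (i.1 + 1); positivity
  · exact (thin_mul_exp_le B).trans
      (mul_le_mul_of_nonneg_left (box_le_lower B) (one_div_nonneg.2 hLp.le))

end Vale.Agent.P031
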