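import Vale.Agent.P031.Renewal

/-! Pure facts for the geometry: translation vectors, the centre of the dilation, rounding. -/

open Finset Real Filter

namespace Vale.Agent.P031

lemma one_le_coef_one_add_two : 1 ≤ coef 1 + coef 2 := by
  have h3 : 1 ≤ Real.log 3 := by
    rw [Real.le_log_iff_exp_le (by norm_num)]
    linarith [Real.exp_one_lt_d9]
  have e1 : coef 1 = 2 * Real.log 2 - 1 := coef_one
  have e2 : coef 2 = 3 * Real.log 3 - 2 * Real.log 2 - 1 := by
    simp only [coef]; norm_num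
  linarith

/-- The chains decrease. -/
lemma chain_step {k i : ℕ} {y : ℕ → ℝ} (hik : i < k) (hy : ∀ j, i < j → j ≤ k → 0 ≤ y j) :
    coef 1 * y (i + 1) + chain k y (i + 1) ≤ chain k y i := by
  unfold chain
  rw [show Finset.Ioc i k = insert (i + 1) (Finset.Ioc (i + 1) k) by ext; simp; omega,
    Finset.sum_insert (by simp), show i + 1 - i = 1 by omega]
  refine add_le_add le_rfl (Finset.sum_le_sum fun j hj => ?_)
  rw [Finset.mem_Ioc] at hj
  exact mul_le_mul_of_nonneg_right (coef_mono (by omega) (by omega)) (hy j (by omega) hj.2)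

lemma chain_step_two {k i : ℕ} {y : ℕ → ℝ} (hik : i + 2 ≤ k)
    (hy : ∀ j, i < j → j ≤ k → 0 ≤ y j) :
    coef 1 * y (i + 1) + coef 2 * y (i + 2) ≤ chain k y i := by
  have h : ∑ j ∈ ({i + 1, i + 2} : Finset ℕ), coef (j - i) * y j
      ≤ ∑ j ∈ Finset.Ioc i k, coef (j - i) * y j := by
    refine Finset.sum_le_sum_of_subset_of_nonneg (fun j hj => ?_) fun j hj _ => ?_
    · simp at hj ⊢; omega
    · rw [Finset.mem_Ioc] at hj
      exact mul_nonneg (coef_nonneg (by omega)) (hy j hj.1 hj.2)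
  rw [Finset.sum_pair (by omega), show i + 1 - i = 1 by omega, show i + 2 - i = 2 by omega] at h
  exact h

lemma first_le_three_chain {k : ℕ} {y : ℕ → ℝ} (hk : 1 ≤ k) (hy : ∀ j, 0 < j → j ≤ k → 0 ≤ y j) :
    y 1 ≤ 3 * chain k y 0 := by
  have h := chain_step (i := 0) (by omega) hy
  have h1 := chain_nonneg (i := 1) fun j a b => hy j (by omega) b
  have := coef_one_bounds.1
  have := hy 1 one_pos hk
  nlinarith

/-- Weight bound for chains of length `k`. -/
noncomputable def chainW (k : ℕ) : ℝ := (k : ℝ) * (Real.log ((k : ℝ) + 1) + 1)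

lemma chainW_nonneg (k : ℕ) : 0 ≤ chainW k :=
  mul_nonneg (Nat.cast_nonneg k) (add_nonneg (Real.log_nonneg (by simp)) zero_le_one)

lemma chainW_le (k : ℕ) : chainW k ≤ (k : ℝ) * ((k : ℝ) + 1) := by
  refine mul_le_mul_of_nonneg_left ?_ (Nat.cast_nonneg k)
  have := Real.log_le_sub_one_of_pos (show (0 : ℝ) < (k : ℝ) + 1 by positivity)
  linarith

lemma slackAt_sub (k : ℕ) (y z : ℕ → ℝ) (i : ℕ) :
    slackAt k (fun j => y j - z j) i = slackAt k y i - slackAt k z i := by
  rw [slackAt, slackAt, slackAt, chain_sub]; ring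

lemma slackAt_add (k : ℕ) (y z : ℕ → ℝ) (i : ℕ) :
    slackAt k (fun j => y j + z j) i = slackAt k y i + slackAt k z i := by
  rw [slackAt, slackAt, slackAt, chain_add]; ring

lemma slackAt_ge_of_near {k i : ℕ} {b : ℝ} (hb : 0 ≤ b) {y z : ℕ → ℝ}
    (hi : z i - b ≤ y i) (h : ∀ j, i < j → j ≤ k → |y j - z j| ≤ b) :
    slackAt k z i - b - chainW k * b ≤ slackAt k y i := by
  have := (abs_le.1 (abs_chain_sub_le hb h)).2
  simp only [slackAt, chainW]
  linarith

/-- The slacks of the dilation. -/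
noncomputable def deltaVec (K k0 : ℕ) (y : ℕ → ℝ) (i : ℕ) : ℝ :=
  if i < k0 then slackAt K y i else y i - max (chain K y i) (y (i + 1))

/-- The displacement from the centre of the dilation. -/
noncomputable def dilVec (K k0 : ℕ) (y : ℕ → ℝ) (i : ℕ) : ℝ :=
  if 1 ≤ i ∧ i ≤ k0 then renew k0 (deltaVec K k0 y) i else 0

/-- The centre. -/
noncomputable def muVec (K k0 : ℕ) (y : ℕ → ℝ) (i : ℕ) : ℝ := y i - dilVec K k0 y i

variable {K k0 : ℕ} {y : ℕ → ℝ}

lemma dilVec_high {i : ℕ} (h : k0 < i) : dilVec K k0 y i = 0 :=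
  if_neg fun h' => absurd h'.2 (by omega)

lemma dilVec_low {i : ℕ} (h1 : 1 ≤ i) (h2 : i ≤ k0) :
    dilVec K k0 y i = renew k0 (deltaVec K k0 y) i :=
  if_pos ⟨h1, h2⟩

lemma chain_dilVec (hK : k0 ≤ K) {i : ℕ} (hi : i ≤ k0) :
    chain K (dilVec K k0 y) i = chain k0 (renew k0 (deltaVec K k0 y)) i := by
  rw [chain_split hi hK, Finset.sum_eq_zero fun j hj => by
    rw [dilVec_high (Finset.mem_Ioc.1 hj).1, mul_zero], add_zero]
  exact chain_congr fun j hj hjk => dilVec_low (by omega) hjk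

lemma slackAt_dilVec (hK : k0 ≤ K) {i : ℕ} (h1 : 1 ≤ i) (hi : i ≤ k0) :
    slackAt K (dilVec K k0 y) i = deltaVec K k0 y i := by
  rw [slackAt, chain_dilVec hK hi, dilVec_low h1 hi]
  exact slackAt_renew k0 _ hi

lemma deltaVec_le {i : ℕ} : deltaVec K k0 y i ≤ slackAt K y i := by
  unfold deltaVec slackAt
  split_ifs
  · exact le_rfl
  · linarith [le_max_left (chain K y i) (y (i + 1))]

/-- The hypotheses on a vector to be dilated. -/
structure DilOK (K k0 : ℕ) (y : ℕ → ℝ) : Prop where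
  lt : k0 < K
  nonneg : ∀ j, 0 ≤ y j
  slack : ∀ i, 1 ≤ i → i ≤ k0 → 0 ≤ slackAt K y i
  mono : y (k0 + 1) ≤ y k0

lemma deltaVec_nonneg (h : DilOK K k0 y) {i : ℕ} (h1 : 1 ≤ i) (hi : i ≤ k0) :
    0 ≤ deltaVec K k0 y i := by
  unfold deltaVec
  split_ifs with hlt
  · exact h.slack i h1 hi
  · obtain rfl : i = k0 := by omega
    have := h.slack i h1 le_rfl
    unfold slackAt at this
    linarith [max_le (show chain K y i ≤ y i by linarith) h.mono]

lemma dilVec_nonneg (h : DilOK K k0 y) (i : ℕ) : 0 ≤ dilVec K k0 y i := by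
  unfold dilVec
  split_ifs with hi
  · exact renew_nonneg _ _ _ fun l hl hlk => deltaVec_nonneg h (by omega) hlk
  · exact le_rfl

lemma muVec_top (h1 : 1 ≤ k0) :
    muVec K k0 y k0 = max (chain K y k0) (y (k0 + 1)) := by
  rw [muVec, dilVec_low h1 le_rfl, renew_top, deltaVec, if_neg (lt_irrefl _)]
  ring

lemma muVec_high {i : ℕ} (h : k0 < i) : muVec K k0 y i = y i := by
  rw [muVec, dilVec_high h, sub_zero]

lemma muVec_eq_chain (hK : k0 ≤ K) {i : ℕ} (h1 : 1 ≤ i) (hi : i < k0) :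
    muVec K k0 y i = chain K (muVec K k0 y) i := by
  have e := slackAt_dilVec (y := y) hK h1 hi.le
  rw [deltaVec, if_pos hi, slackAt, slackAt] at e
  have c : chain K (muVec K k0 y) i = chain K y i - chain K (dilVec K k0 y) i :=
    chain_sub K y (dilVec K k0 y) i
  rw [c, muVec]
  linarith

lemma muVec_nonneg (h : DilOK K k0 y) : ∀ i, 1 ≤ i → 0 ≤ muVec K k0 y i := by
  suffices H : ∀ m i, 1 ≤ i → k0 ≤ i + m → 0 ≤ muVec K k0 y i from
    fun i hi => H k0 i hi (by omega)
  intro m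
  induction m with
  | zero =>
    intro i hi hk
    rcases eq_or_lt_of_le (show k0 ≤ i by omega) with rfl | hlt
    · rw [muVec_top hi]
      exact le_max_of_le_right (h.nonneg _)
    · rw [muVec_high hlt]; exact h.nonneg _
  | succ m ih =>
    intro i hi hk
    rcases Nat.lt_or_ge i k0 with hlt | hge
    · rw [muVec_eq_chain h.lt.le hi hlt]
      exact chain_nonneg fun j hj _ => ih j (by omega) (by omega)
    · exact ih i hi (by omega)

lemma muVec_antitone (h : DilOK K k0 y) {i : ℕ} (h1 : 1 ≤ i) (hi : i ≤ k0) :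
    muVec K k0 y (i + 1) ≤ muVec K k0 y i := by
  rcases eq_or_lt_of_le hi with rfl | hlt
  · rw [muVec_high (Nat.lt_succ_self _), muVec_top h1]
    exact le_max_right _ _
  have hK := h.lt
  have hn : ∀ j, i < j → j ≤ K → 0 ≤ muVec K k0 y j := fun j hj _ =>
    muVec_nonneg h j (by omega)
  rw [muVec_eq_chain hK.le h1 hlt]
  have hs := chain_step (show i < K by omega) hn
  have hm : 0 ≤ muVec K k0 y (i + 1) := muVec_nonneg h _ (by omega)
  have ha := coef_one_bounds.1
  rcases eq_or_lt_of_le (show i + 1 ≤ k0 by omega) with he | hl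
  · rw [he] at hs hm
    have ec : chain K (muVec K k0 y) k0 = chain K y k0 :=
      chain_congr fun j hj _ => muVec_high hj
    rw [ec] at hs
    rw [muVec_top (by omega)] at hs hm
    rw [he, muVec_top (by omega)]
    rcases le_total (chain K y k0) (y (k0 + 1)) with hc | hc
    · rw [max_eq_right hc] at hs ⊢
      have h2 := chain_step_two (show i + 2 ≤ K by omega) hn
      rw [show i + 2 = k0 + 1 by omega, muVec_high (Nat.lt_succ_self k0), he,
        muVec_top (by omega), max_eq_right hc] at h2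
      nlinarith [one_le_coef_one_add_two, h.nonneg (k0 + 1)]
    · rw [max_eq_left hc] at hs hm ⊢
      nlinarith
  · rw [← muVec_eq_chain hK.le (by omega) hl] at hs
    nlinarith

lemma dilVec_gap (h : DilOK K k0 y) {i : ℕ} (h1 : 1 ≤ i) (hi : i ≤ k0) :
    dilVec K k0 y i - dilVec K k0 y (i + 1) ≤ y i - y (i + 1) := by
  have := muVec_antitone h h1 hi
  unfold muVec at this
  linarith

lemma muVec_congr {y' : ℕ → ℝ} (hK : k0 < K) (hs : ∀ j, k0 < j → y j = y' j) :
    ∀ i, 1 ≤ i → muVec K k0 y i = muVec K k0 y' i := by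
  suffices H : ∀ m i, 1 ≤ i → k0 ≤ i + m → muVec K k0 y i = muVec K k0 y' i from
    fun i hi => H k0 i hi (by omega)
  intro m
  induction m with
  | zero =>
    intro i hi hk
    rcases eq_or_lt_of_le (show k0 ≤ i by omega) with rfl | hlt
    · rw [muVec_top hi, muVec_top hi, chain_congr fun j hj _ => hs j hj,
        hs (k0 + 1) (Nat.lt_succ_self _)]
    · rw [muVec_high hlt, muVec_high hlt, hs i hlt]
  | succ m ih =>
    intro i hi hk
    rcases Nat.lt_or_ge i k0 with hlt | hge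
    · rw [muVec_eq_chain hK.le hi hlt, muVec_eq_chain hK.le hi hlt]
      exact chain_congr fun j hj _ => ih j (by omega) (by omega)
    · exact ih i hi (by omega)

/-- Every displaced coordinate is seen by the top slack. -/
lemma gRen_mul_dilVec_le_top (h : DilOK K k0 y) {i : ℕ} (h1 : 1 ≤ i) (hi : i ≤ k0) :
    gRen i * dilVec K k0 y i ≤ chain K (dilVec K k0 y) 0 := by
  rw [chain_dilVec h.lt.le (Nat.zero_le _), chain_renew_zero, dilVec_low h1 hi, renew,
    Finset.mul_sum]
  calc ∑ l ∈ Finset.Icc i k0, gRen i * (gRen (l - i) * deltaVec K k0 y l)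
      ≤ ∑ l ∈ Finset.Icc i k0, gRen l * deltaVec K k0 y l :=
        Finset.sum_le_sum fun l hl => by
          rw [Finset.mem_Icc] at hl
          rw [← mul_assoc]
          refine mul_le_mul_of_nonneg_right ?_ (deltaVec_nonneg h (by omega) hl.2)
          simpa [Nat.add_sub_cancel' hl.1] using gRen_mul_le i (l - i)
    _ ≤ ∑ l ∈ Finset.Icc 1 k0, gRen l * deltaVec K k0 y l :=
        Finset.sum_le_sum_of_subset_of_nonneg (Finset.Icc_subset_Icc_left h1) fun l hl _ => by
          rw [Finset.mem_Icc] at hl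
          exact mul_nonneg (gRen_pos _).le (deltaVec_nonneg h hl.1 hl.2)

/-- Every displaced coordinate is seen by the first one. -/
lemma gRen_mul_dilVec_le_first (h : DilOK K k0 y) {i : ℕ} (h1 : 1 ≤ i) (hi : i ≤ k0) :
    gRen (i - 1) * dilVec K k0 y i ≤ dilVec K k0 y 1 := by
  rw [dilVec_low h1 hi, dilVec_low le_rfl (h1.trans hi), renew, renew, Finset.mul_sum]
  calc ∑ l ∈ Finset.Icc i k0, gRen (i - 1) * (gRen (l - i) * deltaVec K k0 y l)
      ≤ ∑ l ∈ Finset.Icc i k0, gRen (l - 1) * deltaVec K k0 y l :=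
        Finset.sum_le_sum fun l hl => by
          rw [Finset.mem_Icc] at hl
          rw [← mul_assoc]
          refine mul_le_mul_of_nonneg_right ?_ (deltaVec_nonneg h (by omega) hl.2)
          simpa [show i - 1 + (l - i) = l - 1 by omega] using gRen_mul_le (i - 1) (l - i)
    _ ≤ ∑ l ∈ Finset.Icc 1 k0, gRen (l - 1) * deltaVec K k0 y l :=
        Finset.sum_le_sum_of_subset_of_nonneg (Finset.Icc_subset_Icc_left h1) fun l hl _ => by
          rw [Finset.mem_Icc] at hl
          exact mul_nonneg (gRen_pos _).le (deltaVec_nonneg h hl.1 hl.2)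

/-- Rounding of a dilated point. -/
lemma round_dilate {W μ : ℝ} (hW : 0 < W) (hμ : 0 ≤ μ) {M c j : ℕ} (hj : j < M) :
    |W * ((M * c + j + ⌊μ / W⌋₊) / (M + 1) : ℕ)
      - (W * c - 1 / ((M : ℝ) + 1) * (W * c - μ))| ≤ W := by
  set s := ⌊μ / W⌋₊ with hs
  set q := (M * c + j + s) / (M + 1)
  have hq1 : (M + 1) * q ≤ M * c + j + s := Nat.mul_div_le _ _
  have hq2 : M * c + j + s < (M + 1) * (q + 1) := Nat.lt_mul_div_succ _ (by omega)
  have hs1 : W * (s : ℝ) ≤ μ := by
    rw [mul_comm, ← le_div_iff₀ hW]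
    exact Nat.floor_le (by positivity)
  have hs2 : μ < W * ((s : ℝ) + 1) := by
    rw [mul_comm, ← div_lt_iff₀ hW]
    exact Nat.lt_floor_add_one _
  have h1 : ((M : ℝ) + 1) * q ≤ (M : ℝ) * c + j + s := by exact_mod_cast hq1
  have h2 : (M : ℝ) * c + j + s + 1 ≤ ((M : ℝ) + 1) * ((q : ℝ) + 1) := by exact_mod_cast hq2
  have h3 : (j : ℝ) + 1 ≤ M := by exact_mod_cast hj
  have hM : (0 : ℝ) < (M : ℝ) + 1 := by positivity
  have e : W * (q : ℝ) - (W * c - 1 / ((M : ℝ) + 1) * (W * c - μ))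
      = (W * (((M : ℝ) + 1) * q) - W * ((M : ℝ) * c) - μ) / ((M : ℝ) + 1) := by
    field_simp
    ring
  rw [e, abs_div, abs_of_pos hM, div_le_iff₀ hM, abs_le]
  have a1 := mul_le_mul_of_nonneg_left h1 hW.le
  have a2 := mul_le_mul_of_nonneg_left h2 hW.le
  have a3 := mul_le_mul_of_nonneg_left h3 hW.le
  have a4 : 0 ≤ W * (j : ℝ) := by positivity
  constructor <;> nlinarith

end Vale.Agent.P031
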