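import Vale.Agent.P031.LowerCount
import Vale.Agent.P031.Collision

/-! Two lower tuples with the same value are negligible. -/

open Finset Real Filter

namespace Vale.Agent.P031

namespace BigU

variable {u : ℝ} (hB : BigU u)
include hB

lemma noise_bound {i : ℕ} (hi : i ≤ K1 u) {y : ℝ} (hy0 : 0 ≤ y)
    (hy : y ≤ u / gRen i + cellW u) : LL u ^ 8 * y ^ ((5 : ℝ) / 8) ≤ hgt u i / 2 := by
  set X := u / gRen i
  have hL : 0 ≤ LL u := by linarith [hB.L16]
  have hX := hB.X_ge hi
  have hX0 : 0 < X := lt_of_lt_of_le (pow_pos (by linarith [hB.L16]) _) hX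
  have h1 : y ≤ 2 * X := by
    have : cellW u ≤ X := le_trans (pow_le_pow_right₀ hB.L1 (by norm_num)) hX
    linarith
  have h2 : y ^ ((5 : ℝ) / 8) ≤ 2 * X ^ ((5 : ℝ) / 8) := by
    refine (Real.rpow_le_rpow hy0 h1 (by norm_num)).trans ?_
    rw [Real.mul_rpow zero_le_two hX0.le]
    refine mul_le_mul_of_nonneg_right ?_ (Real.rpow_nonneg hX0.le _)
    exact Real.rpow_le_self_of_one_le one_le_two (by norm_num)
  have h3 : LL u ^ 16 ≤ X ^ ((1 : ℝ) / 8) := by
    refine le_trans (le_of_eq ?_) (Real.rpow_le_rpow (pow_nonneg hL _) hX (by norm_num))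
    rw [← Real.rpow_natCast (LL u) 128, ← Real.rpow_natCast (LL u) 16, ← Real.rpow_mul hL]
    norm_num
  have h4 : 4 * LL u ^ 8 ≤ LL u ^ 16 := by
    rw [show (16 : ℕ) = 8 + 8 from rfl, pow_add]
    exact mul_le_mul_of_nonneg_right
      (le_trans (by linarith [hB.L16]) (le_self_pow₀ hB.L1 (by norm_num))) (pow_nonneg hL _)
  have h5 : hgt u i = X ^ ((5 : ℝ) / 8) * X ^ ((1 : ℝ) / 8) := by
    rw [← Real.rpow_add hX0]
    norm_num [hgt, X]
  rw [h5]
  calc LL u ^ 8 * y ^ ((5 : ℝ) / 8) ≤ LL u ^ 8 * (2 * X ^ ((5 : ℝ) / 8)) :=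
        mul_le_mul_of_nonneg_left h2 (pow_nonneg hL _)
    _ = X ^ ((5 : ℝ) / 8) * (4 * LL u ^ 8) / 2 := by ring
    _ ≤ _ := by
        refine div_le_div_of_nonneg_right ?_ zero_le_two
        exact mul_le_mul_of_nonneg_left (h4.trans h3) (Real.rpow_nonneg hX0.le _)

end BigU

namespace Wit

variable {u : ℝ} {q : (Fin (K1 u) → ℕ) × ℕ} {c : Fin (K1 u) → ℕ} {m : ℕ}
  (hB : BigU u) (hw : Wit u q c m)
include hB hw

/-- All coordinates of a lower tuple are above the lump. -/
lemma lump_lt (j : Fin (K1 u)) : yLump u < ll (q.1 j) := by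
  have h16 : 16 * yLump u ≤ hgt u ((j : ℕ) + 1) := hB.pow_lt_h j.2 (by norm_num)
  have hy : 16 * yLow u ≤ hgt u ((j : ℕ) + 1) := hB.pow_lt_h j.2 (by norm_num)
  have hp := hB.hgt_pos (show (j : ℕ) + 1 ≤ K1 u from j.2)
  rcases Nat.lt_or_ge ((j : ℕ) + 1) (K1 u) with h | h
  · have := cell_gap hw j ⟨(j : ℕ) + 1, h⟩ rfl
    have := mul_nonneg hB.cellW_pos.le (Nat.cast_nonneg (α := ℝ) (c ⟨(j : ℕ) + 1, h⟩))
    linarith [(hw.slot' j).2.1, hB.cellW_pos]
  · have e : (j : ℕ) + 1 = K1 u := le_antisymm j.2 h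
    have := tail_gap hB hw j e
    rw [← e] at this
    linarith [(hw.slot' j).2.1, prof_nonneg m 1]

lemma totient_drop (i : Fin (K1 u)) :
    tupVal q = (∏ l : Fin i, Nat.totient (q.1 (Fin.castLE i.2.le l))) *
      Nat.totient (((List.ofFn q.1).drop i).prod * m) := by
  rw [((desc hB hw).drop i).totient, hw.rep.tot, ← mul_assoc, tupVal]
  congr 1
  have h : ((List.ofFn q.1).take i).map Nat.totient
      = List.ofFn (fun l : Fin i => Nat.totient (q.1 (Fin.castLE i.2.le l))) := by
    apply List.ext_getElem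
    · simp [i.2.le]
    · intro k h1 h2
      simp
  rw [← List.prod_ofFn (f := fun l : Fin i => Nat.totient (q.1 (Fin.castLE i.2.le l))), ← h,
    List.map_take, List.map_drop, List.prod_take_mul_prod_drop, List.map_ofFn, List.prod_ofFn]
  rfl

lemma collSide (hgood : ∀ p : ℕ, p.Prime → yLow u < ll p → ¬ p ^ 2 ∣ tupVal q)
    (i : Fin (K1 u)) :
    CollSide u (hgt u ((i : ℕ) + 1) / 2) (((List.ofFn q.1).drop i).prod * m) := by
  have hd := (desc hB hw).drop i
  set n := (List.ofFn q.1).prod * m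
  have hprof : ∀ t, 1 ≤ t → prof (((List.ofFn q.1).drop i).prod * m) t = prof n (t + i) :=
    fun t ht => by rw [prof, (desc hB hw).nthPrime_drop (by simp) ht, prof]
  have hY : prof n ((i : ℕ) + 1) = ll (q.1 i) := prof_low hB hw i
  have hh := hB.hgt_pos (show (i : ℕ) + 1 ≤ K1 u from i.2)
  have hyLow : 16 * yLow u ≤ hgt u ((i : ℕ) + 1) := hB.pow_lt_h i.2 (by norm_num)
  have h1 : prof (((List.ofFn q.1).drop i).prod * m) 1 = ll (q.1 i) := by
    rw [hprof 1 le_rfl, Nat.add_comm, hY]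
  refine ⟨Nat.pos_of_ne_zero hd.ne_zero, ?_, ?_, ?_, ?_, ?_, ?_, ?_, ?_, ?_⟩
  · exact fun p hp hl hd' => hw.rep.sq p hp hl (hd.sq hp hd')
  · intro p hp hl hd'
    exact hgood p hp hl (by rw [totient_drop hB hw i]; exact dvd_mul_of_dvd_right hd' _)
  · intro p hp hd'
    rcases hd.dvd_cases hp hd' with h | h
    · obtain ⟨j, rfl⟩ := List.mem_ofFn.1 (List.mem_of_mem_drop h)
      exact (hw.slot' j).2.2.2.1
    · exact hw.rep.normal p hp (Nat.dvd_of_mem_primeFactors h)
  · rw [hd.length, Nat.cast_add]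
    have h2 : (((List.ofFn q.1).drop i).length : ℝ) ≤ K1 u := by
      exact_mod_cast (by simp : ((List.ofFn q.1).drop i).length ≤ K1 u)
    have h3 : (K1 u : ℝ) ≤ K2 u := by exact_mod_cast hB.K1lt.le
    have h4 : u ≤ u ^ 3 := le_self_pow₀ (by linarith [hB.u_ge]) (by norm_num)
    nlinarith [hw.rep.few, hB.K2le, hB.L2le, hB.L16]
  · intro t ht
    have hK := hB.K1lt
    rw [hprof t (by omega), prof_high hB hw (by omega)]
    exact hw.rep.rows _ (by omega)
  · rw [h1]
    linarith [(hw.slot' i).2.2.1, hB.cell_le hw.cell i, hB.upos]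
  · rw [h1]
    exact hB.noise_bound i.2 (ll_nonneg _) (prof_le hB hw i)
  · rw [h1, hprof 2 (by norm_num), show (2 : ℕ) + i = (i : ℕ) + 1 + 1 by omega]
    rcases Nat.lt_or_ge ((i : ℕ) + 1) (K1 u) with h | h
    · have hg := cell_gap hw i ⟨(i : ℕ) + 1, h⟩ rfl
      have he := prof_low hB hw (⟨(i : ℕ) + 1, h⟩ : Fin (K1 u))
      simp only at he
      rw [he]
      linarith [(hw.slot' ⟨(i : ℕ) + 1, h⟩).2.2.1, (hw.slot' i).2.1, hB.cellW_pos]
    · have e : (i : ℕ) + 1 = K1 u := le_antisymm i.2 h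
      rw [e, prof_high hB hw (by omega), show K1 u + 1 - K1 u = 1 by omega]
      have hg := tail_gap hB hw i e
      rw [e] at hh hyLow
      linarith [(hw.slot' i).2.1]
  · rw [h1]
    have hs := hw.cell.slack ((i : ℕ) + 1) (by omega) i.2
    rw [slackAt, vecOf_cell] at hs
    have hK := hB.K1lt
    have e : chain (K2 u + 1) (prof (((List.ofFn q.1).drop i).prod * m)) 1
        = chain (K2 u + 1 + i) (prof n) ((i : ℕ) + 1) := by
      unfold chain
      refine Finset.sum_nbij' (fun t => t + (i : ℕ)) (fun j => j - (i : ℕ)) ?_ ?_ ?_ ?_ ?_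
      · intro t ht; simp at ht ⊢; omega
      · intro t ht; simp at ht ⊢; omega
      · intro t ht; simp
      · intro t ht; simp at ht; omega
      · intro t ht
        simp at ht
        rw [hprof t (by omega), show t + (i : ℕ) - ((i : ℕ) + 1) = t - 1 by omega]
    have hlump : 0 ≤ yLump u := pow_nonneg (by linarith [hB.L16]) _
    have hz := (abs_le.1 (abs_chain_sub_le (k := K2 u + 1 + i) (i := (i : ℕ) + 1) hlump
      (y := prof n) (z := fun j => if j ≤ K2 u then prof n j else 0) fun j hj _ => by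
        by_cases hj2 : j ≤ K2 u
        · simp [hj2, hlump]
        · rw [if_neg hj2, sub_zero, abs_of_nonneg (prof_nonneg _ _), prof_high hB hw (by omega)]
          exact hw.rep.rows _ (by omega))).2
    have hsp : chain (K2 u + 1 + i) (fun j => if j ≤ K2 u then prof n j else 0) ((i : ℕ) + 1)
        = chain (K2 u) (prof n) ((i : ℕ) + 1) := by
      rw [chain_split (m := K2 u) (by omega) (by omega)]
      rw [chain_congr (z := prof n) (fun j _ hj => if_pos hj),
        Finset.sum_eq_zero fun j hj => ?_, add_zero]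
      rw [if_neg (by simp at hj; omega), mul_zero]
    have herr := hB.chain_err (show K2 u + 1 + i ≤ 2 * K2 u by omega) hlump
    have hc := chain_le hB hw ((i : ℕ) + 1)
    have hp1 : 16 * (LL u ^ 4 * yLump u) ≤ hgt u ((i : ℕ) + 1) := by
      rw [yLump, ← pow_add]; exact hB.pow_lt_h i.2 (by norm_num)
    have hp2 : 16 * (LL u ^ 4 * yLow u) ≤ hgt u ((i : ℕ) + 1) := by
      rw [yLow, ← pow_add]; exact hB.pow_lt_h i.2 (by norm_num)
    rw [e]
    linarith [(hw.slot' i).2.1]

end Wit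

/-- A suffix with a cofactor. -/
def SufP (u g : ℝ) (s : List ℕ × ℕ) (m : ℕ) : Prop :=
  Desc s.1 m ∧ Nat.totient m = s.2 ∧ (∀ x ∈ s.1, yLump u < ll x) ∧ CollSide u g (s.1.prod * m)

/-- An integer depending only on the suffix. -/
noncomputable def sufN (u g : ℝ) (s : List ℕ × ℕ) : ℕ := by
  classical exact if h : ∃ m, SufP u g s m then s.1.prod * h.choose else 0

lemma sufN_spec {u g : ℝ} {s : List ℕ × ℕ} (h : ∃ m, SufP u g s m) :
    ∃ m, SufP u g s m ∧ sufN u g s = s.1.prod * m := by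
  classical
  exact ⟨h.choose, h.choose_spec, by rw [sufN, dif_pos h]⟩

lemma sufN_key {u g : ℝ} {s s' : List ℕ × ℕ} (h : ∃ m, SufP u g s m)
    (h' : ∃ m, SufP u g s' m) (hl : s.1.length = s'.1.length)
    (he : collKey u (sufN u g s) = collKey u (sufN u g s')) : s = s' := by
  classical
  obtain ⟨m, ⟨hd, ht, hbig, -⟩, e⟩ := sufN_spec h
  obtain ⟨m', ⟨hd', ht', hbig', -⟩, e'⟩ := sufN_spec h'
  rw [e, e', collKey, collKey, Prod.mk.injEq] at he
  obtain ⟨h1, h2⟩ := he
  rw [hd.primeFactors, hd'.primeFactors, Finset.filter_union, Finset.filter_union,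
    Finset.filter_true_of_mem (fun x hx => hbig x (List.mem_toFinset.1 hx)),
    Finset.filter_true_of_mem (fun x hx => hbig' x (List.mem_toFinset.1 hx))] at h1
  have hps : s.1 = s'.1 := desc_unique _ _ _ _ hl hd.2.2.1 hd'.2.2.1
    (fun a ha x hx => hd.2.2.2 a ha x (Finset.mem_filter.1 hx).1)
    (fun a ha x hx => hd'.2.2.2 a ha x (Finset.mem_filter.1 hx).1) h1
  rw [hd.totient, hd'.totient, ← hps] at h2
  have hpos : 0 < (s.1.map Nat.totient).prod := by
    refine Nat.pos_of_ne_zero (List.prod_ne_zero fun h0 => ?_)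
    obtain ⟨x, hx, hx0⟩ := List.mem_map.1 h0
    exact (hd.2.1 x hx).ne_zero (Nat.totient_eq_zero.1 hx0)
  exact Prod.ext hps (by rw [← ht, ← ht', Nat.eq_of_mul_eq_mul_left hpos h2])

/-- The suffix at a level. -/
noncomputable def sufAt {u : ℝ} (i : Fin (K1 u)) (q : (Fin (K1 u) → ℕ) × ℕ) : List ℕ × ℕ :=
  ((List.ofFn q.1).drop i, q.2)

/-- Pairs of good tuples first differing at `i`. -/
noncomputable def pairsAt (u : ℝ) (i : Fin (K1 u)) :
    Finset (((Fin (K1 u) → ℕ) × ℕ) × ((Fin (K1 u) → ℕ) × ℕ)) := by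
  classical
  exact (goodTuples u ×ˢ goodTuples u).filter (fun z => tupVal z.1 = tupVal z.2 ∧
    (∀ l, l < i → z.1.1 l = z.2.1 l) ∧ z.1.1 i ≠ z.2.1 i)

lemma good_cases {u : ℝ} {q : (Fin (K1 u) → ℕ) × ℕ} (h : q ∈ goodTuples u) :
    q ∈ lowTuples u ∧ ∀ p : ℕ, p.Prime → yLow u < ll p → ¬ p ^ 2 ∣ tupVal q := by
  classical
  simpa [goodTuples, Finset.mem_filter] using h

/-- Data of a good tuple at a level. -/
lemma suf_data {u : ℝ} (hB : BigU u) {q : (Fin (K1 u) → ℕ) × ℕ} (hq : q ∈ goodTuples u)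
    (i : Fin (K1 u)) :
    let g := hgt u ((i : ℕ) + 1) / 2
    (∃ m, SufP u g (sufAt i q) m) ∧ CollSide u g (sufN u g (sufAt i q)) ∧
      nthPrime (sufN u g (sufAt i q)) 1 = q.1 i ∧
      (∀ j, (q.1 j).Prime ∧ q.1 j ∈ llPrimes 0 u) ∧
      tupVal q = (∏ l : Fin i, Nat.totient (q.1 (Fin.castLE i.2.le l))) *
        Nat.totient (sufN u g (sufAt i q)) := by
  intro g
  obtain ⟨hlow, hgood⟩ := good_cases hq
  obtain ⟨c, m, hw⟩ := exists_wit hlow
  have hex : ∃ m, SufP u g (sufAt i q) m := by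
    refine ⟨m, (Wit.desc hB hw).drop i, hw.rep.tot, ?_, Wit.collSide hB hw hgood i⟩
    intro x hx
    obtain ⟨j, rfl⟩ := List.mem_ofFn.1 (List.mem_of_mem_drop hx)
    exact Wit.lump_lt hB hw j
  obtain ⟨m', ⟨hd, ht, -, hside⟩, e⟩ := sufN_spec hex
  refine ⟨hex, e ▸ hside, ?_, fun j => ⟨(hw.slot' j).1, mem_llPrimes.2 ⟨(hw.slot' j).1,
    lt_of_le_of_lt (pow_nonneg (by linarith [hB.L16]) _) (Wit.lump_lt hB hw j),
    (hw.slot' j).2.2.1.trans (hB.cell_le hw.cell j)⟩⟩, ?_⟩
  · rw [e, hd.nthPrime_low le_rfl (by simp [sufAt]; omega)]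
    simp [sufAt]
  · rw [Wit.totient_drop hB hw i, e, hd.totient, ht, ((Wit.desc hB hw).drop i).totient,
      hw.rep.tot]
    rfl

/-- Collisions at one level. -/
lemma pairsAt_sum : ∀ᶠ u : ℝ in atTop, ∀ i : Fin (K1 u),
    ∑ z ∈ pairsAt u i, 1 / (tupVal z.1 : ℝ)
      ≤ (2 * u) ^ K1 u * Real.exp (-(LL u ^ 90 / 2)) := by
  classical
  obtain ⟨C, hC⟩ := mertens_ll
  filter_upwards [eventually_bigU, collision_recip, eventually_ge_atTop C] with u hB hcoll huC i
  set g := hgt u ((i : ℕ) + 1) / 2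
  let N : (Fin (K1 u) → ℕ) × ℕ → ℕ := fun q => sufN u g (sufAt i q)
  let pre : (Fin (K1 u) → ℕ) × ℕ → (Fin i → ℕ) := fun q l => q.1 (Fin.castLE i.2.le l)
  set S := (pairsAt u i).image (fun z => (N z.1, N z.2))
  have hmem : ∀ z ∈ pairsAt u i, z.1 ∈ goodTuples u ∧ z.2 ∈ goodTuples u ∧
      tupVal z.1 = tupVal z.2 ∧ pre z.1 = pre z.2 ∧ z.1.1 i ≠ z.2.1 i := by
    intro z hz
    simp only [pairsAt, Finset.mem_filter, Finset.mem_product] at hz
    exact ⟨hz.1.1, hz.1.2, hz.2.1, funext fun l => hz.2.2.1 _ (Fin.lt_def.2 (by simp)), hz.2.2.2⟩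
  have hkey : ∀ a ∈ goodTuples u, ∀ b ∈ goodTuples u,
      collKey u (N a) = collKey u (N b) → sufAt i a = sufAt i b := fun a ha b hb h =>
    sufN_key (suf_data hB ha i).1 (suf_data hB hb i).1 (by simp [sufAt]) h
  have hpairs : CollPairs u g S := by
    constructor
    · intro s hs
      obtain ⟨z, hz, rfl⟩ := Finset.mem_image.1 hs
      exact (suf_data hB (hmem z hz).1 i).2.1
    · intro s hs
      obtain ⟨z, hz, rfl⟩ := Finset.mem_image.1 hs
      exact (suf_data hB (hmem z hz).2.1 i).2.1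
    · intro s hs
      obtain ⟨z, hz, rfl⟩ := Finset.mem_image.1 hs
      obtain ⟨h1, h2, hv, hp, -⟩ := hmem z hz
      rw [(suf_data hB h1 i).2.2.2.2, (suf_data hB h2 i).2.2.2.2] at hv
      simp only [pre, funext_iff] at hp
      rw [Finset.prod_congr rfl (fun l _ => by rw [hp l])] at hv
      refine Nat.eq_of_mul_eq_mul_left (Finset.prod_pos fun l _ => ?_) hv
      exact Nat.totient_pos.2 ((suf_data hB h2 i).2.2.2.1 _).1.pos
    · intro s hs
      obtain ⟨z, hz, rfl⟩ := Finset.mem_image.1 hs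
      obtain ⟨h1, h2, -, -, hne⟩ := hmem z hz
      simp only [N]
      rw [(suf_data hB h1 i).2.2.1, (suf_data hB h2 i).2.2.1]
      exact hne
    · intro s hs s' hs' k1 k2
      obtain ⟨z, hz, rfl⟩ := Finset.mem_image.1 hs
      obtain ⟨z', hz', rfl⟩ := Finset.mem_image.1 hs'
      have e1 := hkey _ (hmem z hz).1 _ (hmem z' hz').1 k1
      have e2 := hkey _ (hmem z hz).2.1 _ (hmem z' hz').2.1 k2
      simp only [N, e1, e2]
  have hS := hcoll g S (by
    have h90 : 16 * LL u ^ 90 ≤ hgt u ((i : ℕ) + 1) := hB.pow_lt_h i.2 (by norm_num)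
    have h90' : 0 ≤ LL u ^ 90 := pow_nonneg (by linarith [hB.L16]) _
    simp only [g]
    linarith) hpairs
  set X := Fintype.piFinset fun _ : Fin i => llPrimes 0 u
  calc ∑ z ∈ pairsAt u i, 1 / (tupVal z.1 : ℝ)
      = ∑ p ∈ (pairsAt u i).image (fun z => (pre z.1, (N z.1, N z.2))),
          (∏ l, 1 / ((p.1 l : ℝ) - 1)) * (1 / (Nat.totient p.2.1 : ℝ)) := by
        rw [Finset.sum_image]
        · refine Finset.sum_congr rfl fun z hz => ?_
          obtain ⟨h1, -⟩ := hmem z hz
          obtain ⟨-, -, -, hpr, hv⟩ := suf_data hB h1 i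
          rw [hv, Nat.cast_mul, Nat.cast_prod, Finset.prod_div_distrib, Finset.prod_const_one,
            div_mul_div_comm, one_mul]
          congr 2
          refine Finset.prod_congr rfl fun l _ => ?_
          rw [Nat.totient_prime (hpr _).1, Nat.cast_sub (hpr _).1.one_le, Nat.cast_one]
        · intro z hz z' hz' h
          simp only [Prod.mk.injEq] at h
          obtain ⟨a1, a2, -, a4, -⟩ := hmem z hz
          obtain ⟨b1, b2, -, b4, -⟩ := hmem z' hz'
          have rec_ : ∀ a b : (Fin (K1 u) → ℕ) × ℕ, pre a = pre b → sufAt i a = sufAt i b →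
              a = b := by
            intro a b hp hs
            simp only [sufAt, Prod.mk.injEq] at hs
            refine Prod.ext (funext fun j => ?_) hs.2
            rcases Nat.lt_or_ge (j : ℕ) i with hj | hj
            · exact congrFun hp ⟨j, hj⟩
            · have := congrArg (fun l => l.getD ((j : ℕ) - i) 0) hs.1
              simp only [List.getD_eq_getElem?_getD, List.getElem?_drop,
                Nat.add_sub_cancel' hj] at this
              simpa using this
          refine Prod.ext (rec_ _ _ h.1 (hkey _ a1 _ b1 (congrArg _ h.2.1)))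
            (rec_ _ _ ?_ (hkey _ a2 _ b2 (congrArg _ h.2.2)))
          rw [← a4, ← b4, h.1]
    _ ≤ ∑ p ∈ X ×ˢ S, (∏ l, 1 / ((p.1 l : ℝ) - 1)) * (1 / (Nat.totient p.2.1 : ℝ)) := by
        refine Finset.sum_le_sum_of_subset_of_nonneg ?_ fun p hp _ => ?_
        · intro p hp
          obtain ⟨z, hz, rfl⟩ := Finset.mem_image.1 hp
          refine Finset.mem_product.2 ⟨Fintype.mem_piFinset.2 fun l => ?_,
            Finset.mem_image_of_mem _ hz⟩
          exact ((suf_data hB (hmem z hz).1 i).2.2.2.1 _).2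
        · refine mul_nonneg (Finset.prod_nonneg fun l _ => ?_) (by positivity)
          have h2 := (mem_llPrimes.1 (Fintype.mem_piFinset.1 (Finset.mem_product.1 hp).1 l)).1
          exact div_nonneg zero_le_one (by
            have : (2 : ℝ) ≤ p.1 l := by exact_mod_cast h2.two_le
            linarith)
    _ = (∑ p ∈ llPrimes 0 u, 1 / ((p : ℝ) - 1)) ^ (i : ℕ) *
          ∑ s ∈ S, 1 / (Nat.totient s.1 : ℝ) := by
        rw [Finset.sum_product]
        dsimp only
        rw [← Finset.sum_mul_sum]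
        simp only [X]
        rw [← Finset.prod_univ_sum (fun _ => llPrimes 0 u) (fun _ (p : ℕ) => 1 / ((p : ℝ) - 1))]
        simp
    _ ≤ (2 * u) ^ K1 u * Real.exp (-(LL u ^ 90 / 2)) := by
        have hM := (abs_le.1 (hC 0 u le_rfl hB.upos.le)).2
        have hu := hB.u_ge
        refine mul_le_mul ?_ (hS.trans ?_) (Finset.sum_nonneg fun _ _ => by positivity)
          (by positivity)
        · refine le_trans (pow_le_pow_left₀ (Finset.sum_nonneg fun p hp => ?_)
            (show _ ≤ 2 * u by linarith) _) (pow_le_pow_right₀ (by linarith) i.2.le)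
          have : (2 : ℝ) ≤ p := by exact_mod_cast (mem_llPrimes.1 hp).1.two_le
          exact div_nonneg zero_le_one (by linarith)
        · refine Real.exp_le_exp.2 ?_
          have h90 : 16 * LL u ^ 90 ≤ hgt u ((i : ℕ) + 1) := hB.pow_lt_h i.2 (by norm_num)
          have h90' : 0 ≤ LL u ^ 90 := pow_nonneg (by linarith [hB.L16]) _
          simp only [g]
          linarith

/-- The image carries almost all the weight. -/
lemma sum_image_ge {α : Type*} [DecidableEq α] (G : Finset α) (v : α → ℕ) :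
    ∑ a ∈ G, 1 / (v a : ℝ) - ∑ z ∈ (G ×ˢ G).filter (fun z => z.1 ≠ z.2 ∧ v z.1 = v z.2),
      1 / (v z.1 : ℝ) ≤ ∑ b ∈ G.image v, 1 / (b : ℝ) := by
  have h : ∑ z ∈ (G ×ˢ G).filter (fun z => z.1 ≠ z.2 ∧ v z.1 = v z.2), 1 / (v z.1 : ℝ)
      = ∑ a ∈ G, (((G.filter (fun b => v b = v a)).card : ℝ) - 1) * (1 / (v a : ℝ)) := by
    rw [Finset.sum_filter, Finset.sum_product]
    refine Finset.sum_congr rfl fun a ha => ?_
    rw [← Finset.sum_filter]
    dsimp only
    rw [Finset.sum_const, nsmul_eq_mul]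
    congr 1
    have e : G.filter (fun b => a ≠ b ∧ v a = v b)
        = (G.filter (fun b => v b = v a)).erase a := by
      ext b
      simp only [Finset.mem_filter, Finset.mem_erase]
      constructor
      · exact fun h => ⟨fun e => h.2.1 e.symm, h.1, h.2.2.symm⟩
      · exact fun h => ⟨h.2.1, fun e => h.1 e.symm, h.2.2.symm⟩
    rw [e, Finset.cast_card_erase_of_mem]
    exact Finset.mem_filter.2 ⟨ha, rfl⟩
  rw [h, ← Finset.sum_sub_distrib]
  calc ∑ a ∈ G, (1 / (v a : ℝ) -
        (((G.filter (fun b => v b = v a)).card : ℝ) - 1) * (1 / (v a : ℝ)))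
      = ∑ b ∈ G.image v, (G.filter (fun a => v a = b)).card •
          (1 / (b : ℝ) - (((G.filter (fun a => v a = b)).card : ℝ) - 1) * (1 / (b : ℝ))) :=
        Finset.sum_comp (fun b : ℕ => 1 / (b : ℝ) -
          (((G.filter (fun a => v a = b)).card : ℝ) - 1) * (1 / (b : ℝ))) v
    _ ≤ _ := by
        refine Finset.sum_le_sum fun b _ => ?_
        rw [nsmul_eq_mul]
        set n := ((G.filter (fun a => v a = b)).card : ℝ)
        have h0 : 0 ≤ 1 / (b : ℝ) := by positivity
        nlinarith [mul_nonneg (sq_nonneg (n - 1)) h0]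

/-- Colliding pairs are negligible. -/
lemma collisions_sum : ∀ᶠ u : ℝ in atTop,
    ∑ q ∈ goodTuples u, 1 / (tupVal q : ℝ) - 1 / LL u ^ 2 ≤ ∑ m ∈ mMinus u, 1 / (m : ℝ) := by
  classical
  filter_upwards [eventually_bigU, pairsAt_sum] with u hB hpair
  refine le_trans (sub_le_sub_left ?_ _) (sum_image_ge (goodTuples u) tupVal)
  calc _ ≤ ∑ z ∈ (Finset.univ : Finset (Fin (K1 u))).biUnion (pairsAt u),
        1 / (tupVal z.1 : ℝ) := by
        refine Finset.sum_le_sum_of_subset_of_nonneg ?_ fun _ _ _ => by positivity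
        intro z hz
        simp only [Finset.mem_filter, Finset.mem_product] at hz
        obtain ⟨⟨h1, h2⟩, hne, hv⟩ := hz
        have hex : (Finset.univ.filter (fun j => z.1.1 j ≠ z.2.1 j)).Nonempty := by
          rw [Finset.nonempty_iff_ne_empty]
          intro h0
          have he : z.1.1 = z.2.1 := funext fun j => by
            by_contra hj
            exact Finset.notMem_empty j (h0 ▸ Finset.mem_filter.2 ⟨Finset.mem_univ j, hj⟩)
          refine hne (Prod.ext he ?_)
          rw [tupVal, tupVal, he] at hv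
          refine Nat.eq_of_mul_eq_mul_left (Finset.prod_pos fun l _ => ?_) hv
          obtain ⟨c, m, hw⟩ := exists_wit (good_cases h2).1
          exact Nat.totient_pos.2 (hw.slot' l).1.pos
        set i := (Finset.univ.filter (fun j => z.1.1 j ≠ z.2.1 j)).min' hex
        refine Finset.mem_biUnion.2 ⟨i, Finset.mem_univ _, ?_⟩
        simp only [pairsAt, Finset.mem_filter, Finset.mem_product]
        refine ⟨⟨h1, h2⟩, hv, fun l hl => ?_, (Finset.mem_filter.1 (Finset.min'_mem _ hex)).2⟩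
        by_contra hl'
        exact absurd hl (not_lt.2 (Finset.min'_le _ _
          (Finset.mem_filter.2 ⟨Finset.mem_univ l, hl'⟩)))
    _ ≤ ∑ i : Fin (K1 u), ∑ z ∈ pairsAt u i, 1 / (tupVal z.1 : ℝ) :=
        sum_biUnion_le _ _ (fun _ => by positivity)
    _ ≤ (K1 u : ℝ) * ((2 * u) ^ K1 u * Real.exp (-(LL u ^ 90 / 2))) := by
        refine (Finset.sum_le_sum fun i _ => hpair i).trans_eq ?_
        simp
    _ ≤ 1 / LL u ^ 2 := by
        have hL := hB.L16
        have hu := hB.u_ge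
        have hK : (K1 u : ℝ) ≤ 8 * LL u := le_trans (by exact_mod_cast hB.K1lt.le) hB.K2le
        have h1 : (K1 u : ℝ) ≤ Real.exp (8 * LL u) := by
          linarith [Real.add_one_le_exp (8 * LL u)]
        have h2 : (2 * u) ^ K1 u ≤ Real.exp (8 * LL u * (2 * LL u)) := by
          have : 2 * u ≤ Real.exp (2 * LL u) := by
            rw [two_mul (LL u), Real.exp_add, hB.exp_LL]; nlinarith
          refine (pow_le_pow_left₀ (by linarith) this _).trans ?_
          rw [← Real.exp_nat_mul]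
          exact Real.exp_le_exp.2 (mul_le_mul_of_nonneg_right hK (by linarith))
        calc _ ≤ Real.exp (8 * LL u) *
              (Real.exp (8 * LL u * (2 * LL u)) * Real.exp (-(LL u ^ 90 / 2))) := by
              gcongr
          _ ≤ Real.exp (-LL u) := by
              rw [← Real.exp_add, ← Real.exp_add]
              refine Real.exp_le_exp.2 ?_
              have h90 : LL u ^ 4 ≤ LL u ^ 90 := pow_le_pow_right₀ hB.L1 (by norm_num)
              have : 0 ≤ LL u * LL u * (LL u * LL u - 1024) :=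
                mul_nonneg (mul_self_nonneg _) (by nlinarith)
              nlinarith
          _ ≤ _ := by
              rw [Real.exp_neg, hB.exp_LL, ← one_div]
              exact one_div_le_one_div_of_le (pow_pos (by linarith) _) hB.L2le

end Vale.Agent.P031
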