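import Vale.Agent.P031.Gen

/-!
Abnormal primes are negligible.

If `q` is abnormal then either `q - 1` is smooth (Rankin), or one of at most `(2 u)^2` intervals
`(a, b]` carries an unexpected number of primes of `q - 1`. The latter is the case of one form of
`gen_recip`, `gen_count`, with the weight `z ^ omegaIn a b`, `z = 1 ± b^(-3/8)/8`.
-/

open Finset Real Filter

namespace Vale.Agent.P031

namespace Abnormal

theorem sum_le_cover {α I : Type} [DecidableEq α] (S : Finset α) (J : Finset I)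
    (P : I → α → Prop) [∀ i, DecidablePred (P i)] (g : α → ℝ) (hg : ∀ x ∈ S, 0 ≤ g x)
    (h : ∀ x ∈ S, ∃ i ∈ J, P i x) :
    ∑ x ∈ S, g x ≤ ∑ i ∈ J, ∑ x ∈ S.filter (P i), g x := by
  simp only [Finset.sum_filter]
  rw [Finset.sum_comm]
  refine Finset.sum_le_sum fun x hx => ?_
  obtain ⟨i, hi, hix⟩ := h x hx
  refine le_trans ?_ (Finset.single_le_sum (f := fun i => if P i x then g x else 0)
    (fun j _ => by split_ifs <;> [exact hg x hx; exact le_rfl]) hi)
  simp [hix]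

theorem le_topPrime {k p : ℕ} (hp : p ∈ k.primeFactors) : p ≤ topPrime k := by
  have hmem : p ∈ k.primeFactorsList :=
    (Nat.mem_primeFactorsList (Nat.mem_primeFactors.1 hp).2.2).2
      ⟨(Nat.mem_primeFactors.1 hp).1, (Nat.mem_primeFactors.1 hp).2.1⟩
  have hne : k.primeFactorsList ≠ [] := List.ne_nil_of_mem hmem
  obtain ⟨i, hi, rfl⟩ := List.mem_iff_getElem.1 hmem
  unfold topPrime
  rw [List.getLastD_eq_getLast?, List.getLast?_eq_some_getLast hne, Option.getD_some,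
    List.getLast_eq_getElem hne]
  have hs := (Nat.primeFactorsList_sorted k).pairwise
  rcases Nat.eq_or_lt_of_le (Nat.le_sub_one_of_lt hi) with h | h
  · subst h; exact le_rfl
  · exact List.pairwise_iff_getElem.1 hs i _ hi (by omega) h

theorem log_le_log_topPrime {k p : ℕ} (hp : p ∈ k.primeFactors) :
    Real.log p ≤ Real.log (topPrime k) :=
  Real.log_le_log (by exact_mod_cast (Nat.prime_of_mem_primeFactors hp).pos)
    (by exact_mod_cast le_topPrime hp)

theorem log_topPrime_nonneg (k : ℕ) : 0 ≤ Real.log (topPrime k) := Real.log_natCast_nonneg _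

theorem ll_mono {p q : ℕ} (hp : 2 ≤ p) (h : p ≤ q) : ll p ≤ ll q := by
  refine max_le_max le_rfl (Real.log_le_log (Real.log_pos (by exact_mod_cast hp)) ?_)
  exact Real.log_le_log (by exact_mod_cast (show 0 < p by omega)) (by exact_mod_cast h)

theorem ll_le_of_dvd_pred {q p : ℕ} (hp : p ∈ (q - 1).primeFactors) : ll p ≤ ll q :=
  ll_mono (Nat.prime_of_mem_primeFactors hp).two_le
    ((Nat.le_of_mem_primeFactors hp).trans (Nat.sub_le q 1))

theorem log_eq_exp_ll {q : ℕ} (hq : q.Prime) (h : 0 < ll q) :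
    Real.log q = Real.exp (ll q) := by
  have hl : 0 < Real.log q := Real.log_pos (by exact_mod_cast hq.one_lt)
  have : 0 < Real.log (Real.log q) := (lt_max_iff.1 h).resolve_left (lt_irrefl _)
  rw [ll, max_eq_right this.le, Real.exp_log hl]

theorem log_pred_ge {q : ℕ} (hq : q.Prime) :
    Real.log q - 1 ≤ Real.log ((q - 1 : ℕ) : ℝ) := by
  have h2 := hq.two_le
  have h1 : (0 : ℝ) < ((q - 1 : ℕ) : ℝ) := by exact_mod_cast (show 0 < q - 1 by omega)
  have h3 : (q : ℝ) ≤ 2 * ((q - 1 : ℕ) : ℝ) := by exact_mod_cast (show q ≤ 2 * (q - 1) by omega)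
  have h4 := Real.log_le_log (by exact_mod_cast hq.pos) h3
  rw [Real.log_mul two_ne_zero h1.ne'] at h4
  linarith [Real.log_two_lt_d9]

/-- The interval `(a, b]` is unexpected for `q`. -/
def Bad (u : ℝ) (a b q : ℕ) : Prop :=
  yLow u ≤ a ∧ a < b ∧ (b : ℝ) ≤ ll q + 1 ∧
    Real.log q ≤ u ^ 3 * Real.log (topPrime (q - 1)) ∧
    (b : ℝ) ^ ((5 : ℝ) / 8) < |(omegaIn a b (q - 1) : ℝ) - (min (b : ℝ) (ll q) - a)|

theorem abnormal_cases {u : ℝ} {q : ℕ} (h : ¬ NormalPrime u q) :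
    yLow u < ll q ∧
      (u ^ 3 * Real.log (topPrime (q - 1)) < Real.log q ∨ ∃ a b : ℕ, Bad u a b q) := by
  rw [NormalPrime, Classical.not_imp] at h
  refine ⟨h.1, ?_⟩
  by_cases hA : Real.log q ≤ u ^ 3 * Real.log (topPrime (q - 1))
  · refine Or.inr ?_
    have h2 := not_and.1 h.2 hA
    push Not at h2
    obtain ⟨a, b, h3, h4, h5, h6⟩ := h2
    exact ⟨a, b, h3, h4, h5, hA, h6⟩
  · exact Or.inl (not_le.1 hA)

theorem eventually_large (K : ℝ) :
    ∀ᶠ u : ℝ in atTop, K ≤ u ∧ K ≤ LL u :=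
  (eventually_ge_atTop K).and (Real.tendsto_log_atTop.eventually_ge_atTop K)

theorem LL_facts {u : ℝ} (hu : 1 ≤ u) (hL : 8 ≤ LL u) :
    LL u ^ 3 ≤ 2 * u ^ 2 ∧ 3 * LL u ≤ yLow u ∧ LL u ≤ u := by
  have he : Real.exp (LL u) = u := Real.exp_log (by linarith)
  have h2 := Real.quadratic_le_exp_of_nonneg (show (0 : ℝ) ≤ LL u by linarith)
  rw [he] at h2
  have hLu : LL u ≤ u := by nlinarith
  refine ⟨?_, ?_, hLu⟩
  · have : LL u ^ 2 ≤ 2 * u := by nlinarith
    nlinarith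
  · have h1 : LL u ^ 2 ≤ LL u ^ 16 := pow_le_pow_right₀ (by linarith) (by norm_num)
    unfold yLow
    nlinarith

/-- The budget of one piece. -/
noncomputable def budget (u : ℝ) : ℝ := Real.exp (-(2 * LL u ^ 3)) / (64 * u ^ 3)

theorem budget_pos {u : ℝ} (hu : 0 < u) : 0 < budget u :=
  div_pos (Real.exp_pos _) (by positivity)

theorem exp_le_budget {u t : ℝ} (hu : 0 < u) (h : t + 2 * LL u ^ 3 + 3 * LL u + 64 ≤ 0) :
    Real.exp t ≤ budget u := by
  rw [budget, le_div_iff₀ (by positivity)]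
  have h64 : (64 : ℝ) ≤ Real.exp 64 := by linarith [Real.add_one_le_exp (64 : ℝ)]
  have e : u ^ 3 = Real.exp (3 * LL u) := by
    rw [show (3 : ℝ) = ((3 : ℕ) : ℝ) by norm_num, Real.exp_nat_mul, LL, Real.exp_log hu]
  calc Real.exp t * (64 * u ^ 3) ≤ Real.exp t * (Real.exp 64 * Real.exp (3 * LL u)) := by
        rw [e]
        gcongr
    _ = Real.exp (t + (64 + 3 * LL u)) := by rw [← Real.exp_add, ← Real.exp_add]
    _ ≤ _ := Real.exp_le_exp.2 (by linarith)

theorem eventually_smooth_budget (K : ℝ) :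
    ∀ᶠ u : ℝ in atTop, Real.exp (-(u ^ 3 / 48) + K * u) ≤ budget u := by
  filter_upwards [eventually_large (48 * (|K| + 100))] with u ⟨hu, hL⟩
  have hK := abs_nonneg K
  have h1 : 1 ≤ u := by linarith
  obtain ⟨h3, -, hLu⟩ := LL_facts h1 (by linarith)
  refine exp_le_budget (by linarith) ?_
  have e3 : u ≤ u ^ 2 := le_self_pow₀ h1 two_ne_zero
  have e1 : K * u ≤ |K| * u ^ 2 :=
    (mul_le_mul_of_nonneg_right (le_abs_self K) (by linarith)).trans
      (mul_le_mul_of_nonneg_left e3 hK)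
  have e2 : 48 * (|K| + 100) * u ^ 2 ≤ u * u ^ 2 := mul_le_mul_of_nonneg_right hu (sq_nonneg u)
  have e4 : u * u ^ 2 = u ^ 3 := by ring
  nlinarith

theorem eventually_interval_budget (K : ℝ) :
    ∀ᶠ u : ℝ in atTop, Real.exp (-(LL u ^ 4 / 32) + K * LL u) ≤ budget u := by
  filter_upwards [eventually_large (32 * (|K| + 100))] with u ⟨hu, hL⟩
  have hK := abs_nonneg K
  refine exp_le_budget (by linarith) ?_
  set L := LL u with hLdef
  have h1 : 1 ≤ L := by linarith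
  have h13 : L ≤ L ^ 3 := le_self_pow₀ h1 (by norm_num)
  have e1 : K * L ≤ |K| * L ^ 3 :=
    (mul_le_mul_of_nonneg_right (le_abs_self K) (by linarith)).trans
      (mul_le_mul_of_nonneg_left h13 hK)
  have e2 : 32 * (|K| + 100) * L ^ 3 ≤ L * L ^ 3 :=
    mul_le_mul_of_nonneg_right hL (by positivity)
  have e3 : (1 : ℝ) ≤ L ^ 3 := by linarith
  nlinarith

/-! ### One interval, one level -/

theorem pow_eighth (b : ℕ) : ((b : ℝ) ^ ((1 : ℝ) / 8)) ^ 8 = b := by
  rw [← Real.rpow_natCast, ← Real.rpow_mul (Nat.cast_nonneg b)]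
  norm_num

theorem pow_five_eighths (b : ℕ) :
    (b : ℝ) ^ ((5 : ℝ) / 8) = ((b : ℝ) ^ ((1 : ℝ) / 8)) ^ 5 := by
  rw [← Real.rpow_natCast ((b : ℝ) ^ ((1 : ℝ) / 8)) 5, ← Real.rpow_mul (Nat.cast_nonneg b)]
  norm_num

theorem high_exponent {t μ s : ℝ} (ht : 1 ≤ t) (hμ0 : 0 ≤ μ) (hμ : μ ≤ t ^ 8)
    (hs : s = 1 / (8 * t ^ 3)) :
    s * μ - (μ + (t ^ 5 - 1)) * Real.log (1 + s) ≤ -(t ^ 2 / 32) + 1 := by
  have ht3 : (1 : ℝ) ≤ t ^ 3 := one_le_pow₀ ht
  have hs0 : 0 ≤ s := by rw [hs]; positivity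
  have hs1 : s ≤ 1 / 8 := by
    rw [hs]; exact one_div_le_one_div_of_le (by norm_num) (by linarith)
  have e1 : t ^ 5 * s = t ^ 2 / 8 := by rw [hs]; field_simp
  have e2 : t ^ 8 * s ^ 2 = t ^ 2 / 64 := by rw [hs]; field_simp; ring
  have hlog : s - s ^ 2 / 2 ≤ Real.log (1 + s) := by
    refine le_trans ?_ (Real.le_log_one_add_of_nonneg hs0)
    rw [le_div_iff₀ (by linarith)]
    nlinarith [pow_nonneg hs0 3]
  have hM : 0 ≤ μ + (t ^ 5 - 1) := by linarith [one_le_pow₀ ht (n := 5)]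
  have h1 := mul_le_mul_of_nonneg_left hlog hM
  have h2 : μ * s ^ 2 ≤ t ^ 8 * s ^ 2 := mul_le_mul_of_nonneg_right hμ (sq_nonneg s)
  have h3 : 0 ≤ (t ^ 5 - 1) * s * (1 / 2 - s / 2) :=
    mul_nonneg (mul_nonneg (by linarith [one_le_pow₀ ht (n := 5)]) hs0) (by linarith)
  nlinarith

theorem low_exponent {t μ s : ℝ} (ht : 1 ≤ t) (hμ0 : 0 ≤ μ) (hμ : μ ≤ t ^ 8)
    (hs : s = 1 / (8 * t ^ 3)) :
    -s * μ - (μ - (t ^ 5 - 1)) * Real.log (1 - s) ≤ -(t ^ 2 / 32) + 1 := by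
  have ht3 : (1 : ℝ) ≤ t ^ 3 := one_le_pow₀ ht
  have hs0 : 0 ≤ s := by rw [hs]; positivity
  have hs1 : s ≤ 1 / 8 := by
    rw [hs]; exact one_div_le_one_div_of_le (by norm_num) (by linarith)
  have e1 : t ^ 5 * s = t ^ 2 / 8 := by rw [hs]; field_simp
  have e2 : t ^ 8 * s ^ 2 = t ^ 2 / 64 := by rw [hs]; field_simp; ring
  have hup : Real.log (1 - s) ≤ -s := by
    linarith [Real.log_le_sub_one_of_pos (show (0 : ℝ) < 1 - s by linarith)]
  have hlo : -s - 2 * s ^ 2 ≤ Real.log (1 - s) := by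
    refine le_trans ?_ (Real.one_sub_inv_le_log_of_pos (by linarith))
    have : (1 - s)⁻¹ ≤ 1 + s + 2 * s ^ 2 := by
      rw [← one_div, div_le_iff₀ (by linarith)]
      nlinarith
    linarith
  have h0 : (0 : ℝ) ≤ t ^ 5 - 1 := by linarith [one_le_pow₀ ht (n := 5)]
  have h1 := mul_le_mul_of_nonneg_left hlo hμ0
  have h1' := mul_le_mul_of_nonneg_left hup h0
  have h2 : μ * s ^ 2 ≤ t ^ 8 * s ^ 2 := mul_le_mul_of_nonneg_right hμ (sq_nonneg s)
  nlinarith

/-- The weight. -/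
noncomputable def wt (a b V z : ℝ) (p : ℕ) : ℝ := by
  classical exact if ll p ≤ V then (if a < ll p ∧ ll p ≤ b then z else 1) else 0

theorem pw_wt {a : ℝ} {b : ℕ} {q : ℕ} {V z : ℝ} (hq : ll q ≤ V) :
    pw (wt a (min (b : ℝ) V) V z) (q - 1) = z ^ omegaIn a b (q - 1) := by
  classical
  unfold pw omegaIn
  have hf : ∀ p ∈ (q - 1).primeFactors,
      wt a (min (b : ℝ) V) V z p = if a < ll p ∧ ll p ≤ (b : ℝ) then z else 1 := by
    intro p hp
    have hpV : ll p ≤ V := (ll_le_of_dvd_pred hp).trans hq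
    simp [wt, hpV]
  rw [Finset.prod_congr rfl hf, Finset.prod_ite, Finset.prod_const, Finset.prod_const_one, mul_one]

/-- Tilting by `z`: primes `q` of level `V` for which `w z^(omegaIn a b (q-1)) ≥ 1`. -/
theorem tilt : ∃ K : ℝ, 0 ≤ K ∧ ∀ᶠ u : ℝ in atTop, ∀ (a b : ℕ) (V z w : ℝ) (S : Finset ℕ),
    1 ≤ V → V ≤ u + 5 → (a : ℝ) ≤ min (b : ℝ) V → 1 / 2 ≤ z → z ≤ 2 → 0 ≤ w →
    (∀ q ∈ S, q.Prime ∧ 0 < ll q ∧ V - 1 ≤ ll q ∧ ll q ≤ V ∧
      Real.log q ≤ u ^ 3 * Real.log (topPrime (q - 1)) ∧ 1 ≤ w * z ^ omegaIn a b (q - 1)) →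
    (∑ q ∈ S, 1 / ((q : ℝ) - 1) ≤
      w * Real.exp ((z - 1) * (min (b : ℝ) V - a) + K * LL u)) ∧
    ∀ X : ℕ, (∀ q ∈ S, q - 1 ≤ X) → Real.log X ≤ Real.exp (u + 5) →
      (S.card : ℝ) ≤
        X * (w * Real.exp ((z - 1) * (min (b : ℝ) V - a) + K * LL u)) / Real.exp V := by
  classical
  obtain ⟨G₁, hG₁⟩ := gen_recip
  obtain ⟨G₂, hG₂⟩ := gen_count
  obtain ⟨C₁, hC₁⟩ := mertens_ll
  obtain ⟨C₂, hC₂⟩ := mertens_upto
  refine ⟨4 * (G₁ : ℝ) + 4 * G₂ + |C₁| + |C₂| + 2, by positivity, ?_⟩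
  filter_upwards [eventually_large (16 * ((G₁ : ℝ) + G₂) + 10)] with u ⟨hu, hL⟩
  intro a b V z w S hV1 hVu hab hz hz2 hw hS
  set U : ℝ := u + 5 with hU
  set b' : ℝ := min (b : ℝ) V with hb'
  set f : Unit → ℕ → ℝ := fun _ => wt a b' V z with hf
  set T : Unit → ℝ := fun _ => max 1 (Real.exp (V - 1)) with hT
  set R : Finset (Unit → ℕ) := S.image fun q => fun _ : Unit => q - 1 with hR
  have hT' : ∀ s, T s = Real.exp (V - 1) := fun s => max_eq_right (Real.one_le_exp (by linarith))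
  have hfB : ∀ c p, 0 ≤ f c p ∧ f c p ≤ 2 := by
    intro c p
    simp only [hf, wt]
    split_ifs <;> constructor <;> linarith
  have hform : ∀ r : Unit → ℕ, formVal (fun _ : Unit => (Finset.univ : Finset Unit)) r () = r () := by
    intro r; simp [formVal]
  have hcond : ∀ r ∈ R, GenCond (fun _ : Unit => (Finset.univ : Finset Unit)) U T r := by
    intro r hr
    obtain ⟨q, hq, rfl⟩ := Finset.mem_image.1 hr
    obtain ⟨hp, hl0, hl1, hl2, htop, -⟩ := hS q hq
    have h2 := hp.two_le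
    have hlogq := log_eq_exp_ll hp hl0
    have hcast : ((q - 1 : ℕ) : ℝ) + 1 = q := by
      exact_mod_cast (show q - 1 + 1 = q by omega)
    refine ⟨fun _ => show 1 ≤ q - 1 by omega, fun _ => ?_, fun s => ?_, fun s => ?_, fun s => ?_,
      fun _ _ _ => Subsingleton.elim _ _⟩
    · show Real.log ((q - 1 : ℕ) : ℝ) ≤ Real.exp U
      refine (Real.log_le_log (by exact_mod_cast (show 0 < q - 1 by omega))
        (Nat.cast_le.2 (Nat.sub_le q 1))).trans ?_
      rw [hlogq]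
      exact Real.exp_le_exp.2 (by linarith)
    · rw [hform, show q - 1 + 1 = q by omega]; exact hp
    · rw [hform, hcast, hT' s, hlogq]; exact Real.exp_le_exp.2 hl1
    · rw [hform, hcast]
      refine htop.trans (mul_le_mul_of_nonneg_right ?_ (log_topPrime_nonneg _))
      exact pow_le_pow_left₀ (by linarith) (by linarith) 3
  have hinj : Set.InjOn (fun q => fun _ : Unit => q - 1) (S : Set ℕ) := by
    intro x hx y hy hxy
    have h1 : x - 1 = y - 1 := congrFun hxy ()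
    have := (hS x hx).1.two_le
    have := (hS y hy).1.two_le
    omega
  -- the exponential sum
  set P := Nat.primesLE ⌊Real.exp (Real.exp U)⌋₊ with hP
  have hsum : ∑ p ∈ P, f () p / ((p : ℝ) - 1) ≤ V + |C₂| + (z - 1) * (b' - a) + |C₁| := by
    have hsplit : ∀ p ∈ P, f () p / ((p : ℝ) - 1) =
        (if ll p ≤ V then 1 / ((p : ℝ) - 1) else 0) +
          (z - 1) * (if (a : ℝ) < ll p ∧ ll p ≤ b' then 1 / ((p : ℝ) - 1) else 0) := by
      intro p hp
      simp only [hf, wt]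
      by_cases h1 : ll p ≤ V
      · simp only [h1, if_true]; split_ifs <;> ring
      · have : ¬ ((a : ℝ) < ll p ∧ ll p ≤ b') := fun h => h1 (h.2.trans (min_le_right _ _))
        simp only [h1, this, if_false]; ring
    rw [Finset.sum_congr rfl hsplit, Finset.sum_add_distrib, ← Finset.mul_sum,
      ← Finset.sum_filter, ← Finset.sum_filter]
    set N := ⌊Real.exp (Real.exp V)⌋₊ with hN
    have hN3 : 3 ≤ N := by
      refine Nat.le_floor ?_
      have he : 2 ≤ Real.exp V := by linarith [Real.add_one_le_exp V]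
      push_cast
      linarith [Real.add_one_le_exp (Real.exp V)]
    have hmem : ∀ p : ℕ, p.Prime → ∀ W : ℝ, ll p ≤ W → p ≤ ⌊Real.exp (Real.exp W)⌋₊ := by
      intro p hp W hW
      refine Nat.le_floor ?_
      have hl : 0 < Real.log p := Real.log_pos (by exact_mod_cast hp.one_lt)
      exact (Real.log_le_iff_le_exp (by exact_mod_cast hp.pos)).1
        ((Real.log_le_iff_le_exp hl).1 ((le_max_right _ _).trans hW))
    have h1 : ∑ p ∈ P.filter (fun p => ll p ≤ V), 1 / ((p : ℝ) - 1) ≤ V + |C₂| := by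
      have hsub : P.filter (fun p => ll p ≤ V) ⊆ Nat.primesLE N := by
        intro p hp
        obtain ⟨hp, hpV⟩ := Finset.mem_filter.1 hp
        have hp' := (Nat.mem_primesLE.1 hp).2
        exact Nat.mem_primesLE.2 ⟨hmem p hp' V hpV, hp'⟩
      refine (Finset.sum_le_sum_of_subset_of_nonneg hsub fun p hp _ => ?_).trans
        ((hC₂ N hN3).trans ?_)
      · have : (2 : ℝ) ≤ p := by exact_mod_cast (Nat.mem_primesLE.1 hp).2.two_le
        exact div_nonneg zero_le_one (by linarith)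
      · have hN3' : (3 : ℝ) ≤ N := by exact_mod_cast hN3
        have hle : Real.log N ≤ Real.exp V :=
          (Real.log_le_iff_le_exp (by linarith)).2 (Nat.floor_le (Real.exp_pos _).le)
        have := (Real.log_le_iff_le_exp (Real.log_pos (by linarith))).2 hle
        linarith [le_abs_self C₂]
    have h2 : P.filter (fun p => (a : ℝ) < ll p ∧ ll p ≤ b') = llPrimes a b' := by
      ext p
      simp only [Finset.mem_filter, mem_llPrimes, hP, Nat.mem_primesLE]
      constructor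
      · rintro ⟨⟨-, hp⟩, h⟩; exact ⟨hp, h⟩
      · rintro ⟨hp, h⟩
        exact ⟨⟨hmem p hp U (h.2.trans ((min_le_right _ _).trans hVu)), hp⟩, h⟩
    rw [h2]
    have h3 := hC₁ a b' (Nat.cast_nonneg a) hab
    have h4 : (z - 1) * (∑ p ∈ llPrimes a b', 1 / ((p : ℝ) - 1) - (b' - a)) ≤ |C₁| := by
      refine (le_abs_self _).trans ?_
      rw [abs_mul]
      refine (mul_le_mul (show |z - 1| ≤ 1 from abs_le.2 ⟨by linarith, by linarith⟩) h3
        (abs_nonneg _) zero_le_one).trans ?_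
      linarith [le_abs_self C₁]
    linarith
  -- the bound
  have hbase : ∀ G : ℕ, G ≤ G₁ + G₂ → genBound G U 2 f T ≤
      Real.exp ((z - 1) * (b' - a) + (4 * (G₁ : ℝ) + 4 * G₂ + |C₁| + |C₂| + 1) * LL u) := by
    intro G hG
    have hG' : (G : ℝ) ≤ G₁ + G₂ := by exact_mod_cast hG
    have hL1 : 1 ≤ LL u := le_trans (by linarith) hL
    unfold genBound
    simp only [Fintype.card_unit, Finset.univ_unique, Finset.prod_singleton, hT', Nat.cast_one]
    have hu0 : 0 < u := by linarith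
    have e1 : ((G : ℝ) * 2 * U * (2 + 1 + 1)) ≤ Real.exp (2 * LL u) := by
      rw [show (2 : ℝ) * LL u = ((2 : ℕ) : ℝ) * LL u by norm_num, Real.exp_nat_mul,
        show Real.exp (LL u) = u from Real.exp_log hu0]
      have h' : (G : ℝ) * 2 * U * (2 + 1 + 1) = 8 * G * U := by ring
      rw [h']
      have : U ≤ 2 * u := by linarith
      nlinarith [mul_le_mul_of_nonneg_left this (show (0 : ℝ) ≤ 8 * G by positivity),
        mul_le_mul_of_nonneg_right hu hu0.le]
    have e2 : (((G : ℝ) * 2 * U * (2 + 1 + 1)) ^ G) ^ (1 + 1) ≤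
        Real.exp ((4 * (G₁ : ℝ) + 4 * G₂) * LL u) := by
      rw [← pow_mul]
      refine (pow_le_pow_left₀ (by positivity) e1 _).trans ?_
      rw [← Real.exp_nat_mul]
      refine Real.exp_le_exp.2 ?_
      push_cast
      nlinarith [mul_le_mul_of_nonneg_right hG' (show (0 : ℝ) ≤ LL u by linarith)]
    refine (div_le_div_of_nonneg_right (mul_le_mul e2 (Real.exp_le_exp.2 hsum)
      (Real.exp_pos _).le (Real.exp_pos _).le) (Real.exp_pos _).le).trans ?_
    rw [← Real.exp_add, ← Real.exp_sub]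
    refine Real.exp_le_exp.2 ?_
    nlinarith [mul_le_mul_of_nonneg_left hL1 (show (0 : ℝ) ≤ |C₁| + |C₂| + 1 by positivity)]
  have hphi : ∀ c : Unit, (Finset.univ.filter fun s : Unit =>
      c ∈ (fun _ : Unit => (Finset.univ : Finset Unit)) s).card ≤ 2 :=
    fun c => (Finset.card_le_univ _).trans (by simp)
  have hU10 : 10 ≤ U := by linarith
  have hpw : ∀ q ∈ S, pw (f ()) (q - 1) = z ^ omegaIn a b (q - 1) :=
    fun q hq => pw_wt (hS q hq).2.2.2.1
  have hL0 : 0 ≤ LL u := by linarith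
  have hKmono : Real.exp ((z - 1) * (b' - a) + (4 * (G₁ : ℝ) + 4 * G₂ + |C₁| + |C₂| + 1) * LL u)
      ≤ Real.exp ((z - 1) * (b' - a) + (4 * (G₁ : ℝ) + 4 * G₂ + |C₁| + |C₂| + 2) * LL u) :=
    Real.exp_le_exp.2 (by nlinarith)
  constructor
  · have h := hG₁ Unit Unit (fun _ => Finset.univ) U 2 f T R hphi hU10 one_le_two hfB
      (fun s => le_max_left _ _) hcond
    have h' := h.trans ((hbase G₁ (Nat.le_add_right _ _)).trans hKmono)
    rw [hR, Finset.sum_image hinj] at h'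
    refine le_trans (Finset.sum_le_sum fun q hq => ?_)
      ((Finset.mul_sum _ _ w).symm.le.trans (mul_le_mul_of_nonneg_left h' hw))
    simp only [Finset.univ_unique, Finset.prod_singleton]
    rw [show ((q - 1 : ℕ) : ℝ) = (q : ℝ) - 1 by
      rw [Nat.cast_sub (hS q hq).1.one_le, Nat.cast_one], hpw q hq, ← mul_div_assoc]
    have h2 : (2 : ℝ) ≤ q := by exact_mod_cast (hS q hq).1.two_le
    exact div_le_div_of_nonneg_right (hS q hq).2.2.2.2.2 (by linarith)
  · intro X hX hlogX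
    have h := hG₂ Unit Unit (fun _ => Finset.univ) U 2 f T R X () hphi hU10 one_le_two hfB
      (fun s => le_max_left _ _) hcond (fun r hr => by
        obtain ⟨q, hq, rfl⟩ := Finset.mem_image.1 hr
        simpa using hX q hq) hlogX
    rw [hR, Finset.sum_image hinj] at h
    have hA := hbase G₂ (Nat.le_add_left _ _)
    rw [hT' ()] at h
    calc (S.card : ℝ) = ∑ q ∈ S, (1 : ℝ) := by simp
      _ ≤ ∑ q ∈ S, w * pw (f ()) (q - 1) :=
          Finset.sum_le_sum fun q hq => (hS q hq).2.2.2.2.2.trans_eq (by rw [hpw q hq])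
      _ ≤ w * ((X : ℝ) * genBound G₂ U 2 f T / Real.exp (V - 1)) := by
          rw [← Finset.mul_sum]
          refine mul_le_mul_of_nonneg_left ?_ hw
          simpa using h
      _ ≤ w * ((X : ℝ) * Real.exp ((z - 1) * (b' - a)
            + (4 * (G₁ : ℝ) + 4 * G₂ + |C₁| + |C₂| + 1) * LL u) / Real.exp (V - 1)) := by
          gcongr
      _ = (X : ℝ) * (w * Real.exp ((z - 1) * (b' - a)
            + (4 * (G₁ : ℝ) + 4 * G₂ + |C₁| + |C₂| + 1) * LL u + 1)) / Real.exp V := by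
          rw [Real.exp_add (_ + _) 1, Real.exp_sub]
          field_simp
      _ ≤ _ := by
          refine div_le_div_of_nonneg_right (mul_le_mul_of_nonneg_left
            (mul_le_mul_of_nonneg_left (Real.exp_le_exp.2 ?_) hw) (Nat.cast_nonneg X))
            (Real.exp_pos V).le
          linarith [show 1 ≤ LL u by linarith]

/-- One interval and one level. -/
theorem block : ∀ᶠ u : ℝ in atTop, ∀ (a b : ℕ) (V : ℝ) (S : Finset ℕ),
    1 ≤ V → V ≤ u + 5 →
    (∀ q ∈ S, q.Prime ∧ 0 < ll q ∧ V - 1 ≤ ll q ∧ ll q ≤ V ∧ Bad u a b q) →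
    (∑ q ∈ S, 1 / ((q : ℝ) - 1) ≤ budget u) ∧
    ∀ X : ℕ, (∀ q ∈ S, q - 1 ≤ X) → Real.log X ≤ Real.exp (u + 5) →
      (S.card : ℝ) ≤ X * budget u / Real.exp V := by
  classical
  obtain ⟨K, hK, hKu⟩ := tilt
  filter_upwards [hKu, eventually_large 100, eventually_interval_budget (K + 2)]
    with u htilt ⟨hu, hL⟩ hbud
  intro a b V S hV1 hVu hS
  rcases S.eq_empty_or_nonempty with rfl | ⟨q₀, hq₀⟩
  · refine ⟨by simp [(budget_pos (show (0 : ℝ) < u by linarith)).le], fun X _ _ => ?_⟩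
    have := budget_pos (show (0 : ℝ) < u by linarith)
    simp only [Finset.card_empty, Nat.cast_zero]
    positivity
  obtain ⟨-, -, -, hq0V, hya, hab, hbq, -⟩ := hS q₀ hq₀
  have hab' : (a : ℝ) + 1 ≤ b := by exact_mod_cast hab
  set b' : ℝ := min (b : ℝ) V with hb'
  set μ : ℝ := b' - a with hμ
  set t : ℝ := (b : ℝ) ^ ((1 : ℝ) / 8) with ht
  have hab'' : (a : ℝ) ≤ b' := le_min (by linarith) (by linarith)
  have ht0 : 0 ≤ t := by positivity
  have hL2 : LL u ^ 2 ≤ t := by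
    refine le_of_pow_le_pow_left₀ (n := 8) (by norm_num) ht0 ?_
    rw [ht, pow_eighth, ← pow_mul]
    have : yLow u = LL u ^ (2 * 8) := rfl
    linarith
  have ht1 : 1 ≤ t := le_trans (one_le_pow₀ (by linarith)) hL2
  have hμ0 : 0 ≤ μ := by linarith
  have hμt : μ ≤ t ^ 8 := by
    rw [ht, pow_eighth]
    linarith [min_le_left (b : ℝ) V, Nat.cast_nonneg (α := ℝ) a]
  set s : ℝ := 1 / (8 * t ^ 3) with hs
  have hs0 : 0 < s := by rw [hs]; positivity
  have hs1 : s ≤ 1 / 8 := by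
    rw [hs]; exact one_div_le_one_div_of_le (by norm_num) (by linarith [one_le_pow₀ ht1 (n := 3)])
  set D : ℝ := t ^ 5 - 1 with hD
  have hdev : ∀ q ∈ S, (omegaIn a b (q - 1) : ℝ) < μ - D ∨ μ + D < omegaIn a b (q - 1) := by
    intro q hq
    obtain ⟨-, -, hl1, hl2, -, -, -, -, hd⟩ := hS q hq
    rw [pow_five_eighths, ← ht] at hd
    have e1 : min (b : ℝ) (ll q) ≤ b' := min_le_min le_rfl hl2
    have e2 : b' ≤ min (b : ℝ) (ll q) + 1 := by
      rw [← min_add_add_right]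
      exact min_le_min (by linarith) (by linarith)
    rcases lt_abs.1 hd with h | h
    · exact Or.inr (by linarith)
    · exact Or.inl (by linarith)
  -- exponential estimates
  have hexp : ∀ e : ℝ, e ≤ -(t ^ 2 / 32) + 1 →
      Real.exp (e + K * LL u) ≤ budget u / 2 := by
    intro e he
    rw [le_div_iff₀ two_pos]
    refine le_trans ?_ hbud
    calc Real.exp (e + K * LL u) * 2 ≤ Real.exp (e + K * LL u) * Real.exp 1 := by
          gcongr; linarith [Real.add_one_le_exp (1 : ℝ)]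
      _ = Real.exp (e + K * LL u + 1) := (Real.exp_add _ _).symm
      _ ≤ _ := by
          refine Real.exp_le_exp.2 ?_
          have : LL u ^ 4 ≤ t ^ 2 := by
            calc LL u ^ 4 = (LL u ^ 2) ^ 2 := by ring
              _ ≤ _ := pow_le_pow_left₀ (by positivity) hL2 2
          nlinarith
  have key : ∀ (z M : ℝ) (S' : Finset ℕ), 1 / 2 ≤ z → z ≤ 2 → S' ⊆ S →
      (∀ q ∈ S', 0 ≤ ((omegaIn a b (q - 1) : ℝ) - M) * Real.log z) →
      (z - 1) * μ - M * Real.log z ≤ -(t ^ 2 / 32) + 1 →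
      (∑ q ∈ S', 1 / ((q : ℝ) - 1) ≤ budget u / 2) ∧
      ∀ X : ℕ, (∀ q ∈ S, q - 1 ≤ X) → Real.log X ≤ Real.exp (u + 5) →
        (S'.card : ℝ) ≤ X * (budget u / 2) / Real.exp V := by
    intro z M S' hz hz2 hsub hM he
    have h := htilt a b V z (Real.exp (-(M * Real.log z))) S' hV1 hVu hab'' hz hz2
      (Real.exp_pos _).le (fun q hq => by
        obtain ⟨h1, h2, h3, h4, -, -, -, h5, -⟩ := hS q (hsub hq)
        refine ⟨h1, h2, h3, h4, h5, ?_⟩
        rw [← Real.exp_log (show (0 : ℝ) < z by linarith), ← Real.exp_nat_mul, Real.log_exp,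
          ← Real.exp_add]
        exact Real.one_le_exp (by nlinarith [hM q hq]))
    have hwG : Real.exp (-(M * Real.log z)) * Real.exp ((z - 1) * μ + K * LL u)
        ≤ budget u / 2 := by
      rw [← Real.exp_add]
      exact le_trans (Real.exp_le_exp.2 (le_of_eq (by ring))) (hexp _ he)
    refine ⟨h.1.trans hwG, fun X hX hlX => (h.2 X (fun q hq => hX q (hsub hq)) hlX).trans ?_⟩
    gcongr
  have hhi := key (1 + s) (μ + D) (S.filter fun q => μ + D < omegaIn a b (q - 1))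
    (by linarith) (by linarith) (Finset.filter_subset _ _)
    (fun q hq => mul_nonneg (by linarith [(Finset.mem_filter.1 hq).2])
      (Real.log_nonneg (by linarith)))
    (by simpa [hD] using high_exponent ht1 hμ0 hμt hs)
  have hlo := key (1 - s) (μ - D) (S.filter fun q => ¬ μ + D < omegaIn a b (q - 1))
    (by linarith) (by linarith) (Finset.filter_subset _ _)
    (fun q hq => by
      obtain ⟨hqS, hn⟩ := Finset.mem_filter.1 hq
      exact mul_nonneg_of_nonpos_of_nonpos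
        (by linarith [(hdev q hqS).resolve_right hn])
        (Real.log_nonpos (by linarith) (by linarith)))
    (by simpa [hD] using low_exponent ht1 hμ0 hμt hs)
  refine ⟨?_, fun X hX hlX => ?_⟩
  · rw [← Finset.sum_filter_add_sum_filter_not S fun q => μ + D < omegaIn a b (q - 1)]
    linarith [hhi.1, hlo.1]
  · have hc : ((S.filter fun q => μ + D < omegaIn a b (q - 1)).card : ℝ)
        + (S.filter fun q => ¬ μ + D < omegaIn a b (q - 1)).card = S.card := by
      exact_mod_cast Finset.card_filter_add_card_filter_not _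
    have h1 := hhi.2 X hX hlX
    have h2 := hlo.2 X hX hlX
    have : (X : ℝ) * budget u / Real.exp V =
        X * (budget u / 2) / Real.exp V + X * (budget u / 2) / Real.exp V := by ring
    linarith

/-- Smooth `q - 1` at one level. -/
theorem smooth_level : ∀ᶠ u : ℝ in atTop, ∀ (V : ℝ) (S : Finset ℕ),
    yLow u ≤ V → V ≤ u + 5 →
    (∀ q ∈ S, q.Prime ∧ 0 < ll q ∧ V - 1 ≤ ll q ∧ ll q ≤ V ∧
      u ^ 3 * Real.log (topPrime (q - 1)) < Real.log q) →
    ∑ q ∈ S, 1 / ((q : ℝ) - 1) ≤ budget u := by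
  classical
  obtain ⟨C, hC⟩ := smooth_recip
  filter_upwards [eventually_large 100, eventually_smooth_budget ((C : ℝ) * (C + 8))]
    with u ⟨hu, hL⟩ hbud
  intro V S hyV hVu hS
  obtain ⟨-, hy3, -⟩ := LL_facts (by linarith) (by linarith : 8 ≤ LL u)
  have hu0 : (0 : ℝ) < u := by linarith
  have hu3 : (1 : ℝ) ≤ u ^ 3 := one_le_pow₀ (by linarith)
  set ls : ℝ := Real.exp V / u ^ 3 with hls
  set lw : ℝ := Real.exp (V - 1) - 1 with hlw
  have hV3 : u ^ 3 ≤ Real.exp V := by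
    calc u ^ 3 = Real.exp (((3 : ℕ) : ℝ) * LL u) := by
          rw [Real.exp_nat_mul, LL, Real.exp_log hu0]
      _ ≤ _ := Real.exp_le_exp.2 (by push_cast; linarith)
  have hls1 : 1 ≤ ls := by rw [hls, le_div_iff₀ (by positivity)]; linarith
  have h := hC ls lw (S.image fun q => q - 1) hls1 (fun k hk => by
    obtain ⟨q, hq, rfl⟩ := Finset.mem_image.1 hk
    obtain ⟨hp, hl0, hl1, hl2, hA⟩ := hS q hq
    have hlogq := log_eq_exp_ll hp hl0
    refine ⟨by have := hp.two_le; omega, ?_, fun p hpp => ?_⟩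
    · refine le_trans ?_ (log_pred_ge hp)
      rw [hlogq, hlw]
      linarith [Real.exp_le_exp.2 hl1]
    · refine (log_le_log_topPrime hpp).trans ?_
      rw [hls, le_div_iff₀ (by positivity)]
      have := Real.exp_le_exp.2 hl2
      linarith)
  rw [Finset.sum_image (fun x hx y hy hxy => by
    have := (hS x hx).1.two_le
    have := (hS y hy).1.two_le
    have : x - 1 = y - 1 := hxy
    omega)] at h
  refine le_trans (le_of_eq_of_le (Finset.sum_congr rfl fun q hq => ?_) h) ?_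
  · rw [Nat.cast_sub (hS q hq).1.one_le, Nat.cast_one]
  refine le_trans ?_ hbud
  have e1 : u ^ 3 / 48 ≤ lw / (2 * ls) := by
    have h3 : Real.exp (V - 1) * 3 ≥ Real.exp V := by
      rw [Real.exp_sub, div_mul_eq_mul_div, ge_iff_le, le_div_iff₀ (Real.exp_pos 1)]
      nlinarith [Real.exp_pos V, Real.exp_one_lt_d9]
    have h4 : (6 : ℝ) ≤ Real.exp V := by linarith [Real.add_one_le_exp V]
    rw [le_div_iff₀ (by linarith), hls, hlw]
    field_simp
    nlinarith [mul_le_mul_of_nonneg_left h3 (show (0 : ℝ) ≤ u ^ 3 by positivity)]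
  have e2 : ((C : ℝ) * (ls + 1)) ^ C ≤ Real.exp ((C : ℝ) * (C + 8) * u) := by
    have h5 : ls + 1 ≤ Real.exp (u + 6) := by
      have h6 : ls ≤ Real.exp (u + 5) := (div_le_self (Real.exp_pos V).le hu3).trans
        (Real.exp_le_exp.2 hVu)
      have h7 : Real.exp (u + 6) = Real.exp (u + 5) * Real.exp 1 := by
        rw [← Real.exp_add]; ring_nf
      nlinarith [Real.add_one_le_exp (1 : ℝ), Real.one_le_exp (show (0 : ℝ) ≤ u + 5 by linarith)]
    have h8 : (C : ℝ) ≤ Real.exp C := by linarith [Real.add_one_le_exp (C : ℝ)]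
    calc ((C : ℝ) * (ls + 1)) ^ C ≤ (Real.exp C * Real.exp (u + 6)) ^ C :=
          pow_le_pow_left₀ (by positivity)
            (mul_le_mul h8 h5 (by linarith) (Real.exp_pos _).le) C
      _ ≤ _ := by
          rw [← Real.exp_add, ← Real.exp_nat_mul]
          refine Real.exp_le_exp.2 ?_
          rw [mul_assoc]
          refine mul_le_mul_of_nonneg_left ?_ (Nat.cast_nonneg C)
          nlinarith [Nat.cast_nonneg (α := ℝ) C]
  calc Real.exp (-(lw / (2 * ls))) * ((C : ℝ) * (ls + 1)) ^ C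
      ≤ Real.exp (-(u ^ 3 / 48)) * Real.exp ((C : ℝ) * (C + 8) * u) :=
        mul_le_mul (Real.exp_le_exp.2 (by linarith)) e2 (by positivity) (Real.exp_pos _).le
    _ = _ := (Real.exp_add _ _).symm

theorem budget_sum_le {u : ℝ} (hu : 1 ≤ u) {k : ℝ} (hk : k ≤ 64 * u ^ 3) :
    k * budget u ≤ Real.exp (-(2 * LL u ^ 3)) := by
  have h : 0 < 64 * u ^ 3 := by positivity
  rw [budget, mul_div, div_le_iff₀ h, mul_comm (Real.exp _)]
  exact mul_le_mul_of_nonneg_right hk (Real.exp_pos _).le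

end Abnormal

open Abnormal

theorem abnormal_recip : ∀ᶠ u : ℝ in atTop, ∀ S : Finset ℕ,
    (∀ q ∈ S, q.Prime ∧ ll q ≤ u + 4 ∧ ¬ NormalPrime u q) →
    ∑ q ∈ S, 1 / ((q : ℝ) - 1) ≤ Real.exp (-(2 * LL u ^ 3)) := by
  classical
  filter_upwards [block, smooth_level, eventually_large 100] with u hB hA ⟨hu, hL⟩ S hS
  obtain ⟨-, hy3, -⟩ := LL_facts (by linarith) (by linarith : 8 ≤ LL u)
  have hbud := budget_pos (show (0 : ℝ) < u by linarith)
  set M := ⌈u + 6⌉₊ with hM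
  have hM2 : (M : ℝ) ≤ 2 * u := (Nat.ceil_lt_add_one (by linarith)).le.trans (by linarith)
  have hfacts : ∀ q ∈ S, q.Prime ∧ 0 < ll q ∧ yLow u < ll q ∧ ll q ≤ u + 4 ∧
      ⌈ll q⌉₊ ∈ Finset.range M := by
    intro q hq
    obtain ⟨h1, h2, h3⟩ := hS q hq
    obtain ⟨h4, -⟩ := abnormal_cases h3
    refine ⟨h1, by linarith, h4, h2, Finset.mem_range.2 ?_⟩
    have e1 := Nat.ceil_lt_add_one (show (0 : ℝ) ≤ ll q by linarith)
    have e2 := Nat.le_ceil (u + 6)
    exact_mod_cast (show ((⌈ll q⌉₊ : ℕ) : ℝ) < (M : ℝ) by linarith)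
  have hg : ∀ q ∈ S, 0 ≤ 1 / ((q : ℝ) - 1) := fun q hq => by
    have : (2 : ℝ) ≤ q := by exact_mod_cast (hS q hq).1.two_le
    exact div_nonneg zero_le_one (by linarith)
  have hV : ∀ q ∈ S, ∀ j : ℕ, ⌈ll q⌉₊ = j →
      yLow u ≤ j ∧ (j : ℝ) ≤ u + 5 ∧ 1 ≤ (j : ℝ) ∧ (j : ℝ) - 1 ≤ ll q ∧ ll q ≤ j := by
    rintro q hq j rfl
    obtain ⟨-, h1, h2, h3, -⟩ := hfacts q hq
    have e1 := Nat.le_ceil (ll q)
    have e2 := Nat.ceil_lt_add_one h1.le
    exact ⟨by linarith, by linarith, by exact_mod_cast Nat.ceil_pos.2 h1, by linarith, e1⟩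
  set SA := S.filter fun q => u ^ 3 * Real.log (topPrime (q - 1)) < Real.log q with hSA
  set SB := S.filter fun q => ¬ u ^ 3 * Real.log (topPrime (q - 1)) < Real.log q with hSB
  have h1 : ∑ q ∈ SA, 1 / ((q : ℝ) - 1) ≤ M * budget u := by
    refine (sum_le_cover SA (Finset.range M) (fun j q => ⌈ll q⌉₊ = j) _
      (fun q hq => hg q (Finset.mem_filter.1 hq).1) fun q hq =>
        ⟨_, (hfacts q (Finset.mem_filter.1 hq).1).2.2.2.2, rfl⟩).trans ?_
    refine (Finset.sum_le_card_nsmul _ _ (budget u) fun j _ => ?_).trans (by simp)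
    rcases (SA.filter fun q => ⌈ll q⌉₊ = j).eq_empty_or_nonempty with h | ⟨q₀, h⟩
    · rw [h, Finset.sum_empty]; exact hbud.le
    obtain ⟨h0, hj⟩ := Finset.mem_filter.1 h
    obtain ⟨h2, h3, -⟩ := hV q₀ (Finset.mem_filter.1 h0).1 j hj
    refine hA j _ h2 h3 fun q hq => ?_
    obtain ⟨hq1, hqj⟩ := Finset.mem_filter.1 hq
    obtain ⟨hqS, hqA⟩ := Finset.mem_filter.1 hq1
    obtain ⟨h4, h5, -⟩ := hfacts q hqS
    obtain ⟨-, -, -, h6, h7⟩ := hV q hqS j hqj
    exact ⟨h4, h5, h6, h7, hqA⟩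
  have h2 : ∑ q ∈ SB, 1 / ((q : ℝ) - 1) ≤ (M : ℝ) ^ 3 * budget u := by
    refine (sum_le_cover SB (Finset.range M ×ˢ (Finset.range M ×ˢ Finset.range M))
      (fun i q => ⌈ll q⌉₊ = i.1 ∧ Bad u i.2.1 i.2.2 q) _
      (fun q hq => hg q (Finset.mem_filter.1 hq).1) fun q hq => ?_).trans ?_
    · obtain ⟨hqS, hn⟩ := Finset.mem_filter.1 hq
      obtain ⟨a, b, hab⟩ := (abnormal_cases (hS q hqS).2.2).2.resolve_left hn
      obtain ⟨-, -, -, hq4, hqj⟩ := hfacts q hqS
      have hb : b < M := by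
        have e2 := Nat.le_ceil (u + 6)
        have := hab.2.2.1
        exact_mod_cast (show (b : ℝ) < (M : ℝ) by linarith)
      exact ⟨(_, a, b), Finset.mem_product.2 ⟨hqj, Finset.mem_product.2
        ⟨Finset.mem_range.2 (hab.2.1.trans hb), Finset.mem_range.2 hb⟩⟩, rfl, hab⟩
    · refine (Finset.sum_le_card_nsmul _ _ (budget u) fun i _ => ?_).trans ?_
      · rcases (SB.filter fun q => ⌈ll q⌉₊ = i.1 ∧ Bad u i.2.1 i.2.2 q).eq_empty_or_nonempty
          with h | ⟨q₀, h⟩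
        · rw [h, Finset.sum_empty]; exact hbud.le
        obtain ⟨h0, hj, -⟩ := Finset.mem_filter.1 h
        obtain ⟨-, h3, h3', -⟩ := hV q₀ (Finset.mem_filter.1 h0).1 i.1 hj
        refine (hB i.2.1 i.2.2 i.1 _ h3' h3 fun q hq => ?_).1
        obtain ⟨hq1, hqj, hqb⟩ := Finset.mem_filter.1 hq
        have hqS := (Finset.mem_filter.1 hq1).1
        obtain ⟨h4, h5, -⟩ := hfacts q hqS
        obtain ⟨-, -, -, h6, h7⟩ := hV q hqS i.1 hqj
        exact ⟨h4, h5, h6, h7, hqb⟩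
      · rw [Finset.card_product, Finset.card_product, Finset.card_range, nsmul_eq_mul]
        push_cast
        rw [show (M : ℝ) ^ 3 = M * (M * M) by ring]
  rw [← Finset.sum_filter_add_sum_filter_not S
    fun q => u ^ 3 * Real.log (topPrime (q - 1)) < Real.log q]
  refine le_trans ?_ (budget_sum_le (by linarith) (k := (M : ℝ) + (M : ℝ) ^ 3) ?_)
  · rw [add_mul]; exact add_le_add h1 h2
  · have h3 := pow_le_pow_left₀ (Nat.cast_nonneg M) hM2 3
    have : u ≤ u ^ 3 := le_self_pow₀ (by linarith) (by norm_num)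
    nlinarith

namespace Abnormal

theorem log_facts {u Z : ℝ} (hu : 400 ≤ u) (hZ1 : Real.exp (Real.exp (u / 2)) ≤ Z)
    (hZ2 : Z ≤ Real.exp (Real.exp (u + 4))) :
    0 < Z ∧ u ^ 3 ≤ Real.log Z ∧ Real.log Z ≤ Real.exp (u + 4) := by
  have hZ0 : 0 < Z := lt_of_lt_of_le (Real.exp_pos _) hZ1
  refine ⟨hZ0, le_trans ?_ ((Real.le_log_iff_exp_le hZ0).2 hZ1),
    (Real.log_le_iff_le_exp hZ0).2 hZ2⟩
  have h := Real.pow_div_factorial_le_exp (u / 2) (by linarith) 4
  norm_num [Nat.factorial] at h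
  have h400 : 400 * u ^ 3 ≤ u * u ^ 3 := mul_le_mul_of_nonneg_right hu (by positivity)
  have e : (u / 2) ^ 4 / 24 = u * u ^ 3 / 384 := by ring
  linarith [pow_nonneg (show (0 : ℝ) ≤ u by linarith) 3]

theorem count_small {u Z K : ℝ} (hu : 400 ≤ u) (hK : 8 ≤ K)
    (hZ1 : Real.exp (Real.exp (u / 2)) ≤ Z) (hZ2 : Z ≤ Real.exp (Real.exp (u + 4)))
    (S : Finset ℕ) (hS : ∀ q ∈ S, 1 ≤ q ∧ Real.log q ≤ Real.log Z / 2) :
    (S.card : ℝ) ≤ Real.exp (-(u ^ 3 / 48) + K * u) * Z / Real.log Z := by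
  obtain ⟨hZ0, hW1, hW2⟩ := log_facts hu hZ1 hZ2
  set W := Real.log Z with hW
  have hW0 : 0 < W := lt_of_lt_of_le (pow_pos (by linarith) 3) hW1
  have hsub : S ⊆ Finset.Icc 1 ⌊Real.exp (W / 2)⌋₊ := by
    intro q hq
    refine Finset.mem_Icc.2 ⟨(hS q hq).1, Nat.le_floor ?_⟩
    exact (Real.log_le_iff_le_exp (by exact_mod_cast (hS q hq).1)).1 (hS q hq).2
  refine (Nat.cast_le.2 (Finset.card_le_card hsub)).trans ?_
  rw [Nat.card_Icc, Nat.add_sub_cancel]
  refine (Nat.floor_le (Real.exp_pos _).le).trans ?_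
  rw [le_div_iff₀ hW0, show Z = Real.exp W from (Real.exp_log hZ0).symm, ← Real.exp_add]
  refine (mul_le_mul_of_nonneg_left hW2 (Real.exp_pos _).le).trans ?_
  rw [← Real.exp_add]
  refine Real.exp_le_exp.2 ?_
  have h8 : 8 * u ≤ K * u := mul_le_mul_of_nonneg_right hK (by linarith)
  have : 0 ≤ u ^ 3 := pow_nonneg (by linarith) 3
  linarith

theorem count_smooth : ∃ C : ℕ, ∀ u : ℝ, 400 ≤ u → ∀ (Z : ℝ) (S : Finset ℕ),
    Real.exp (Real.exp (u / 2)) ≤ Z → Z ≤ Real.exp (Real.exp (u + 4)) →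
    (∀ q ∈ S, q.Prime ∧ (q : ℝ) ≤ Z ∧
      u ^ 3 * Real.log (topPrime (q - 1)) < Real.log q) →
    (S.card : ℝ) ≤ Real.exp (-(u ^ 3 / 48) + ((C : ℝ) * (C + 8) + 8) * u) * Z / Real.log Z := by
  classical
  obtain ⟨C, hC⟩ := smooth_count
  refine ⟨C, fun u hu Z S hZ1 hZ2 hS => ?_⟩
  obtain ⟨hZ0, hW1, hW2⟩ := log_facts hu hZ1 hZ2
  set W := Real.log Z with hW
  have hu3 : (1 : ℝ) ≤ u ^ 3 := one_le_pow₀ (by linarith)
  have hW0 : 0 < W := by linarith
  set N := ⌊Z⌋₊ with hN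
  have hNZ : (N : ℝ) ≤ Z := Nat.floor_le hZ0.le
  have hlN : W / 2 ≤ Real.log N ∧ 1 ≤ N := by
    have h1 := Real.add_one_le_exp (W / 2)
    have h2 : Z = Real.exp (W / 2) * Real.exp (W / 2) := by
      rw [← Real.exp_add, add_halves, hW, Real.exp_log hZ0]
    have hW2' : 2 ≤ W := by
      linarith [le_self_pow₀ (show (1 : ℝ) ≤ u by linarith) (by norm_num : (3 : ℕ) ≠ 0)]
    have h4 : 2 * Real.exp (W / 2) ≤ Real.exp (W / 2) * Real.exp (W / 2) :=
      mul_le_mul_of_nonneg_right (by linarith) (Real.exp_pos _).le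
    have h5 := Nat.lt_floor_add_one Z
    have h3 : Real.exp (W / 2) ≤ (N : ℝ) := by rw [hN]; linarith
    refine ⟨(Real.le_log_iff_exp_le ((Real.exp_pos _).trans_le h3)).2 h3, ?_⟩
    exact_mod_cast (show (1 : ℝ) ≤ (N : ℝ) by linarith)
  set ls := W / u ^ 3 with hls
  have hls1 : 1 ≤ ls := by rw [hls, le_div_iff₀ (by positivity), one_mul]; exact hW1
  have hinj : Set.InjOn (fun q => q - 1) (S : Set ℕ) := fun x hx y hy hxy => by
    have := (hS x hx).1.two_le
    have := (hS y hy).1.two_le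
    have : x - 1 = y - 1 := hxy
    omega
  have h := hC N ls (S.image fun q => q - 1) hlN.2 hls1 (fun k hk => by
    obtain ⟨q, hq, rfl⟩ := Finset.mem_image.1 hk
    obtain ⟨hp, hqZ, hA⟩ := hS q hq
    refine ⟨by have := hp.two_le; omega, (Nat.sub_le q 1).trans (Nat.le_floor hqZ), fun p hpp => ?_⟩
    refine (log_le_log_topPrime hpp).trans ?_
    rw [hls, le_div_iff₀ (by positivity)]
    linarith [Real.log_le_log (by exact_mod_cast hp.pos) hqZ])
  rw [Finset.card_image_of_injOn hinj] at h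
  refine h.trans ?_
  have e1 : u ^ 3 / 48 ≤ Real.log N / (2 * ls) := by
    rw [le_div_iff₀ (by linarith)]
    have : u ^ 3 / 48 * (2 * ls) = W / 24 := by rw [hls]; field_simp; ring
    linarith [hlN.1]
  have h5 : ls + 1 ≤ Real.exp (u + 6) := by
    have h6 : ls ≤ Real.exp (u + 4) := (div_le_self hW0.le hu3).trans hW2
    have h7 : Real.exp (u + 6) = Real.exp (u + 4) * Real.exp 2 := by
      rw [← Real.exp_add]; ring_nf
    nlinarith [Real.add_one_le_exp (2 : ℝ), Real.one_le_exp (show (0 : ℝ) ≤ u + 4 by linarith)]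
  have h8 : (C : ℝ) ≤ Real.exp C := by linarith [Real.add_one_le_exp (C : ℝ)]
  have e2 : ((C : ℝ) * (ls + 1)) ^ C ≤ Real.exp ((C : ℝ) * (C + 8) * u) := by
    refine (pow_le_pow_left₀ (by positivity)
      (mul_le_mul h8 h5 (by linarith) (Real.exp_pos _).le) C).trans ?_
    rw [← Real.exp_add, ← Real.exp_nat_mul]
    refine Real.exp_le_exp.2 ?_
    rw [mul_assoc]
    refine mul_le_mul_of_nonneg_left ?_ (Nat.cast_nonneg C)
    nlinarith [Nat.cast_nonneg (α := ℝ) C]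
  have e3 : W ≤ Real.exp (8 * u) := hW2.trans (Real.exp_le_exp.2 (by linarith))
  rw [le_div_iff₀ hW0]
  calc (N : ℝ) * Real.exp (-(Real.log N / (2 * ls))) * ((C : ℝ) * (ls + 1)) ^ C * W
      ≤ Z * Real.exp (-(u ^ 3 / 48)) * Real.exp ((C : ℝ) * (C + 8) * u) * Real.exp (8 * u) := by
        gcongr
    _ = Real.exp (-(u ^ 3 / 48) + ((C : ℝ) * (C + 8) + 8) * u) * Z := by
        rw [add_mul ((C : ℝ) * (C + 8)) 8 u, Real.exp_add, Real.exp_add]
        ring

theorem count_interval : ∀ᶠ u : ℝ in atTop, ∀ (Z : ℝ) (S : Finset ℕ),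
    Real.exp (Real.exp (u / 2)) ≤ Z → Z ≤ Real.exp (Real.exp (u + 4)) →
    (∀ q ∈ S, q.Prime ∧ (q : ℝ) ≤ Z ∧ ¬ NormalPrime u q ∧ Real.log Z / 2 < Real.log q ∧
      ¬ u ^ 3 * Real.log (topPrime (q - 1)) < Real.log q) →
    (S.card : ℝ) ≤ 4 * u ^ 2 * (budget u * Z / Real.log Z) := by
  classical
  filter_upwards [block, eventually_large 400] with u hB ⟨hu, hL⟩ Z S hZ1 hZ2 hS
  obtain ⟨-, hy3, -⟩ := LL_facts (by linarith) (by linarith : 8 ≤ LL u)
  obtain ⟨hZ0, hW1, hW2⟩ := log_facts hu hZ1 hZ2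
  have hu0 : (0 : ℝ) < u := by linarith
  have hbud := budget_pos hu0
  set W := Real.log Z with hW
  have hW3 : 3 ≤ W := by
    linarith [le_self_pow₀ (show (1 : ℝ) ≤ u by linarith) (by norm_num : (3 : ℕ) ≠ 0)]
  have hW0 : 0 < W := by linarith
  set M := ⌈u + 6⌉₊ with hM
  have hM2 : (M : ℝ) ≤ 2 * u := (Nat.ceil_lt_add_one (by linarith)).le.trans (by linarith)
  set V := Real.log W with hV
  have hV2 : V ≤ u + 4 := (Real.log_le_iff_le_exp hW0).2 hW2
  have hV1 : 1 ≤ V := by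
    rw [hV, Real.le_log_iff_exp_le hW0]; linarith [Real.exp_one_lt_d9]
  have hlev : ∀ q ∈ S, q.Prime ∧ 0 < ll q ∧ V - 1 ≤ ll q ∧ ll q ≤ V := by
    intro q hq
    obtain ⟨hp, hqZ, hn, hqW, -⟩ := hS q hq
    have hpos : 0 < ll q := by linarith [(abnormal_cases hn).1]
    have he := log_eq_exp_ll hp hpos
    refine ⟨hp, hpos, ?_, ?_⟩
    · have h2 : W ≤ 2 * Real.exp (ll q) := by linarith
      have h3 : V ≤ Real.log (2 * Real.exp (ll q)) := Real.log_le_log hW0 h2
      rw [Real.log_mul two_ne_zero (Real.exp_ne_zero _), Real.log_exp] at h3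
      linarith [Real.log_two_lt_d9]
    · rw [hV, Real.le_log_iff_exp_le hW0, ← he]
      exact Real.log_le_log (by exact_mod_cast hp.pos) hqZ
  rw [show (S.card : ℝ) = ∑ q ∈ S, (1 : ℝ) by simp]
  refine (sum_le_cover S (Finset.range M ×ˢ Finset.range M)
    (fun i q => Bad u i.1 i.2 q) _ (fun _ _ => zero_le_one) fun q hq => ?_).trans ?_
  · obtain ⟨-, -, hn, -, hA⟩ := hS q hq
    obtain ⟨a, b, hab⟩ := (abnormal_cases hn).2.resolve_left hA
    have hb : b < M := by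
      have e2 := Nat.le_ceil (u + 6)
      have := hab.2.2.1
      have := (hlev q hq).2.2.2
      exact_mod_cast (show (b : ℝ) < (M : ℝ) by linarith)
    exact ⟨(a, b), Finset.mem_product.2
      ⟨Finset.mem_range.2 (hab.2.1.trans hb), Finset.mem_range.2 hb⟩, hab⟩
  refine (Finset.sum_le_card_nsmul _ _ (budget u * Z / W) fun i _ => ?_).trans ?_
  · rw [Finset.sum_const, nsmul_eq_mul, mul_one]
    refine ((hB i.1 i.2 V _ hV1 (by linarith) fun q hq => ?_).2 ⌊Z⌋₊ ?_ ?_).trans ?_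
    · obtain ⟨hq1, hqb⟩ := Finset.mem_filter.1 hq
      obtain ⟨h3, h4, h5, h6⟩ := hlev q hq1
      exact ⟨h3, h4, h5, h6, hqb⟩
    · exact fun q hq => (Nat.sub_le q 1).trans (Nat.le_floor (hS q (Finset.mem_filter.1 hq).1).2.1)
    · rcases Nat.eq_zero_or_pos ⌊Z⌋₊ with h | h
      · rw [h, Nat.cast_zero, Real.log_zero]; positivity
      refine (Real.log_le_log (by exact_mod_cast h) (Nat.floor_le hZ0.le)).trans (hW2.trans ?_)
      exact Real.exp_le_exp.2 (by linarith)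
    · rw [hV, Real.exp_log hW0, mul_comm (budget u) Z]
      gcongr
      exact Nat.floor_le hZ0.le
  · rw [Finset.card_product, Finset.card_range, nsmul_eq_mul]
    push_cast
    refine mul_le_mul_of_nonneg_right ?_ (div_nonneg (by positivity) hW0.le)
    calc (M : ℝ) * M ≤ (2 * u) * (2 * u) := mul_le_mul hM2 hM2 (by positivity) (by positivity)
      _ = _ := by ring

end Abnormal

theorem abnormal_count : ∀ᶠ u : ℝ in atTop, ∀ (Z : ℝ) (S : Finset ℕ),
    Real.exp (Real.exp (u / 2)) ≤ Z → Z ≤ Real.exp (Real.exp (u + 4)) →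
    (∀ q ∈ S, q.Prime ∧ (q : ℝ) ≤ Z ∧ ¬ NormalPrime u q) →
    (S.card : ℝ) ≤ Real.exp (-(2 * LL u ^ 3)) * Z / Real.log Z := by
  classical
  obtain ⟨C, hC⟩ := count_smooth
  filter_upwards [count_interval, eventually_large 400,
    eventually_smooth_budget ((C : ℝ) * (C + 8) + 8)] with u hI ⟨hu, hL⟩ hsm Z S hZ1 hZ2 hS
  obtain ⟨hZ0, hW1, -⟩ := log_facts hu hZ1 hZ2
  have hW0 : 0 < Real.log Z := lt_of_lt_of_le (pow_pos (by linarith) 3) hW1
  set S' := S.filter fun q : ℕ => ¬ Real.log q ≤ Real.log Z / 2 with hS'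
  have hQ : 0 < Z / Real.log Z := div_pos hZ0 hW0
  have h0 := count_small hu (K := (C : ℝ) * (C + 8) + 8)
    (le_add_of_nonneg_left (by positivity)) hZ1 hZ2
    (S.filter fun q : ℕ => Real.log q ≤ Real.log Z / 2)
    fun q hq => ⟨(hS q (Finset.mem_filter.1 hq).1).1.one_le, (Finset.mem_filter.1 hq).2⟩
  have h1 := hC u hu Z
    (S'.filter fun q => u ^ 3 * Real.log (topPrime (q - 1)) < Real.log q) hZ1 hZ2
    fun q hq => by
      obtain ⟨hq', hA⟩ := Finset.mem_filter.1 hq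
      obtain ⟨hp, hqZ, -⟩ := hS q (Finset.mem_filter.1 hq').1
      exact ⟨hp, hqZ, hA⟩
  have h2 := hI Z (S'.filter fun q => ¬ u ^ 3 * Real.log (topPrime (q - 1)) < Real.log q) hZ1 hZ2
    fun q hq => by
      obtain ⟨hq', hA⟩ := Finset.mem_filter.1 hq
      obtain ⟨hqS, hqW⟩ := Finset.mem_filter.1 hq'
      obtain ⟨hp, hqZ, hn⟩ := hS q hqS
      exact ⟨hp, hqZ, hn, not_le.1 hqW, hA⟩
  have hcard : (S.card : ℝ) = ((S.filter fun q : ℕ => Real.log q ≤ Real.log Z / 2).card : ℝ)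
      + (((S'.filter fun q => u ^ 3 * Real.log (topPrime (q - 1)) < Real.log q).card : ℝ)
        + (S'.filter fun q => ¬ u ^ 3 * Real.log (topPrime (q - 1)) < Real.log q).card) := by
    have e1 := Finset.card_filter_add_card_filter_not
      (s := S) (fun q : ℕ => Real.log q ≤ Real.log Z / 2)
    have e2 := Finset.card_filter_add_card_filter_not
      (s := S') (fun q => u ^ 3 * Real.log (topPrime (q - 1)) < Real.log q)
    rw [← Nat.cast_add, ← Nat.cast_add, e2, hS', e1]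
  have hk := budget_sum_le (show (1 : ℝ) ≤ u by linarith) (k := 2 + 4 * u ^ 2) (by
    have : u ^ 2 ≤ u ^ 3 := pow_le_pow_right₀ (by linarith) (by norm_num)
    linarith [one_le_pow₀ (show (1 : ℝ) ≤ u by linarith) (n := 2)])
  rw [mul_div_assoc] at h0 h1 h2 ⊢
  have hs := mul_le_mul_of_nonneg_right hsm hQ.le
  refine le_trans ?_ (mul_le_mul_of_nonneg_right hk hQ.le)
  rw [hcard, add_mul (2 : ℝ), add_mul (2 * budget u), mul_assoc (4 * u ^ 2)]
  linarith

end Vale.Agent.P031
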