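import Vale.Agent.P031.LowerWit
import Vale.Agent.P031.Normal

/-! Weight of the tuples of the lower set, and of those with a square in their value. -/

open Finset Real Filter

namespace Vale.Agent.P031

/-- Range containing all factors of a tuple value. -/
noncomputable def valBound (u : ℝ) : ℕ := ⌈Real.exp (Real.exp u)⌉₊

lemma log_valBound_le {u : ℝ} : 1 + Real.log (valBound u) ≤ 2 + Real.exp u := by
  have h1 : (1 : ℝ) ≤ Real.exp (Real.exp u) := Real.one_le_exp (Real.exp_pos _).le
  have h2 : (valBound u : ℝ) ≤ 2 * Real.exp (Real.exp u) := by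
    have := Nat.ceil_lt_add_one (zero_le_one.trans h1)
    unfold valBound
    linarith
  have h3 : (0 : ℝ) < valBound u := Nat.cast_pos.2 (Nat.ceil_pos.2 (Real.exp_pos _))
  have := Real.log_le_log h3 h2
  rw [Real.log_mul two_ne_zero (Real.exp_ne_zero _), Real.log_exp] at this
  linarith [Real.log_two_lt_d9]

lemma sum_inv_Icc_le (M : ℕ) : ∑ k ∈ Finset.Icc 1 M, 1 / (k : ℝ) ≤ 1 + Real.log M := by
  have h := harmonic_le_one_add_log M
  rw [harmonic_eq_sum_Icc] at h
  simpa [one_div] using h

lemma sum_inv_dvd_le (M d : ℕ) (hd : 1 ≤ d) :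
    ∑ k ∈ (Finset.Icc 1 M).filter (fun k => d ∣ k), 1 / (k : ℝ) ≤ (1 + Real.log M) / d := by
  calc _ ≤ ∑ k ∈ (Finset.Icc 1 M).image (fun r => d * r), 1 / (k : ℝ) := by
        refine Finset.sum_le_sum_of_subset_of_nonneg ?_ fun k _ _ => by positivity
        intro k hk
        obtain ⟨hk, r, rfl⟩ := Finset.mem_filter.1 hk
        rw [Finset.mem_Icc] at hk
        refine Finset.mem_image.2 ⟨r, Finset.mem_Icc.2 ⟨?_, ?_⟩, rfl⟩
        · rcases Nat.eq_zero_or_pos r with rfl | h
          · simp at hk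
          · exact h
        · exact le_trans (Nat.le_mul_of_pos_left r hd) hk.2
    _ = (∑ r ∈ Finset.Icc 1 M, 1 / (r : ℝ)) / d := by
        rw [Finset.sum_image (fun a _ b _ h => Nat.eq_of_mul_eq_mul_left hd h), Finset.sum_div]
        refine Finset.sum_congr rfl fun r _ => ?_
        push_cast
        rw [div_div, mul_comm]
    _ ≤ _ := div_le_div_of_nonneg_right (sum_inv_Icc_le M) (Nat.cast_nonneg d)

lemma sum_inv_sq_gt {P : ℝ} (hP : 2 ≤ P) (s : Finset ℕ) (hs : ∀ p ∈ s, P < (p : ℝ)) :
    ∑ p ∈ s, 1 / (p : ℝ) ^ 2 ≤ 2 / P := by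
  set k := ⌊P⌋₊
  set n := max k (s.sup id)
  have hk : k ≠ 0 := Nat.pos_iff_ne_zero.1 (Nat.floor_pos.2 (by linarith))
  have hsub : s ⊆ Finset.Ioc k n := fun p hp => Finset.mem_Ioc.2
    ⟨(Nat.floor_lt (by linarith)).2 (hs p hp),
      le_max_of_le_right (Finset.le_sup (f := id) hp)⟩
  have h1 : P / 2 ≤ k := by
    have := Nat.lt_floor_add_one P
    linarith
  calc ∑ p ∈ s, 1 / (p : ℝ) ^ 2 ≤ ∑ p ∈ Finset.Ioc k n, ((p : ℝ) ^ 2)⁻¹ := by
        simp only [one_div]
        exact Finset.sum_le_sum_of_subset_of_nonneg hsub fun _ _ _ => by positivity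
    _ ≤ (k : ℝ)⁻¹ - (n : ℝ)⁻¹ := sum_Ioc_inv_sq_le_sub hk (le_max_left _ _)
    _ ≤ (P / 2)⁻¹ := (sub_le_self _ (by positivity)).trans (inv_anti₀ (by linarith) h1)
    _ = 2 / P := inv_div _ _

lemma sum_biUnion_le {α β : Type*} [DecidableEq β] (s : Finset α) (t : α → Finset β) {f : β → ℝ}
    (hf : ∀ b, 0 ≤ f b) : ∑ b ∈ s.biUnion t, f b ≤ ∑ a ∈ s, ∑ b ∈ t a, f b := by
  classical
  induction s using Finset.induction_on with
  | empty => simp
  | insert a s ha ih =>
    rw [Finset.biUnion_insert, Finset.sum_insert ha]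
    have := Finset.sum_union_inter (s₁ := t a) (s₂ := s.biUnion t) (f := f)
    have : 0 ≤ ∑ b ∈ t a ∩ s.biUnion t, f b := Finset.sum_nonneg fun b _ => hf b
    linarith

/-- The primes above `exp exp yLow` and below `valBound`. -/
noncomputable def bigPrimes (u : ℝ) : Finset ℕ := by
  classical exact (Nat.primesLE (valBound u)).filter (fun p => yLow u < ll p)

lemma mem_bigPrimes {u : ℝ} {p k : ℕ} (hp : p.Prime) (hl : yLow u < ll p) (hk : 1 ≤ k)
    (hkM : k ≤ valBound u) (hd : p ∣ k) : p ∈ bigPrimes u := by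
  classical
  simp only [bigPrimes, Finset.mem_filter, Nat.mem_primesLE]
  exact ⟨⟨(Nat.le_of_dvd hk hd).trans hkM, hp⟩, hl⟩

lemma bigPrimes_gt {u : ℝ} (hy : 0 ≤ yLow u) {p : ℕ} (h : p ∈ bigPrimes u) :
    p.Prime ∧ Real.exp (Real.exp (yLow u)) < (p : ℝ) := by
  classical
  simp only [bigPrimes, Finset.mem_filter, Nat.mem_primesLE] at h
  refine ⟨h.1.2, ?_⟩
  have h1 := ((ll_mem_iff hy h.2.le h.1.2).1 ⟨h.2, le_rfl⟩).1
  exact (Real.lt_log_iff_exp_lt (by exact_mod_cast h.1.2.pos)).1 h1

namespace BigU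

variable {u : ℝ} (hB : BigU u)
include hB

lemma L2le : LL u ^ 2 ≤ u := hB.pow_le 2 (by norm_num)

lemma u_ge : 1024 ≤ u := by nlinarith [hB.L16, hB.L2le]

lemma exp_LL : Real.exp (LL u) = u := Real.exp_log hB.upos

lemma exp_neg_le : Real.exp (-u) ≤ 1 / LL u ^ 2 := by
  rw [Real.exp_neg, ← one_div]
  refine one_div_le_one_div_of_le (pow_pos (by linarith [hB.L16]) _) ?_
  linarith [hB.L2le, Real.add_one_le_exp u]

lemma yLow_nonneg : 0 ≤ yLow u := pow_nonneg (by linarith [hB.L16]) _

/-- The primes above `yLow` are enormous. -/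
lemma tiny : Real.exp (2 * u ^ 3) * (2 / Real.exp (Real.exp (yLow u))) ≤ Real.exp (-u) := by
  have h1 : u ^ 4 ≤ Real.exp (yLow u) := by
    rw [← hB.exp_LL, ← Real.exp_nat_mul, hB.exp_LL]
    refine Real.exp_le_exp.2 ?_
    have h4 : LL u ^ 2 ≤ yLow u := pow_le_pow_right₀ hB.L1 (by norm_num)
    push_cast
    nlinarith [hB.L16]
  have h3 : 2 * u ^ 3 + u + 1 ≤ u ^ 4 := by
    have := hB.u_ge
    have h5 : (0 : ℝ) ≤ u ^ 3 := pow_nonneg (by linarith) 3
    have h6 : u ≤ u ^ 3 := le_self_pow₀ (by linarith) (by norm_num)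
    nlinarith
  have h2 : (2 : ℝ) ≤ Real.exp 1 := by linarith [Real.add_one_le_exp 1]
  calc Real.exp (2 * u ^ 3) * (2 / Real.exp (Real.exp (yLow u)))
      ≤ Real.exp (2 * u ^ 3) * (Real.exp 1 / Real.exp (Real.exp (yLow u))) := by gcongr
    _ = Real.exp (2 * u ^ 3 + (1 - Real.exp (yLow u))) := by rw [Real.exp_add, Real.exp_sub]
    _ ≤ _ := Real.exp_le_exp.2 (by linarith)

lemma sum_inv_sq_big : ∑ p ∈ bigPrimes u, 1 / (p : ℝ) ^ 2 ≤ 2 / Real.exp (Real.exp (yLow u)) := by
  refine sum_inv_sq_gt ?_ _ fun p hp => (bigPrimes_gt hB.yLow_nonneg hp).2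
  linarith [Real.add_one_le_exp (Real.exp (yLow u)), Real.one_le_exp hB.yLow_nonneg]

omit hB in
lemma le_valBound {k : ℕ} (h : (k : ℝ) ≤ Real.exp (Real.exp u)) : k ≤ valBound u := by
  exact_mod_cast h.trans (Nat.le_ceil _)

omit hB in
lemma sub_one_le_valBound {p : ℕ} (hp : p.Prime) (h : ll p ≤ u) : p - 1 ≤ valBound u := by
  refine BigU.le_valBound (le_trans (Nat.cast_le.2 (Nat.sub_le p 1)) ?_)
  exact (Real.log_le_iff_le_exp (by exact_mod_cast hp.pos)).1 (log_le_exp_of_ll_le hp h)

/-- Cells of the lower region lie below `u`. -/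
lemma cell_le {c : Fin (K1 u) → ℕ} {r : ℕ → ℝ} (hc : GLower u c r) (j : Fin (K1 u)) :
    cellW u * c j + cellW u ≤ u := by
  have key : ∀ d : ℕ, 1 + d ≤ K1 u → vecOf u c r (1 + d) ≤ vecOf u c r 1 := by
    intro d
    induction d with
    | zero => simp
    | succ d ih =>
      intro hd
      have := hc.mono (1 + d) (by omega) (by omega)
      rw [show 1 + (d + 1) = 1 + d + 1 by omega]
      linarith [ih (by omega), hB.cellW_pos, hB.hgt_pos (show 1 + d ≤ K1 u by omega)]
  have h1 := key j (by omega)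
  rw [Nat.add_comm, vecOf_cell] at h1
  have h2 : 16 * LL u ^ 3 ≤ hgt u 0 := hB.pow_lt_h (Nat.zero_le _) (by norm_num)
  have h3 : cellW u = LL u ^ 3 := rfl
  linarith [hc.first, hB.cellW_pos]

/-- Shifted primes divisible by a square of a large prime. -/
lemma sum_square_shift (T : Finset ℕ) (hT : ∀ q ∈ T, q.Prime ∧ ll q ≤ u ∧
    ∃ p : ℕ, p.Prime ∧ yLow u < ll p ∧ p ^ 2 ∣ q - 1) :
    ∑ q ∈ T, 1 / ((q : ℝ) - 1) ≤ 1 / 2 := by
  classical
  set M := valBound u
  have hH : 0 ≤ 1 + Real.log M := by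
    have := Real.log_natCast_nonneg M
    linarith
  calc ∑ q ∈ T, 1 / ((q : ℝ) - 1) = ∑ k ∈ T.image (fun q : ℕ => q - 1), 1 / (k : ℝ) := by
        rw [Finset.sum_image]
        · refine Finset.sum_congr rfl fun q hq => ?_
          rw [Nat.cast_sub (hT q hq).1.one_le, Nat.cast_one]
        · intro a ha b hb h
          have := (hT a ha).1.one_le
          have := (hT b hb).1.one_le
          simp only at h
          omega
    _ ≤ ∑ k ∈ (bigPrimes u).biUnion (fun p => (Finset.Icc 1 M).filter (fun k => p ^ 2 ∣ k)),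
          1 / (k : ℝ) := by
        refine Finset.sum_le_sum_of_subset_of_nonneg ?_ fun _ _ _ => by positivity
        intro k hk
        obtain ⟨q, hq, rfl⟩ := Finset.mem_image.1 hk
        obtain ⟨hqp, hql, p, hp, hpl, hpd⟩ := hT q hq
        have h1 : 1 ≤ q - 1 := by have := hqp.two_le; omega
        have h2 := BigU.sub_one_le_valBound hqp hql
        exact Finset.mem_biUnion.2 ⟨p, mem_bigPrimes hp hpl h1 h2
          (dvd_trans (dvd_pow_self p two_ne_zero) hpd), Finset.mem_filter.2
          ⟨Finset.mem_Icc.2 ⟨h1, h2⟩, hpd⟩⟩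
    _ ≤ ∑ p ∈ bigPrimes u, ∑ k ∈ (Finset.Icc 1 M).filter (fun k => p ^ 2 ∣ k), 1 / (k : ℝ) :=
        sum_biUnion_le _ _ (fun _ => by positivity)
    _ ≤ ∑ p ∈ bigPrimes u, (1 + Real.log M) * (1 / (p : ℝ) ^ 2) := by
        refine Finset.sum_le_sum fun p hp => ?_
        refine (sum_inv_dvd_le M (p ^ 2)
          (pow_pos (bigPrimes_gt hB.yLow_nonneg hp).1.pos 2)).trans_eq ?_
        push_cast
        ring
    _ ≤ Real.exp (2 * u ^ 3) * (2 / Real.exp (Real.exp (yLow u))) := by
        rw [← Finset.mul_sum]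
        refine mul_le_mul ?_ hB.sum_inv_sq_big (Finset.sum_nonneg fun _ _ => by positivity)
          (Real.exp_pos _).le
        have h1 := log_valBound_le (u := u)
        have h2 : u + 1 ≤ 2 * u ^ 3 := by
          have := hB.u_ge
          have : u ≤ u ^ 3 := le_self_pow₀ (by linarith) (by norm_num)
          linarith
        have h3 : Real.exp (u + 1) ≤ Real.exp (2 * u ^ 3) := Real.exp_le_exp.2 h2
        rw [Real.exp_add] at h3
        nlinarith [Real.add_one_le_exp 1, Real.add_one_le_exp u, hB.u_ge, Real.exp_pos u]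
    _ ≤ Real.exp (-u) := hB.tiny
    _ ≤ 1 / 2 := by
        rw [Real.exp_neg, ← one_div]
        exact one_div_le_one_div_of_le two_pos (by linarith [Real.add_one_le_exp u, hB.u_ge])

end BigU

/-- Every slot of a lower cell has almost full weight. -/
lemma slotLow_sum : ∃ D : ℝ, 1 ≤ D ∧ ∀ᶠ u : ℝ in atTop, ∀ c : ℕ,
    cellW u * c + cellW u ≤ u → cellW u - D ≤ ∑ p ∈ slotLow u c, 1 / ((p : ℝ) - 1) := by
  classical
  obtain ⟨C, hC⟩ := mertens_ll
  have hC0 : 0 ≤ C := le_trans (abs_nonneg _) (hC 0 0 le_rfl le_rfl)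
  refine ⟨C + 1, by linarith, ?_⟩
  filter_upwards [eventually_bigU, abnormal_recip] with u hB habn c hc
  have ha : 0 ≤ cellW u * c := mul_nonneg hB.cellW_pos.le (Nat.cast_nonneg c)
  have h := abs_le.1 (hC (cellW u * c) (cellW u * (c + 1)) ha
    (by linarith [hB.cellW_pos]))
  set T := llPrimes (cellW u * c) (cellW u * (c + 1))
  have hT : ∀ p ∈ T, p.Prime ∧ ll p ≤ u := fun p hp => by
    obtain ⟨h1, -, h2⟩ := mem_llPrimes.1 hp
    exact ⟨h1, by linarith⟩
  have e1 : slotLow u c = (T.filter (fun p => NormalPrime u p)).filter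
      (fun q => ∀ p : ℕ, p.Prime → yLow u < ll p → ¬ p ^ 2 ∣ q - 1) := by
    unfold slotLow
    rw [Finset.filter_filter]
  have h1 := habn (T.filter (fun p => ¬ NormalPrime u p)) fun p hp => by
    obtain ⟨hp1, hp2⟩ := Finset.mem_filter.1 hp
    exact ⟨(hT p hp1).1, by linarith [(hT p hp1).2], hp2⟩
  have h2 := hB.sum_square_shift ((T.filter (fun p => NormalPrime u p)).filter
      (fun q => ¬ ∀ p : ℕ, p.Prime → yLow u < ll p → ¬ p ^ 2 ∣ q - 1)) fun q hq => by
    simp only [Finset.mem_filter, not_forall, not_not, exists_prop] at hq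
    exact ⟨(hT q hq.1.1).1, (hT q hq.1.1).2, hq.2⟩
  have h3 : Real.exp (-(2 * LL u ^ 3)) ≤ 1 / 2 := by
    rw [Real.exp_neg, ← one_div]
    refine one_div_le_one_div_of_le two_pos ?_
    have : (1 : ℝ) ≤ LL u ^ 3 := one_le_pow₀ hB.L1
    linarith [Real.add_one_le_exp (2 * LL u ^ 3)]
  have e2 := Finset.sum_filter_add_sum_filter_not T (fun p => NormalPrime u p)
    (fun p => 1 / ((p : ℝ) - 1))
  have e3 := Finset.sum_filter_add_sum_filter_not (T.filter (fun p => NormalPrime u p))
    (fun q => ∀ p : ℕ, p.Prime → yLow u < ll p → ¬ p ^ 2 ∣ q - 1) (fun p => 1 / ((p : ℝ) - 1))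
  rw [← e1] at e3
  linarith [h.1]

lemma one_tailRep {u : ℝ} (hB : BigU u) : TailRep u 1 1 := by
  refine ⟨one_pos, Nat.totient_one, ?_, ?_, ?_, ?_, ?_, ?_⟩
  · exact fun p hp _ h => absurd (Nat.le_of_dvd one_pos h) (by have := hp.two_le; nlinarith)
  · intro p hp _ h
    rw [Nat.totient_one] at h
    exact absurd (Nat.le_of_dvd one_pos h) (by have := hp.two_le; nlinarith)
  · intro q hq h
    exact absurd (Nat.le_of_dvd one_pos h) (by have := hq.two_le; omega)
  · simpa using pow_nonneg hB.upos.le 3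
  · intro j _
    rw [prof, nthPrime, Nat.primeFactorsList_one]
    simp [ll_one, yLump]
    exact pow_nonneg (by linarith [hB.L16]) _
  · rw [prof, nthPrime, Nat.primeFactorsList_one]
    simp [ll_one]
    exact div_nonneg (by linarith [hB.upos]) (gRen_pos _).le

/-- The weighted number of lower cells is at least one. -/
lemma cellMass_one_le : ∀ᶠ u : ℝ in atTop, 1 ≤ cellMass u := by
  classical
  obtain ⟨eta, Th, -, hlay⟩ := layer_negligible
  filter_upwards [eventually_bigU, hlay, lowerCells_subset, upperCells_finite]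
    with u hB hlay hsub hfin
  have hrep := one_tailRep hB
  have h1 : 1 ∈ tailVals u := by
    simp only [tailVals, totSet, Finset.mem_filter, Finset.mem_Icc]
    refine ⟨⟨⟨le_rfl, Nat.le_floor ?_⟩, ⟨1, one_pos, Nat.totient_one⟩⟩, 1, hrep⟩
    simpa [tailBound] using Real.one_le_exp (Real.exp_pos _).le
  have h2 : cutProf u 1 = fun _ => 0 := by
    funext i
    rw [cutProf, if_neg]
    rintro ⟨-, h⟩
    rw [prof, nthPrime, Nat.primeFactorsList_one] at h
    simp [ll_one] at h
    linarith [hB.yLow_nonneg]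
  have h3 : lowerCells u {fun _ => 0} ⊆ lowerCells u (tailVecs u 1) := by
    rintro c ⟨r, rfl, hc⟩
    exact ⟨_, ⟨1, hrep, h2.symm⟩, hc⟩
  have h4 : 1 ≤ ((lowerCells u (tailVecs u 1)).ncard : ℝ) := by
    have := Set.ncard_le_ncard h3 ((hfin _).subset (hsub _))
    have h5 : 0 < (lowerCells u {fun _ => 0}).ncard := by exact_mod_cast hlay.2.2.1
    exact_mod_cast (by omega : 1 ≤ (lowerCells u (tailVecs u 1)).ncard)
  have h5 : 1 ≤ cellW u ^ K1 u := one_le_pow₀ (one_le_pow₀ hB.L1)
  refine one_le_mul_of_one_le_of_one_le ?_ h5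
  refine le_trans h4 (le_of_eq_of_le (by simp) (Finset.single_le_sum
    (f := fun w => ((lowerCells u (tailVecs u w)).ncard : ℝ) / w) (fun _ _ => by positivity) h1))

lemma one_div_tupVal {K : ℕ} (q : (Fin K → ℕ) × ℕ) (h : ∀ j, (q.1 j).Prime) :
    1 / (tupVal q : ℝ) = (∏ j, 1 / ((q.1 j : ℝ) - 1)) * (1 / (q.2 : ℝ)) := by
  rw [tupVal, Nat.cast_mul, Nat.cast_prod, Finset.prod_div_distrib, Finset.prod_const_one,
    div_mul_div_comm, one_mul]
  congr 2
  refine Finset.prod_congr rfl fun j _ => ?_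
  rw [Nat.totient_prime (h j), Nat.cast_sub (h j).one_le, Nat.cast_one]

/-- The lower tuples have almost the full weight of their cells. -/
lemma lowTuples_sum : ∃ D : ℝ, 1 ≤ D ∧ ∀ᶠ u : ℝ in atTop,
    (1 - 8 * D / LL u ^ 2) * cellMass u ≤ ∑ q ∈ lowTuples u, 1 / (tupVal q : ℝ) := by
  classical
  obtain ⟨D, hD, hslot⟩ := slotLow_sum
  refine ⟨D, hD, ?_⟩
  filter_upwards [eventually_bigU, hslot, lowerCells_subset, upperCells_finite,
    tendsto_LL.eventually_ge_atTop D] with u hB hslot hsub hfin hLD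
  have hWD : D ≤ cellW u := le_trans hLD (le_self_pow₀ hB.L1 (by norm_num))
  have hfl : ∀ R, (lowerCells u R).Finite := fun R => (hfin R).subset (hsub R)
  have hK : (K1 u : ℝ) ≤ 8 * LL u :=
    le_trans (by exact_mod_cast hB.K1lt.le) hB.K2le
  have hpow : (1 - 8 * D / LL u ^ 2) * cellW u ^ K1 u ≤ (cellW u - D) ^ K1 u := by
    have h0 := hB.cellW_pos
    have hb := one_add_mul_le_pow (a := -(D / cellW u))
      (by have : D / cellW u ≤ 1 := (div_le_one h0).2 hWD; linarith) (K1 u)
    have h1 : 1 - 8 * D / LL u ^ 2 ≤ 1 + (K1 u : ℝ) * -(D / cellW u) := by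
      have hL : 0 < LL u := by linarith [hB.L16]
      have : (K1 u : ℝ) * (D / cellW u) ≤ 8 * D / LL u ^ 2 := by
        calc (K1 u : ℝ) * (D / cellW u) ≤ 8 * LL u * (D / cellW u) :=
              mul_le_mul_of_nonneg_right hK (by positivity)
          _ = 8 * D / LL u ^ 2 := by rw [cellW]; field_simp
      linarith
    calc _ ≤ (1 + -(D / cellW u)) ^ K1 u * cellW u ^ K1 u :=
          mul_le_mul_of_nonneg_right (h1.trans hb) (pow_nonneg h0.le _)
      _ = _ := by
          rw [← mul_pow]
          congr 1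
          field_simp
          ring
  have main : ∀ w ∈ tailVals u,
      ((lowerCells u (tailVecs u w)).ncard : ℝ) * (cellW u - D) ^ K1 u * (1 / (w : ℝ))
      ≤ ∑ x ∈ (Fintype.piFinset fun _ : Fin (K1 u) =>
          Finset.range (⌈Real.exp (Real.exp (4 * u))⌉₊ + 1)).filter
          (fun x => ∃ c ∈ lowerCells u (tailVecs u w), ∀ j, x j ∈ slotLow u (c j)),
          1 / (tupVal (x, w) : ℝ) := by
    intro w hw
    set cs := (hfl (tailVecs u w)).toFinset
    rw [Set.ncard_eq_toFinset_card _ (hfl _)]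
    have hmem : ∀ (c : Fin (K1 u) → ℕ) (j : Fin (K1 u)), ∀ p ∈ slotLow u (c j),
        p.Prime ∧ cellW u * c j < ll p ∧ ll p ≤ cellW u * (c j + 1) := by
      intro c j p hp
      simp only [slotLow, Finset.mem_filter, mem_llPrimes] at hp
      exact hp.1
    have hdisj : (cs : Set (Fin (K1 u) → ℕ)).PairwiseDisjoint
        (fun c => Fintype.piFinset fun j => slotLow u (c j)) := by
      intro c _ c' _ hne
      refine Finset.disjoint_left.2 fun x hx hx' => hne (funext fun j => ?_)
      obtain ⟨-, a1, a2⟩ := hmem c j _ (Fintype.mem_piFinset.1 hx j)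
      obtain ⟨-, b1, b2⟩ := hmem c' j _ (Fintype.mem_piFinset.1 hx' j)
      have hW := hB.cellW_pos
      have l1 : (c j : ℝ) < c' j + 1 := lt_of_mul_lt_mul_left (a1.trans_le b2) hW.le
      have l2 : (c' j : ℝ) < c j + 1 := lt_of_mul_lt_mul_left (b1.trans_le a2) hW.le
      have l1' : c j < c' j + 1 := by exact_mod_cast l1
      have l2' : c' j < c j + 1 := by exact_mod_cast l2
      omega
    calc (cs.card : ℝ) * (cellW u - D) ^ K1 u * (1 / (w : ℝ))
        = ∑ _c ∈ cs, (cellW u - D) ^ K1 u * (1 / (w : ℝ)) := by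
          rw [Finset.sum_const, nsmul_eq_mul]; ring
      _ ≤ ∑ c ∈ cs, ∑ x ∈ Fintype.piFinset (fun j => slotLow u (c j)),
            1 / (tupVal (x, w) : ℝ) := by
          refine Finset.sum_le_sum fun c hc => ?_
          obtain ⟨r, -, hcr⟩ := (Set.Finite.mem_toFinset _).1 hc
          rw [Finset.sum_congr rfl (fun x hx => one_div_tupVal (x, w)
            fun j => (hmem c j _ (Fintype.mem_piFinset.1 hx j)).1)]
          dsimp only
          rw [← Finset.sum_mul, ← Finset.prod_univ_sum (fun j => slotLow u (c j))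
            (fun _ (p : ℕ) => 1 / ((p : ℝ) - 1))]
          refine mul_le_mul_of_nonneg_right ?_ (by positivity)
          calc (cellW u - D) ^ K1 u = ∏ _j : Fin (K1 u), (cellW u - D) := by simp
            _ ≤ _ := Finset.prod_le_prod (fun _ _ => by linarith)
                fun j _ => hslot (c j) (hB.cell_le hcr j)
      _ = ∑ x ∈ cs.biUnion (fun c => Fintype.piFinset fun j => slotLow u (c j)),
            1 / (tupVal (x, w) : ℝ) := (Finset.sum_biUnion hdisj).symm
      _ ≤ _ := by
          refine Finset.sum_le_sum_of_subset_of_nonneg ?_ fun _ _ _ => by positivity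
          intro x hx
          obtain ⟨c, hc, hx⟩ := Finset.mem_biUnion.1 hx
          rw [Fintype.mem_piFinset] at hx
          have hc' := (Set.Finite.mem_toFinset _).1 hc
          obtain ⟨r, -, hcr⟩ := hc'
          refine Finset.mem_filter.2 ⟨Fintype.mem_piFinset.2 fun j => ?_,
            c, (Set.Finite.mem_toFinset _).1 hc, hx⟩
          obtain ⟨hp, -, hl⟩ := hmem c j _ (hx j)
          rw [Finset.mem_range, Nat.lt_succ_iff]
          have : (x j : ℝ) ≤ Real.exp (Real.exp (4 * u)) := by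
            have h1 := hB.cell_le hcr j
            exact (Real.log_le_iff_le_exp (by exact_mod_cast hp.pos)).1
              (log_le_exp_of_ll_le hp (by nlinarith [hB.upos]))
          exact_mod_cast this.trans (Nat.le_ceil _)
  calc (1 - 8 * D / LL u ^ 2) * cellMass u
      = ∑ w ∈ tailVals u, ((lowerCells u (tailVecs u w)).ncard : ℝ)
          * ((1 - 8 * D / LL u ^ 2) * cellW u ^ K1 u) * (1 / (w : ℝ)) := by
        rw [cellMass, Finset.sum_mul, Finset.mul_sum]
        exact Finset.sum_congr rfl fun w _ => by ring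
    _ ≤ ∑ w ∈ tailVals u, ((lowerCells u (tailVecs u w)).ncard : ℝ)
          * (cellW u - D) ^ K1 u * (1 / (w : ℝ)) := by
        refine Finset.sum_le_sum fun w _ => ?_
        gcongr
    _ ≤ _ := by
        refine le_trans (Finset.sum_le_sum main) (le_of_eq ?_)
        unfold lowTuples tupBox
        rw [Finset.sum_filter, Finset.sum_product_right]
        exact Finset.sum_congr rfl fun w _ => by rw [Finset.sum_filter]

/-- A square dividing a product of factors without one meets two factors. -/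
lemma two_of_sq_dvd_prod {n : ℕ} {p : ℕ} (hp : p.Prime) (f : Fin n → ℕ)
    (hf : ∀ i, ¬ p ^ 2 ∣ f i) (h : p ^ 2 ∣ ∏ i, f i) :
    ∃ i j, i ≠ j ∧ p ∣ f i ∧ p ∣ f j := by
  classical
  obtain ⟨i, -, hi⟩ := (Prime.dvd_finsetProd_iff hp.prime f).1
    (dvd_trans (dvd_pow_self p two_ne_zero) h)
  obtain ⟨r, hr⟩ := hi
  rw [← Finset.mul_prod_erase _ _ (Finset.mem_univ i), hr, pow_two, mul_assoc] at h
  rcases hp.dvd_mul.1 (Nat.dvd_of_mul_dvd_mul_left hp.pos h) with h' | h'
  · exact absurd (by rw [hr, pow_two]; exact Nat.mul_dvd_mul_left p h') (hf i)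
  · obtain ⟨j, hj, hpj⟩ := (Prime.dvd_finsetProd_iff hp.prime f).1 h'
    exact ⟨i, j, fun e => (Finset.mem_erase.1 hj).1 e.symm, ⟨r, hr⟩, hpj⟩

/-- Tuples whose value has a large square are negligible. -/
lemma badTuples_sum : ∀ᶠ u : ℝ in atTop,
    ∑ q ∈ lowTuples u \ goodTuples u, 1 / (tupVal q : ℝ) ≤ 1 / LL u ^ 2 := by
  classical
  filter_upwards [eventually_bigU] with u hB
  set M := valBound u
  set K := K1 u
  set H := 1 + Real.log M
  have hH : 0 ≤ H := by have := Real.log_natCast_nonneg M; linarith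
  let vec : (Fin K → ℕ) × ℕ → (Fin (K + 1) → ℕ) :=
    fun q => Fin.cons q.2 (fun j => Nat.totient (q.1 j))
  have hprime : ∀ q ∈ lowTuples u, ∀ j, (q.1 j).Prime := fun q hq j => by
    obtain ⟨c, m, hw⟩ := exists_wit hq
    exact (hw.slot' j).1
  let A : Fin (K + 1) × Fin (K + 1) × ℕ → Fin (K + 1) → Finset ℕ := fun a l =>
    if l = a.1 ∨ l = a.2.1 then (Finset.Icc 1 M).filter (fun k => a.2.2 ∣ k)
    else Finset.Icc 1 M
  set I := ((Finset.univ : Finset (Fin (K + 1))) ×ˢ
    ((Finset.univ : Finset (Fin (K + 1))) ×ˢ bigPrimes u)).filter (fun a => a.1 ≠ a.2.1)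
  calc ∑ q ∈ lowTuples u \ goodTuples u, 1 / (tupVal q : ℝ)
      = ∑ k ∈ (lowTuples u \ goodTuples u).image vec, ∏ l, 1 / (k l : ℝ) := by
        rw [Finset.sum_image]
        · refine Finset.sum_congr rfl fun q _ => ?_
          rw [Fin.prod_univ_succ, tupVal, Nat.cast_mul, Nat.cast_prod]
          simp only [vec, Fin.cons_zero, Fin.cons_succ]
          rw [Finset.prod_div_distrib, Finset.prod_const_one, div_mul_div_comm, one_mul, mul_comm]
        · intro a ha b hb h
          obtain ⟨h2, h1⟩ := Fin.cons_inj.1 h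
          refine Prod.ext (funext fun j => ?_) h2
          have e := congrFun h1 j
          have pa := hprime a (Finset.sdiff_subset ha) j
          have pb := hprime b (Finset.sdiff_subset hb) j
          rw [Nat.totient_prime pa, Nat.totient_prime pb] at e
          have := pa.two_le
          have := pb.two_le
          omega
    _ ≤ ∑ k ∈ I.biUnion (fun a => Fintype.piFinset (A a)), ∏ l, 1 / (k l : ℝ) := by
        refine Finset.sum_le_sum_of_subset_of_nonneg ?_
          fun k _ _ => Finset.prod_nonneg fun l _ => by positivity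
        intro k hk
        obtain ⟨q, hq, rfl⟩ := Finset.mem_image.1 hk
        obtain ⟨hlow, hbad⟩ := Finset.mem_sdiff.1 hq
        simp only [goodTuples, Finset.mem_filter, hlow, true_and, not_forall, not_not,
          exists_prop] at hbad
        obtain ⟨p, hp, hpl, hpd⟩ := hbad
        obtain ⟨c, m, hw⟩ := exists_wit hlow
        have hw2 : q.2 ∈ tailVals u := by
          simp only [lowTuples, tupBox, Finset.mem_filter, Finset.mem_product] at hlow
          exact hlow.1.2
        simp only [tailVals, totSet, Finset.mem_filter, Finset.mem_Icc] at hw2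
        have hr : ∀ l, 1 ≤ vec q l ∧ vec q l ≤ M := by
          refine Fin.cases ?_ ?_
          · simp only [vec, Fin.cons_zero]
            refine ⟨hw2.1.1.1, BigU.le_valBound ?_⟩
            exact le_trans (Nat.cast_le.2 hw2.1.1.2)
              (le_trans (Nat.floor_le (Real.exp_pos _).le) hB.tb)
          · intro j
            simp only [vec, Fin.cons_succ]
            obtain ⟨hjp, -, hjl, -, -⟩ := hw.slot' j
            rw [Nat.totient_prime hjp]
            exact ⟨by have := hjp.two_le; omega,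
              BigU.sub_one_le_valBound hjp (hjl.trans (hB.cell_le hw.cell j))⟩
        obtain ⟨i, j, hij, hi, hj⟩ := two_of_sq_dvd_prod hp (vec q) (Fin.cases
          (by simp only [vec, Fin.cons_zero]; rw [← hw.rep.tot]; exact hw.rep.sqTot p hp hpl)
          (fun j => by
            simp only [vec, Fin.cons_succ]
            rw [Nat.totient_prime (hw.slot' j).1]
            exact (hw.slot' j).2.2.2.2 p hp hpl)) (by
          rw [Fin.prod_univ_succ]
          simpa [vec, tupVal, mul_comm] using hpd)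
        refine Finset.mem_biUnion.2 ⟨(i, j, p), Finset.mem_filter.2 ⟨?_, hij⟩,
          Fintype.mem_piFinset.2 fun l => ?_⟩
        · simp [mem_bigPrimes hp hpl (hr i).1 (hr i).2 hi]
        · simp only [A]
          split_ifs with h
          · refine Finset.mem_filter.2 ⟨Finset.mem_Icc.2 (hr l), ?_⟩
            rcases h with rfl | rfl <;> assumption
          · exact Finset.mem_Icc.2 (hr l)
    _ ≤ ∑ a ∈ I, ∑ k ∈ Fintype.piFinset (A a), ∏ l, 1 / (k l : ℝ) :=
        sum_biUnion_le _ _ (fun k => Finset.prod_nonneg fun l _ => by positivity)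
    _ ≤ ∑ a ∈ I, H ^ (K + 1) * (1 / (a.2.2 : ℝ) ^ 2) := by
        refine Finset.sum_le_sum fun a ha => ?_
        obtain ⟨ha, hne⟩ := Finset.mem_filter.1 ha
        simp only [Finset.mem_product, Finset.mem_univ, true_and] at ha
        have hp := (bigPrimes_gt hB.yLow_nonneg ha).1
        rw [← Finset.prod_univ_sum (A a) (fun _ (k : ℕ) => 1 / (k : ℝ))]
        calc ∏ l, ∑ k ∈ A a l, 1 / (k : ℝ)
            ≤ ∏ l, H * (if l ∈ ({a.1, a.2.1} : Finset (Fin (K + 1))) then 1 / (a.2.2 : ℝ)
                else 1) := by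
              refine Finset.prod_le_prod (fun l _ => Finset.sum_nonneg fun _ _ => by positivity)
                fun l _ => ?_
              by_cases h : l = a.1 ∨ l = a.2.1
              · rw [if_pos (by simpa using h)]
                simp only [A, if_pos h]
                rw [mul_one_div]
                exact sum_inv_dvd_le M _ hp.pos
              · rw [if_neg (by simpa using h), mul_one]
                simp only [A, if_neg h]
                exact sum_inv_Icc_le M
          _ = _ := by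
              rw [Finset.prod_mul_distrib, Finset.prod_const, Finset.prod_ite_mem,
                Finset.univ_inter, Finset.prod_const, Finset.card_pair hne, Finset.card_univ,
                Fintype.card_fin, div_pow, one_pow]
    _ ≤ ∑ a ∈ (Finset.univ : Finset (Fin (K + 1))) ×ˢ
          ((Finset.univ : Finset (Fin (K + 1))) ×ˢ bigPrimes u),
          H ^ (K + 1) * (1 / (a.2.2 : ℝ) ^ 2) :=
        Finset.sum_le_sum_of_subset_of_nonneg (Finset.filter_subset _ _)
          fun _ _ _ => by positivity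
    _ = (((K : ℝ) + 1) ^ 2 * H ^ (K + 1)) * ∑ p ∈ bigPrimes u, 1 / (p : ℝ) ^ 2 := by
        simp only [Finset.sum_product, Finset.sum_const, Finset.card_univ, Fintype.card_fin,
          nsmul_eq_mul, Finset.mul_sum]
        refine Finset.sum_congr rfl fun p _ => ?_
        push_cast
        ring
    _ ≤ Real.exp (2 * u ^ 3) * (2 / Real.exp (Real.exp (yLow u))) := by
        refine mul_le_mul ?_ hB.sum_inv_sq_big (Finset.sum_nonneg fun _ _ => by positivity)
          (Real.exp_pos _).le
        have hu := hB.u_ge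
        have hK : (K : ℝ) + 1 ≤ u := by
          have h1 : (K : ℝ) + 1 ≤ (K2 u : ℝ) := by exact_mod_cast hB.K1lt
          nlinarith [hB.K2le, hB.L2le, hB.L16]
        have hHe : H ≤ Real.exp (2 * u) := by
          have h1 := log_valBound_le (u := u)
          rw [two_mul, Real.exp_add]
          nlinarith [Real.add_one_le_exp u]
        calc ((K : ℝ) + 1) ^ 2 * H ^ (K + 1)
            ≤ Real.exp u ^ 2 * Real.exp (2 * u) ^ (K + 1) := by
              refine mul_le_mul (pow_le_pow_left₀ (by positivity)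
                (by linarith [Real.add_one_le_exp u]) 2) (pow_le_pow_left₀ hH hHe _)
                (pow_nonneg hH _) (by positivity)
          _ = Real.exp (2 * u + ((K : ℝ) + 1) * (2 * u)) := by
              rw [Real.exp_add, ← Real.exp_nat_mul, ← Real.exp_nat_mul]
              push_cast
              ring_nf
          _ ≤ _ := Real.exp_le_exp.2 (by
              have h1 : ((K : ℝ) + 1) * (2 * u) ≤ u * (2 * u) :=
                mul_le_mul_of_nonneg_right hK (by linarith)
              have h2 : 0 ≤ u * u * (u - 2) :=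
                mul_nonneg (mul_self_nonneg u) (by linarith)
              have h3 : u * 1 ≤ u * u := mul_le_mul_of_nonneg_left (by linarith) (by linarith)
              nlinarith)
    _ ≤ Real.exp (-u) := hB.tiny
    _ ≤ _ := hB.exp_neg_le

end Vale.Agent.P031
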