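import Vale.Agent.P031.Coef

/-! Inversion of the slack map and elementary bounds on chains. -/

open Finset Real Filter

namespace Vale.Agent.P031

/-- The vector with prescribed slacks. -/
noncomputable def renew (k : ℕ) (e : ℕ → ℝ) (i : ℕ) : ℝ :=
  ∑ l ∈ Finset.Icc i k, gRen (l - i) * e l

lemma renew_top (k : ℕ) (e : ℕ → ℝ) : renew k e k = e k := by
  simp [renew, gRen_zero]

lemma renew_nonneg (k : ℕ) (e : ℕ → ℝ) (i : ℕ) (he : ∀ l, i ≤ l → l ≤ k → 0 ≤ e l) :
    0 ≤ renew k e i :=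
  Finset.sum_nonneg fun l hl =>
    mul_nonneg (gRen_pos _).le (he l (Finset.mem_Icc.1 hl).1 (Finset.mem_Icc.1 hl).2)

lemma gRen_eq_sum_Ioc {i l : ℕ} (h : i < l) :
    gRen (l - i) = ∑ j ∈ Finset.Ioc i l, coef (j - i) * gRen (l - j) := by
  obtain ⟨m, rfl⟩ : ∃ m, l = i + (m + 1) := ⟨l - i - 1, by omega⟩
  rw [Nat.add_sub_cancel_left, gRen_succ_eq]
  refine Finset.sum_nbij' (fun x => i + (m + 1) - x) (fun j => i + (m + 1) - j) ?_ ?_ ?_ ?_ ?_
  · intro x hx; simp at hx ⊢; omega
  · intro x hx; simp at hx ⊢; omega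
  · intro x hx; simp at hx; omega
  · intro x hx; simp at hx; omega
  · intro x hx
    simp at hx
    rw [show i + (m + 1) - x - i = m + 1 - x by omega,
      show i + (m + 1) - (i + (m + 1) - x) = x by omega]

lemma chain_renew (k : ℕ) (e : ℕ → ℝ) (i : ℕ) :
    chain k (renew k e) i = ∑ l ∈ Finset.Ioc i k, gRen (l - i) * e l := by
  unfold chain renew
  rw [Finset.sum_congr rfl (fun j _ => Finset.mul_sum _ _ _)]
  rw [Finset.sum_comm' (t' := Finset.Ioc i k) (s' := fun l => Finset.Ioc i l)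
    (by intro x y; simp; omega)]
  refine Finset.sum_congr rfl fun l hl => ?_
  rw [Finset.mem_Ioc] at hl
  rw [gRen_eq_sum_Ioc hl.1, Finset.sum_mul]
  exact Finset.sum_congr rfl fun j _ => by ring

lemma slackAt_renew (k : ℕ) (e : ℕ → ℝ) {i : ℕ} (hi : i ≤ k) :
    slackAt k (renew k e) i = e i := by
  unfold slackAt
  rw [chain_renew, renew, ← Finset.sum_Ioc_add_eq_sum_Icc hi, Nat.sub_self, gRen_zero]
  ring

lemma chain_congr {k : ℕ} {y z : ℕ → ℝ} {i : ℕ} (h : ∀ j, i < j → j ≤ k → y j = z j) :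
    chain k y i = chain k z i :=
  Finset.sum_congr rfl fun j hj => by
    rw [h j (Finset.mem_Ioc.1 hj).1 (Finset.mem_Ioc.1 hj).2]

lemma eq_renew (k : ℕ) (y : ℕ → ℝ) : ∀ i, i ≤ k → y i = renew k (slackAt k y) i := by
  suffices H : ∀ m i, i ≤ k → k - i = m → y i = renew k (slackAt k y) i from
    fun i hi => H (k - i) i hi rfl
  intro m
  induction m using Nat.strong_induction_on with
  | _ m ih =>
    intro i hi hm
    have hc : chain k y i = chain k (renew k (slackAt k y)) i :=
      chain_congr fun j hj hjk => ih (k - j) (by omega) j hjk rfl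
    have h : renew k (slackAt k y) i - chain k (renew k (slackAt k y)) i = y i - chain k y i :=
      slackAt_renew k (slackAt k y) hi
    linarith

lemma chain_renew_zero (k : ℕ) (e : ℕ → ℝ) :
    chain k (renew k e) 0 = ∑ l ∈ Finset.Icc 1 k, gRen l * e l := by
  rw [chain_renew, show Finset.Ioc 0 k = Finset.Icc 1 k by ext; simp; omega]
  simp

lemma chain_nonneg {k : ℕ} {y : ℕ → ℝ} {i : ℕ} (h : ∀ j, i < j → j ≤ k → 0 ≤ y j) :
    0 ≤ chain k y i :=
  Finset.sum_nonneg fun j hj => by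
    rw [Finset.mem_Ioc] at hj
    exact mul_nonneg (coef_nonneg (by omega)) (h j hj.1 hj.2)

lemma chain_le_chain {k : ℕ} {y z : ℕ → ℝ} {i : ℕ} (h : ∀ j, i < j → j ≤ k → y j ≤ z j) :
    chain k y i ≤ chain k z i :=
  Finset.sum_le_sum fun j hj => by
    rw [Finset.mem_Ioc] at hj
    exact mul_le_mul_of_nonneg_left (h j hj.1 hj.2) (coef_nonneg (by omega))

lemma chain_add (k : ℕ) (y z : ℕ → ℝ) (i : ℕ) :
    chain k (fun j => y j + z j) i = chain k y i + chain k z i := by
  unfold chain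
  rw [← Finset.sum_add_distrib]
  exact Finset.sum_congr rfl fun j _ => by ring

lemma chain_sub (k : ℕ) (y z : ℕ → ℝ) (i : ℕ) :
    chain k (fun j => y j - z j) i = chain k y i - chain k z i := by
  unfold chain
  rw [← Finset.sum_sub_distrib]
  exact Finset.sum_congr rfl fun j _ => by ring

lemma chain_smul (k : ℕ) (c : ℝ) (y : ℕ → ℝ) (i : ℕ) :
    chain k (fun j => c * y j) i = c * chain k y i := by
  unfold chain
  rw [Finset.mul_sum]
  exact Finset.sum_congr rfl fun j _ => by ring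

lemma chain_split {i m k : ℕ} (him : i ≤ m) (hmk : m ≤ k) (y : ℕ → ℝ) :
    chain k y i = chain m y i + ∑ j ∈ Finset.Ioc m k, coef (j - i) * y j := by
  unfold chain
  rw [← Finset.sum_Ioc_consecutive _ him hmk]

/-- Total weight of a chain. -/
lemma chain_const_le {k i : ℕ} {b : ℝ} (hb : 0 ≤ b) {y : ℕ → ℝ}
    (h : ∀ j, i < j → j ≤ k → y j ≤ b) :
    chain k y i ≤ (k : ℝ) * (Real.log ((k : ℝ) + 1) + 1) * b := by
  calc chain k y i ≤ ∑ _j ∈ Finset.Ioc i k, (Real.log ((k : ℝ) + 1) + 1) * b := by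
        refine Finset.sum_le_sum fun j hj => ?_
        rw [Finset.mem_Ioc] at hj
        have h1 : coef (j - i) ≤ Real.log ((k : ℝ) + 1) + 1 := by
          refine (coef_le (by omega)).trans (add_le_add_left ?_ _)
          refine Real.log_le_log (by positivity) ?_
          have : ((j - i : ℕ) : ℝ) ≤ (k : ℝ) := by exact_mod_cast (by omega : j - i ≤ k)
          linarith
        have h0 := coef_nonneg (show 1 ≤ j - i by omega)
        calc coef (j - i) * y j ≤ coef (j - i) * b := mul_le_mul_of_nonneg_left (h j hj.1 hj.2) h0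
          _ ≤ _ := mul_le_mul_of_nonneg_right h1 hb
    _ ≤ _ := by
        rw [Finset.sum_const, nsmul_eq_mul, Nat.card_Ioc, mul_assoc]
        have : ((k - i : ℕ) : ℝ) ≤ k := by exact_mod_cast Nat.sub_le k i
        have hl : 0 ≤ Real.log ((k : ℝ) + 1) := Real.log_nonneg (by simp)
        exact mul_le_mul_of_nonneg_right this (by positivity)

/-- Changing each coordinate by at most `b`. -/
lemma abs_chain_sub_le {k i : ℕ} {b : ℝ} (hb : 0 ≤ b) {y z : ℕ → ℝ}
    (h : ∀ j, i < j → j ≤ k → |y j - z j| ≤ b) :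
    |chain k y i - chain k z i| ≤ (k : ℝ) * (Real.log ((k : ℝ) + 1) + 1) * b := by
  have h1 : chain k (fun j => y j - z j) i ≤ _ :=
    chain_const_le hb (fun j a c => (le_abs_self _).trans (h j a c))
  have h2 : chain k (fun j => z j - y j) i ≤ _ :=
    chain_const_le hb (fun j a c => by
      have := h j a c
      rw [abs_sub_comm] at this
      exact (le_abs_self _).trans this)
  rw [chain_sub] at h1 h2
  rw [abs_le]
  constructor <;> linarith

end Vale.Agent.P031
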