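import Vale.Agent.P031.MainDefs
import Vale.Agent.P031.Renewal
import Vale.Agent.P031.DescList

/-! Structure of a tuple of the lower set. -/

open Finset Real Filter

namespace Vale.Agent.P031

/-- Largeness of `u`. -/
structure BigU (u : ℝ) : Prop where
  L16 : 32 ≤ LL u
  upow : LL u ^ 200 ≤ u
  K1pos : 1 ≤ K1 u
  K1lt : K1 u < K2 u
  K2le : (K2 u : ℝ) ≤ 8 * LL u
  gK : gRen (K1 u) ≤ u / LL u ^ 128
  tb : tailBound u ≤ Real.exp (Real.exp u)

lemma eventually_bigU : ∀ᶠ u : ℝ in atTop, BigU u := by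
  filter_upwards [levelK_spec 128, levelK_spec 64, levelK_lt (show 64 < 128 by norm_num),
    eventually_LL_pow_le 200 1 one_pos, tendsto_LL.eventually_ge_atTop 32] with u h1 h2 h3 h4 hL
  rw [one_mul] at h4
  refine ⟨hL, h4, ?_, h3, h2.2.2.2.2, h1.1, ?_⟩
  · have : (1 : ℝ) ≤ levelK u 128 := by linarith [h1.2.2.2.1]
    exact_mod_cast this
  · refine Real.exp_le_exp.2 (Real.exp_le_exp.2 (le_trans ?_ h4))
    exact pow_le_pow_right₀ (by linarith) (by norm_num)

namespace BigU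

variable {u : ℝ} (hB : BigU u)
include hB

lemma L1 : 1 ≤ LL u := by linarith [hB.L16]

lemma pow_le (e : ℕ) (he : e ≤ 200) : LL u ^ e ≤ u :=
  (pow_le_pow_right₀ hB.L1 he).trans hB.upow

lemma upos : 0 < u := lt_of_lt_of_le (by linarith [hB.L16]) (by simpa using hB.pow_le 1 (by norm_num))

lemma X_ge {i : ℕ} (hi : i ≤ K1 u) : LL u ^ 128 ≤ u / gRen i := by
  rw [le_div_iff₀ (gRen_pos i)]
  rcases Nat.eq_zero_or_pos i with rfl | h
  · simpa [gRen_zero] using hB.pow_le 128 (by norm_num)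
  · have h0 : 0 < LL u ^ 128 := pow_pos (by linarith [hB.L16]) _
    calc LL u ^ 128 * gRen i ≤ LL u ^ 128 * (u / LL u ^ 128) :=
          mul_le_mul_of_nonneg_left ((gRen_mono h hi).trans hB.gK) h0.le
      _ = u := mul_div_cancel₀ u h0.ne'

lemma h_ge {i : ℕ} (hi : i ≤ K1 u) : LL u ^ 96 ≤ hgt u i := by
  have h0 : 0 ≤ LL u ^ 128 := pow_nonneg (by linarith [hB.L16]) _
  calc LL u ^ 96 = (LL u ^ 128) ^ ((3 : ℝ) / 4) := by
        rw [← Real.rpow_natCast (LL u) 128, ← Real.rpow_natCast (LL u) 96,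
          ← Real.rpow_mul (by linarith [hB.L16])]
        norm_num
    _ ≤ _ := Real.rpow_le_rpow h0 (hB.X_ge hi) (by norm_num)

lemma pow_lt_h {i e : ℕ} (hi : i ≤ K1 u) (he : e < 96) : 16 * LL u ^ e ≤ hgt u i :=
  le_trans (le_trans (mul_le_mul_of_nonneg_right (show (16 : ℝ) ≤ LL u by linarith [hB.L16]) (pow_nonneg (by linarith [hB.L16]) _))
    (by rw [← pow_succ']; exact pow_le_pow_right₀ hB.L1 (by omega))) (hB.h_ge hi)

lemma hgt_pos {i : ℕ} (hi : i ≤ K1 u) : 0 < hgt u i :=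
  lt_of_lt_of_le (pow_pos (by linarith [hB.L16]) _) (hB.h_ge hi)

lemma cellW_pos : 0 < cellW u := pow_pos (by linarith [hB.L16]) _

lemma cellW_le_yLow : cellW u ≤ yLow u := pow_le_pow_right₀ hB.L1 (by norm_num)

lemma chain_err {k : ℕ} (hk : k ≤ 2 * K2 u) {b : ℝ} (hb : 0 ≤ b) :
    (k : ℝ) * (Real.log ((k : ℝ) + 1) + 1) * b ≤ LL u ^ 4 * b := by
  have hkL : (k : ℝ) ≤ 16 * LL u := by
    have : (k : ℝ) ≤ 2 * (K2 u : ℝ) := by exact_mod_cast hk
    linarith [hB.K2le]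
  have hl : Real.log ((k : ℝ) + 1) ≤ (k : ℝ) := by
    have := Real.log_le_sub_one_of_pos (show (0 : ℝ) < (k : ℝ) + 1 by positivity)
    linarith
  have h4 : (16 * LL u) * (17 * LL u) ≤ LL u ^ 4 := by
    have : (16 : ℝ) * 17 ≤ LL u ^ 2 := by nlinarith [hB.L16]
    nlinarith [sq_nonneg (LL u)]
  refine mul_le_mul_of_nonneg_right (le_trans (mul_le_mul hkL (show _ ≤ 17 * LL u by
    linarith [hB.L16]) (by linarith [Real.log_nonneg (show (1 : ℝ) ≤ (k : ℝ) + 1 by simp)])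
    (by linarith [hB.L16])) h4) hb

end BigU

/-- A tuple with its cells and a tail representative. -/
structure Wit (u : ℝ) (q : (Fin (K1 u) → ℕ) × ℕ) (c : Fin (K1 u) → ℕ) (m : ℕ) : Prop where
  rep : TailRep u q.2 m
  cell : GLower u c (cutProf u m)
  slot : ∀ j, q.1 j ∈ slotLow u (c j)

lemma exists_wit {u : ℝ} {q : (Fin (K1 u) → ℕ) × ℕ} (h : q ∈ lowTuples u) :
    ∃ c m, Wit u q c m := by
  classical
  simp only [lowTuples, Finset.mem_filter] at h
  obtain ⟨-, c, ⟨r, ⟨m, hm, rfl⟩, hc⟩, hs⟩ := h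
  exact ⟨c, m, hm, hc, hs⟩

lemma vecOf_cell (u : ℝ) (c : Fin (K1 u) → ℕ) (r : ℕ → ℝ) (j : Fin (K1 u)) :
    vecOf u c r ((j : ℕ) + 1) = cellW u * c j := by
  rw [vecOf, dif_pos ⟨by omega, j.2⟩]
  congr

lemma vecOf_tail (u : ℝ) (c : Fin (K1 u) → ℕ) (r : ℕ → ℝ) {i : ℕ} (hi : K1 u < i) :
    vecOf u c r i = r i := by
  rw [vecOf, dif_neg (by omega), if_pos hi]

lemma cutProf_le (u : ℝ) (m i : ℕ) : cutProf u m i ≤ prof m (i - K1 u) := by
  unfold cutProf
  split_ifs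
  · exact le_rfl
  · exact prof_nonneg _ _

lemma cutProf_nonneg (u : ℝ) (m i : ℕ) : 0 ≤ cutProf u m i := by
  unfold cutProf
  split_ifs
  · exact prof_nonneg _ _
  · exact le_rfl

lemma le_cutProf (u : ℝ) (hu : 0 ≤ yLow u) (m : ℕ) {i : ℕ} (hi : K1 u < i) :
    prof m (i - K1 u) ≤ cutProf u m i + yLow u := by
  unfold cutProf
  split_ifs with h
  · linarith
  · rw [not_and] at h
    linarith [not_lt.1 (h hi)]

namespace Wit

variable {u : ℝ} {q : (Fin (K1 u) → ℕ) × ℕ} {c : Fin (K1 u) → ℕ} {m : ℕ}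
  (hB : BigU u) (hw : Wit u q c m)
include hw

lemma slot' (j : Fin (K1 u)) : (q.1 j).Prime ∧ cellW u * c j < ll (q.1 j) ∧
    ll (q.1 j) ≤ cellW u * c j + cellW u ∧ NormalPrime u (q.1 j) ∧
    ∀ p : ℕ, p.Prime → yLow u < ll p → ¬ p ^ 2 ∣ q.1 j - 1 := by
  classical
  have h := hw.slot j
  simp only [slotLow, Finset.mem_filter, mem_llPrimes] at h
  exact ⟨h.1.1, h.1.2.1, by linarith [h.1.2.2], h.2.1, h.2.2⟩

include hB

omit hB in
lemma cell_gap (j j' : Fin (K1 u)) (h : (j : ℕ) + 1 = j') :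
    cellW u * c j' + 2 * cellW u + hgt u ((j : ℕ) + 1) / 4 ≤ cellW u * c j := by
  have h' := hw.cell.mono ((j : ℕ) + 1) (by omega) (by omega)
  rwa [vecOf_cell, show (j : ℕ) + 1 + 1 = (j' : ℕ) + 1 by omega, vecOf_cell] at h'

lemma lt_succ (j j' : Fin (K1 u)) (h : (j : ℕ) + 1 = j') : q.1 j' < q.1 j := by
  by_contra hle
  have h1 := ll_mono (hw.slot' j).1.two_le (not_lt.1 hle)
  have := cell_gap hw j j' h
  linarith [(hw.slot' j).2.1, (hw.slot' j').2.2.1, hB.cellW_pos,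
    hB.hgt_pos (show (j : ℕ) + 1 ≤ K1 u from j.2)]

lemma strictAnti : StrictAnti q.1 := by
  have key : ∀ d : ℕ, ∀ j j' : Fin (K1 u), (j : ℕ) + (d + 1) = j' → q.1 j' < q.1 j := by
    intro d
    induction d with
    | zero => exact fun j j' h => lt_succ hB hw j j' h
    | succ d ih =>
      intro j j' h
      exact lt_trans (lt_succ hB hw ⟨(j : ℕ) + (d + 1), by omega⟩ j' (by simp; omega))
        (ih j ⟨(j : ℕ) + (d + 1), by omega⟩ rfl)
  intro j j' h
  exact key ((j' : ℕ) - j - 1) j j' (by omega)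

/-- The tail lies below the last cell. -/
lemma tail_gap (j : Fin (K1 u)) (hj : (j : ℕ) + 1 = K1 u) :
    prof m 1 + hgt u (K1 u) / 4 ≤ cellW u * c j + yLow u := by
  have h := hw.cell.join
  rw [vecOf_tail _ _ _ (Nat.lt_succ_self _)] at h
  have h2 : vecOf u c (cutProf u m) (K1 u) = cellW u * c j := by
    rw [← hj, vecOf_cell]
  rw [h2] at h
  have h3 := le_cutProf u (by unfold yLow; exact pow_nonneg (by linarith [hB.L16]) _) m
    (Nat.lt_succ_self (K1 u))
  rw [show (K1 u).succ - K1 u = 1 by omega] at h3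
  linarith

lemma below (j : Fin (K1 u)) : ∀ p ∈ m.primeFactors, p < q.1 j := by
  intro p hp
  have hK := hB.K1pos
  set l : Fin (K1 u) := ⟨K1 u - 1, by omega⟩
  have h1 : q.1 l ≤ q.1 j := (strictAnti hB hw).antitone (Fin.le_def.2 (by simp [l]; omega))
  refine lt_of_lt_of_le ?_ h1
  by_contra hle
  have hpp := Nat.prime_of_mem_primeFactors hp
  have h2 : ll (q.1 l) ≤ prof m 1 := by
    refine (ll_mono (hw.slot' l).1.two_le (not_lt.1 hle)).trans (ll_mono hpp.two_le ?_)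
    exact le_nthPrime_one ((Nat.mem_primeFactorsList hw.rep.pos.ne').2
      ⟨hpp, Nat.dvd_of_mem_primeFactors hp⟩)
  have h3 := tail_gap hB hw l (by simp [l]; omega)
  have h4 : 16 * yLow u ≤ hgt u (K1 u) := hB.pow_lt_h le_rfl (by norm_num)
  have h5 : 0 < yLow u := pow_pos (by linarith [hB.L16]) _
  linarith [(hw.slot' l).2.1]

lemma desc : Desc (List.ofFn q.1) m := by
  refine ⟨hw.rep.pos.ne', ?_, List.pairwise_ofFn.2 fun i j h => strictAnti hB hw h, ?_⟩
  · intro x hx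
    obtain ⟨j, rfl⟩ := List.mem_ofFn.1 hx
    exact (hw.slot' j).1
  · intro x hx
    obtain ⟨j, rfl⟩ := List.mem_ofFn.1 hx
    exact below hB hw j

lemma prof_low (j : Fin (K1 u)) :
    prof ((List.ofFn q.1).prod * m) ((j : ℕ) + 1) = ll (q.1 j) := by
  rw [prof, (desc hB hw).nthPrime_low (by omega) (by simp), Nat.add_sub_cancel,
    List.getD_eq_getElem _ _ (by simp)]
  simp

lemma prof_high {t : ℕ} (ht : K1 u < t) :
    prof ((List.ofFn q.1).prod * m) t = prof m (t - K1 u) := by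
  rw [prof, (desc hB hw).nthPrime_high (by simpa using ht), List.length_ofFn, prof]

lemma prof_approx {t : ℕ} (ht : 1 ≤ t) :
    |prof ((List.ofFn q.1).prod * m) t - vecOf u c (cutProf u m) t| ≤ yLow u := by
  have hy : 0 ≤ yLow u := pow_nonneg (by linarith [hB.L16]) _
  rcases Nat.lt_or_ge (K1 u) t with h | h
  · rw [prof_high hB hw h, vecOf_tail _ _ _ h, abs_le]
    constructor
    · linarith [cutProf_le u m t]
    · linarith [le_cutProf u hy m h]
  · obtain ⟨j, rfl⟩ : ∃ j : Fin (K1 u), (j : ℕ) + 1 = t := ⟨⟨t - 1, by omega⟩, by simp; omega⟩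
    rw [prof_low hB hw j, vecOf_cell, abs_le]
    have := hB.cellW_le_yLow
    constructor <;> linarith [(hw.slot' j).2.1, (hw.slot' j).2.2.1]

omit hw in
lemma vec_nonneg (c : Fin (K1 u) → ℕ) (m t : ℕ) : 0 ≤ vecOf u c (cutProf u m) t := by
  unfold vecOf
  split_ifs
  · exact mul_nonneg hB.cellW_pos.le (Nat.cast_nonneg _)
  · exact cutProf_nonneg _ _ _
  · exact le_rfl

lemma totient_eq : Nat.totient ((List.ofFn q.1).prod * m) = tupVal q := by
  rw [(desc hB hw).totient, hw.rep.tot, tupVal, List.map_ofFn, List.prod_ofFn]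
  rfl

lemma normal_of_dvd {p : ℕ} (hp : p.Prime) (hd : p ∣ (List.ofFn q.1).prod * m) :
    NormalPrime u p := by
  rcases (desc hB hw).dvd_cases hp hd with h | h
  · obtain ⟨j, rfl⟩ := List.mem_ofFn.1 h
    exact (hw.slot' j).2.2.2.1
  · exact hw.rep.normal p hp (Nat.dvd_of_mem_primeFactors h)

/-- Bound on one coordinate. -/
lemma prof_le (j : Fin (K1 u)) : ll (q.1 j) ≤ u / gRen ((j : ℕ) + 1) + cellW u := by
  have h := gRen_mul_coord_le (K2 u) (vecOf u c (cutProf u m)) (fun _ => 0) (i := (j : ℕ) + 1)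
    (by omega) (by have := hB.K1lt; omega) (vec_nonneg hB c m)
    (fun l hl hlj => by
      have := hw.cell.slack l hl (by omega)
      linarith [hB.hgt_pos (show l ≤ K1 u by omega)])
  simp only [mul_zero, Finset.sum_const_zero, add_zero, vecOf_cell] at h
  have hA := hw.cell.top
  have : cellW u * c j ≤ u / gRen ((j : ℕ) + 1) := by
    rw [le_div_iff₀ (gRen_pos _)]
    linarith [hB.hgt_pos (Nat.zero_le (K1 u))]
  linarith [(hw.slot' j).2.2.1]

lemma chain_le (i : ℕ) : chain (K2 u) (prof ((List.ofFn q.1).prod * m)) i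
    ≤ chain (K2 u) (vecOf u c (cutProf u m)) i + LL u ^ 4 * yLow u := by
  have hy : 0 ≤ yLow u := pow_nonneg (by linarith [hB.L16]) _
  have h := (abs_le.1 (abs_chain_sub_le (k := K2 u) (i := i) hy
    (y := prof ((List.ofFn q.1).prod * m)) (z := vecOf u c (cutProf u m))
    fun t ht _ => prof_approx hB hw (by omega))).2
  have := hB.chain_err (show K2 u ≤ 2 * K2 u by omega) hy
  linarith

end Wit

end Vale.Agent.P031
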