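import Vale.Agent.P031.MainCount

/-! `V(cx)/V(x) → c`. -/

open Finset Real Filter

namespace Vale.Agent.P031

/-- `V(x) ~ Φ(u) x / log x`, uniformly for `|log log x - u| ≤ 1`. -/
theorem V_asymptotic {e : ℝ} (he : 0 < e) : ∀ᶠ u : ℝ in atTop, ∀ x : ℝ, 1 < x →
    |Real.log (Real.log x) - u| ≤ 1 →
    (1 - e) * (cellMass u * (x / Real.log x)) ≤ (V x : ℝ) ∧
      (V x : ℝ) ≤ (1 + e) * (cellMass u * (x / Real.log x)) := by
  obtain ⟨eta₁, ht₁, hp⟩ := mPlus_sum
  obtain ⟨eta₂, ht₂, hm⟩ := mMinus_sum
  obtain ⟨d, hd, hde⟩ : ∃ d : ℝ, 0 < d ∧ d ≤ min e 1 / 64 :=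
    ⟨min e 1 / 64, by have := lt_min he one_pos; positivity, le_rfl⟩
  filter_upwards [V_upper hd, V_lower hd, hp, hm, cellMass_ge_one, mMinus_subset,
    ht₁.eventually (ge_mem_nhds hd), ht₂.eventually (ge_mem_nhds hd)]
    with u hU hW hp hm hΦ hsub h1 h2
  intro x hx hxu
  have hl : 0 < Real.log x := Real.log_pos hx
  have hd1 : d ≤ 1 / 64 := hde.trans (by linarith [min_le_right e 1])
  have hd2 : d ≤ e / 64 := hde.trans (by linarith [min_le_left e 1])
  have hU' := hU x hx hxu
  have hW' := hW x hx hxu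
  set Φ := cellMass u with hΦdef
  set P := ∑ m ∈ mPlus u, 1 / (m : ℝ) with hPdef
  set M := ∑ m ∈ mMinus u, 1 / (m : ℝ) with hMdef
  set X := x / Real.log x with hXdef
  have hX : 0 ≤ X := by positivity
  have hMP : M ≤ P := Finset.sum_le_sum_of_subset_of_nonneg hsub fun _ _ _ => by positivity
  have hP : P ≤ (1 + d) * Φ := hp.trans (mul_le_mul_of_nonneg_right (by linarith) (by linarith))
  have hM : (1 - d) * Φ ≤ M := le_trans (mul_le_mul_of_nonneg_right (by linarith) (by linarith)) hm
  constructor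
  · refine le_trans ?_ hW'
    rw [show (1 - e) * (Φ * X) = X * ((1 - e) * Φ) by ring]
    refine mul_le_mul_of_nonneg_left ?_ hX
    nlinarith
  · refine hU'.trans ?_
    rw [show (1 + e) * (Φ * X) = X * ((1 + e) * Φ) by ring]
    refine mul_le_mul_of_nonneg_left ?_ hX
    nlinarith

theorem ratio_tendsto (c : ℝ) (hc : 1 < c) :
    Tendsto (fun x : ℝ => (V (c * x) : ℝ) / V x) atTop (nhds c) := by
  have hll : Tendsto (fun x : ℝ => Real.log (Real.log x)) atTop atTop :=
    Real.tendsto_log_atTop.comp Real.tendsto_log_atTop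
  have hlr : Tendsto (fun x : ℝ => c * (Real.log x / Real.log (c * x))) atTop (nhds c) := by
    have h0 : Tendsto (fun x : ℝ => Real.log c / Real.log x) atTop (nhds 0) :=
      Real.tendsto_log_atTop.const_div_atTop _
    have h1 : Tendsto (fun x : ℝ => c * (1 / (Real.log c / Real.log x + 1))) atTop
        (nhds (c * (1 / ((0 : ℝ) + 1)))) :=
      Tendsto.const_mul c (Tendsto.div tendsto_const_nhds (h0.add tendsto_const_nhds) (by norm_num))
    rw [show c * (1 / ((0 : ℝ) + 1)) = c by norm_num] at h1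
    refine h1.congr' ?_
    filter_upwards [eventually_gt_atTop (1 : ℝ)] with x hx
    have hl : 0 < Real.log x := Real.log_pos hx
    have hlc : 0 < Real.log c := Real.log_pos hc
    rw [Real.log_mul (by linarith) (by linarith)]
    field_simp
  rw [Metric.tendsto_nhds]
  intro eps heps
  obtain ⟨e, he, he'⟩ : ∃ e : ℝ, 0 < e ∧ e ≤ min (eps / (8 * c)) (1 / 4) :=
    ⟨min (eps / (8 * c)) (1 / 4), lt_min (by positivity) (by norm_num), le_rfl⟩
  have he4 : e ≤ 1 / 4 := he'.trans (min_le_right _ _)
  have hec : 8 * c * e ≤ eps := by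
    have := he'.trans (min_le_left _ _)
    rw [le_div_iff₀ (by positivity)] at this
    linarith
  filter_upwards [hll.eventually (V_asymptotic he), hll.eventually_ge_atTop 1,
    eventually_gt_atTop (1 : ℝ), Metric.tendsto_nhds.1 hlr (eps / 4) (by positivity),
    Real.tendsto_log_atTop.eventually_ge_atTop (Real.log c),
    (hll.eventually (cellMass_ge_one))] with x hV hu hx hR hlc hΦ
  have hl : 0 < Real.log x := Real.log_pos hx
  have hcx : 1 < c * x := by nlinarith
  have hlcx : Real.log (c * x) = Real.log c + Real.log x := Real.log_mul (by linarith) (by linarith)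
  have hlcpos : 0 < Real.log c := Real.log_pos hc
  have hnear : |Real.log (Real.log (c * x)) - Real.log (Real.log x)| ≤ 1 := by
    rw [hlcx, ← Real.log_div (by linarith) hl.ne', abs_of_nonneg]
    · refine (Real.log_le_sub_one_of_pos (by positivity)).trans ?_
      rw [sub_le_iff_le_add, div_le_iff₀ hl]
      linarith
    · refine Real.log_nonneg ?_
      rw [le_div_iff₀ hl]
      linarith
  obtain ⟨h1, h2⟩ := hV x hx (by simp)
  obtain ⟨h3, h4⟩ := hV (c * x) hcx hnear
  set Φ := cellMass (Real.log (Real.log x)) with hΦdef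
  set A := Φ * (x / Real.log x) with hAdef
  set R := c * (Real.log x / Real.log (c * x)) with hRdef
  have hA : 0 < A := by positivity
  have hB : Φ * (c * x / Real.log (c * x)) = R * A := by
    rw [hAdef, hRdef]; field_simp
  rw [hB] at h3 h4
  rw [Real.dist_eq, abs_lt] at hR
  have hR0 : 0 ≤ R := by
    have hlx : 0 < Real.log (c * x) := Real.log_pos hcx
    positivity
  have hR2 : R ≤ c := by
    rw [hRdef]
    refine mul_le_of_le_one_right (by linarith) ?_
    rw [div_le_one (by linarith), hlcx]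
    linarith
  have hVx : 0 < (V x : ℝ) := lt_of_lt_of_le (mul_pos (by linarith) hA) h1
  rw [Real.dist_eq, abs_lt]
  constructor
  · suffices h : c - eps < (V (c * x) : ℝ) / V x by linarith
    rw [lt_div_iff₀ hVx]
    by_cases hneg : c - eps < 0
    · calc (c - eps) * (V x : ℝ) < 0 := mul_neg_of_neg_of_pos hneg hVx
        _ ≤ _ := by positivity
    · calc (c - eps) * (V x : ℝ) ≤ (c - eps) * ((1 + e) * A) :=
            mul_le_mul_of_nonneg_left h2 (not_lt.1 hneg)
        _ < (1 - e) * (R * A) := by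
            have : (c - eps) * (1 + e) < (1 - e) * R := by nlinarith
            nlinarith
        _ ≤ _ := h3
  · rw [sub_lt_iff_lt_add', div_lt_iff₀ hVx]
    calc (V (c * x) : ℝ) ≤ (1 + e) * (R * A) := h4
      _ < (c + eps) * ((1 - e) * A) := by
          have : (1 + e) * R < (c + eps) * (1 - e) := by nlinarith
          nlinarith
      _ ≤ _ := mul_le_mul_of_nonneg_left h1 (by linarith)

end Vale.Agent.P031
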