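import Vale.Agent.P031.LowerColl

/-! The lower set. -/

open Finset Real Filter

namespace Vale.Agent.P031

/-- What is known about a representative of a lower value. -/
structure LowRep (u : ℝ) (n : ℕ) : Prop where
  pos : 0 < n
  sq : ∀ p : ℕ, p.Prime → yLow u < ll p → ¬ p ^ 2 ∣ n
  sqTot : ∀ p : ℕ, p.Prime → yLow u < ll p → ¬ p ^ 2 ∣ Nat.totient n
  normal : ∀ q : ℕ, q.Prime → q ∣ n → NormalPrime u q
  few : (n.primeFactorsList.length : ℝ) ≤ 2 * u ^ 3 - 1
  rows : ∀ i : ℕ, K2 u < i → prof n i ≤ yLump u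
  first : prof n 1 ≤ u - hgt u 0 / 2
  top : chain (K2 u) (prof n) 0 ≤ u - 3 / 4 * hgt u 0

theorem mMinus_rep : ∀ᶠ u : ℝ in atTop, ∀ m ∈ mMinus u,
    ∃ n : ℕ, Nat.totient n = m ∧ LowRep u n := by
  classical
  filter_upwards [eventually_bigU] with u hB v hv
  obtain ⟨q, hq, rfl⟩ := Finset.mem_image.1 hv
  obtain ⟨hlow, hgood⟩ := good_cases hq
  obtain ⟨c, m, hw⟩ := exists_wit hlow
  have hd := Wit.desc hB hw
  have hK := hB.K1lt
  have e := Wit.totient_eq hB hw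
  have h0 := hB.hgt_pos (Nat.zero_le (K1 u))
  refine ⟨(List.ofFn q.1).prod * m, e, Nat.pos_of_ne_zero hd.ne_zero, ?_, ?_,
    fun p hp h => Wit.normal_of_dvd hB hw hp h, ?_, ?_, ?_, ?_⟩
  · exact fun p hp hl h => hw.rep.sq p hp hl (hd.sq hp h)
  · intro p hp hl
    rw [e]
    exact hgood p hp hl
  · rw [hd.length, List.length_ofFn, Nat.cast_add]
    have h1 : (K1 u : ℝ) + 1 ≤ K2 u := by exact_mod_cast hK
    have h4 : u ≤ u ^ 3 := le_self_pow₀ (by linarith [hB.u_ge]) (by norm_num)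
    nlinarith [hw.rep.few, hB.K2le, hB.L2le, hB.L16]
  · intro i hi
    rw [Wit.prof_high hB hw (by omega)]
    exact hw.rep.rows _ (by omega)
  · have h1 := (abs_le.1 (Wit.prof_approx hB hw le_rfl)).2
    have h2 : 16 * yLow u ≤ hgt u 0 := hB.pow_lt_h (Nat.zero_le _) (by norm_num)
    linarith [hw.cell.first]
  · have h1 := Wit.chain_le hB hw 0
    have h2 : 16 * (LL u ^ 4 * yLow u) ≤ hgt u 0 := by
      rw [yLow, ← pow_add]; exact hB.pow_lt_h (Nat.zero_le _) (by norm_num)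
    linarith [hw.cell.top]

theorem mMinus_sum : ∃ eta : ℝ → ℝ, Tendsto eta atTop (nhds 0) ∧ ∀ᶠ u : ℝ in atTop,
    (1 - eta u) * cellMass u ≤ ∑ m ∈ mMinus u, 1 / (m : ℝ) := by
  classical
  obtain ⟨D, -, hlow⟩ := lowTuples_sum
  refine ⟨fun u => (8 * D + 2) / LL u ^ 2,
    tendsto_const_nhds.div_atTop ((tendsto_pow_atTop two_ne_zero).comp tendsto_LL), ?_⟩
  filter_upwards [eventually_bigU, hlow, badTuples_sum, collisions_sum, cellMass_one_le]
    with u hB hlow hbad hcoll hmass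
  have hsub : goodTuples u ⊆ lowTuples u := fun q hq => (good_cases hq).1
  have hsplit := Finset.sum_sdiff (f := fun q => 1 / (tupVal q : ℝ)) hsub
  have h2 : 1 / LL u ^ 2 ≤ 1 / LL u ^ 2 * cellMass u :=
    le_mul_of_one_le_right (one_div_nonneg.2 (pow_nonneg (by linarith [hB.L16]) _)) hmass
  calc (1 - (8 * D + 2) / LL u ^ 2) * cellMass u
      = (1 - 8 * D / LL u ^ 2) * cellMass u - 2 * (1 / LL u ^ 2 * cellMass u) := by ring
    _ ≤ _ := by linarith

end Vale.Agent.P031
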