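import Vale.Agent.PNT.Main

/-! The prime number theorem (proved in `Vale.Agent.PNT`). -/

open Filter Topology

namespace Vale.Agent.P031

theorem prime_number_theorem :
    Tendsto (fun X : ℝ => (Nat.primeCounting ⌊X⌋₊ : ℝ) * Real.log X / X) atTop (𝓝 1) :=
  Vale.Agent.PNT.tendsto_primeCounting_mul_log_div

end Vale.Agent.P031
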