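import Vale.Agent.P031.MainUpper
import Vale.Agent.P031.MainLower
import Vale.Agent.P031.PNT

/-! From the two sets of `m` to an asymptotic for `V`. -/

open Finset Real Filter

namespace Vale.Agent.P031

/-- `log n` from the number and the size of the prime factors. -/
lemma log_le_len_mul {n : ℕ} {u b : ℝ} (hn : 0 < n) (hlen : (n.primeFactorsList.length : ℝ) ≤ u)
    (hb : prof n 1 ≤ b) : Real.log n ≤ u * Real.exp b := by
  have hu : 0 ≤ u := le_trans (Nat.cast_nonneg _) hlen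
  have hp : ∀ p ∈ n.primeFactorsList, Real.log p ≤ Real.exp b := by
    intro p hp
    have hpp := Nat.prime_of_mem_primeFactorsList hp
    have h1 := le_nthPrime_one hp
    have hl : 0 < Real.log p := Real.log_pos (by exact_mod_cast hpp.one_lt)
    calc Real.log p = Real.exp (Real.log (Real.log p)) := (Real.exp_log hl).symm
      _ ≤ Real.exp b := by
          refine Real.exp_le_exp.2 (le_trans ?_ hb)
          exact le_trans (le_max_right _ _) (ll_mono hpp.two_le h1)
  have key : ∀ l : List ℕ, (∀ p ∈ l, p ≠ 0 ∧ Real.log p ≤ Real.exp b) →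
      Real.log (l.prod : ℕ) ≤ (l.length : ℝ) * Real.exp b := by
    intro l
    induction l with
    | nil => simp
    | cons a l ih =>
      intro h
      have ha := h a (by simp)
      have hl := ih (fun p hp => h p (by simp [hp]))
      have h0 : l.prod ≠ 0 := by
        intro h0
        exact (h 0 (List.mem_cons_of_mem _ (List.prod_eq_zero_iff.1 h0))).1 rfl
      rw [List.prod_cons, Nat.cast_mul,
        Real.log_mul (by exact_mod_cast ha.1) (by exact_mod_cast h0)]
      rw [List.length_cons, Nat.cast_succ]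
      nlinarith [ha.2]
  have h := key n.primeFactorsList
    (fun p hp' => ⟨(Nat.prime_of_mem_primeFactorsList hp').ne_zero, hp p hp'⟩)
  rw [Nat.prod_primeFactorsList hn.ne'] at h
  exact h.trans (mul_le_mul_of_nonneg_right hlen (Real.exp_pos _).le)

lemma pi_bounds {d : ℝ} (hd : 0 < d) : ∃ Z₀ : ℝ, ∀ Z : ℝ, Z₀ ≤ Z →
    (1 - d) * Z / Real.log Z ≤ (Nat.primeCounting ⌊Z⌋₊ : ℝ) ∧
      (Nat.primeCounting ⌊Z⌋₊ : ℝ) ≤ (1 + d) * Z / Real.log Z := by
  have h := Metric.tendsto_atTop.1 prime_number_theorem d hd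
  obtain ⟨Z₀, hZ⟩ := h
  refine ⟨max Z₀ 3, fun Z hZ' => ?_⟩
  have h3 : (3 : ℝ) ≤ Z := le_trans (le_max_right _ _) hZ'
  have hd' := hZ Z (le_trans (le_max_left _ _) hZ')
  rw [Real.dist_eq, abs_lt] at hd'
  have hl : 0 < Real.log Z := Real.log_pos (by linarith)
  constructor
  · rw [div_le_iff₀ hl]
    have : (1 - d) ≤ (Nat.primeCounting ⌊Z⌋₊ : ℝ) * Real.log Z / Z := by linarith
    rwa [le_div_iff₀ (by linarith)] at this
  · rw [le_div_iff₀ hl]
    have : (Nat.primeCounting ⌊Z⌋₊ : ℝ) * Real.log Z / Z ≤ 1 + d := by linarith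
    rwa [div_le_iff₀ (by linarith)] at this

lemma card_primesLE_eq (N : ℕ) : (Nat.primesLE N).card = Nat.primeCounting N :=
  Nat.primesLE_card_eq_primeCounting N

lemma ll_le_of_log_le {p : ℕ} {b : ℝ} (hp : 2 ≤ p) (hb : 0 ≤ b) (h : Real.log p ≤ Real.exp b) :
    ll p ≤ b := by
  refine max_le hb ?_
  rw [Real.log_le_iff_le_exp (Real.log_pos (by exact_mod_cast hp))]
  exact h

lemma hgt_zero (u : ℝ) : hgt u 0 = u ^ ((3 : ℝ) / 4) := by simp [hgt, gRen_zero]

/-- A fixed power of `log u` is below any positive power of `u`. -/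
lemma eventually_LL_pow_le_rpow (e : ℕ) {r c : ℝ} (hr : 0 < r) (hc : 0 < c) :
    ∀ᶠ u : ℝ in atTop, LL u ^ e ≤ c * u ^ r := by
  have h := (isLittleO_log_rpow_rpow_atTop (e : ℝ) hr).def hc
  filter_upwards [h, eventually_gt_atTop (1 : ℝ)] with u hu h1
  rw [Real.norm_eq_abs, Real.norm_eq_abs, Real.rpow_natCast,
    abs_of_pos (Real.rpow_pos_of_pos (by linarith) r)] at hu
  exact (le_abs_self _).trans hu

lemma log_mMinus_le {d : ℝ} (hd : 0 < d) : ∀ᶠ u : ℝ in atTop, ∀ n : ℕ, LowRep u n →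
    Real.log n ≤ d * Real.exp (u - 1) := by
  filter_upwards [eventually_LL_pow_le_rpow 1 (show (0 : ℝ) < 3 / 4 by norm_num)
    (show (0 : ℝ) < 1 / 16 by norm_num), tendsto_LL.eventually_ge_atTop (|Real.log (2 / d)| + 2),
    eventually_gt_atTop (1 : ℝ)] with u hpow hL hu
  intro n hn
  have h1 : Real.log n ≤ 2 * u ^ 3 * Real.exp (u - hgt u 0 / 2) :=
    log_le_len_mul hn.pos (by linarith [hn.few]) hn.first
  refine h1.trans ?_
  have e3 : 2 * u ^ 3 * Real.exp (u - hgt u 0 / 2)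
      = d * Real.exp (Real.log (2 / d) + 3 * LL u + (u - hgt u 0 / 2)) := by
    have hl : LL u = Real.log u := rfl
    rw [Real.exp_add, Real.exp_add, Real.exp_log (by positivity),
      show (3 : ℝ) * LL u = ((3 : ℕ) : ℝ) * LL u by norm_num, Real.exp_nat_mul, hl,
      Real.exp_log (by linarith)]
    field_simp
  rw [e3]
  refine mul_le_mul_of_nonneg_left (Real.exp_le_exp.2 ?_) hd.le
  rw [hgt_zero]
  rw [pow_one] at hpow
  linarith [le_abs_self (Real.log (2 / d)), abs_nonneg (Real.log (2 / d))]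

lemma log_log_mem {x u : ℝ} (hx : 1 < x) (h : |Real.log (Real.log x) - u| ≤ 1) :
    Real.exp (u - 1) ≤ Real.log x ∧ Real.log x ≤ Real.exp (u + 1) := by
  have hl := Real.log_pos hx
  rw [abs_le] at h
  constructor
  · rw [← Real.exp_log hl]; exact Real.exp_le_exp.2 (by linarith)
  · rw [← Real.exp_log hl]; exact Real.exp_le_exp.2 (by linarith)

lemma log_totient_le (n : ℕ) : Real.log (Nat.totient n) ≤ Real.log n := by
  rcases Nat.eq_zero_or_pos n with h | h
  · simp [h]
  · exact Real.log_le_log (by exact_mod_cast Nat.totient_pos.2 h)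
      (by exact_mod_cast Nat.totient_le n)

lemma exp_sixteen_ge {u : ℝ} (hu : 0 < u) (hL : 4 ≤ LL u) :
    4 * u ≤ Real.exp (yLow u) := by
  have h4 : (4 : ℝ) ≤ Real.exp 3 := by linarith [Real.add_one_le_exp (3 : ℝ)]
  have hpw : 3 + LL u ≤ yLow u := by
    have : LL u ^ 1 * LL u ^ 1 ≤ LL u ^ 16 := by
      rw [← pow_add]; exact pow_le_pow_right₀ (by linarith) (by norm_num)
    unfold yLow
    nlinarith
  calc 4 * u ≤ Real.exp 3 * Real.exp (LL u) := by
        rw [show Real.exp (LL u) = u from Real.exp_log hu]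
        exact mul_le_mul_of_nonneg_right h4 hu.le
    _ = Real.exp (3 + LL u) := (Real.exp_add _ _).symm
    _ ≤ Real.exp (yLow u) := Real.exp_le_exp.2 hpw

/-- A prime beyond `yLow` is enormous. -/
lemma big_prime_ge {u : ℝ} (hu : 0 < u) (hL : 4 ≤ LL u) {p : ℕ} (hp : p.Prime)
    (h : yLow u < ll p) : Real.exp (4 * u) ≤ (p : ℝ) := by
  have hy : 0 ≤ yLow u := by unfold yLow; positivity
  have hl : 0 < Real.log p := Real.log_pos (by exact_mod_cast hp.one_lt)
  have h1 : yLow u < Real.log (Real.log p) := by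
    rcases lt_max_iff.1 h with h' | h'
    · exact absurd h' (not_lt.2 hy)
    · exact h'
  have h2 : Real.exp (yLow u) < Real.log p := by
    rw [← Real.exp_log hl]; exact Real.exp_lt_exp.2 h1
  rw [← Real.exp_log (show (0 : ℝ) < p by exact_mod_cast hp.pos)]
  exact Real.exp_le_exp.2 (by linarith [exp_sixteen_ge hu hL])

lemma sum_inv_sq_le {N : ℕ} (hN : 2 ≤ N) (s : Finset ℕ) (hs : ∀ p ∈ s, N ≤ p) :
    ∑ p ∈ s, 1 / ((p : ℝ) ^ 2) ≤ 2 / (N : ℝ) := by
  have hsub : s ⊆ Finset.Ioo (N - 1) (s.sup id + 1) := by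
    intro p hp
    rw [Finset.mem_Ioo]
    have h1 := hs p hp
    have h2 : id p ≤ s.sup id := Finset.le_sup hp
    simp at h2
    omega
  refine (Finset.sum_le_sum_of_subset_of_nonneg hsub (fun _ _ _ => by positivity)).trans ?_
  have h := sum_Ioo_inv_sq_le (α := ℝ) (N - 1) (s.sup id + 1)
  rw [Nat.cast_sub (by omega : 1 ≤ N)] at h
  simp only [one_div]
  refine h.trans (le_of_eq ?_)
  push_cast
  ring

theorem V_upper {d : ℝ} (hd : 0 < d) : ∀ᶠ u : ℝ in atTop, ∀ x : ℝ, 1 < x →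
    |Real.log (Real.log x) - u| ≤ 1 →
    (V x : ℝ) ≤ x / Real.log x * ((1 + d) * ∑ m ∈ mMinus u, 1 / (m : ℝ) +
      14 * (∑ m ∈ mPlus u, 1 / (m : ℝ) - ∑ m ∈ mMinus u, 1 / (m : ℝ)) + d) := by
  obtain ⟨d₁, hd₁, hd₁'⟩ : ∃ d₁ : ℝ, 0 < d₁ ∧ d₁ ≤ min d 1 / 8 :=
    ⟨min d 1 / 8, by have := lt_min hd one_pos; positivity, le_rfl⟩
  obtain ⟨Z₀, hpi⟩ := pi_bounds hd₁
  have hev1 : ∀ᶠ u : ℝ in atTop, Real.exp (-(LL u ^ 3 / 2)) ≤ d := by
    have : Tendsto (fun u => Real.exp (-(LL u ^ 3 / 2))) atTop (nhds 0) :=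
      Real.tendsto_exp_neg_atTop_nhds_zero.comp
        (((tendsto_pow_atTop (by norm_num)).comp tendsto_LL).atTop_div_const (by norm_num))
    exact this.eventually (ge_mem_nhds hd)
  have hev2 : ∀ᶠ u : ℝ in atTop, max Z₀ 3 / d₁ + 3 ≤ Real.exp (Real.exp (u - 1) / 4) := by
    have : Tendsto (fun u => Real.exp (Real.exp (u - 1) / 4)) atTop atTop :=
      Real.tendsto_exp_atTop.comp
        ((Real.tendsto_exp_atTop.comp (tendsto_atTop_add_const_right _ (-1) tendsto_id)).atTop_div_const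
          (by norm_num))
    exact this.eventually_ge_atTop _
  filter_upwards [hev1, hev2, struct_all_but, struct_mem, mMinus_subset, mPlus_pos, mMinus_rep,
    log_mMinus_le hd₁] with u he hbig hall hmem hsub hpos hrep hlog
  intro x hx hxu
  classical
  obtain ⟨hxl, hxr⟩ := log_log_mem hx hxu
  have hl : 0 < Real.log x := Real.log_pos hx
  have hd₁1 : d₁ ≤ 1 / 8 := hd₁'.trans (by linarith [min_le_right d 1])
  have hd₁d : d₁ ≤ d / 8 := hd₁'.trans (by linarith [min_le_left d 1])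
  let M : Finset ℕ := (mPlus u).filter (fun m => Real.log m ≤ 3 / 4 * Real.log x)
  let g : ℕ → Finset ℕ := fun m => (Nat.primesLE ⌊x / m + 1⌋₊).image (fun P => (P - 1) * m)
  let E : Finset ℕ := (totSet x).filter (fun v => ¬ Struct u x v)
  have hcover : totSet x ⊆ E ∪ M.biUnion g := by
    intro v hv
    by_cases hs : Struct u x v
    · refine Finset.mem_union_right _ (Finset.mem_biUnion.2 ?_)
      have hv' : v ∈ Finset.Icc 1 ⌊x⌋₊ := by
        unfold totSet at hv
        exact Finset.mem_of_mem_filter _ hv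
      rw [Finset.mem_Icc] at hv'
      have hvx : (v : ℝ) ≤ x := (Nat.le_floor_iff (by linarith)).1 hv'.2
      obtain ⟨P, m, hP, hm, hvm, hlm⟩ := hmem x v hxu hv'.1 hvx hs
      refine ⟨m, Finset.mem_filter.2 ⟨hm, hlm⟩, Finset.mem_image.2 ⟨P, ?_, hvm.symm⟩⟩
      rw [Nat.mem_primesLE]
      refine ⟨Nat.le_floor ?_, hP⟩
      have hm0 : (0 : ℝ) < m := by exact_mod_cast hpos m hm
      rw [hvm, Nat.cast_mul, Nat.cast_sub hP.one_le, Nat.cast_one] at hvx
      rw [← sub_le_iff_le_add, le_div_iff₀ hm0]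
      exact hvx
    · exact Finset.mem_union_left _ (Finset.mem_filter.2 ⟨hv, hs⟩)
  have hE : (E.card : ℝ) ≤ d * (x / Real.log x) := by
    refine (hall x E hx hxu (fun v hv => Finset.mem_filter.1 hv)).trans ?_
    rw [mul_div_assoc]
    exact mul_le_mul_of_nonneg_right he (by positivity)
  have hterm : ∀ m ∈ M, ((g m).card : ℝ) ≤
      x / Real.log x * ((if m ∈ mMinus u then 1 + d else 14) * (1 / (m : ℝ))) := by
    intro m hm
    rw [Finset.mem_filter] at hm
    have hm0 : (0 : ℝ) < m := by exact_mod_cast hpos m hm.1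
    set Z : ℝ := x / m + 1 with hZdef
    have hxm : Real.exp (Real.log x / 4) ≤ x / m := by
      rw [le_div_iff₀ hm0, ← Real.exp_log hm0, ← Real.exp_add]
      nth_rewrite 2 [← Real.exp_log (show (0 : ℝ) < x by linarith)]
      exact Real.exp_le_exp.2 (by linarith)
    have hbig' : max Z₀ 3 / d₁ + 3 ≤ x / m :=
      hbig.trans (le_trans (Real.exp_le_exp.2 (by linarith)) hxm)
    have hZ3 : max Z₀ 3 ≤ x / m := by
      have : max Z₀ 3 ≤ max Z₀ 3 / d₁ := by
        rw [le_div_iff₀ hd₁]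
        nlinarith [le_max_right Z₀ 3]
      linarith
    have hcard : ((g m).card : ℝ) ≤ (1 + d₁) * Z / Real.log Z := by
      refine le_trans ?_ (hpi Z (le_trans (le_max_left _ _) (by linarith))).2
      rw [← card_primesLE_eq]
      exact_mod_cast Finset.card_image_le
    refine hcard.trans ?_
    have hlogxm : Real.log (x / m) ≤ Real.log Z :=
      Real.log_le_log (by linarith [le_max_right Z₀ 3]) (by linarith)
    have hZle : Z ≤ (1 + d₁) * (x / m) := by
      have : 3 ≤ d₁ * (x / m) := by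
        have h3 : 3 / d₁ ≤ x / m := by
          refine le_trans ?_ hbig'
          have : 3 / d₁ ≤ max Z₀ 3 / d₁ := by gcongr; exact le_max_right _ _
          linarith
        rw [div_le_iff₀ hd₁] at h3
        linarith
      linarith
    have hlogm : Real.log (x / m) = Real.log x - Real.log m :=
      Real.log_div (by linarith) hm0.ne'
    have hxm0 : 0 < x / m := by positivity
    by_cases hmm : m ∈ mMinus u
    · rw [if_pos hmm]
      obtain ⟨n, hn, hnr⟩ := hrep m hmm
      have h1 : Real.log m ≤ d₁ * Real.log x := by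
        have h0 := hlog n hnr
        have h2 := log_totient_le n
        rw [hn] at h2
        calc Real.log m ≤ d₁ * Real.exp (u - 1) := h2.trans h0
          _ ≤ d₁ * Real.log x := mul_le_mul_of_nonneg_left hxl hd₁.le
      have hden : (1 - d₁) * Real.log x ≤ Real.log Z := by linarith
      calc (1 + d₁) * Z / Real.log Z
          ≤ (1 + d₁) * ((1 + d₁) * (x / m)) / ((1 - d₁) * Real.log x) := by
            have : 0 < (1 - d₁) * Real.log x := mul_pos (by linarith) hl
            gcongr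
        _ = (1 + d₁) ^ 2 / (1 - d₁) * (x / Real.log x * (1 / m)) := by
            field_simp
        _ ≤ (1 + d) * (x / Real.log x * (1 / m)) := by
            refine mul_le_mul_of_nonneg_right ?_ (by positivity)
            rw [div_le_iff₀ (by linarith)]
            nlinarith
        _ = _ := by ring
    · rw [if_neg hmm]
      have hden : Real.log x / 4 ≤ Real.log Z := by linarith [hm.2]
      calc (1 + d₁) * Z / Real.log Z
          ≤ (1 + d₁) * ((1 + d₁) * (x / m)) / (Real.log x / 4) := by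
            have : 0 < Real.log x / 4 := by positivity
            gcongr
        _ = 4 * (1 + d₁) ^ 2 * (x / Real.log x * (1 / m)) := by field_simp
        _ ≤ 14 * (x / Real.log x * (1 / m)) := by
            refine mul_le_mul_of_nonneg_right ?_ (by positivity)
            nlinarith
        _ = _ := by ring
  have hsum : ((M.biUnion g).card : ℝ) ≤ x / Real.log x *
      ∑ m ∈ mPlus u, (if m ∈ mMinus u then 1 + d else 14) * (1 / (m : ℝ)) := by
    calc ((M.biUnion g).card : ℝ) ≤ ∑ m ∈ M, ((g m).card : ℝ) := by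
          exact_mod_cast Finset.card_biUnion_le
      _ ≤ ∑ m ∈ M, x / Real.log x * ((if m ∈ mMinus u then 1 + d else 14) * (1 / (m : ℝ))) :=
          Finset.sum_le_sum hterm
      _ ≤ _ := by
          rw [← Finset.mul_sum]
          refine mul_le_mul_of_nonneg_left ?_ (by positivity)
          refine Finset.sum_le_sum_of_subset_of_nonneg (Finset.filter_subset _ _) (fun m _ _ => ?_)
          split_ifs <;> positivity
  have hsplit : ∑ m ∈ mPlus u, (if m ∈ mMinus u then 1 + d else 14) * (1 / (m : ℝ)) =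
      (1 + d) * ∑ m ∈ mMinus u, 1 / (m : ℝ) +
        14 * (∑ m ∈ mPlus u, 1 / (m : ℝ) - ∑ m ∈ mMinus u, 1 / (m : ℝ)) := by
    rw [← Finset.sum_sdiff hsub, ← Finset.sum_sdiff (f := fun m : ℕ => 1 / (m : ℝ)) hsub,
      add_sub_cancel_right, Finset.mul_sum, Finset.mul_sum, add_comm]
    congr 1
    · exact Finset.sum_congr rfl fun m hm => by rw [if_pos hm]
    · exact Finset.sum_congr rfl fun m hm => by rw [if_neg (Finset.mem_sdiff.1 hm).2]
  calc (V x : ℝ) ≤ (E.card : ℝ) + ((M.biUnion g).card : ℝ) := by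
        unfold V
        exact_mod_cast (Finset.card_le_card hcover).trans (Finset.card_union_le _ _)
    _ ≤ d * (x / Real.log x) + x / Real.log x * _ := add_le_add hE hsum
    _ = _ := by rw [hsplit]; ring

lemma hgt_zero_bounds : ∀ᶠ u : ℝ in atTop, 24 ≤ hgt u 0 ∧ LL u ^ 90 ≤ hgt u 0 / 2 ∧
    LL u ^ 8 * (u + 2) ^ ((5 : ℝ) / 8) ≤ hgt u 0 / 2 := by
  filter_upwards [eventually_LL_pow_le_rpow 90 (show (0 : ℝ) < 3 / 4 by norm_num)
      (show (0 : ℝ) < 1 / 24 by norm_num),
    eventually_LL_pow_le_rpow 8 (show (0 : ℝ) < 1 / 8 by norm_num)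
      (show (0 : ℝ) < 1 / 4 by norm_num),
    tendsto_LL.eventually_ge_atTop 1, eventually_ge_atTop (2 : ℝ)] with u h90 h8 hL hu
  rw [hgt_zero]
  have h1 : (1 : ℝ) ≤ LL u ^ 90 := one_le_pow₀ hL
  refine ⟨by linarith, by linarith [Real.rpow_nonneg (by linarith : (0 : ℝ) ≤ u) ((3 : ℝ) / 4)], ?_⟩
  have h2 : (u + 2) ^ ((5 : ℝ) / 8) ≤ 2 * u ^ ((5 : ℝ) / 8) := by
    calc (u + 2) ^ ((5 : ℝ) / 8) ≤ (2 * u) ^ ((5 : ℝ) / 8) :=
          Real.rpow_le_rpow (by linarith) (by linarith) (by norm_num)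
      _ = (2 : ℝ) ^ ((5 : ℝ) / 8) * u ^ ((5 : ℝ) / 8) := Real.mul_rpow (by norm_num) (by linarith)
      _ ≤ 2 * u ^ ((5 : ℝ) / 8) := by
          refine mul_le_mul_of_nonneg_right ?_ (Real.rpow_nonneg (by linarith) _)
          exact Real.rpow_le_self_of_one_le (by norm_num) (by norm_num)
  calc LL u ^ 8 * (u + 2) ^ ((5 : ℝ) / 8)
      ≤ (1 / 4 * u ^ ((1 : ℝ) / 8)) * (2 * u ^ ((5 : ℝ) / 8)) :=
        mul_le_mul h8 h2 (Real.rpow_nonneg (by linarith) _)
          (by positivity)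
    _ = u ^ ((3 : ℝ) / 4) / 2 := by
        rw [show (3 : ℝ) / 4 = 1 / 8 + 5 / 8 by norm_num, Real.rpow_add (by linarith)]; ring

lemma self_lt_exp (y : ℝ) : y < Real.exp y := by linarith [Real.add_one_le_exp y]

/-- Primes up to `Z` that are unfit to extend `m`. -/
lemma sqBad_card {u x Z : ℝ} {m : ℕ} (hu : 0 < u) (hL : 4 ≤ LL u) (hu1 : 1 ≤ u)
    (hxl : Real.log x ≤ Real.exp (u + 1)) (hm : 0 < m) (hmx : (m : ℝ) ≤ x)
    (hZ0 : 0 ≤ Z) (S : Finset ℕ)
    (hsqm : ∀ p : ℕ, p.Prime → yLow u < ll p → ¬ p ^ 2 ∣ m)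
    (hS : ∀ P ∈ S, P.Prime ∧ (P : ℝ) ≤ Z ∧
      ∃ p : ℕ, p.Prime ∧ yLow u < ll p ∧ p ^ 2 ∣ (P - 1) * m) :
    (S.card : ℝ) ≤ 5 * Z * Real.exp (-(2 * u)) := by
  classical
  set N : ℕ := ⌊Z⌋₊ with hN
  let Big : Finset ℕ := (Nat.primesLE N).filter (fun p => yLow u < ll p)
  let F1 : Finset ℕ := Big.biUnion fun p => ((Finset.Ioc 0 N).filter (fun k => p ^ 2 ∣ k))
  let F2 : Finset ℕ := (m.primeFactors.filter (fun p => yLow u < ll p)).biUnion
    fun p => ((Finset.Ioc 0 N).filter (fun k => p ∣ k))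
  have hsub : S.image (fun P => P - 1) ⊆ F1 ∪ F2 := by
    intro k hk
    obtain ⟨P, hPS, rfl⟩ := Finset.mem_image.1 hk
    obtain ⟨hP, hPZ, p, hp, hbig, hdvd⟩ := hS P hPS
    have hPN : P ≤ N := Nat.le_floor hPZ
    have hk0 : P - 1 ∈ Finset.Ioc 0 N := Finset.mem_Ioc.2 ⟨by have := hP.two_le; omega, by omega⟩
    by_cases h1 : p ^ 2 ∣ P - 1
    · refine Finset.mem_union_left _ (Finset.mem_biUnion.2 ⟨p, ?_, Finset.mem_filter.2 ⟨hk0, h1⟩⟩)
      refine Finset.mem_filter.2 ⟨Nat.mem_primesLE.2 ⟨?_, hp⟩, hbig⟩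
      have h3 := Nat.le_of_dvd (by have := hP.two_le; omega) h1
      have : p ≤ p ^ 2 := Nat.le_self_pow (by norm_num) p
      omega
    · have hpm : p ∣ m := by
        by_contra hc
        have hco : Nat.Coprime (p ^ 2) m := (hp.coprime_iff_not_dvd.2 hc).pow_left 2
        exact h1 (hco.dvd_of_dvd_mul_right hdvd)
      have hpk : p ∣ P - 1 := by
        by_contra hc
        have hco : Nat.Coprime (p ^ 2) (P - 1) := (hp.coprime_iff_not_dvd.2 hc).pow_left 2
        exact hsqm p hp hbig (hco.dvd_of_dvd_mul_left hdvd)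
      exact Finset.mem_union_right _ (Finset.mem_biUnion.2 ⟨p,
        Finset.mem_filter.2 ⟨Nat.mem_primeFactors.2 ⟨hp, hpm, hm.ne'⟩, hbig⟩,
        Finset.mem_filter.2 ⟨hk0, hpk⟩⟩)
  have hinj : (S.image (fun P => P - 1)).card = S.card := by
    refine Finset.card_image_of_injOn ?_
    intro a ha b hb hab
    have h2 := (hS a ha).1.two_le
    have h3 := (hS b hb).1.two_le
    simp only at hab
    omega
  have hcard : ∀ d : ℕ, (((Finset.Ioc 0 N).filter (fun k => d ∣ k)).card : ℝ) ≤ Z / d := by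
    intro d
    rw [Nat.Ioc_filter_dvd_card_eq_div]
    refine Nat.cast_div_le.trans ?_
    gcongr
    exact Nat.floor_le hZ0
  have hP0 : ∀ p : ℕ, p.Prime → yLow u < ll p → Real.exp (4 * u) ≤ (p : ℝ) :=
    fun p hp h => big_prime_ge hu hL hp h
  have h1 : (F1.card : ℝ) ≤ Z * (2 * Real.exp (-(4 * u))) := by
    calc (F1.card : ℝ) ≤ ∑ p ∈ Big, Z / ((p ^ 2 : ℕ) : ℝ) := by
          refine le_trans ?_ (Finset.sum_le_sum fun p _ => hcard (p ^ 2))
          exact_mod_cast Finset.card_biUnion_le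
      _ = Z * ∑ p ∈ Big, 1 / (p : ℝ) ^ 2 := by
          rw [Finset.mul_sum]; exact Finset.sum_congr rfl fun p _ => by push_cast; ring
      _ ≤ Z * (2 / ((⌈Real.exp (4 * u)⌉₊ : ℕ) : ℝ)) := by
          refine mul_le_mul_of_nonneg_left (sum_inv_sq_le ?_ Big fun p hp => ?_) hZ0
          · have h2 : (2 : ℝ) ≤ Real.exp (4 * u) := by linarith [Real.add_one_le_exp (4 * u)]
            have h3 := h2.trans (Nat.le_ceil _)
            exact_mod_cast h3
          · obtain ⟨hpm, hb⟩ := Finset.mem_filter.1 hp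
            exact Nat.ceil_le.2 (hP0 p (Nat.mem_primesLE.1 hpm).2 hb)
      _ ≤ Z * (2 * Real.exp (-(4 * u))) := by
          refine mul_le_mul_of_nonneg_left ?_ hZ0
          rw [Real.exp_neg, ← div_eq_mul_inv]
          exact div_le_div_of_nonneg_left (by norm_num) (Real.exp_pos _) (Nat.le_ceil _)
  have hω : ((m.primeFactors.card : ℕ) : ℝ) ≤ 2 * Real.exp (u + 1) := by
    have hpow : 2 ^ m.primeFactors.card ≤ m :=
      le_trans (Finset.pow_card_le_prod _ _ _ fun p hp => (Nat.prime_of_mem_primeFactors hp).two_le)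
        (Nat.le_of_dvd hm (Nat.prod_primeFactors_dvd m))
    have h := Real.log_le_log (by positivity) (show (((2 : ℕ) ^ m.primeFactors.card : ℕ) : ℝ) ≤ m
      by exact_mod_cast hpow)
    push_cast at h
    rw [Real.log_pow] at h
    have hlm : Real.log m ≤ Real.log x := Real.log_le_log (by exact_mod_cast hm) hmx
    nlinarith [Real.log_two_gt_d9, Nat.cast_nonneg (α := ℝ) m.primeFactors.card]
  have h2 : (F2.card : ℝ) ≤ 2 * Real.exp (u + 1) * (Z * Real.exp (-(4 * u))) := by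
    calc (F2.card : ℝ) ≤ ∑ p ∈ m.primeFactors.filter (fun p => yLow u < ll p), Z / (p : ℝ) := by
          refine le_trans ?_ (Finset.sum_le_sum fun p _ => hcard p)
          exact_mod_cast Finset.card_biUnion_le
      _ ≤ ∑ _p ∈ m.primeFactors.filter (fun p => yLow u < ll p), Z * Real.exp (-(4 * u)) := by
          refine Finset.sum_le_sum fun p hp => ?_
          obtain ⟨hpm, hb⟩ := Finset.mem_filter.1 hp
          rw [Real.exp_neg, ← div_eq_mul_inv]
          exact div_le_div_of_nonneg_left hZ0 (Real.exp_pos _)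
            (hP0 p (Nat.prime_of_mem_primeFactors hpm) hb)
      _ ≤ _ := by
          rw [Finset.sum_const, nsmul_eq_mul]
          refine mul_le_mul_of_nonneg_right (le_trans ?_ hω) (by positivity)
          exact_mod_cast Finset.card_filter_le _ _
  have hS' : (S.card : ℝ) ≤ (F1.card : ℝ) + F2.card := by
    rw [← hinj]
    exact_mod_cast (Finset.card_le_card hsub).trans (Finset.card_union_le _ _)
  have e1 : Real.exp (u + 1) * Real.exp (-(4 * u)) ≤ Real.exp (-(2 * u)) := by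
    rw [← Real.exp_add]; exact Real.exp_le_exp.2 (by linarith)
  have e2 : Real.exp (-(4 * u)) ≤ Real.exp (-(2 * u)) := Real.exp_le_exp.2 (by linarith)
  calc (S.card : ℝ) ≤ Z * (2 * Real.exp (-(4 * u))) + 2 * Real.exp (u + 1) * (Z * Real.exp (-(4 * u))) :=
        hS'.trans (add_le_add h1 h2)
    _ ≤ Z * (2 * Real.exp (-(2 * u))) + 2 * (Z * Real.exp (-(2 * u))) := by
        refine add_le_add (by gcongr) ?_
        calc 2 * Real.exp (u + 1) * (Z * Real.exp (-(4 * u)))
            = 2 * (Z * (Real.exp (u + 1) * Real.exp (-(4 * u)))) := by ring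
          _ ≤ _ := by gcongr
    _ ≤ 5 * Z * Real.exp (-(2 * u)) := by nlinarith [mul_nonneg hZ0 (Real.exp_pos (-(2 * u))).le]

/-- The representation `P * n` of `(P - 1) m`. -/
lemma collSide_mul {u x : ℝ} (hx : 1 < x) (hxu : |Real.log (Real.log x) - u| ≤ 1)
    (hh : 24 ≤ hgt u 0 ∧ LL u ^ 90 ≤ hgt u 0 / 2 ∧
      LL u ^ 8 * (u + 2) ^ ((5 : ℝ) / 8) ≤ hgt u 0 / 2)
    (hu : 2 ≤ u) {P n : ℕ} (hn : LowRep u n) (hP : P.Prime) (hPx : (P : ℝ) ≤ x)
    (hPbig : Real.log x / 2 ≤ Real.log P) (hN : NormalPrime u P)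
    (hsq : ∀ p : ℕ, p.Prime → yLow u < ll p → ¬ p ^ 2 ∣ (P - 1) * Nat.totient n) :
    CollSide u (hgt u 0 / 2) (P * n) ∧ nthPrime (P * n) 1 = P ∧
      Nat.totient (P * n) = (P - 1) * Nat.totient n := by
  obtain ⟨hh1, -, hh3⟩ := hh
  obtain ⟨hxl, hxr⟩ := log_log_mem hx hxu
  have hl : 0 < Real.log x := Real.log_pos hx
  have hlP : 0 < Real.log P := Real.log_pos (by exact_mod_cast hP.one_lt)
  have hllP : u - 2 ≤ ll P := by
    refine le_trans ?_ (le_max_right _ _)
    rw [Real.le_log_iff_exp_le hlP]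
    refine le_trans ?_ hPbig
    have h2 : Real.exp (u - 2) * 2 ≤ Real.exp (u - 1) := by
      have : (2 : ℝ) ≤ Real.exp 1 := by linarith [Real.add_one_le_exp (1 : ℝ)]
      calc Real.exp (u - 2) * 2 ≤ Real.exp (u - 2) * Real.exp 1 := by gcongr
        _ = Real.exp (u - 1) := by rw [← Real.exp_add]; ring_nf
    linarith
  have hllP' : ll P ≤ u + 2 := by
    refine ll_le_of_log_le hP.two_le (by linarith) ?_
    calc Real.log P ≤ Real.log x := Real.log_le_log (by exact_mod_cast hP.pos) hPx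
      _ ≤ Real.exp (u + 1) := hxr
      _ ≤ Real.exp (u + 2) := Real.exp_le_exp.2 (by linarith)
  have hlt : ∀ p ∈ n.primeFactors, p < P := by
    intro p hp
    obtain ⟨hpp, hpd, hn0⟩ := Nat.mem_primeFactors.1 hp
    by_contra hc
    rw [not_lt] at hc
    have h1 : p ∈ n.primeFactorsList := (Nat.mem_primeFactorsList hn0).2 ⟨hpp, hpd⟩
    have h2 : ll p ≤ prof n 1 := ll_mono hpp.two_le (le_nthPrime_one h1)
    have h3 : ll P ≤ ll p := ll_mono hP.two_le hc
    linarith [hn.first]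
  have hle : ∀ p ∈ n.primeFactors, p ≤ P := fun p hp => (hlt p hp).le
  have htop : nthPrime (P * n) 1 = P := nthPrime_mul_top_one hP hn.pos.ne' hle
  have htot : Nat.totient (P * n) = (P - 1) * Nat.totient n := totient_mul_top hP hlt hn.pos.ne'
  have hshift : ∀ i, 1 ≤ i → prof (P * n) (i + 1) = prof n i := fun i hi => by
    unfold prof; rw [nthPrime_mul_top_succ hP hn.pos.ne' hle hi]
  have hp1 : prof (P * n) 1 = ll P := by unfold prof; rw [htop]
  refine ⟨?_, htop, htot⟩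
  refine ⟨Nat.mul_pos hP.pos hn.pos, ?_, ?_, ?_, ?_, ?_, ?_, ?_, ?_, ?_⟩
  · intro p hp hbig hd
    by_cases hpP : p = P
    · subst hpP
      rw [sq] at hd
      have h1 : p ∣ n := Nat.dvd_of_mul_dvd_mul_left hp.pos hd
      exact lt_irrefl _ (hlt p (Nat.mem_primeFactors.2 ⟨hp, h1, hn.pos.ne'⟩))
    · have hco : Nat.Coprime (p ^ 2) P :=
        ((Nat.coprime_primes hp hP).2 hpP).pow_left 2
      exact hn.sq p hp hbig (hco.dvd_of_dvd_mul_left hd)
  · rw [htot]; exact hsq
  · intro q hq hd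
    rcases (Nat.Prime.dvd_mul hq).1 hd with h | h
    · rw [(Nat.prime_dvd_prime_iff_eq hq hP).1 h]; exact hN
    · exact hn.normal q hq h
  · rw [primeFactorsList_mul_top hP hn.pos.ne' hle, List.length_append]
    push_cast [List.length_singleton]
    linarith [hn.few]
  · intro i hi
    obtain ⟨k, rfl⟩ : ∃ k, i = k + 1 := ⟨i - 1, by omega⟩
    rw [hshift k (by omega)]
    exact hn.rows k (by omega)
  · rw [hp1]; linarith
  · rw [hp1]
    refine le_trans ?_ hh3
    exact mul_le_mul_of_nonneg_left (Real.rpow_le_rpow (ll_nonneg _) hllP' (by norm_num))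
      (by rw [show 8 = 2 * 4 by norm_num, pow_mul]; positivity)
  · have h2 : prof (P * n) 2 = prof n 1 := hshift 1 le_rfl
    rw [hp1, h2]
    linarith [hn.first]
  · have hc : chain (K2 u + 1) (prof (P * n)) 1 = chain (K2 u) (prof n) 0 := by
      unfold chain
      refine Finset.sum_nbij' (fun j => j - 1) (fun j => j + 1) ?_ ?_ ?_ ?_ ?_
      · intro a ha; simp at ha ⊢; omega
      · intro a ha; simp at ha ⊢; omega
      · intro a ha; simp at ha; omega
      · intro a ha; simp at ha; omega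
      · intro a ha
        simp at ha
        obtain ⟨k, rfl⟩ : ∃ k, a = k + 1 := ⟨a - 1, by omega⟩
        simp only [Nat.add_sub_cancel, Nat.sub_zero]
        rw [hshift k (by omega)]
    rw [hc, hp1]
    linarith [hn.top]

/-- A prime fit to extend `m`. -/
def Fit (u x : ℝ) (m P : ℕ) : Prop :=
  NormalPrime u P ∧ Real.log x / 2 ≤ Real.log P ∧
    ∀ p : ℕ, p.Prime → yLow u < ll p → ¬ p ^ 2 ∣ (P - 1) * m

open Classical in
/-- Almost all primes up to `x / m` are fit. -/
lemma fit_count {u x d d₁ Z₀ : ℝ} {m : ℕ} (hd₁ : 0 < d₁) (hd₁1 : d₁ ≤ 1 / 8) (hd₁d : d₁ ≤ d / 8)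
    (hpi : ∀ Z : ℝ, Z₀ ≤ Z → (1 - d₁) * Z / Real.log Z ≤ (Nat.primeCounting ⌊Z⌋₊ : ℝ) ∧
      (Nat.primeCounting ⌊Z⌋₊ : ℝ) ≤ (1 + d₁) * Z / Real.log Z)
    (hbig : max Z₀ (16 / d₁) ≤ Real.exp (u - 1) / 8)
    (he : Real.exp (-(2 * LL u ^ 3)) ≤ d₁) (h5 : 5 * Real.exp (1 - u) ≤ d₁)
    (habn : ∀ (Z : ℝ) (S : Finset ℕ), Real.exp (Real.exp (u / 2)) ≤ Z →
      Z ≤ Real.exp (Real.exp (u + 4)) → (∀ q ∈ S, q.Prime ∧ (q : ℝ) ≤ Z ∧ ¬ NormalPrime u q) →
      (S.card : ℝ) ≤ Real.exp (-(2 * LL u ^ 3)) * Z / Real.log Z)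
    (hL : 4 ≤ LL u) (hu : 6 ≤ u) (hx0 : 0 < x) (hl : 0 < Real.log x)
    (hxl : Real.exp (u - 1) ≤ Real.log x) (hlx : Real.log x ≤ Real.exp (u + 1))
    (hlm : Real.log m ≤ d₁ * Real.log x) (hm0' : 0 < m)
    (hsqm : ∀ p : ℕ, p.Prime → yLow u < ll p → ¬ p ^ 2 ∣ m) :
    x / Real.log x * ((1 - d) * (1 / (m : ℝ))) ≤
      (((Nat.primesLE ⌊x / m⌋₊).filter (Fit u x m)).card : ℝ) := by
  have hm0 : (0 : ℝ) < m := by exact_mod_cast hm0'
  have hm1 : (1 : ℝ) ≤ m := by exact_mod_cast hm0'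
  have hlm0 : 0 ≤ Real.log m := Real.log_nonneg hm1
  have hmx : (m : ℝ) ≤ x := by
    rw [← Real.exp_log hm0, ← Real.exp_log hx0]
    exact Real.exp_le_exp.2 (by nlinarith)
  set Z : ℝ := x / m with hZdef
  have hZ0 : 0 < Z := by positivity
  have hlZ : Real.log Z = Real.log x - Real.log m := Real.log_div hx0.ne' hm0.ne'
  have hlZ' : (1 - d₁) * Real.log x ≤ Real.log Z := by rw [hlZ]; linarith
  have hlZx : Real.log Z ≤ Real.log x := by rw [hlZ]; linarith
  have hlZ2 : Real.exp (u - 1) / 2 ≤ Real.log Z := by nlinarith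
  have hlZpos : 0 < Real.log Z := by linarith [Real.exp_pos (u - 1)]
  have hZexp : Real.exp (Real.log Z) = Z := Real.exp_log hZ0
  have hZbig : max Z₀ (16 / d₁) ≤ Z := by
    calc max Z₀ (16 / d₁) ≤ Real.exp (u - 1) / 8 := hbig
      _ ≤ Real.exp (Real.log Z) := by
        linarith [self_lt_exp (Real.log Z)]
      _ = Z := hZexp
  have hZlow : Real.exp (Real.exp (u / 2)) ≤ Z := by
    rw [← hZexp]
    refine Real.exp_le_exp.2 (le_trans ?_ hlZ2)
    have h2 : Real.exp (u / 2) * 2 ≤ Real.exp (u - 1) := by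
      have : (2 : ℝ) ≤ Real.exp (u / 2 - 1) := by linarith [Real.add_one_le_exp (u / 2 - 1)]
      calc Real.exp (u / 2) * 2 ≤ Real.exp (u / 2) * Real.exp (u / 2 - 1) := by gcongr
        _ = Real.exp (u - 1) := by rw [← Real.exp_add]; ring_nf
    linarith
  have hZhigh : Z ≤ Real.exp (Real.exp (u + 4)) := by
    rw [← hZexp]
    exact Real.exp_le_exp.2 (hlZx.trans (hlx.trans (Real.exp_le_exp.2 (by linarith))))
  let A : Finset ℕ := (Nat.primesLE ⌊Z⌋₊).filter (fun P => ¬ NormalPrime u P)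
  let B : Finset ℕ := (Nat.primesLE ⌊Z⌋₊).filter
    (fun P => ∃ p : ℕ, p.Prime ∧ yLow u < ll p ∧ p ^ 2 ∣ (P - 1) * m)
  let C : Finset ℕ := (Nat.primesLE ⌊Z⌋₊).filter (fun P => (P : ℝ) < Real.exp (Real.log x / 2))
  have hmemN : ∀ P ∈ Nat.primesLE ⌊Z⌋₊, P.Prime ∧ (P : ℝ) ≤ Z := fun P hP => by
    rw [Nat.mem_primesLE] at hP
    exact ⟨hP.2, (Nat.le_floor_iff hZ0.le).1 hP.1⟩
  have hA : (A.card : ℝ) ≤ d₁ * (Z / Real.log Z) := by
    refine (habn Z A hZlow hZhigh fun P hP => ?_).trans ?_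
    · obtain ⟨h1, h2⟩ := Finset.mem_filter.1 hP
      exact ⟨(hmemN P h1).1, (hmemN P h1).2, h2⟩
    · rw [mul_div_assoc]
      exact mul_le_mul_of_nonneg_right he (by positivity)
  have hB : (B.card : ℝ) ≤ d₁ * (Z / Real.log Z) := by
    refine (sqBad_card (by linarith) hL (by linarith) hlx hm0' hmx hZ0.le B ?_ ?_).trans ?_
    · exact hsqm
    · intro P hP
      obtain ⟨h1, h2⟩ := Finset.mem_filter.1 hP
      exact ⟨(hmemN P h1).1, (hmemN P h1).2, h2⟩
    · rw [← mul_div_assoc d₁, le_div_iff₀ hlZpos]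
      calc 5 * Z * Real.exp (-(2 * u)) * Real.log Z
          ≤ 5 * Z * Real.exp (-(2 * u)) * Real.exp (u + 1) := by
            gcongr; exact hlZx.trans hlx
        _ = Z * (5 * (Real.exp (-(2 * u)) * Real.exp (u + 1))) := by ring
        _ = Z * (5 * Real.exp (1 - u)) := by rw [← Real.exp_add]; ring_nf
        _ ≤ d₁ * Z := by rw [mul_comm d₁]; gcongr
  have hC : (C.card : ℝ) ≤ d₁ * (Z / Real.log Z) := by
    have h1 : (C.card : ℝ) ≤ Real.exp (Real.log x / 2) + 1 := by
      have hsub : C ⊆ Finset.range (⌈Real.exp (Real.log x / 2)⌉₊) := by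
        intro P hP
        rw [Finset.mem_range, Nat.lt_ceil]
        exact (Finset.mem_filter.1 hP).2
      have := Finset.card_le_card hsub
      rw [Finset.card_range] at this
      refine le_trans (by exact_mod_cast this) (Nat.ceil_lt_add_one (Real.exp_pos _).le).le
    refine h1.trans ?_
    rw [← mul_div_assoc, le_div_iff₀ hlZpos]
    have h2 : Real.exp (Real.log x / 2) + 1 ≤ 2 * Real.exp (Real.log x / 2) := by
      linarith [Real.one_le_exp (show 0 ≤ Real.log x / 2 by positivity)]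
    set y := Real.log x / 8 with hy
    have hy1 : 16 / d₁ ≤ Real.exp y := by
      refine le_trans ((le_max_right Z₀ _).trans hbig) ?_
      linarith [self_lt_exp y]
    have hy2 : Real.log Z ≤ 8 * Real.exp y := by linarith [self_lt_exp y]
    have hy3 : Real.exp (Real.log x / 2) * Real.exp y * Real.exp y ≤ Z := by
      rw [← hZexp, ← Real.exp_add, ← Real.exp_add]
      exact Real.exp_le_exp.2 (by nlinarith)
    calc (Real.exp (Real.log x / 2) + 1) * Real.log Z
        ≤ 2 * Real.exp (Real.log x / 2) * (8 * Real.exp y) :=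
          mul_le_mul h2 hy2 hlZpos.le (by positivity)
      _ = 16 * (Real.exp (Real.log x / 2) * Real.exp y) := by ring
      _ ≤ d₁ * Real.exp y * (Real.exp (Real.log x / 2) * Real.exp y) := by
          refine mul_le_mul_of_nonneg_right ?_ (by positivity)
          rw [div_le_iff₀ hd₁] at hy1
          linarith
      _ ≤ d₁ * Z := by
          calc d₁ * Real.exp y * (Real.exp (Real.log x / 2) * Real.exp y)
              = d₁ * (Real.exp (Real.log x / 2) * Real.exp y * Real.exp y) := by ring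
            _ ≤ d₁ * Z := mul_le_mul_of_nonneg_left hy3 hd₁.le
  have hcov : Nat.primesLE ⌊Z⌋₊ ⊆ ((((Nat.primesLE ⌊x / m⌋₊).filter (Fit u x m)) ∪ A) ∪ B) ∪ C := by
    intro P hP
    simp only [Finset.mem_union]
    by_cases h1 : NormalPrime u P
    · by_cases h2 : ∃ p : ℕ, p.Prime ∧ yLow u < ll p ∧ p ^ 2 ∣ (P - 1) * m
      · exact Or.inl (Or.inr (Finset.mem_filter.2 ⟨hP, h2⟩))
      · by_cases h3 : (P : ℝ) < Real.exp (Real.log x / 2)
        · exact Or.inr (Finset.mem_filter.2 ⟨hP, h3⟩)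
        · refine Or.inl (Or.inl (Or.inl (Finset.mem_filter.2 ⟨hP, h1, ?_, ?_⟩)))
          · rw [Real.le_log_iff_exp_le (by exact_mod_cast (hmemN P hP).1.pos)]
            exact not_lt.1 h3
          · intro p hp hb hd'; exact h2 ⟨p, hp, hb, hd'⟩
    · exact Or.inl (Or.inl (Or.inr (Finset.mem_filter.2 ⟨hP, h1⟩)))
  have hlow := (hpi Z (le_trans (le_max_left _ _) hZbig)).1
  rw [← card_primesLE_eq, mul_div_assoc] at hlow
  have hc : ((Nat.primesLE ⌊Z⌋₊).card : ℝ) ≤ ((Nat.primesLE ⌊x / m⌋₊).filter (Fit u x m)).card + A.card + B.card + C.card := by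
    have := Finset.card_le_card hcov
    have := Finset.card_union_le (((Nat.primesLE ⌊x / m⌋₊).filter (Fit u x m)) ∪ A ∪ B) C
    have := Finset.card_union_le (((Nat.primesLE ⌊x / m⌋₊).filter (Fit u x m)) ∪ A) B
    have := Finset.card_union_le ((Nat.primesLE ⌊x / m⌋₊).filter (Fit u x m)) A
    norm_cast
    omega
  calc x / Real.log x * ((1 - d) * (1 / (m : ℝ))) = (1 - d) * (Z / Real.log x) := by
        rw [hZdef]; ring
    _ ≤ (1 - 4 * d₁) * (Z / Real.log Z) := by
        refine mul_le_mul (by linarith) ?_ (by positivity) (by linarith)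
        exact div_le_div_of_nonneg_left hZ0.le hlZpos hlZx
    _ ≤ _ := by linarith

/-- Each element is the first of its value or the first entry of a pair with equal values. -/
lemma card_le_image_add_pairs {α : Type*} [DecidableEq α] (D : Finset α) (val : α → ℕ)
    (key : α → ℕ) (hkey : ∀ a ∈ D, ∀ b ∈ D, val a = val b → key a = key b → a = b) :
    D.card ≤ (D.image val).card +
      ((D ×ˢ D).filter (fun z => val z.1 = val z.2 ∧ z.1 ≠ z.2)).card := by
  classical
  let first : Finset α := D.filter (fun q => ∀ q' ∈ D, val q' = val q → key q ≤ key q')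
  have hfirst : first.card ≤ (D.image val).card := by
    refine Finset.card_le_card_of_injOn val ?_ ?_
    · intro q hq
      exact Finset.mem_image_of_mem _ (Finset.mem_filter.1 hq).1
    · intro q hq q' hq' h
      obtain ⟨a1, a3⟩ := Finset.mem_filter.1 hq
      obtain ⟨b1, b3⟩ := Finset.mem_filter.1 hq'
      exact hkey q a1 q' b1 h (le_antisymm (a3 q' b1 h.symm) (b3 q a1 h))
  have hcov : D \ first ⊆
      ((D ×ˢ D).filter (fun z => val z.1 = val z.2 ∧ z.1 ≠ z.2)).image Prod.fst := by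
    intro q hq
    obtain ⟨hqD, hqn⟩ := Finset.mem_sdiff.1 hq
    have h : ∃ q' ∈ D, val q' = val q ∧ key q' < key q := by
      by_contra hc
      push Not at hc
      exact hqn (Finset.mem_filter.2 ⟨hqD, hc⟩)
    obtain ⟨q', hq', hv, hlt⟩ := h
    refine Finset.mem_image.2 ⟨(q, q'), Finset.mem_filter.2
      ⟨Finset.mem_product.2 ⟨hqD, hq'⟩, hv.symm, fun h => ?_⟩, rfl⟩
    simp only at h
    rw [h] at hlt
    exact lt_irrefl _ hlt
  have h1 : D.card ≤ first.card + (D \ first).card := by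
    have := Finset.card_le_card_sdiff_add_card (s := D) (t := first)
    omega
  have h2 := (Finset.card_le_card hcov).trans Finset.card_image_le
  omega

theorem V_lower {d : ℝ} (hd : 0 < d) : ∀ᶠ u : ℝ in atTop, ∀ x : ℝ, 1 < x →
    |Real.log (Real.log x) - u| ≤ 1 →
    x / Real.log x * ((1 - d) * ∑ m ∈ mMinus u, 1 / (m : ℝ) - d) ≤ (V x : ℝ) := by
  obtain ⟨d₁, hd₁, hd₁'⟩ : ∃ d₁ : ℝ, 0 < d₁ ∧ d₁ ≤ min d 1 / 8 :=
    ⟨min d 1 / 8, by have := lt_min hd one_pos; positivity, le_rfl⟩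
  obtain ⟨Z₀, hpi⟩ := pi_bounds hd₁
  have hexp0 : Tendsto (fun u : ℝ => Real.exp (-u)) atTop (nhds 0) :=
    Real.tendsto_exp_neg_atTop_nhds_zero
  have hev1 : ∀ᶠ u : ℝ in atTop, Real.exp (-(2 * LL u ^ 3)) ≤ d₁ :=
    (hexp0.comp (((tendsto_pow_atTop (by norm_num)).comp tendsto_LL).const_mul_atTop
      (by norm_num : (0 : ℝ) < 2))).eventually (ge_mem_nhds hd₁)
  have hev3 : ∀ᶠ u : ℝ in atTop, 5 * Real.exp (1 - u) ≤ d₁ := by
    have h : Tendsto (fun u : ℝ => 5 * Real.exp (1 - u)) atTop (nhds (5 * 0)) := by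
      refine Tendsto.const_mul 5 ?_
      exact (Real.tendsto_exp_atBot.comp (tendsto_atBot_add_const_left _ 1 tendsto_neg_atTop_atBot))
    rw [mul_zero] at h
    exact h.eventually (ge_mem_nhds hd₁)
  have hev4 : ∀ᶠ u : ℝ in atTop, Real.exp (-(hgt u 0 / 2 / 2)) ≤ d := by
    have ht : Tendsto (fun u : ℝ => hgt u 0 / 2 / 2) atTop atTop := by
      simp only [hgt_zero]
      exact ((tendsto_rpow_atTop (by norm_num)).atTop_div_const (by norm_num)).atTop_div_const
        (by norm_num)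
    exact (hexp0.comp ht).eventually (ge_mem_nhds hd)
  have hev2 : ∀ᶠ u : ℝ in atTop, max Z₀ (16 / d₁) ≤ Real.exp (u - 1) / 8 :=
    ((Real.tendsto_exp_atTop.comp
      (tendsto_atTop_add_const_right _ (-1) tendsto_id)).atTop_div_const
        (by norm_num)).eventually_ge_atTop _
  filter_upwards [hev1, hev2, hev3, hev4, hgt_zero_bounds, abnormal_count, collision_count,
    mMinus_rep, log_mMinus_le hd₁, tendsto_LL.eventually_ge_atTop 4,
    eventually_ge_atTop (6 : ℝ)] with u he hbig h5 he4 hh habn hcoll hrep hlog hL hu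
  intro x hx hxu
  classical
  obtain ⟨hxl, hxr⟩ := log_log_mem hx hxu
  have hl : 0 < Real.log x := Real.log_pos hx
  have hd₁1 : d₁ ≤ 1 / 8 := hd₁'.trans (by linarith [min_le_right d 1])
  have hd₁d : d₁ ≤ d / 8 := hd₁'.trans (by linarith [min_le_left d 1])
  have hlx : Real.log x ≤ Real.exp (u + 1) := hxr
  have hx0 : (0 : ℝ) < x := by linarith
  choose! rep hrep' hrep'' using hrep
  have hlogm : ∀ m ∈ mMinus u, Real.log m ≤ d₁ * Real.log x ∧ 0 < m := by
    intro m hm
    refine ⟨?_, by rw [← hrep' m hm]; exact Nat.totient_pos.2 (hrep'' m hm).pos⟩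
    calc Real.log m = Real.log (Nat.totient (rep m) : ℕ) := by rw [hrep' m hm]
      _ ≤ Real.log (rep m) := log_totient_le _
      _ ≤ d₁ * Real.exp (u - 1) := hlog _ (hrep'' m hm)
      _ ≤ d₁ * Real.log x := mul_le_mul_of_nonneg_left hxl hd₁.le
  let Ps : ℕ → Finset ℕ := fun m => (Nat.primesLE ⌊x / m⌋₊).filter (Fit u x m)
  let D : Finset (Σ _m : ℕ, ℕ) := (mMinus u).sigma Ps
  let val : (Σ _m : ℕ, ℕ) → ℕ := fun q => (q.2 - 1) * q.1
  let nn : (Σ _m : ℕ, ℕ) → ℕ := fun q => q.2 * rep q.1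
  have hD : ∀ q ∈ D, q.1 ∈ mMinus u ∧ q.2.Prime ∧ (q.2 : ℝ) ≤ x / q.1 ∧
      CollSide u (hgt u 0 / 2) (nn q) ∧ nthPrime (nn q) 1 = q.2 ∧
      Nat.totient (nn q) = val q ∧ Real.log x / 2 ≤ Real.log q.2 := by
    intro q hq
    rw [Finset.mem_sigma] at hq
    obtain ⟨hm, hP⟩ := hq
    rw [Finset.mem_filter, Nat.mem_primesLE] at hP
    obtain ⟨⟨hPle, hPp⟩, hN, hbigP, hsq⟩ := hP
    have hm0 : (0 : ℝ) < q.1 := by exact_mod_cast (hlogm _ hm).2
    have hPx : (q.2 : ℝ) ≤ x / q.1 := (Nat.le_floor_iff (by positivity)).1 hPle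
    have hm1 : (1 : ℝ) ≤ q.1 := by exact_mod_cast (hlogm _ hm).2
    have hPx' : (q.2 : ℝ) ≤ x := hPx.trans (div_le_self hx0.le hm1)
    obtain ⟨h1, h2, h3⟩ := collSide_mul hx hxu hh (by linarith) (hrep'' _ hm) hPp hPx' hbigP hN
      (by rw [hrep' _ hm]; exact hsq)
    refine ⟨hm, hPp, hPx, h1, h2, ?_, hbigP⟩
    rw [h3, hrep' _ hm]
  have himg : D.image val ⊆ totSet x := by
    intro v hv
    obtain ⟨q, hq, rfl⟩ := Finset.mem_image.1 hv
    obtain ⟨hm, hP, hPx, hside, -, htot, -⟩ := hD q hq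
    have hm0 : (0 : ℝ) < q.1 := by exact_mod_cast (hlogm _ hm).2
    unfold totSet
    refine Finset.mem_filter.2 ⟨Finset.mem_Icc.2 ⟨?_, Nat.le_floor ?_⟩, nn q, hside.pos, htot⟩
    · rw [← htot]; exact Nat.totient_pos.2 hside.pos
    · rw [le_div_iff₀ hm0] at hPx
      have : ((q.2 - 1 : ℕ) : ℝ) ≤ q.2 := by exact_mod_cast Nat.sub_le _ _
      show ((((q.2 - 1) * q.1 : ℕ)) : ℝ) ≤ x
      rw [Nat.cast_mul]
      exact (mul_le_mul_of_nonneg_right this hm0.le).trans hPx
  let S : Finset (ℕ × ℕ) := ((D ×ˢ D).filter (fun z => val z.1 = val z.2 ∧ z.1 ≠ z.2)).image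
    (fun z => (nn z.1, nn z.2))
  have hnn : ∀ a ∈ D, ∀ b ∈ D, val a = val b → a.2 = b.2 → a = b := by
    intro a ha b hb hv hP
    have h2 := (hD a ha).2.1.two_le
    have : a.1 = b.1 := by
      simp only [val, hP] at hv
      exact Nat.eq_of_mul_eq_mul_left (by have := (hD b hb).2.1.two_le; omega) hv
    exact Sigma.ext this (heq_of_eq hP)
  have hpair : CollPairs u (hgt u 0 / 2) S := by
    refine ⟨?_, ?_, ?_, ?_, ?_⟩
    all_goals intro z hz
    all_goals obtain ⟨⟨a, b⟩, hab, rfl⟩ := Finset.mem_image.1 hz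
    all_goals obtain ⟨hab', hv, hne⟩ := Finset.mem_filter.1 hab
    all_goals obtain ⟨ha, hb⟩ := Finset.mem_product.1 hab'
    · exact (hD a ha).2.2.2.1
    · exact (hD b hb).2.2.2.1
    · rw [(hD a ha).2.2.2.2.2.1, (hD b hb).2.2.2.2.2.1]; exact hv
    · rw [(hD a ha).2.2.2.2.1, (hD b hb).2.2.2.2.1]
      exact fun h => hne (hnn a ha b hb hv h)
    · intro z' hz' hk1 hk2
      obtain ⟨⟨a', b'⟩, hab2, rfl⟩ := Finset.mem_image.1 hz'
      obtain ⟨ha', hb'⟩ := Finset.mem_product.1 (Finset.mem_filter.1 hab2).1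
      have key : ∀ c ∈ D, ∀ c' ∈ D, collKey u (nn c) = collKey u (nn c') → c = c' := by
        intro c hc c' hc' hk
        simp only [collKey, Prod.mk.injEq] at hk
        have hbigs : ∀ e ∈ D, ∀ p, p ∈ (nn e).primeFactors → p ≤ e.2 := by
          intro e he p hp
          rw [← (hD e he).2.2.2.2.1]
          obtain ⟨hpp, hpd, hp0⟩ := Nat.mem_primeFactors.1 hp
          exact le_nthPrime_one ((Nat.mem_primeFactorsList hp0).2 ⟨hpp, hpd⟩)
        have hmem : ∀ e ∈ D, e.2 ∈ (nn e).primeFactors.filter (fun p => yLump u < ll p) := by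
          intro e he
          obtain ⟨hm, hP, -, hside, htop, -, hlogP⟩ := hD e he
          refine Finset.mem_filter.2
            ⟨Nat.mem_primeFactors.2 ⟨hP, Dvd.intro _ rfl, hside.pos.ne'⟩, ?_⟩
          have h90 : yLump u < LL u ^ 90 := pow_lt_pow_right₀ (by linarith) (by norm_num)
          have hn := hside.noise
          have htp := hside.top
          have hp1 : prof (nn e) 1 = ll e.2 := by unfold prof; rw [htop]
          rw [hp1] at htp
          have h0 : (0 : ℝ) ≤ chain (K2 u + 1) (prof (nn e)) 1 :=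
            Finset.sum_nonneg fun j hj => by
              rw [Finset.mem_Ioc] at hj
              exact mul_nonneg (coef_nonneg (by omega)) (prof_nonneg _ _)
          have h1 : (1 : ℝ) ≤ hgt u 0 / 2 := by linarith [hh.1]
          by_contra hc
          linarith [hh.2.1, not_lt.1 hc]
        have e1 := hmem c hc
        rw [hk.1] at e1
        have e2 := hmem c' hc'
        rw [← hk.1] at e2
        have hP : c.2 = c'.2 := le_antisymm (hbigs c' hc' _ (Finset.mem_of_mem_filter _ e1))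
          (hbigs c hc _ (Finset.mem_of_mem_filter _ e2))
        refine hnn c hc c' hc' ?_ hP
        rw [← (hD c hc).2.2.2.2.2.1, ← (hD c' hc').2.2.2.2.2.1]
        exact hk.2
      have h1 := key a ha a' ha' hk1
      have h2 := key b hb b' hb' hk2
      simp [h1, h2]
  have hu3 : Real.log x / u ^ 4 ≤ Real.log x / 2 :=
    div_le_div_of_nonneg_left hl.le (by norm_num)
      (le_trans (by norm_num) (pow_le_pow_left₀ (by norm_num) hu 4))
  have hScard : (S.card : ℝ) ≤ d * (x / Real.log x) := by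
    refine (hcoll x (hgt u 0 / 2) S hx hh.2.1 hpair hxu ?_).trans ?_
    · intro z hz
      obtain ⟨⟨a, b⟩, hab, rfl⟩ := Finset.mem_image.1 hz
      obtain ⟨ha, hb⟩ := Finset.mem_product.1 (Finset.mem_filter.1 hab).1
      refine ⟨?_, ?_⟩
      · have h := himg (Finset.mem_image_of_mem val ha)
        unfold totSet at h
        rw [(hD a ha).2.2.2.2.2.1]
        exact (Nat.le_floor_iff hx0.le).1 (Finset.mem_Icc.1 (Finset.mem_of_mem_filter _ h)).2
      · rw [(hD a ha).2.2.2.2.1]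
        exact hu3.trans (hD a ha).2.2.2.2.2.2
    · rw [mul_div_assoc]
      exact mul_le_mul_of_nonneg_right he4 (by positivity)
  have hnnInj : ∀ a ∈ D, ∀ b ∈ D, val a = val b → nn a = nn b → a = b := by
    intro a ha b hb hv hn
    refine hnn a ha b hb hv ?_
    rw [← (hD a ha).2.2.2.2.1, ← (hD b hb).2.2.2.2.1, hn]
  have hDcard : (D.card : ℝ) ≤ (V x : ℝ) + S.card := by
    have hS : S.card = ((D ×ˢ D).filter (fun z => val z.1 = val z.2 ∧ z.1 ≠ z.2)).card := by
      refine Finset.card_image_of_injOn ?_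
      intro z hz z' hz' h
      obtain ⟨h1, hv, hne⟩ := Finset.mem_filter.1 hz
      obtain ⟨h1', hv', hne'⟩ := Finset.mem_filter.1 hz'
      obtain ⟨ha, hb⟩ := Finset.mem_product.1 h1
      obtain ⟨ha', hb'⟩ := Finset.mem_product.1 h1'
      simp only [Prod.mk.injEq] at h
      have e1 : val z.1 = val z'.1 := by
        rw [← (hD _ ha).2.2.2.2.2.1, ← (hD _ ha').2.2.2.2.2.1, h.1]
      exact Prod.ext (hnnInj _ ha _ ha' e1 h.1) (hnnInj _ hb _ hb' (by rw [← hv, ← hv']; exact e1) h.2)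
    have h12 := card_le_image_add_pairs D val (fun q => q.2) hnn
    rw [← hS] at h12
    have h3 : (D.image val).card ≤ V x := by unfold V; exact Finset.card_le_card himg
    have : D.card ≤ V x + S.card := by omega
    exact_mod_cast this
  have hterm : ∀ m ∈ mMinus u, x / Real.log x * ((1 - d) * (1 / (m : ℝ))) ≤ ((Ps m).card : ℝ) :=
    fun m hm => fit_count hd₁ hd₁1 hd₁d hpi hbig he h5 habn hL hu hx0 hl hxl hlx (hlogm m hm).1
      (hlogm m hm).2 (fun p hp hb => by
        have := (hrep'' m hm).sqTot p hp hb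
        rwa [hrep' m hm] at this)
  have hsum : x / Real.log x * ((1 - d) * ∑ m ∈ mMinus u, 1 / (m : ℝ)) ≤ (D.card : ℝ) := by
    rw [Finset.card_sigma, Nat.cast_sum, Finset.mul_sum, Finset.mul_sum]
    exact Finset.sum_le_sum hterm
  calc x / Real.log x * ((1 - d) * ∑ m ∈ mMinus u, 1 / (m : ℝ) - d)
      = x / Real.log x * ((1 - d) * ∑ m ∈ mMinus u, 1 / (m : ℝ)) - d * (x / Real.log x) := by ring
    _ ≤ _ := by linarith

end Vale.Agent.P031
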