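import Vale.Agent.P031.Tools
import Vale.Agent.P031.Geom

/-! The two sets of values `m` between which the main term lies. -/

open Finset Real Filter

namespace Vale.Agent.P031

/-- Scale containing every tail value. -/
noncomputable def tailBound (u : ℝ) : ℝ := Real.exp (Real.exp (LL u ^ 130))

/-- A preimage of a tail value. -/
structure TailRep (u : ℝ) (w n : ℕ) : Prop where
  pos : 0 < n
  tot : Nat.totient n = w
  sq : ∀ p : ℕ, p.Prime → yLow u < ll p → ¬ p ^ 2 ∣ n
  sqTot : ∀ p : ℕ, p.Prime → yLow u < ll p → ¬ p ^ 2 ∣ Nat.totient n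
  normal : ∀ q : ℕ, q.Prime → q ∣ n → NormalPrime u q
  few : (n.primeFactorsList.length : ℝ) ≤ u ^ 3
  rows : ∀ j : ℕ, K2 u - K1 u < j → prof n j ≤ yLump u
  size : prof n 1 ≤ 8 * u / gRen (K1 u)

/-- The tail profile, cut at `yLow`. -/
noncomputable def cutProf (u : ℝ) (n : ℕ) (i : ℕ) : ℝ :=
  if K1 u < i ∧ yLow u < prof n (i - K1 u) then prof n (i - K1 u) else 0

/-- Tail vectors of a value. -/
def tailVecs (u : ℝ) (w : ℕ) : Set (ℕ → ℝ) := {r | ∃ n, TailRep u w n ∧ r = cutProf u n}

/-- Tail values. -/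
noncomputable def tailVals (u : ℝ) : Finset ℕ := by
  classical exact (totSet (tailBound u)).filter (fun w => ∃ n, TailRep u w n)

/-- Upper slot: primes of a cell, or 1 in the bottom cell. -/
noncomputable def slotUp (u : ℝ) (c : ℕ) : Finset ℕ := by
  classical
  exact if c = 0 then insert 1 ((Nat.primesLE ⌈Real.exp (Real.exp (cellW u))⌉₊).filter
      (fun p => ll p ≤ cellW u))
    else llPrimes (cellW u * c) (cellW u * (c + 1))

/-- Lower slot. -/
noncomputable def slotLow (u : ℝ) (c : ℕ) : Finset ℕ := by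
  classical
  exact (llPrimes (cellW u * c) (cellW u * (c + 1))).filter
    (fun q => NormalPrime u q ∧ ∀ p : ℕ, p.Prime → yLow u < ll p → ¬ p ^ 2 ∣ q - 1)

/-- The value of a tuple. -/
def tupVal {K : ℕ} (q : (Fin K → ℕ) × ℕ) : ℕ := (∏ j, Nat.totient (q.1 j)) * q.2

/-- All candidate tuples. -/
noncomputable def tupBox (u : ℝ) : Finset ((Fin (K1 u) → ℕ) × ℕ) :=
  (Fintype.piFinset fun _ => Finset.range (⌈Real.exp (Real.exp (4 * u))⌉₊ + 1)) ×ˢ tailVals u

noncomputable def upTuples (u : ℝ) : Finset ((Fin (K1 u) → ℕ) × ℕ) := by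
  classical
  exact (tupBox u).filter
    (fun q => ∃ c ∈ upperCells u (tailVecs u q.2), ∀ j, q.1 j ∈ slotUp u (c j))

noncomputable def lowTuples (u : ℝ) : Finset ((Fin (K1 u) → ℕ) × ℕ) := by
  classical
  exact (tupBox u).filter
    (fun q => ∃ c ∈ lowerCells u (tailVecs u q.2), ∀ j, q.1 j ∈ slotLow u (c j))

/-- Tuples whose value has no square of a prime above `yLow`. -/
noncomputable def goodTuples (u : ℝ) : Finset ((Fin (K1 u) → ℕ) × ℕ) := by
  classical
  exact (lowTuples u).filter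
    (fun q => ∀ p : ℕ, p.Prime → yLow u < ll p → ¬ p ^ 2 ∣ tupVal q)

/-- The upper set. -/
noncomputable def mPlus (u : ℝ) : Finset ℕ := (upTuples u).image tupVal

/-- The lower set. -/
noncomputable def mMinus (u : ℝ) : Finset ℕ := (goodTuples u).image tupVal

/-- Weighted number of lower cells. -/
noncomputable def cellMass (u : ℝ) : ℝ :=
  (∑ w ∈ tailVals u, ((lowerCells u (tailVecs u w)).ncard : ℝ) / w) * cellW u ^ K1 u

end Vale.Agent.P031
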