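import Vale.Agent.P031.Defs

/-! Removing the largest primes one at a time. -/

open Finset Real

namespace Vale.Agent.P031

lemma primeFactorsList_reverse_getD_mem {n k : ℕ} (h : k < n.primeFactorsList.length) :
    n.primeFactorsList.reverse.getD k 1 ∈ n.primeFactorsList := by
  rw [List.getD_eq_getElem _ _ (by simpa using h)]
  exact List.mem_reverse.1 (List.getElem_mem _)

lemma primeFactorsList_mul_top {q m : ℕ} (hq : q.Prime) (hm : m ≠ 0)
    (hle : ∀ p ∈ m.primeFactors, p ≤ q) :
    (q * m).primeFactorsList = m.primeFactorsList ++ [q] := by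
  have hperm := Nat.primeFactorsList_unique (n := q * m) (l := m.primeFactorsList ++ [q])
    (by rw [List.prod_append, Nat.prod_primeFactorsList hm]; simp [mul_comm])
    (by
      intro p hp
      rcases List.mem_append.1 hp with h | h
      · exact Nat.prime_of_mem_primeFactorsList h
      · simp at h; exact h ▸ hq)
  have hs : (m.primeFactorsList ++ [q]).Pairwise (· ≤ ·) := by
    rw [List.pairwise_append]
    refine ⟨List.sortedLE_iff_pairwise.1 (Nat.primeFactorsList_sorted m), by simp, ?_⟩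
    intro a ha b hb
    simp at hb
    subst hb
    exact hle a (Nat.mem_primeFactors.2 ⟨Nat.prime_of_mem_primeFactorsList ha,
      Nat.dvd_of_mem_primeFactorsList ha, hm⟩)
  exact (List.Perm.eq_of_pairwise (fun a b _ _ h1 h2 => le_antisymm h1 h2) hs
    (List.sortedLE_iff_pairwise.1 (Nat.primeFactorsList_sorted _)) hperm).symm

lemma nthPrime_mul_top_one {q m : ℕ} (hq : q.Prime) (hm : m ≠ 0)
    (hle : ∀ p ∈ m.primeFactors, p ≤ q) : nthPrime (q * m) 1 = q := by
  simp [nthPrime, primeFactorsList_mul_top hq hm hle]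

lemma nthPrime_mul_top_succ {q m i : ℕ} (hq : q.Prime) (hm : m ≠ 0)
    (hle : ∀ p ∈ m.primeFactors, p ≤ q) (hi : 1 ≤ i) :
    nthPrime (q * m) (i + 1) = nthPrime m i := by
  obtain ⟨k, rfl⟩ : ∃ k, i = k + 1 := ⟨i - 1, by omega⟩
  simp [nthPrime, primeFactorsList_mul_top hq hm hle]

lemma nthPrime_eq_one {n i : ℕ} (h : n.primeFactorsList.length < i) : nthPrime n i = 1 := by
  unfold nthPrime
  exact List.getD_eq_default _ _ (by simp; omega)

lemma nthPrime_mem {n i : ℕ} (hi : 1 ≤ i) (h : i ≤ n.primeFactorsList.length) :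
    (nthPrime n i).Prime ∧ nthPrime n i ∣ n := by
  have := primeFactorsList_reverse_getD_mem (n := n) (k := i - 1) (by omega)
  exact ⟨Nat.prime_of_mem_primeFactorsList this, Nat.dvd_of_mem_primeFactorsList this⟩

lemma le_nthPrime_one {n p : ℕ} (hp : p ∈ n.primeFactorsList) : p ≤ nthPrime n 1 := by
  obtain ⟨k, hk, rfl⟩ := List.getElem_of_mem (List.mem_reverse.2 hp)
  unfold nthPrime
  rw [List.getD_eq_getElem _ _ (by simp at hk ⊢; omega)]
  rcases Nat.eq_zero_or_pos k with h0 | h0
  · subst h0; exact le_rfl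
  · have hs : (n.primeFactorsList.reverse).Pairwise (· ≥ ·) := by
      rw [List.pairwise_reverse]
      exact List.sortedLE_iff_pairwise.1 (Nat.primeFactorsList_sorted n)
    exact (List.pairwise_iff_getElem.1 hs) 0 k (by simp at hk ⊢; omega) hk h0

/-- Split off the largest prime. -/
lemma exists_top {n : ℕ} (hn : 1 < n) :
    ∃ m : ℕ, m ≠ 0 ∧ n = nthPrime n 1 * m ∧ (nthPrime n 1).Prime ∧
      (∀ p ∈ m.primeFactors, p ≤ nthPrime n 1) := by
  have hlen : 1 ≤ n.primeFactorsList.length := by
    by_contra h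
    have h0 : n.primeFactorsList = [] := List.eq_nil_of_length_eq_zero (by omega)
    have := Nat.prod_primeFactorsList (show n ≠ 0 by omega)
    rw [h0] at this
    simp at this
    omega
  obtain ⟨hp, m, hm⟩ := nthPrime_mem le_rfl hlen
  have hm0 : m ≠ 0 := by
    rintro rfl
    simp at hm
    omega
  refine ⟨m, hm0, hm, hp, fun p hpm => le_nthPrime_one ?_⟩
  obtain ⟨hpp, hpd, -⟩ := Nat.mem_primeFactors.1 hpm
  exact (Nat.mem_primeFactorsList (by omega)).2 ⟨hpp, hm ▸ hpd.mul_left _⟩

lemma totient_mul_top {q m : ℕ} (hq : q.Prime) (hle : ∀ p ∈ m.primeFactors, p < q) (hm : m ≠ 0) :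
    Nat.totient (q * m) = (q - 1) * Nat.totient m := by
  have hc : Nat.Coprime q m := by
    rw [hq.coprime_iff_not_dvd]
    intro h
    exact lt_irrefl _ (hle q (Nat.mem_primeFactors.2 ⟨hq, h, hm⟩))
  rw [Nat.totient_mul hc, Nat.totient_prime hq]

lemma ll_nonneg (p : ℕ) : 0 ≤ ll p := le_max_left _ _

lemma ll_one : ll 1 = 0 := by simp [ll]

lemma prof_nonneg (n i : ℕ) : 0 ≤ prof n i := ll_nonneg _

lemma ll_mono {p q : ℕ} (hp : 2 ≤ p) (h : p ≤ q) : ll p ≤ ll q := by
  have hp' : (2 : ℝ) ≤ p := by exact_mod_cast hp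
  refine max_le_max le_rfl (Real.log_le_log (Real.log_pos (by linarith)) ?_)
  exact Real.log_le_log (by linarith) (by exact_mod_cast h)

lemma prof_antitone {n i : ℕ} (hi : 1 ≤ i) : prof n (i + 1) ≤ prof n i := by
  rcases Nat.lt_or_ge n.primeFactorsList.length (i + 1) with h | h
  · rw [prof, nthPrime_eq_one h, ll_one]; exact prof_nonneg _ _
  · have hp := (nthPrime_mem (n := n) (show 1 ≤ i + 1 by omega) h).1
    refine ll_mono hp.two_le ?_
    unfold nthPrime
    have hs : (n.primeFactorsList.reverse).Pairwise (· ≥ ·) := by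
      rw [List.pairwise_reverse]
      exact List.sortedLE_iff_pairwise.1 (Nat.primeFactorsList_sorted n)
    rw [List.getD_eq_getElem _ _ (by simp; omega), List.getD_eq_getElem _ _ (by simp; omega)]
    exact (List.pairwise_iff_getElem.1 hs) (i - 1) (i + 1 - 1) _ _ (by omega)

end Vale.Agent.P031
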