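import Vale.Agent.P031.MainDefs
import Vale.Agent.P031.Peel
import Vale.Agent.P031.Renewal

/-!
P031: tools for the upper set: stripping the primes of the top levels, and size bounds.
-/

open Finset Real Filter

namespace Vale.Agent.P031.MainUpperAux

lemma sum_biUnion_le_sum {α β : Type*} [DecidableEq β] (s : Finset α) (t : α → Finset β)
    (f : β → ℝ) (hf : ∀ b, 0 ≤ f b) :
    ∑ b ∈ s.biUnion t, f b ≤ ∑ a ∈ s, ∑ b ∈ t a, f b := by
  classical
  induction s using Finset.induction with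
  | empty => simp
  | insert a s ha ih =>
    rw [Finset.biUnion_insert, Finset.sum_insert ha]
    have h := Finset.sum_union_inter (s₁ := t a) (s₂ := s.biUnion t) (f := f)
    have h0 : 0 ≤ ∑ b ∈ t a ∩ s.biUnion t, f b := Finset.sum_nonneg fun b _ => hf b
    linarith

lemma sum_image_le_sum {α β : Type*} [DecidableEq β] (s : Finset α) (g : α → β)
    (f : β → ℝ) (hf : ∀ b, 0 ≤ f b) :
    ∑ b ∈ s.image g, f b ≤ ∑ a ∈ s, f (g a) := by
  rw [← Finset.biUnion_singleton]
  refine (sum_biUnion_le_sum s (fun a => {g a}) f hf).trans (le_of_eq ?_)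
  simp

lemma le_exp_exp_ll (p : ℕ) : (p : ℝ) ≤ Real.exp (Real.exp (ll p)) := by
  rcases Nat.eq_zero_or_pos p with rfl | hp
  · simpa using (Real.exp_pos _).le
  have hp0 : (0 : ℝ) < p := by exact_mod_cast hp
  rw [← Real.log_le_iff_le_exp hp0]
  rcases le_or_gt (Real.log p) 0 with h | h
  · linarith [Real.exp_pos (ll p)]
  · exact (Real.log_le_iff_le_exp h).1 (le_max_right _ _)

lemma log_le_exp_ll (p : ℕ) : Real.log p ≤ Real.exp (ll p) := by
  rcases Nat.eq_zero_or_pos p with rfl | hp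
  · simpa using (Real.exp_pos _).le
  exact (Real.log_le_iff_le_exp (by exact_mod_cast hp)).2 (le_exp_exp_ll p)

lemma nthPrime_pos (n i : ℕ) (hi : 1 ≤ i) : 1 ≤ nthPrime n i := by
  rcases Nat.lt_or_ge n.primeFactorsList.length i with h | h
  · rw [nthPrime_eq_one h]
  · exact (nthPrime_mem hi h).1.one_le

lemma prof_mono (n : ℕ) {i j : ℕ} (hi : 1 ≤ i) (hij : i ≤ j) : prof n j ≤ prof n i := by
  induction j, hij using Nat.le_induction with
  | base => exact le_rfl
  | succ k hk ih => exact (prof_antitone (hi.trans hk)).trans ih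

lemma log_le_len_top {n : ℕ} (hn : 0 < n) :
    Real.log n ≤ (n.primeFactorsList.length : ℝ) * Real.exp (prof n 1) := by
  have h : n ≤ nthPrime n 1 ^ n.primeFactorsList.length := by
    conv_lhs => rw [← Nat.prod_primeFactorsList hn.ne']
    exact List.prod_le_pow_card _ _ fun p hp => le_nthPrime_one hp
  calc Real.log n ≤ Real.log ((nthPrime n 1 : ℝ) ^ n.primeFactorsList.length) :=
        Real.log_le_log (by exact_mod_cast hn) (by exact_mod_cast h)
    _ = (n.primeFactorsList.length : ℝ) * Real.log (nthPrime n 1) := Real.log_pow _ _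
    _ ≤ _ := mul_le_mul_of_nonneg_left (log_le_exp_ll _) (Nat.cast_nonneg _)

/-- The logarithm of `n` from its two largest primes. -/
lemma log_le_top_two {n : ℕ} (hn : 0 < n) :
    Real.log n ≤ Real.log (nthPrime n 1) + (n.primeFactorsList.length : ℝ) * Real.exp (prof n 2) := by
  rcases (show n = 1 ∨ 1 < n by omega) with rfl | h1
  · simp [nthPrime]
  obtain ⟨m, hm, hnm, hp, hle⟩ := exists_top h1
  have hlen : n.primeFactorsList.length = m.primeFactorsList.length + 1 := by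
    conv_lhs => rw [hnm, primeFactorsList_mul_top hp hm hle]
    simp
  have h2 : nthPrime n 2 = nthPrime m 1 := by
    conv_lhs => rw [hnm]
    exact nthPrime_mul_top_succ hp hm hle le_rfl
  have hb := log_le_len_top (Nat.pos_of_ne_zero hm)
  have hcast : Real.log n = Real.log (nthPrime n 1) + Real.log m := by
    conv_lhs => rw [hnm, Nat.cast_mul]
    exact Real.log_mul (by exact_mod_cast hp.ne_zero) (by exact_mod_cast hm)
  have h3 : prof m 1 = prof n 2 := by rw [prof, prof, h2]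
  rw [hcast, hlen]
  push_cast
  rw [h3] at hb
  nlinarith [Real.exp_pos (prof n 2)]

/-- Strip the `k` largest primes, all single and above the bottom scale. -/
lemma exists_split {u : ℝ} (hy : 0 ≤ yLow u) {n : ℕ} (hn : 0 < n)
    (hsq : ∀ p : ℕ, p.Prime → yLow u < ll p → ¬ p ^ 2 ∣ n) :
    ∀ k : ℕ, (∀ i, 1 ≤ i → i ≤ k → yLow u < prof n i) →
      ∃ r : ℕ, 0 < r ∧ r ∣ n ∧ r.primeFactorsList.length ≤ n.primeFactorsList.length ∧
        (∀ i, 1 ≤ i → nthPrime r i = nthPrime n (i + k)) ∧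
        Nat.totient n = (∏ i ∈ Finset.Icc 1 k, Nat.totient (nthPrime n i)) * Nat.totient r := by
  intro k
  induction k with
  | zero => exact fun _ => ⟨n, hn, dvd_rfl, le_rfl, fun i _ => rfl, by simp⟩
  | succ k ih =>
    intro h
    obtain ⟨r, hr, hrn, hlen, hnth, htot⟩ := ih fun i h1 h2 => h i h1 (by omega)
    have hq : yLow u < ll (nthPrime r 1) := by
      rw [hnth 1 le_rfl, Nat.add_comm 1 k]
      exact h (k + 1) (by omega) le_rfl
    have hr1 : 1 < r := by
      by_contra hc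
      have : r = 1 := by omega
      subst this
      rw [show nthPrime 1 1 = 1 by simp [nthPrime], ll_one] at hq
      linarith
    obtain ⟨m, hm, hrm, hp, hle⟩ := exists_top hr1
    have hne : ∀ p ∈ m.primeFactors, p < nthPrime r 1 := by
      intro p hpm
      refine lt_of_le_of_ne (hle p hpm) fun he => hsq _ hp hq ?_
      refine dvd_trans ?_ hrn
      conv_rhs => rw [hrm]
      rw [sq]
      exact Nat.mul_dvd_mul_left _ (he ▸ Nat.dvd_of_mem_primeFactors hpm)
    refine ⟨m, Nat.pos_of_ne_zero hm, (Dvd.intro_left _ hrm.symm).trans hrn, ?_, ?_, ?_⟩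
    · refine le_trans ?_ hlen
      conv_rhs => rw [hrm, primeFactorsList_mul_top hp hm hle]
      simp
    · intro i hi
      have e := nthPrime_mul_top_succ hp hm hle hi
      rw [← hrm, hnth (i + 1) (by omega)] at e
      rw [← e]
      congr 1
      omega
    · rw [htot, Finset.prod_Icc_succ_top (by omega), mul_assoc]
      congr 1
      conv_lhs => rw [hrm]
      rw [totient_mul_top hp hne hm, hnth 1 le_rfl, Nat.add_comm 1 k]
      congr 1
      rw [Nat.totient_prime]
      rw [hnth 1 le_rfl, Nat.add_comm 1 k] at hp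
      exact hp

lemma coef_two_add_sq : (101 / 100 : ℝ) ≤ gRen 2 := by
  have e2 : gRen 2 = coef 2 + coef 1 * coef 1 := by
    rw [gRen_succ_eq, Finset.sum_range_succ, Finset.sum_range_one, gRen_zero, gRen_one]
    simp
  have h3 : (19 : ℝ) * Real.log 2 ≤ 12 * Real.log 3 := by
    have h := Real.log_le_log (by norm_num : (0 : ℝ) < 2 ^ 19)
      (by norm_num : (2 : ℝ) ^ 19 ≤ 3 ^ 12)
    rw [Real.log_pow, Real.log_pow] at h
    exact_mod_cast h
  have hc2 : coef 2 = 3 * Real.log 3 - 2 * Real.log 2 - 1 := by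
    simp [coef]; norm_num
  have hsq : (1 / 9 : ℝ) ≤ coef 1 * coef 1 := by nlinarith [coef_one_bounds.1]
  rw [e2, hc2]
  linarith [Real.log_two_gt_d9]

/-- The growth facts used for one value of `u`. -/
structure Facts (u : ℝ) : Prop where
  big : 2000 ≤ u
  bigL : 100 ≤ LL u
  hK : 2 ≤ K1 u
  hlt : K1 u < K2 u
  hK2 : (K2 u : ℝ) ≤ 8 * LL u
  g2 : gRen (K2 u) ≤ u / LL u ^ 64
  g2' : u / LL u ^ 64 ≤ 4 * gRen (K2 u)
  g1 : gRen (K1 u) ≤ u / LL u ^ 128
  g1' : u / LL u ^ 128 ≤ 4 * gRen (K1 u)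
  pow14 : 1000 * LL u ^ 16 ≤ u
  h34 : u ^ ((3 : ℝ) / 4) ≤ u / 1000

lemma eventually_facts : ∀ᶠ u : ℝ in atTop, Facts u := by
  filter_upwards [levelK_spec 64, levelK_spec 128, levelK_lt (e := 128) (d := 64) (by norm_num),
    eventually_LL_pow_le 16 (1 / 1000) (by norm_num), tendsto_LL.eventually_ge_atTop 100,
    eventually_ge_atTop (2000 : ℝ), eventually_ge_atTop ((1000 : ℝ) ^ (4 : ℕ))]
    with u h2 h1 hlt hpow hL hu hu4
  have hu0 : 0 < u := by linarith
  refine ⟨hu, hL, ?_, hlt, h2.2.2.2.2, h2.1, le_trans h2.2.1.le h2.2.2.1, h1.1,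
    le_trans h1.2.1.le h1.2.2.1, by linarith, ?_⟩
  · have : (2 : ℝ) ≤ K1 u := le_trans (by linarith) h1.2.2.2.1
    exact_mod_cast this
  · rw [le_div_iff₀ (by norm_num)]
    have h14 : (1000 : ℝ) ≤ u ^ ((1 : ℝ) / 4) := by
      rw [← Real.rpow_le_rpow_iff (z := (4 : ℝ)) (by norm_num) (Real.rpow_nonneg hu0.le _)
        (by norm_num), ← Real.rpow_mul hu0.le]
      norm_num at hu4 ⊢
      linarith
    calc u ^ ((3 : ℝ) / 4) * 1000 ≤ u ^ ((3 : ℝ) / 4) * u ^ ((1 : ℝ) / 4) :=
          mul_le_mul_of_nonneg_left h14 (Real.rpow_nonneg hu0.le _)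
      _ = u := by rw [← Real.rpow_add hu0]; norm_num

lemma hgt_zero (u : ℝ) : hgt u 0 = u ^ ((3 : ℝ) / 4) := by simp [hgt, gRen_zero]

lemma gRen_mul_hgt {u : ℝ} (hu : 0 ≤ u) (i : ℕ) :
    gRen i * hgt u i = u ^ ((3 : ℝ) / 4) * gRen i ^ ((1 : ℝ) / 4) := by
  have h := gRen_pos i
  rw [hgt, Real.div_rpow hu h.le, mul_div_assoc', div_eq_iff (Real.rpow_pos_of_pos h _).ne',
    mul_assoc, ← Real.rpow_add h]
  norm_num
  ring

lemma Facts.upow {u : ℝ} (F : Facts u) {i : ℕ} (hi : 1 ≤ i) (hi2 : i ≤ K2 u) :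
    gRen i * hgt u i ≤ u / LL u ^ 16 ∧ LL u ^ 20 ≤ hgt u i := by
  have hu : 0 < u := by linarith [F.big]
  have hL : 0 < LL u := by linarith [F.bigL]
  have hgi : gRen i ≤ u / LL u ^ 64 := (gRen_mono hi hi2).trans F.g2
  have hpos := gRen_pos i
  have e64 : (LL u ^ 64) ^ ((1 : ℝ) / 4) = LL u ^ 16 := by
    rw [← Real.rpow_natCast (LL u) 64, ← Real.rpow_mul hL.le, ← Real.rpow_natCast (LL u) 16]
    norm_num
  refine ⟨?_, ?_⟩
  · rw [gRen_mul_hgt hu.le]
    calc u ^ ((3 : ℝ) / 4) * gRen i ^ ((1 : ℝ) / 4)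
        ≤ u ^ ((3 : ℝ) / 4) * (u / LL u ^ 64) ^ ((1 : ℝ) / 4) :=
          mul_le_mul_of_nonneg_left (Real.rpow_le_rpow hpos.le hgi (by norm_num))
            (Real.rpow_nonneg hu.le _)
      _ = u / LL u ^ 16 := by
          rw [Real.div_rpow hu.le (by positivity), e64, ← mul_div_assoc, ← Real.rpow_add hu]
          norm_num
  · have h1 : LL u ^ 64 ≤ u / gRen i := by
      rw [le_div_iff₀ hpos]
      rw [le_div_iff₀ (by positivity : (0 : ℝ) < LL u ^ 64)] at hgi
      linarith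
    calc LL u ^ 20 ≤ LL u ^ 48 := pow_le_pow_right₀ (by linarith [F.bigL]) (by norm_num)
      _ = (LL u ^ 64) ^ ((3 : ℝ) / 4) := by
          rw [← Real.rpow_natCast (LL u) 64, ← Real.rpow_mul hL.le, ← Real.rpow_natCast (LL u) 48]
          norm_num
      _ ≤ hgt u i := Real.rpow_le_rpow (by positivity) h1 (by norm_num)

/-- Coordinates under the chain conditions. -/
lemma Facts.coord {u : ℝ} (F : Facts u) {n : ℕ} (hA : Adm u n)
    (htop : chain (K2 u) (prof n) 0 ≤ u + hgt u 0) {i : ℕ} (hi : 1 ≤ i) (hi2 : i ≤ K2 u) :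
    gRen i * prof n i ≤ 1003 / 1000 * u := by
  have hu : 0 < u := by linarith [F.big]
  have hL : 100 ≤ LL u := F.bigL
  have h := gRen_mul_coord_le (K2 u) (prof n) (fun l => hgt u l) hi hi2 (prof_nonneg n)
    (fun l h1 h2 => hA.slack l h1 (by omega))
  have hsum : ∑ l ∈ Finset.Ico 1 i, gRen l * hgt u l ≤ u / 1000 := by
    calc ∑ l ∈ Finset.Ico 1 i, gRen l * hgt u l ≤ ∑ _l ∈ Finset.Ico 1 i, u / LL u ^ 16 := by
          refine Finset.sum_le_sum fun l hl => ?_
          obtain ⟨h1, h2⟩ := Finset.mem_Ico.1 hl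
          exact (F.upow h1 (by omega)).1
      _ = ((i - 1 : ℕ) : ℝ) * (u / LL u ^ 16) := by
          rw [Finset.sum_const, Nat.card_Ico, nsmul_eq_mul]
      _ ≤ (8 * LL u) * (u / LL u ^ 16) := by
          refine mul_le_mul_of_nonneg_right ?_ (by positivity)
          exact le_trans (by exact_mod_cast (by omega : i - 1 ≤ K2 u)) F.hK2
      _ ≤ u / 1000 := by
          rw [mul_div_assoc', div_le_div_iff₀ (by positivity) (by norm_num)]
          have h15 : (8000 : ℝ) ≤ LL u ^ 15 := by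
            calc (8000 : ℝ) ≤ 100 ^ 2 := by norm_num
              _ ≤ LL u ^ 2 := pow_le_pow_left₀ (by norm_num) hL 2
              _ ≤ LL u ^ 15 := pow_le_pow_right₀ (by linarith) (by norm_num)
          have := mul_le_mul_of_nonneg_left h15 (by positivity : 0 ≤ u * LL u)
          rw [show LL u ^ 16 = LL u * LL u ^ 15 by ring]
          linarith
  have h0 : hgt u 0 ≤ u / 1000 := by rw [hgt_zero]; exact F.h34
  linarith

lemma Facts.tailScale {u : ℝ} (F : Facts u) :
    LL u ^ 128 ≤ u / gRen (K1 u) ∧ u / gRen (K1 u) ≤ 4 * LL u ^ 128 := by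
  have hp := gRen_pos (K1 u)
  have hL : (0 : ℝ) < LL u ^ 128 := pow_pos (by linarith [F.bigL]) _
  constructor
  · rw [le_div_iff₀ hp]
    have := F.g1
    rw [le_div_iff₀ hL] at this
    linarith
  · rw [div_le_iff₀ hp]
    have := F.g1'
    rw [div_le_iff₀ hL] at this
    linarith

lemma Facts.prof_K2 {u : ℝ} (F : Facts u) {n : ℕ} (hA : Adm u n)
    (htop : chain (K2 u) (prof n) 0 ≤ u + hgt u 0) {i : ℕ} (hi : K2 u ≤ i) :
    prof n i ≤ yLump u := by
  have hK2 : 1 ≤ K2 u := by have := F.hK; have := F.hlt; omega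
  refine (prof_mono n hK2 hi).trans ?_
  have h := F.coord hA htop hK2 le_rfl
  have hg := gRen_pos (K2 u)
  have hL : 100 ≤ LL u := F.bigL
  have hg' := F.g2'
  rw [div_le_iff₀ (by positivity)] at hg'
  have h1 : gRen (K2 u) * prof n (K2 u) ≤ gRen (K2 u) * (5 * LL u ^ 64) := by
    have : 1003 / 1000 * u ≤ 1003 / 1000 * (4 * gRen (K2 u) * LL u ^ 64) :=
      mul_le_mul_of_nonneg_left hg' (by norm_num)
    nlinarith [mul_pos hg (by positivity : (0 : ℝ) < LL u ^ 64)]
  refine (le_of_mul_le_mul_left h1 hg).trans ?_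
  rw [yLump, show LL u ^ 66 = LL u ^ 2 * LL u ^ 64 by ring]
  exact mul_le_mul_of_nonneg_right (by nlinarith) (by positivity)

end Vale.Agent.P031.MainUpperAux
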