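import Vale.Agent.P031.UpperAux
import Vale.Agent.P031.Normal

/-! All but negligibly many totients have the upper structure. -/

open Finset Real Filter

namespace Vale.Agent.P031

open UA

/-! ### Facts true for all large `u` -/

/-- What the estimates below need about a large `u`. -/
structure UpperBig (u : ℝ) : Prop where
  l_ge : 100000 ≤ LL u
  pow_le : LL u ^ 80 ≤ u
  g_le : gRen (K2 u) ≤ u / LL u ^ 64
  g_ge : u / LL u ^ 64 ≤ 4 * gRen (K2 u)
  k_ge : 2 ≤ K2 u
  k_le : (K2 u : ℝ) ≤ 8 * LL u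

lemma eventually_upperBig : ∀ᶠ u : ℝ in atTop, UpperBig u := by
  filter_upwards [levelK_spec 64, tendsto_LL.eventually_ge_atTop 100000,
    eventually_LL_pow_le 80 1 one_pos] with u ⟨h1, h2, h3, h4, h5⟩ hL hp
  refine ⟨hL, by linarith, h1, by unfold K2; linarith, ?_, h5⟩
  have : (2 : ℝ) ≤ (levelK u 64 : ℝ) := by linarith
  exact_mod_cast this

namespace UpperBig

variable {u : ℝ} (hb : UpperBig u)
include hb

lemma l_pos : 0 < LL u := by linarith [hb.l_ge]

lemma one_le_l : 1 ≤ LL u := by linarith [hb.l_ge]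

lemma l_le_u : LL u ≤ u :=
  (le_self_pow₀ hb.one_le_l (by norm_num)).trans hb.pow_le

lemma u_pos : 0 < u := hb.l_pos.trans_le hb.l_le_u

lemma u_ge : 100000 ≤ u := hb.l_ge.trans hb.l_le_u

lemma exp_l : Real.exp (LL u) = u := Real.exp_log hb.u_pos

lemma yLow_nonneg : 0 ≤ yLow u := pow_nonneg hb.l_pos.le _

lemma gRen_le {i : ℕ} (hi : i ≤ K2 u) : gRen i ≤ u / LL u ^ 64 := by
  rcases Nat.eq_zero_or_pos i with rfl | h
  · rw [gRen_zero, le_div_iff₀ (pow_pos hb.l_pos _), one_mul]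
    exact (pow_le_pow_right₀ hb.one_le_l (by norm_num)).trans hb.pow_le
  · exact (gRen_mono h hi).trans hb.g_le

lemma ratio_ge {i : ℕ} (hi : i ≤ K2 u) : LL u ^ 64 ≤ u / gRen i := by
  rw [le_div_iff₀ (gRen_pos i)]
  have := hb.gRen_le hi
  rw [le_div_iff₀ (pow_pos hb.l_pos _)] at this
  linarith

lemma hgt_ge {i : ℕ} (hi : i ≤ K2 u) : LL u ^ 48 ≤ hgt u i := by
  calc LL u ^ 48 = (LL u ^ 64) ^ ((3 : ℝ) / 4) := by
        rw [← Real.rpow_natCast (LL u) 64, ← Real.rpow_mul hb.l_pos.le, ← Real.rpow_natCast]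
        norm_num
    _ ≤ _ := Real.rpow_le_rpow (pow_nonneg hb.l_pos.le _) (hb.ratio_ge hi) (by norm_num)

lemma gRen_mul_hgt_le {i : ℕ} (hi : i ≤ K2 u) : gRen i * hgt u i ≤ u := by
  have h1 : (1 : ℝ) ≤ u / gRen i := (one_le_pow₀ hb.one_le_l).trans (hb.ratio_ge hi)
  have h2 : hgt u i ≤ u / gRen i := by
    refine (Real.rpow_le_rpow_of_exponent_le h1 (by norm_num : (3 : ℝ) / 4 ≤ 1)).trans (le_of_eq ?_)
    exact Real.rpow_one _
  calc gRen i * hgt u i ≤ gRen i * (u / gRen i) := mul_le_mul_of_nonneg_left h2 (gRen_pos i).le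
    _ = u := by field_simp [(gRen_pos i).ne']

/-- The error of a profile weight is small against `h_i`. -/
lemma err_le {i K : ℕ} (hi : i ≤ K2 u) (hK : K ≤ K2 u + 1) {C : ℝ} (hC0 : 0 ≤ C) (hC : C ≤ LL u) :
    ((K : ℝ) + 1) * ((K : ℝ) + 1) *
        (yLow u + 1 + (30 * LL u * (u / gRen i)) ^ ((5 : ℝ) / 8) + C) + 200 * LL u ^ 2 + 2
      ≤ hgt u i / 2 := by
  have hL := hb.l_ge
  have hLp := hb.l_pos
  have hR : LL u ^ 64 ≤ u / gRen i := hb.ratio_ge hi
  set R := u / gRen i with hRdef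
  have hR0 : 0 ≤ R := le_trans (by positivity) hR
  set Q := R ^ ((5 : ℝ) / 8) with hQ
  have hQ0 : LL u ^ 40 ≤ Q := by
    calc LL u ^ 40 = (LL u ^ 64) ^ ((5 : ℝ) / 8) := by
          rw [← Real.rpow_natCast (LL u) 64, ← Real.rpow_mul hLp.le, ← Real.rpow_natCast]
          norm_num
      _ ≤ Q := Real.rpow_le_rpow (by positivity) hR (by norm_num)
  have h8 : LL u ^ 8 * Q ≤ hgt u i := by
    have hRp : 0 < R := lt_of_lt_of_le (by positivity) hR
    have : hgt u i = R ^ ((1 : ℝ) / 8) * Q := by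
      rw [hQ, ← Real.rpow_add hRp, hgt, ← hRdef]; norm_num
    rw [this]
    refine mul_le_mul_of_nonneg_right ?_ (Real.rpow_nonneg hR0 _)
    calc LL u ^ 8 = (LL u ^ 64) ^ ((1 : ℝ) / 8) := by
          rw [← Real.rpow_natCast (LL u) 64, ← Real.rpow_mul hLp.le, ← Real.rpow_natCast]
          norm_num
      _ ≤ _ := Real.rpow_le_rpow (by positivity) hR (by norm_num)
  have hM : (30 * LL u * R) ^ ((5 : ℝ) / 8) ≤ 30 * LL u * Q := by
    rw [Real.mul_rpow (by positivity) hR0]
    refine mul_le_mul_of_nonneg_right ?_ (Real.rpow_nonneg hR0 _)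
    exact Real.rpow_le_self_of_one_le (by linarith) (by norm_num)
  have hsmall : yLow u + 1 + C ≤ 3 * (LL u * Q) := by
    have h1 : yLow u ≤ Q := (pow_le_pow_right₀ hb.one_le_l (by norm_num)).trans hQ0
    have h2 : C ≤ Q := hC.trans ((le_self_pow₀ hb.one_le_l (by norm_num)).trans hQ0)
    have h3 : 1 ≤ Q := (one_le_pow₀ hb.one_le_l).trans hQ0
    have h4 : Q ≤ LL u * Q := le_mul_of_one_le_left (by linarith) hb.one_le_l
    linarith
  have hK' : (K : ℝ) + 1 ≤ 10 * LL u := by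
    have : (K : ℝ) ≤ (K2 u : ℝ) + 1 := by exact_mod_cast hK
    linarith [hb.k_le]
  have hQp : 0 ≤ Q := Real.rpow_nonneg hR0 _
  have hKK : ((K : ℝ) + 1) * ((K : ℝ) + 1) ≤ (10 * LL u) * (10 * LL u) :=
    mul_le_mul hK' hK' (by positivity) (by positivity)
  have h5 : ((K : ℝ) + 1) * ((K : ℝ) + 1) * (yLow u + 1 + (30 * LL u * R) ^ ((5 : ℝ) / 8) + C)
      ≤ (10 * LL u) * (10 * LL u) * (33 * (LL u * Q)) :=
    mul_le_mul hKK (by linarith) (by
      have := hb.yLow_nonneg
      have : 0 ≤ (30 * LL u * R) ^ ((5 : ℝ) / 8) := Real.rpow_nonneg (by positivity) _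
      linarith) (by positivity)
  have h6 : 200 * LL u ^ 2 + 2 ≤ 202 * (LL u ^ 3 * Q) := by
    have h1 : (1 : ℝ) ≤ Q := (one_le_pow₀ hb.one_le_l).trans hQ0
    have h2 : LL u ^ 2 ≤ LL u ^ 3 * Q :=
      le_trans (pow_le_pow_right₀ hb.one_le_l (by norm_num))
        (le_mul_of_one_le_right (by positivity) h1)
    have h3 : (1 : ℝ) ≤ LL u ^ 2 := one_le_pow₀ hb.one_le_l
    linarith
  have h7 : 8000 * (LL u ^ 3 * Q) ≤ LL u ^ 8 * Q := by
    rw [← mul_assoc]
    refine mul_le_mul_of_nonneg_right ?_ hQp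
    calc 8000 * LL u ^ 3 ≤ LL u ^ 5 * LL u ^ 3 := by
          refine mul_le_mul_of_nonneg_right ?_ (by positivity)
          linarith [le_self_pow₀ hb.one_le_l (show (5 : ℕ) ≠ 0 by norm_num)]
      _ = LL u ^ 8 := by ring
  have h9 : (0 : ℝ) ≤ LL u ^ 3 * Q := by positivity
  nlinarith [h5, h6, h7, h8, h9]

end UpperBig

/-- A totient value `≤ exp (exp (u+2))` bounds everything. -/
lemma mem_totSet {X : ℝ} {m : ℕ} (hX : 0 ≤ X) :
    m ∈ totSet X ↔ 1 ≤ m ∧ (m : ℝ) ≤ X ∧ IsTot m := by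
  classical
  simp only [totSet, Finset.mem_filter, Finset.mem_Icc, Nat.le_floor_iff hX]
  tauto

lemma totient_mem_totSet {X : ℝ} {n : ℕ} (hn : 0 < n) (h : (Nat.totient n : ℝ) ≤ X) :
    Nat.totient n ∈ totSet X :=
  (mem_totSet ((Nat.cast_nonneg _).trans h)).2 ⟨Nat.totient_pos.2 hn, h, n, hn, rfl⟩

lemma pred_dvd_totient {n p : ℕ} (hp : p.Prime) (h : p ∣ n) : p - 1 ∣ Nat.totient n :=
  Nat.totient_prime hp ▸ Nat.totient_dvd_of_dvd h

lemma totRecip_nonneg (X : ℝ) : 0 ≤ totRecip X := Finset.sum_nonneg fun _ _ => by positivity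

lemma totRecip_mono {X Y : ℝ} (hX : 0 ≤ X) (h : X ≤ Y) : totRecip X ≤ totRecip Y := by
  refine Finset.sum_le_sum_of_subset_of_nonneg (fun m hm => ?_) fun _ _ _ => by positivity
  obtain ⟨h1, h2, h3⟩ := (mem_totSet hX).1 hm
  exact (mem_totSet (hX.trans h)).2 ⟨h1, h2.trans h, h3⟩

/-! ### Coordinates, prefixes, codes -/

/-- Bound on one coordinate from the earlier slacks. -/
lemma coord_le {u : ℝ} (hb : UpperBig u) {n i : ℕ} (_hn : n ≠ 0) (hi : 1 ≤ i) (hiK : i ≤ K2 u)
    (hfirst : prof n 1 ≤ u + 3)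
    (hs : ∀ l, 1 ≤ l → l < i → -(hgt u l) ≤ slackAt (K2 u) (prof n) l) :
    prof n i ≤ 22 * LL u * (u / gRen i) := by
  have hL := hb.one_le_l
  have hu := hb.u_ge
  have hG := gRen_pos i
  rcases Nat.lt_or_ge i 2 with h | h
  · obtain rfl : i = 1 := by omega
    have hg1 : gRen 1 ≤ 2 / 5 := gRen_one ▸ coef_one_bounds.2
    have h1 : u ≤ u / gRen 1 := by rw [le_div_iff₀ hG]; nlinarith
    nlinarith
  · set k := K2 u with hk
    set y := prof n with hy
    have hk1 : 1 ≤ k := le_trans hi hiK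
    have hc1 : chain k y 1 ≤ u + 3 + hgt u 1 := by
      have := hs 1 le_rfl (by omega)
      rw [slackAt] at this; linarith
    have hh1 : hgt u 1 ≤ 3 * u := by
      have h1 := hb.gRen_mul_hgt_le (i := 1) hk1
      have h2 : (1 : ℝ) / 3 ≤ gRen 1 := gRen_one ▸ coef_one_bounds.1
      have h3 : 0 ≤ hgt u 1 := le_trans (by positivity) (hb.hgt_ge hk1)
      nlinarith
    have hA : chain k y 0 ≤ coef 1 * y 1 + 3 * chain k y 1 := by
      rw [chain, chain, show Finset.Ioc 0 k = insert 1 (Finset.Ioc 1 k) by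
        ext a; simp only [Finset.mem_Ioc, Finset.mem_insert]; omega,
        Finset.sum_insert (by simp), Finset.mul_sum]
      refine add_le_add (le_of_eq rfl) (Finset.sum_le_sum fun j hj => ?_)
      obtain ⟨hj1, -⟩ := Finset.mem_Ioc.1 hj
      rw [← mul_assoc]
      refine mul_le_mul_of_nonneg_right ?_ (prof_nonneg n j)
      have := coef_succ_le (j := j - 1) (by omega)
      rwa [Nat.sub_add_cancel (by omega : 1 ≤ j)] at this
    have hA' : chain k y 0 ≤ 14 * u := by
      have := coef_one_bounds.2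
      have := prof_nonneg n 1
      nlinarith
    have h1 := gRen_mul_coord_le k y (fun l => hgt u l) hi hiK (prof_nonneg n) hs
    have h2 : ∑ l ∈ Finset.Ico 1 i, gRen l * hgt u l ≤ (i : ℝ) * u := by
      refine (Finset.sum_le_sum (g := fun _ => u) fun l hl =>
        hb.gRen_mul_hgt_le ((Finset.mem_Ico.1 hl).2.le.trans hiK)).trans ?_
      rw [Finset.sum_const, nsmul_eq_mul, Nat.card_Ico]
      exact mul_le_mul_of_nonneg_right (by exact_mod_cast Nat.sub_le i 1) hb.u_pos.le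
    have h3 : (i : ℝ) ≤ 8 * LL u := le_trans (by exact_mod_cast hiK) hb.k_le
    rw [mul_div_assoc', le_div_iff₀ hG]
    have h4 : (i : ℝ) * u ≤ 8 * LL u * u := mul_le_mul_of_nonneg_right h3 hb.u_pos.le
    nlinarith

lemma _root_.Vale.Agent.P031.UA.Rows.congr {u : ℝ} {K : ℕ} {Y Y' : ℕ → ℕ} {k : ℕ} (h : Rows u K Y k)
    (he : ∀ r ∈ Finset.Icc 1 K, Y' r = Y r) : Rows u K Y' k := by
  obtain ⟨q, hq, hd⟩ := h.rows
  refine ⟨fun r s h1 h2 h3 => ?_, h.sq, q, fun r hr hlt => ?_, ?_⟩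
  · rw [he r (Finset.mem_Icc.2 ⟨h1, h2.trans h3⟩), he s (Finset.mem_Icc.2 ⟨h1.trans h2, h3⟩)]
    exact h.anti r s h1 h2 h3
  · rw [he r hr] at hlt ⊢; exact hq r hr hlt
  · rwa [Finset.filter_congr fun r hr => by rw [he r hr]]

/-- An integer profile from a code. -/
def decode {K M : ℕ} (c : Fin K → Fin M) (r : ℕ) : ℕ :=
  if h : 1 ≤ r ∧ r ≤ K then (c ⟨r - 1, by omega⟩ : ℕ) else 0

lemma exists_code {K M : ℕ} (Y : ℕ → ℕ) (h : ∀ r ∈ Finset.Icc 1 K, Y r < M) :
    ∃ c : Fin K → Fin M, ∀ r ∈ Finset.Icc 1 K, decode c r = Y r := by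
  refine ⟨fun a => ⟨Y (a.1 + 1), h _ (Finset.mem_Icc.2 ⟨by omega, by omega⟩)⟩, fun r hr => ?_⟩
  obtain ⟨h1, h2⟩ := Finset.mem_Icc.1 hr
  rw [decode, dif_pos ⟨h1, h2⟩]
  simp [Nat.sub_add_cancel h1]

/-- Products of `i` elements of `P`. -/
def predPow (P : Finset ℕ) : ℕ → Finset ℕ
  | 0 => {1}
  | i + 1 => (predPow P i ×ˢ P).image (fun t => t.1 * t.2)

lemma sum_predPow (P : Finset ℕ) {b : ℝ} (h : ∑ a ∈ P, 1 / (a : ℝ) ≤ b) : ∀ i : ℕ,
    ∑ a ∈ predPow P i, 1 / (a : ℝ) ≤ b ^ i := by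
  intro i
  induction i with
  | zero => simp [predPow]
  | succ i ih =>
    rw [predPow, pow_succ]
    refine (sum_image_mul_le _ _).trans (mul_le_mul ih h (Finset.sum_nonneg fun _ _ => by positivity) ?_)
    exact pow_nonneg ((Finset.sum_nonneg fun _ _ => by positivity).trans h) _

lemma prod_mem_predPow (P : Finset ℕ) (f : ℕ → ℕ) : ∀ i : ℕ,
    (∀ l, 1 ≤ l → l ≤ i → f l ∈ P) → ∏ l ∈ Finset.Icc 1 i, f l ∈ predPow P i := by
  intro i
  induction i with
  | zero => intro _; simp [predPow]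
  | succ i ih =>
    intro h
    rw [Finset.prod_Icc_succ_top (by omega), predPow]
    exact Finset.mem_image.2 ⟨(_, _), Finset.mem_product.2
      ⟨ih fun l h1 h2 => h l h1 (by omega), h (i + 1) (by omega) le_rfl⟩, rfl⟩

/-- Predecessors of primes with `ll p ≤ b`. -/
lemma sum_pred_primes : ∃ C : ℕ, ∀ b : ℝ, 0 ≤ b → ∀ Q : Finset ℕ,
    (∀ p ∈ Q, p.Prime ∧ ll p ≤ b) →
    ∑ a ∈ Q.image (fun p : ℕ => p - 1), 1 / (a : ℝ) ≤ b + C := by
  obtain ⟨C, -, hM⟩ := mertens_ll_upto
  refine ⟨C, fun b hb Q hQ => ?_⟩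
  refine (Finset.sum_image_le_of_nonneg (f := fun a : ℕ => 1 / (a : ℝ)) fun _ _ => by positivity).trans
    ((le_of_eq (Finset.sum_congr rfl fun p hp => ?_)).trans (hM b hb Q hQ))
  rw [Nat.cast_sub (hQ p hp).1.one_lt.le]
  simp

lemma log_floor_le {X : ℝ} (hX : 1 ≤ X) : Real.log (⌊X⌋₊ : ℝ) ≤ Real.log X :=
  Real.log_le_log (by exact_mod_cast Nat.floor_pos.2 hX) (Nat.floor_le (by linarith))

/-! ### Sums over the bad sets -/

lemma one_le_expexp (a : ℝ) : 1 ≤ Real.exp (Real.exp a) :=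
  Real.one_le_exp (Real.exp_pos a).le

/-- Sum of `2/(p(p-1))` over primes above the bottom scale. -/
lemma sum_sq_primes {u : ℝ} (hb : UpperBig u) (P : Finset ℕ) (hP : ∀ p ∈ P, yLow u < ll p) :
    ∑ p ∈ P, 1 / ((p : ℝ) * ((p : ℝ) - 1)) ≤ 2 * Real.exp (-Real.exp (yLow u)) := by
  set t := ⌊Real.exp (Real.exp (yLow u))⌋₊ with ht
  have h1 : 1 ≤ t := Nat.floor_pos.2 (one_le_expexp _)
  refine (sum_inv_mul_pred_tail h1 P fun p hp =>
    (Nat.floor_lt (Real.exp_pos _).le).2 (exp_exp_le_of_lt_ll hb.yLow_nonneg (hP p hp))).trans ?_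
  rw [Real.exp_neg, ← div_eq_mul_inv, div_le_div_iff₀ (by exact_mod_cast h1) (Real.exp_pos _)]
  have h2 := Nat.lt_floor_add_one (Real.exp (Real.exp (yLow u)))
  have h3 : (1 : ℝ) ≤ t := by exact_mod_cast h1
  linarith

/-- Growth facts used to absorb crude losses. -/
structure UpperAbsorb (u : ℝ) (C : ℕ) : Prop where
  c_le : (C : ℝ) ≤ LL u
  sq_small : 2 * LL u ^ 3 + 2 * u + 20 ≤ Real.exp (yLow u)

lemma eventually_upperAbsorb (C : ℕ) : ∀ᶠ u : ℝ in atTop, UpperAbsorb u C := by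
  filter_upwards [eventually_upperBig, tendsto_LL.eventually_ge_atTop (C : ℝ)] with u hb hC
  refine ⟨hC, ?_⟩
  have h1 : LL u + LL u ≤ yLow u := by
    have : LL u ^ 2 ≤ yLow u := pow_le_pow_right₀ hb.one_le_l (by norm_num)
    nlinarith [hb.l_ge]
  have h2 : u * u ≤ Real.exp (yLow u) := by
    calc u * u = Real.exp (LL u + LL u) := by rw [Real.exp_add, hb.exp_l]
      _ ≤ _ := Real.exp_le_exp.2 h1
  have h3 : LL u ^ 3 ≤ u := (pow_le_pow_right₀ hb.one_le_l (by norm_num)).trans hb.pow_le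
  nlinarith [hb.u_ge]

lemma bad_sq_recip {u : ℝ} (hb : UpperBig u) (ha : UpperAbsorb u 0) (S : Finset ℕ)
    (hS : ∀ m ∈ S, m ∈ totSet (Real.exp (Real.exp (u + 2))) ∧
      ∃ p : ℕ, p.Prime ∧ yLow u < ll p ∧ (p ^ 2 ∣ m ∨ p * (p - 1) ∣ m)) :
    ∑ m ∈ S, 1 / (m : ℝ) ≤ Real.exp (-(2 * LL u ^ 3)) := by
  classical
  set X := Real.exp (Real.exp (u + 2)) with hX
  set N := ⌊X⌋₊ with hN
  set P := (Nat.primesLE (N + 1)).filter (fun p => yLow u < ll p) with hP
  set Q : ℕ → ℕ → Prop := fun p m => p ^ 2 ∣ m ∨ p * (p - 1) ∣ m with hQdef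
  have hcov : ∀ m ∈ S, ∃ p ∈ P, Q p m := by
    intro m hm
    obtain ⟨hmt, p, hp, hy, hd⟩ := hS m hm
    obtain ⟨h1, h2, -⟩ := (mem_totSet (Real.exp_pos _).le).1 hmt
    have hmN : m ≤ N := Nat.le_floor h2
    refine ⟨p, Finset.mem_filter.2 ⟨Nat.mem_primesLE.2 ⟨?_, hp⟩, hy⟩, hd⟩
    rcases hd with hd | hd
    · have := Nat.le_of_dvd h1 ((dvd_pow_self p two_ne_zero).trans hd); omega
    · have := Nat.le_of_dvd h1 ((dvd_mul_right p (p - 1)).trans hd); omega
  have hlog : 1 + Real.log N ≤ Real.exp (u + 3) := by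
    have h1 : Real.log N ≤ Real.exp (u + 2) := (log_floor_le (one_le_expexp _)).trans (le_of_eq (Real.log_exp _))
    have h2 : Real.exp (u + 2) + Real.exp (u + 2) ≤ Real.exp (u + 3) := by
      rw [show u + 3 = (u + 2) + 1 by ring, Real.exp_add (u + 2) 1]
      nlinarith [Real.exp_pos (u + 2), Real.add_one_le_exp (1 : ℝ)]
    have h3 : 1 ≤ Real.exp (u + 2) := Real.one_le_exp (by linarith [hb.u_pos])
    linarith
  calc ∑ m ∈ S, 1 / (m : ℝ)
      ≤ ∑ p ∈ P, ∑ m ∈ S.filter (Q p), 1 / (m : ℝ) :=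
        sum_le_of_cover S P Q _ (fun _ _ => by positivity) hcov
    _ ≤ ∑ p ∈ P, 2 * (Real.exp (u + 3) * (1 / ((p : ℝ) * ((p : ℝ) - 1)))) := by
        refine Finset.sum_le_sum fun p hp => ?_
        have hpp := (Nat.mem_primesLE.1 (Finset.mem_filter.1 hp).1).2
        have h2 : (2 : ℝ) ≤ p := by exact_mod_cast hpp.two_le
        have hb2 : ∀ d : ℕ, (p : ℝ) * ((p : ℝ) - 1) ≤ d → ∀ T : Finset ℕ,
            (∀ m ∈ T, m ∈ S ∧ d ∣ m) →
            ∑ m ∈ T, 1 / (m : ℝ) ≤ Real.exp (u + 3) * (1 / ((p : ℝ) * ((p : ℝ) - 1))) := by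
          intro d hd T hT
          have hdp : (0 : ℝ) < d := lt_of_lt_of_le (by nlinarith) hd
          refine (sum_recip_multiples (N := N) (by exact_mod_cast hdp) T fun m hm => ?_).trans ?_
          · obtain ⟨h1, h3, -⟩ := (mem_totSet (Real.exp_pos _).le).1 (hS m (hT m hm).1).1
            exact ⟨h1, Nat.le_floor h3, (hT m hm).2⟩
          · rw [mul_one_div]
            exact div_le_div₀ (Real.exp_pos _).le hlog (by nlinarith) hd
        calc ∑ m ∈ S.filter (Q p), 1 / (m : ℝ)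
            ≤ ∑ m ∈ S.filter (fun m => p ^ 2 ∣ m), 1 / (m : ℝ) +
              ∑ m ∈ S.filter (fun m => p * (p - 1) ∣ m), 1 / (m : ℝ) := by
              rw [← Finset.sum_union_inter, ← Finset.filter_or]
              exact le_add_of_nonneg_right (Finset.sum_nonneg fun _ _ => by positivity)
          _ ≤ _ := by
              rw [two_mul]
              refine add_le_add
                (hb2 (p ^ 2) (by push_cast; nlinarith) _ fun m hm => Finset.mem_filter.1 hm)
                (hb2 (p * (p - 1)) (le_of_eq ?_) _ fun m hm => Finset.mem_filter.1 hm)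
              rw [Nat.cast_mul, Nat.cast_sub hpp.one_lt.le]; simp
    _ ≤ 2 * (Real.exp (u + 3) * (2 * Real.exp (-Real.exp (yLow u)))) := by
        rw [← Finset.mul_sum, ← Finset.mul_sum]
        gcongr
        exact sum_sq_primes hb P fun p hp => (Finset.mem_filter.1 hp).2
    _ ≤ Real.exp (-(2 * LL u ^ 3)) := by
        have h4 : (4 : ℝ) ≤ Real.exp 3 := by linarith [Real.add_one_le_exp (3 : ℝ)]
        calc 2 * (Real.exp (u + 3) * (2 * Real.exp (-Real.exp (yLow u))))
            = 4 * (Real.exp (u + 3) * Real.exp (-Real.exp (yLow u))) := by ring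
          _ ≤ Real.exp 3 * (Real.exp (u + 3) * Real.exp (-Real.exp (yLow u))) := by gcongr
          _ ≤ _ := by
              rw [← Real.exp_add, ← Real.exp_add]
              exact Real.exp_le_exp.2 (by linarith [ha.sq_small, hb.u_pos])

lemma bad_len_recip : ∀ᶠ u : ℝ in atTop, ∀ (X : ℝ) (S : Finset ℕ),
    1 ≤ X → X ≤ Real.exp (Real.exp (u + 2)) →
    (∀ m ∈ S, 1 ≤ m ∧ (m : ℝ) ≤ X ∧ u ^ 3 - 4 ≤ (m.primeFactorsList.length : ℝ)) →
    ∑ m ∈ S, 1 / (m : ℝ) ≤ Real.exp (-(2 * LL u ^ 3) - 2 * u) := by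
  obtain ⟨C, hC⟩ := omega_recip
  filter_upwards [eventually_upperBig, eventually_ge_atTop (10 * (C : ℝ) + 10)] with u hb hCu X S hX1 hX hS
  set c := Real.log (3 / 2) with hc
  have hc3 : (1 : ℝ) / 3 ≤ c := by
    have := Real.one_sub_inv_le_log_of_pos (show (0 : ℝ) < 3 / 2 by norm_num)
    norm_num at this; linarith
  have hu3 : 4 ≤ u ^ 3 := by nlinarith [hb.u_ge, mul_le_mul hb.u_ge hb.u_ge (by norm_num) hb.u_pos.le]
  set N := ⌊X⌋₊ with hN
  have hw : ∀ m ∈ S, Real.exp ((u ^ 3 - 4) / 3) * (1 / (m : ℝ)) ≤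
      (3 / 2 : ℝ) ^ m.primeFactorsList.length / m := by
    intro m hm
    rw [mul_one_div]
    refine div_le_div_of_nonneg_right ?_ (Nat.cast_nonneg _)
    rw [← Real.rpow_natCast (3 / 2 : ℝ) m.primeFactorsList.length,
      Real.rpow_def_of_pos (by norm_num : (0 : ℝ) < 3 / 2)]
    refine Real.exp_le_exp.2 ?_
    have := (hS m hm).2.2
    nlinarith
  have h1 : ∑ m ∈ S, (3 / 2 : ℝ) ^ m.primeFactorsList.length / m ≤
      C * (Real.log (N + 3) + 1) ^ C := by
    refine le_trans (Finset.sum_le_sum_of_subset_of_nonneg (fun m hm => Finset.mem_Icc.2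
      ⟨(hS m hm).1, Nat.le_floor (hS m hm).2.1⟩) fun _ _ _ => by positivity) (hC N)
  have h2 := (Finset.sum_le_sum hw).trans h1
  rw [← Finset.mul_sum, mul_comm, ← le_div_iff₀ (Real.exp_pos _), div_eq_mul_inv, ← Real.exp_neg] at h2
  have hlog : Real.log ((N : ℝ) + 3) + 1 ≤ Real.exp (u + 5) := by
    have hN' : (N : ℝ) + 3 ≤ Real.exp (Real.exp (u + 2) + 2) := by
      have h4 : (4 : ℝ) ≤ Real.exp 2 := by
        have := Real.add_one_le_exp (1 : ℝ)
        calc (4 : ℝ) = 2 * 2 := by norm_num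
          _ ≤ Real.exp 1 * Real.exp 1 := mul_le_mul (by linarith) (by linarith) (by norm_num) (Real.exp_pos _).le
          _ = Real.exp 2 := by rw [← Real.exp_add]; norm_num
      rw [Real.exp_add]
      have : (N : ℝ) ≤ Real.exp (Real.exp (u + 2)) := (Nat.floor_le (by linarith)).trans hX
      nlinarith [one_le_expexp (u + 2)]
    have h5 : Real.log ((N : ℝ) + 3) ≤ Real.exp (u + 2) + 2 :=
      (Real.log_le_iff_le_exp (by positivity)).2 hN'
    have h6 : 1 ≤ Real.exp (u + 2) := Real.one_le_exp (by linarith [hb.u_pos])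
    have h7 : 4 * Real.exp (u + 2) ≤ Real.exp (u + 5) := by
      rw [show u + 5 = 3 + (u + 2) by ring, Real.exp_add 3 (u + 2)]
      exact mul_le_mul_of_nonneg_right (by linarith [Real.add_one_le_exp (3 : ℝ)]) (Real.exp_pos _).le
    linarith
  have h3 : (C : ℝ) * (Real.log ((N : ℝ) + 3) + 1) ^ C ≤ Real.exp ((C : ℝ) + C * (u + 5)) := by
    rw [Real.exp_add, Real.exp_nat_mul (u + 5) C]
    refine mul_le_mul (by linarith [Real.add_one_le_exp (C : ℝ)]) ?_ ?_ (Real.exp_pos _).le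
    · exact pow_le_pow_left₀ (add_nonneg (Real.log_nonneg (by linarith [(Nat.cast_nonneg N : (0:ℝ) ≤ N)])) zero_le_one) hlog C
    · exact pow_nonneg (add_nonneg (Real.log_nonneg (by linarith [(Nat.cast_nonneg N : (0:ℝ) ≤ N)])) zero_le_one) C
  refine h2.trans ((mul_le_mul_of_nonneg_right h3 (Real.exp_pos _).le).trans ?_)
  rw [← Real.exp_add]
  refine Real.exp_le_exp.2 ?_
  have hL3 : LL u ^ 3 ≤ u := (pow_le_pow_right₀ hb.one_le_l (by norm_num)).trans hb.pow_le
  have : (C : ℝ) * (u + 6) ≤ u * u := by nlinarith [hb.u_ge]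
  nlinarith [hb.u_ge, mul_le_mul_of_nonneg_right hb.u_ge (sq_nonneg u)]

lemma bad_normal_recip : ∀ᶠ u : ℝ in atTop, ∀ S : Finset ℕ,
    (∀ m ∈ S, m ∈ totSet (Real.exp (Real.exp (u + 2))) ∧
      ∃ n q : ℕ, 0 < n ∧ Nat.totient n = m ∧ q.Prime ∧ q ∣ n ∧ ¬ q ^ 2 ∣ n ∧ ¬ NormalPrime u q) →
    ∑ m ∈ S, 1 / (m : ℝ) ≤
      Real.exp (-(2 * LL u ^ 3)) * totRecip (Real.exp (Real.exp (u + 2))) := by
  classical
  filter_upwards [eventually_upperBig, abnormal_recip] with u hb hab S hS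
  set X := Real.exp (Real.exp (u + 2)) with hX
  set N := ⌊X⌋₊ with hN
  set Q := (Nat.primesLE (N + 1)).filter (fun q => ¬ NormalPrime u q) with hQ
  have hsub : S ⊆ (Q.image (fun q => q - 1) ×ˢ totSet X).image (fun t => t.1 * t.2) := by
    intro m hm
    obtain ⟨hmt, n, q, hn, hφ, hq, ⟨k, rfl⟩, hsq, hnn⟩ := hS m hm
    obtain ⟨h1, h2, -⟩ := (mem_totSet (Real.exp_pos _).le).1 hmt
    have hco : q.Coprime k := hq.coprime_iff_not_dvd.2 fun hd => hsq (by
      rw [pow_two]; exact Nat.mul_dvd_mul_left q hd)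
    rw [Nat.totient_mul hco, Nat.totient_prime hq] at hφ
    have hk : 0 < k := Nat.pos_of_mul_pos_left hn
    have hq1 : q - 1 ≤ m := Nat.le_of_dvd h1 ⟨_, hφ.symm⟩
    have hkm : Nat.totient k ≤ m := Nat.le_of_dvd h1 ⟨q - 1, by rw [← hφ]; ring⟩
    have hmN : m ≤ N := Nat.le_floor h2
    refine Finset.mem_image.2 ⟨(q - 1, Nat.totient k), Finset.mem_product.2
      ⟨Finset.mem_image.2 ⟨q, Finset.mem_filter.2 ⟨Nat.mem_primesLE.2 ⟨by omega, hq⟩, hnn⟩, rfl⟩,
        totient_mem_totSet hk (le_trans (by exact_mod_cast hkm) h2)⟩, hφ⟩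
  refine (Finset.sum_le_sum_of_subset_of_nonneg hsub fun _ _ _ => by positivity).trans
    ((sum_image_mul_le _ _).trans (mul_le_mul_of_nonneg_right ?_ (totRecip_nonneg _)))
  refine (Finset.sum_image_le_of_nonneg fun _ _ => by positivity).trans ?_
  refine le_trans (le_of_eq (Finset.sum_congr rfl fun q hq => ?_)) (hab Q fun q hq => ?_)
  · rw [Nat.cast_sub (Nat.mem_primesLE.1 (Finset.mem_filter.1 hq).1).2.one_lt.le]; simp
  · obtain ⟨hq1, hq2⟩ := Finset.mem_filter.1 hq
    obtain ⟨hle, hp⟩ := Nat.mem_primesLE.1 hq1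
    refine ⟨hp, ll_le_of_log_le (by linarith [hb.u_pos]) ?_, hq2⟩
    have h1 : (q : ℝ) ≤ (N : ℝ) + 1 := by exact_mod_cast hle
    have h2 : (q : ℝ) ≤ Real.exp (Real.exp (u + 2) + 1) := by
      rw [Real.exp_add]
      have := Nat.floor_le (Real.exp_pos (Real.exp (u + 2))).le
      nlinarith [Real.add_one_le_exp (1 : ℝ), one_le_expexp (u + 2)]
    refine ((Real.log_le_iff_le_exp (by exact_mod_cast hp.pos)).2 h2).trans ?_
    have h3 : Real.exp (u + 2) * 2 ≤ Real.exp (u + 4) := by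
      rw [show u + 4 = (u + 2) + 2 by ring, Real.exp_add (u + 2) 2]
      exact mul_le_mul_of_nonneg_left (by linarith [Real.add_one_le_exp (2 : ℝ)]) (Real.exp_pos _).le
    linarith [Real.one_le_exp (show (0 : ℝ) ≤ u + 2 by linarith [hb.u_pos])]

lemma bad_slack_recip : ∀ᶠ u : ℝ in atTop, ∀ S : Finset ℕ,
    (∀ m ∈ S, m ∈ totSet (Real.exp (Real.exp (u + 2))) ∧
      ∃ n : ℕ, Reg u n ∧ Nat.totient n = m ∧ prof n 1 ≤ u + 3 ∧
        ∃ i : ℕ, 1 ≤ i ∧ i ≤ K2 u ∧ slackAt (K2 u) (prof n) i < -(hgt u i)) →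
    ∑ m ∈ S, 1 / (m : ℝ) ≤ Real.exp (-(2 * LL u ^ 3)) := by
  classical
  obtain ⟨C, hC⟩ := profile_recip
  obtain ⟨C', hC'⟩ := sum_pred_primes
  filter_upwards [eventually_upperBig, eventually_upperAbsorb (C + C')] with u hb ha S hS
  have hCL : (C : ℝ) ≤ LL u ∧ (C' : ℝ) ≤ LL u := by
    have := ha.c_le; push_cast at this
    constructor <;> linarith [(Nat.cast_nonneg C : (0:ℝ) ≤ C), (Nat.cast_nonneg C' : (0:ℝ) ≤ C')]
  set k2 := K2 u with hk2
  set L := LL u with hL
  set X := Real.exp (Real.exp (u + 2)) with hX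
  set N := ⌊X⌋₊ with hN
  set M := ⌈u⌉₊ + 5 with hM
  set Pr := ((Nat.primesLE (N + 1)).filter (fun p => ll p ≤ u + 3)).image (fun p => p - 1) with hPr
  set good : ℕ × (Fin k2 → Fin M) → Prop := fun t =>
    ((decode t.2 1 : ℕ) : ℝ) + hgt u t.1 - 100 * L ^ 2 ≤
        phiSum (k2 - t.1 + 1) (fun r => (decode t.2 r : ℝ)) ∧
      ∀ r ∈ Finset.Icc 1 (k2 - t.1 + 1), (decode t.2 r : ℝ) ≤ 30 * L * (u / gRen t.1) with hgood
  set I := ((Finset.Icc 1 k2) ×ˢ (Finset.univ : Finset (Fin k2 → Fin M))).filter good with hI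
  set Sk : ℕ × (Fin k2 → Fin M) → Finset ℕ := fun t => (Finset.Icc 1 N).filter fun k =>
    (∀ p ∈ k.primeFactors, ll p ≤ (decode t.2 1 : ℝ) + 1) ∧
      Rows u (k2 - t.1 + 1) (decode t.2) k with hSk
  set img : ℕ × (Fin k2 → Fin M) → Finset ℕ := fun t =>
    (predPow Pr (t.1 - 1) ×ˢ Sk t).image (fun a => a.1 * a.2) with himg
  have hcov : ∀ m ∈ S, ∃ t ∈ I, m ∈ img t := by
    intro m hm
    obtain ⟨hmt, n, hreg, hφ, hfirst, hex⟩ := hS m hm
    obtain ⟨hm1, hmX, -⟩ := (mem_totSet (Real.exp_pos _).le).1 hmt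
    have hn : n ≠ 0 := hreg.pos.ne'
    obtain ⟨i, ⟨hi1, hiK, hviol⟩, hmin⟩ :
        ∃ i : ℕ, (1 ≤ i ∧ i ≤ k2 ∧ slackAt k2 (prof n) i < -(hgt u i)) ∧
          ∀ l < i, ¬ (1 ≤ l ∧ l ≤ k2 ∧ slackAt k2 (prof n) l < -(hgt u l)) :=
      ⟨Nat.find hex, Nat.find_spec hex, fun l hl => Nat.find_min hex hl⟩
    have hprev : ∀ l, 1 ≤ l → l < i → -(hgt u l) ≤ slackAt k2 (prof n) l := fun l h1 h2 => by
      by_contra h; exact hmin l h2 ⟨h1, h2.le.trans hiK, lt_of_not_ge h⟩
    have hcoord := coord_le hb hn hi1 hiK hfirst hprev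
    have hchain : prof n i + hgt u i ≤ chain k2 (prof n) i := by
      rw [slackAt] at hviol; linarith
    have hybig : yLow u < prof n i := by
      have h1 : chain k2 (prof n) i ≤ ((k2 - i : ℕ) : ℝ) * ((9 * L) * prof n i) := by
        rw [chain]
        refine (Finset.sum_le_sum (g := fun _ => (9 * L) * prof n i) fun j hj => ?_).trans ?_
        · obtain ⟨hj1, hj2⟩ := Finset.mem_Ioc.1 hj
          refine mul_le_mul ?_ (prof_antitone hn hi1 hj1.le) (prof_nonneg n j) (by linarith [hb.l_pos])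
          refine (coef_le_log (by omega)).trans ((Real.log_le_self (by positivity)).trans ?_)
          have : ((j - i : ℕ) : ℝ) ≤ k2 := by exact_mod_cast (by omega : j - i ≤ k2)
          linarith [hb.k_le, hb.one_le_l]
        · rw [Finset.sum_const, nsmul_eq_mul, Nat.card_Ioc]
      have h2 : ((k2 - i : ℕ) : ℝ) ≤ 8 * L := le_trans (by exact_mod_cast Nat.sub_le k2 i) hb.k_le
      have h3 := hb.hgt_ge hiK
      have hp0 := prof_nonneg n i
      have h4 : chain k2 (prof n) i ≤ 72 * L ^ 2 * prof n i := by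
        refine h1.trans ((mul_le_mul_of_nonneg_right h2
          (mul_nonneg (by linarith [hb.l_pos]) hp0)).trans (le_of_eq ?_)); ring
      have h5 : L ^ 48 ≤ 72 * L ^ 2 * prof n i := by linarith
      by_contra hle
      have h6 : 72 * L ^ 2 * prof n i ≤ 72 * L ^ 2 * L ^ 16 :=
        mul_le_mul_of_nonneg_left (le_of_not_gt hle) (by positivity)
      have h7 : L ^ 48 = L ^ 30 * (L ^ 2 * L ^ 16) := by ring
      have h8 : (100000 : ℝ) ≤ L ^ 30 := hb.l_ge.trans (le_self_pow₀ hb.one_le_l (by norm_num))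
      nlinarith [mul_pos (pow_pos hb.l_pos 2) (pow_pos hb.l_pos 16)]
    have hbig : ∀ l, 1 ≤ l → l ≤ i → yLow u < prof n l := fun l h1 h2 =>
      hybig.trans_le (prof_antitone hn h1 h2)
    have hpre : ∀ l, 1 ≤ l → l ≤ i - 1 →
        (nthPrime n l).Prime ∧ ¬ nthPrime n l ^ 2 ∣ n := fun l h1 h2 => by
      have hp := nthPrime_prime_of_ll (hb.yLow_nonneg.trans_lt (hbig l h1 (by omega)))
      exact ⟨hp, hreg.sq _ hp (hbig l h1 (by omega))⟩
    have hsplit := totient_cut hn (i - 1) hpre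
    obtain ⟨hc0, hcd, -⟩ := cut_spec hn (i - 1)
    set n' := cut n (i - 1) with hn'
    set K := k2 - i + 1 with hK
    have hprof : ∀ r, 1 ≤ r → prof n' r = prof n (i - 1 + r) := fun r hr => prof_cut hn _ hr
    obtain ⟨c, hc⟩ := exists_code (K := k2) (M := M) (fun r => ⌊prof n' r⌋₊) fun r hr => by
      have h1 : prof n' r ≤ u + 3 := by
        rw [hprof r (Finset.mem_Icc.1 hr).1]
        exact (prof_antitone hn le_rfl (by have := (Finset.mem_Icc.1 hr).1; omega)).trans hfirst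
      have h2 : (⌊prof n' r⌋₊ : ℝ) < M := by
        have := Nat.floor_le (prof_nonneg n' r)
        have := Nat.le_ceil u
        simp only [hM]; push_cast; linarith
      exact_mod_cast h2
    have hsubI : ∀ r ∈ Finset.Icc 1 K, r ∈ Finset.Icc 1 k2 := fun r hr => by
      simp only [Finset.mem_Icc, hK] at hr ⊢; omega
    have hc1 : (decode c 1 : ℝ) = (⌊prof n i⌋₊ : ℝ) := by
      rw [hc 1 (Finset.mem_Icc.2 ⟨le_rfl, le_trans hi1 hiK⟩), hprof 1 le_rfl, Nat.sub_add_cancel hi1]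
    have hgc : good (i, c) := by
      refine ⟨?_, fun r hr => ?_⟩
      · simp only []
        have h1 := chain_le_phiSum i k2 (prof n) (prof n') hiK fun j hj => by
          obtain ⟨hj1, -⟩ := Finset.mem_Ioc.1 hj
          rw [hprof _ (by omega), show i - 1 + (j - i + 1) = j by omega]
        have h2 : phiSum K (fun r => (⌊prof n' r⌋₊ : ℝ)) = phiSum K (fun r => (decode c r : ℝ)) :=
          Finset.sum_congr rfl fun r hr => by
            simp only []
            rw [hc r (hsubI r (Finset.mem_Icc.2 ⟨by have := (Finset.mem_Icc.1 hr).1; omega,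
              (Finset.mem_Icc.1 hr).2⟩))]
        rw [h2] at h1
        have h3 : ((k2 - i : ℕ) : ℝ) * (((k2 - i : ℕ) : ℝ) + 1) ≤ 100 * L ^ 2 := by
          have h4 : ((k2 - i : ℕ) : ℝ) ≤ 8 * L := le_trans (by exact_mod_cast Nat.sub_le k2 i) hb.k_le
          have h5 := mul_le_mul h4 (show ((k2 - i : ℕ) : ℝ) + 1 ≤ 10 * L by linarith [hb.one_le_l])
            (by positivity) (by linarith [hb.l_pos])
          nlinarith [hb.l_pos]
        rw [hc1]
        have := Nat.floor_le (prof_nonneg n i)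
        linarith
      · simp only [] at hr ⊢
        rw [hc r (hsubI r hr)]
        refine (Nat.floor_le (prof_nonneg n' r)).trans ?_
        rw [hprof r (Finset.mem_Icc.1 hr).1]
        have hR : 0 ≤ u / gRen i := div_nonneg hb.u_pos.le (gRen_pos i).le
        refine (prof_antitone hn hi1 (by have := (Finset.mem_Icc.1 hr).1; omega)).trans (hcoord.trans ?_)
        nlinarith [mul_nonneg hb.l_pos.le hR]
    have hkdvd : Nat.totient n' ∣ m := hφ ▸ Nat.totient_dvd_of_dvd hcd
    have hkSk : Nat.totient n' ∈ Sk (i, c) := by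
      refine Finset.mem_filter.2 ⟨Finset.mem_Icc.2 ⟨Nat.totient_pos.2 (Nat.pos_of_ne_zero hc0),
        (Nat.le_of_dvd hm1 hkdvd).trans (Nat.le_floor hmX)⟩, fun p hp => ?_, ?_⟩
      · simp only []
        rw [hc1]
        obtain ⟨hpp, hpd, -⟩ := Nat.mem_primeFactors.1 hp
        have h1 : ll p ≤ prof n i := by
          rw [show prof n i = prof n' 1 by rw [hprof 1 le_rfl, Nat.sub_add_cancel hi1]]
          refine ll_mono ?_
          by_contra hgt'
          have hgt' := lt_of_not_ge hgt'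
          obtain ⟨q, hq, hd⟩ : ∃ q ∈ n'.primeFactors, p ∣ q ∨ p ∣ q - 1 := by
            have hd := hpd
            rw [Nat.totient_eq_prod_factorization hc0, Finsupp.prod, Nat.support_factorization] at hd
            obtain ⟨q, hq, hd⟩ := (hpp.prime.dvd_finsetProd_iff _).1 hd
            exact ⟨q, hq, (hpp.dvd_mul.1 hd).imp (fun h => hpp.dvd_of_dvd_pow h) id⟩
          obtain ⟨hqp, hqd, -⟩ := Nat.mem_primeFactors.1 hq
          have hq1 := le_nthPrime_of_mem hc0 hqp hqd
          rcases hd with hd | hd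
          · have := Nat.le_of_dvd hqp.pos hd; omega
          · have := Nat.le_of_dvd (by have := hqp.two_le; omega) hd; omega
        have := Nat.lt_floor_add_one (prof n i)
        linarith
      · exact (rows_of_profile hc0 hb.yLow_nonneg K
          (fun p hp hy h => hreg.sq p hp hy (h.trans hcd))
          (fun p hp hy h => hreg.sqTot p hp hy (h.trans (Nat.totient_dvd_of_dvd hcd)))
          (fun q hq h => hreg.normal q hq (h.trans hcd))).congr fun r hr => hc r (hsubI r hr)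
    have hprod : ∏ l ∈ Finset.Icc 1 (i - 1), (nthPrime n l - 1) ∈ predPow Pr (i - 1) := by
      refine prod_mem_predPow Pr _ _ fun l h1 h2 => ?_
      have hq := (hpre l h1 h2).1
      refine Finset.mem_image.2 ⟨_, Finset.mem_filter.2 ⟨Nat.mem_primesLE.2 ⟨?_, hq⟩,
        (prof_antitone hn le_rfl h1).trans hfirst⟩, rfl⟩
      have h3 := Nat.le_of_dvd hm1 (hφ ▸ pred_dvd_totient hq (nthPrime_dvd n l))
      have : m ≤ N := Nat.le_floor hmX
      omega
    exact ⟨(i, c), Finset.mem_filter.2 ⟨Finset.mem_product.2 ⟨Finset.mem_Icc.2 ⟨hi1, hiK⟩,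
      Finset.mem_univ _⟩, hgc⟩, Finset.mem_image.2 ⟨(_, _), Finset.mem_product.2 ⟨hprod, hkSk⟩,
        hsplit.symm.trans hφ⟩⟩
  have hone : ∀ t ∈ I, ∑ m ∈ img t, 1 / (m : ℝ) ≤ Real.exp (16 * L ^ 2 - L ^ 48 / 2) := by
    intro t ht
    obtain ⟨ht1, hg1, hg2⟩ := Finset.mem_filter.1 ht
    obtain ⟨hi, -⟩ := Finset.mem_product.1 ht1
    obtain ⟨hi1, hiK⟩ := Finset.mem_Icc.1 hi
    refine (sum_image_mul_le _ _).trans ?_
    have hpre : ∑ a ∈ predPow Pr (t.1 - 1), 1 / (a : ℝ) ≤ Real.exp (16 * L ^ 2) := by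
      have hb1 : ∑ a ∈ Pr, 1 / (a : ℝ) ≤ u + 3 + C' :=
        hC' (u + 3) (by linarith [hb.u_pos]) _ fun p hp =>
          ⟨(Nat.mem_primesLE.1 (Finset.mem_filter.1 hp).1).2, (Finset.mem_filter.1 hp).2⟩
      have hb2 : u + 3 + (C' : ℝ) ≤ Real.exp (2 * L) := by
        rw [two_mul, Real.exp_add, hb.exp_l]
        nlinarith [hb.u_ge, hb.l_le_u, hCL.2]
      refine (sum_predPow Pr (hb1.trans hb2) _).trans ?_
      rw [← Real.exp_nat_mul]
      refine Real.exp_le_exp.2 ?_
      have : ((t.1 - 1 : ℕ) : ℝ) ≤ 8 * L := le_trans (by exact_mod_cast (by omega : t.1 - 1 ≤ k2)) hb.k_le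
      nlinarith [mul_le_mul_of_nonneg_right this (show (0 : ℝ) ≤ 2 * L by linarith [hb.l_pos])]
    have hR : 0 ≤ 30 * L * (u / gRen t.1) :=
      mul_nonneg (by linarith [hb.l_pos]) (div_nonneg hb.u_pos.le (gRen_pos _).le)
    have hk : ∑ a ∈ Sk t, 1 / (a : ℝ) ≤ Real.exp (-(L ^ 48 / 2)) := by
      refine (hC u (k2 - t.1 + 1) (decode t.2) ((decode t.2 1 : ℝ) + 1)
        ((30 * L * (u / gRen t.1)) ^ ((5 : ℝ) / 8)) N (Sk t) (Nat.le_add_left 1 _) hb.yLow_nonneg
        (by positivity) (Real.rpow_nonneg hR _)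
        (fun r hr => Real.rpow_le_rpow (Nat.cast_nonneg _) (hg2 r hr) (by norm_num))
        (fun k hk => ?_)).trans (Real.exp_le_exp.2 ?_)
      · obtain ⟨h1, h2, h3⟩ := Finset.mem_filter.1 hk
        exact ⟨(Finset.mem_Icc.1 h1).1, (Finset.mem_Icc.1 h1).2, h2, h3⟩
      · have h1 := hb.err_le hiK (K := k2 - t.1 + 1) (by omega) (Nat.cast_nonneg C) hCL.1
        have h2 := hb.hgt_ge hiK
        push_cast at h1 ⊢
        nlinarith [sq_nonneg L]
    refine (mul_le_mul hpre hk (Finset.sum_nonneg fun _ _ => by positivity) (Real.exp_pos _).le).trans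
      (le_of_eq ?_)
    rw [← Real.exp_add]; ring_nf
  have hcard : (I.card : ℝ) ≤ Real.exp (32 * L ^ 2) := by
    have h0 : (I.card : ℝ) ≤ (k2 : ℝ) * (M : ℝ) ^ k2 := by
      have := Finset.card_filter_le ((Finset.Icc 1 k2) ×ˢ (Finset.univ : Finset (Fin k2 → Fin M))) good
      rw [Finset.card_product, Finset.card_univ, Fintype.card_fun, Fintype.card_fin, Fintype.card_fin,
        Nat.card_Icc, Nat.add_sub_cancel] at this
      exact_mod_cast this
    have hMe : (M : ℝ) ≤ Real.exp (2 * L) := by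
      rw [two_mul, Real.exp_add, hb.exp_l]
      have := (Nat.ceil_lt_add_one hb.u_pos.le).le
      simp only [hM]; push_cast
      nlinarith [hb.u_ge]
    refine h0.trans ?_
    calc (k2 : ℝ) * (M : ℝ) ^ k2 ≤ Real.exp (k2 : ℝ) * Real.exp (2 * L) ^ k2 := by
          refine mul_le_mul (by linarith [Real.add_one_le_exp (k2 : ℝ)])
            (pow_le_pow_left₀ (Nat.cast_nonneg _) hMe k2) (by positivity) (Real.exp_pos _).le
      _ ≤ _ := by
          rw [← Real.exp_nat_mul, ← Real.exp_add]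
          refine Real.exp_le_exp.2 ?_
          nlinarith [hb.k_le, hb.l_ge, mul_le_mul_of_nonneg_right hb.k_le (show (0 : ℝ) ≤ L by linarith [hb.l_pos])]
  calc ∑ m ∈ S, 1 / (m : ℝ)
      ≤ ∑ t ∈ I, ∑ m ∈ S.filter (fun m => m ∈ img t), 1 / (m : ℝ) :=
        sum_le_of_cover S I (fun t m => m ∈ img t) _ (fun _ _ => by positivity) hcov
    _ ≤ ∑ t ∈ I, Real.exp (16 * L ^ 2 - L ^ 48 / 2) :=
        Finset.sum_le_sum fun t ht => (Finset.sum_le_sum_of_subset_of_nonneg
          (fun m hm => (Finset.mem_filter.1 hm).2) fun _ _ _ => by positivity).trans (hone t ht)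
    _ ≤ Real.exp (-(2 * L ^ 3)) := by
        rw [Finset.sum_const, nsmul_eq_mul]
        refine (mul_le_mul_of_nonneg_right hcard (Real.exp_pos _).le).trans ?_
        rw [← Real.exp_add]
        refine Real.exp_le_exp.2 ?_
        have h1 : L ^ 2 ≤ L ^ 3 := pow_le_pow_right₀ hb.one_le_l (by norm_num)
        have h2 : 10000 * L ^ 3 ≤ L ^ 48 := by
          calc 10000 * L ^ 3 ≤ L ^ 45 * L ^ 3 := by
                refine mul_le_mul_of_nonneg_right ?_ (pow_nonneg hb.l_pos.le _)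
                linarith [le_self_pow₀ hb.one_le_l (show (45 : ℕ) ≠ 0 by norm_num), hb.l_ge]
            _ = L ^ 48 := by ring
        nlinarith [pow_nonneg hb.l_pos.le 3]

theorem exceptional_recip : ∀ᶠ u : ℝ in atTop, ∀ S : Finset ℕ,
    (∀ m ∈ S, m ∈ totSet (Real.exp (Real.exp (u + 2))) ∧
      ∃ n : ℕ, 0 < n ∧ Nat.totient n = m ∧ ¬ Adm u n) →
    ∑ m ∈ S, 1 / (m : ℝ) ≤
      Real.exp (-(LL u ^ 3)) * (1 + totRecip (Real.exp (Real.exp (u + 2)))) := by
  classical
  filter_upwards [eventually_upperBig, eventually_upperAbsorb 0, bad_len_recip, bad_normal_recip,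
    bad_slack_recip] with u hb ha hlen hnorm hsl S hS
  set X := Real.exp (Real.exp (u + 2)) with hX
  set P1 : ℕ → Prop := fun m => ∃ p : ℕ, p.Prime ∧ yLow u < ll p ∧ (p ^ 2 ∣ m ∨ p * (p - 1) ∣ m)
  set P2 : ℕ → Prop := fun m => u ^ 3 - 4 ≤ (m.primeFactorsList.length : ℝ)
  set P3 : ℕ → Prop := fun m => ∃ n q : ℕ, 0 < n ∧ Nat.totient n = m ∧ q.Prime ∧ q ∣ n ∧
    ¬ q ^ 2 ∣ n ∧ ¬ NormalPrime u q
  set P4 : ℕ → Prop := fun m => ∃ n : ℕ, Reg u n ∧ Nat.totient n = m ∧ prof n 1 ≤ u + 3 ∧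
    ∃ i : ℕ, 1 ≤ i ∧ i ≤ K2 u ∧ slackAt (K2 u) (prof n) i < -(hgt u i)
  have hcov : S ⊆ S.filter P1 ∪ (S.filter P2 ∪ (S.filter P3 ∪ S.filter P4)) := by
    intro m hm
    obtain ⟨hmt, n, hn, hφ, hnadm⟩ := hS m hm
    obtain ⟨hm1, hmX, -⟩ := (mem_totSet (Real.exp_pos _).le).1 hmt
    simp only [Finset.mem_union, Finset.mem_filter, hm, true_and]
    by_contra hno
    simp only [not_or] at hno
    obtain ⟨n1, n2, n3, n4⟩ := hno
    have hsq : ∀ p : ℕ, p.Prime → yLow u < ll p → ¬ p ^ 2 ∣ n := by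
      intro p hp hy hd
      refine n1 ⟨p, hp, hy, Or.inr ?_⟩
      have := Nat.totient_dvd_of_dvd hd
      rwa [Nat.totient_prime_pow hp two_pos, hφ, show 2 - 1 = 1 from rfl, pow_one] at this
    have hreg : Reg u n := by
      refine ⟨hn, hsq, fun p hp hy hd => n1 ⟨p, hp, hy, Or.inl (hφ ▸ hd)⟩, ?_, fun q hq hd => ?_⟩
      · by_contra hlt
        refine n2 ?_
        have h := length_le_totient n hn.ne'
        rw [hφ] at h
        have h2 : (n.primeFactorsList.length : ℝ) ≤ (m.primeFactorsList.length : ℝ) + 1 := by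
          exact_mod_cast (show n.primeFactorsList.length ≤ m.primeFactorsList.length + 1 by
            split_ifs at h <;> omega)
        simp only [P2]; linarith [lt_of_not_ge hlt]
      · by_contra hnn
        have hy : yLow u < ll q := by
          by_contra hy; exact hnn fun h => absurd h hy
        exact n3 ⟨n, q, hn, hφ, hq, hd, hsq q hq hy, hnn⟩
    have hfirst : prof n 1 ≤ u + 3 := by
      rcases eq_or_lt_of_le (prof_nonneg n 1) with h | h
      · linarith [hb.u_pos]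
      have hp := nthPrime_prime_of_ll h
      have h1 : nthPrime n 1 ≤ m + 1 := by
        have := Nat.le_of_dvd hm1 (hφ ▸ pred_dvd_totient hp (nthPrime_dvd n 1)); omega
      refine ll_le_of_log_le (by linarith [hb.u_pos]) ?_
      have h2 : ((nthPrime n 1 : ℕ) : ℝ) ≤ Real.exp (Real.exp (u + 2) + 1) := by
        have h1' : ((nthPrime n 1 : ℕ) : ℝ) ≤ (m : ℝ) + 1 := by exact_mod_cast h1
        rw [Real.exp_add]
        nlinarith [Real.add_one_le_exp (1 : ℝ), one_le_expexp (u + 2)]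
      refine ((Real.log_le_iff_le_exp (by exact_mod_cast hp.pos)).2 h2).trans ?_
      rw [show u + 3 = (u + 2) + 1 by ring, Real.exp_add (u + 2) 1]
      nlinarith [Real.add_one_le_exp (1 : ℝ), Real.one_le_exp (show (0 : ℝ) ≤ u + 2 by linarith [hb.u_pos])]
    refine n4 ⟨n, hreg, hφ, hfirst, ?_⟩
    by_contra hsl'
    refine hnadm ⟨hreg, hfirst, fun i h1 h2 => ?_⟩
    by_contra hlt
    exact hsl' ⟨i, h1, h2, lt_of_not_ge hlt⟩
  have hu2 : ∀ A B : Finset ℕ,
      ∑ m ∈ A ∪ B, 1 / (m : ℝ) ≤ ∑ m ∈ A, 1 / (m : ℝ) + ∑ m ∈ B, 1 / (m : ℝ) := fun A B => by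
    rw [← Finset.sum_union_inter]
    exact le_add_of_nonneg_right (Finset.sum_nonneg fun _ _ => by positivity)
  have h1 := bad_sq_recip hb ha (S.filter P1) fun m hm =>
    ⟨(hS m (Finset.mem_filter.1 hm).1).1, (Finset.mem_filter.1 hm).2⟩
  have h2 := hlen X (S.filter P2) (one_le_expexp _) le_rfl fun m hm => by
    obtain ⟨h1, h2, -⟩ := (mem_totSet (Real.exp_pos _).le).1 (hS m (Finset.mem_filter.1 hm).1).1
    exact ⟨h1, h2, (Finset.mem_filter.1 hm).2⟩
  have h3 := hnorm (S.filter P3) fun m hm =>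
    ⟨(hS m (Finset.mem_filter.1 hm).1).1, (Finset.mem_filter.1 hm).2⟩
  have h4 := hsl (S.filter P4) fun m hm =>
    ⟨(hS m (Finset.mem_filter.1 hm).1).1, (Finset.mem_filter.1 hm).2⟩
  have hle := (Finset.sum_le_sum_of_subset_of_nonneg hcov
    fun m _ _ => (by positivity : (0 : ℝ) ≤ 1 / (m : ℝ))).trans
    ((hu2 _ _).trans (add_le_add le_rfl ((hu2 _ _).trans (add_le_add le_rfl (hu2 _ _)))))
  have h2' : Real.exp (-(2 * LL u ^ 3) - 2 * u) ≤ Real.exp (-(2 * LL u ^ 3)) :=
    Real.exp_le_exp.2 (by linarith [hb.u_pos])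
  have hF := totRecip_nonneg X
  have he : 4 * Real.exp (-(2 * LL u ^ 3)) ≤ Real.exp (-(LL u ^ 3)) := by
    have hx : (4 : ℝ) ≤ Real.exp (LL u ^ 3) := by
      have := Real.add_one_le_exp (LL u ^ 3)
      linarith [hb.l_ge, le_self_pow₀ hb.one_le_l (show (3 : ℕ) ≠ 0 by norm_num)]
    calc 4 * Real.exp (-(2 * LL u ^ 3)) ≤ Real.exp (LL u ^ 3) * Real.exp (-(2 * LL u ^ 3)) := by gcongr
      _ = _ := by rw [← Real.exp_add]; ring_nf
  nlinarith [Real.exp_pos (-(2 * LL u ^ 3))]

/-! ### The reciprocal sum of all totients -/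

/-- One step of the self-bounding inequality. -/
lemma totRecip_step : ∀ᶠ u : ℝ in atTop,
    totRecip (Real.exp (Real.exp (u + 2))) ≤ Real.exp (40 * LL u ^ 2) *
      (1 + totRecip (Real.exp (Real.exp (LL u ^ 66 + 3 * LL u + 2)))) := by
  classical
  obtain ⟨C, hC⟩ := sum_pred_primes
  filter_upwards [eventually_upperBig, tendsto_LL.eventually_ge_atTop (C : ℝ), exceptional_recip]
    with u hb hCL hexc
  set L := LL u with hL
  set X := Real.exp (Real.exp (u + 2)) with hX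
  set X' := Real.exp (Real.exp (L ^ 66 + 3 * L + 2)) with hX'
  set N := ⌊X⌋₊
  set Pr := ((Nat.primesLE (N + 1)).filter (fun p => ll p ≤ u + 3)).image (fun p => p - 1) with hPr
  set bad : ℕ → Prop := fun m => ∃ n : ℕ, 0 < n ∧ Nat.totient n = m ∧ ¬ Adm u n
  set img : ℕ → Finset ℕ := fun i => (predPow Pr i ×ˢ totSet X').image (fun a => a.1 * a.2)
  have hB := hexc ((totSet X).filter bad) fun m hm => Finset.mem_filter.1 hm
  have hcov : ∀ m ∈ (totSet X).filter (fun m => ¬ bad m), ∃ i ∈ Finset.range (K2 u), m ∈ img i := by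
    intro m hm
    obtain ⟨hmt, hnb⟩ := Finset.mem_filter.1 hm
    obtain ⟨hm1, hmX, n, hn0, hφ⟩ := (mem_totSet (Real.exp_pos _).le).1 hmt
    have hn : n ≠ 0 := hn0.ne'
    have hadm : Adm u n := by by_contra h; exact hnb ⟨n, hn0, hφ, h⟩
    have hex : ∃ i : ℕ, prof n (i + 1) ≤ yLump u := by
      refine ⟨K2 u - 1, ?_⟩
      have hk := hb.k_ge
      rw [Nat.sub_add_cancel (by omega : 1 ≤ K2 u)]
      refine (coord_le hb hn (by omega) le_rfl hadm.first
        fun l h1 h2 => hadm.slack l h1 h2.le).trans ?_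
      have hR : u / gRen (K2 u) ≤ 4 * L ^ 64 := by
        rw [div_le_iff₀ (gRen_pos _)]
        have := hb.g_ge
        rw [div_le_iff₀ (pow_pos hb.l_pos _)] at this
        linarith
      calc 22 * L * (u / gRen (K2 u)) ≤ 22 * L * (4 * L ^ 64) :=
            mul_le_mul_of_nonneg_left hR (by linarith [hb.l_pos])
        _ = 88 * L ^ 65 := by ring
        _ ≤ L * L ^ 65 := mul_le_mul_of_nonneg_right (by linarith [hb.l_ge]) (pow_nonneg hb.l_pos.le _)
        _ = yLump u := by rw [yLump]; ring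
    set i := Nat.find hex with hi
    have hi1 := Nat.find_spec hex
    have hiK : i < K2 u := by
      obtain ⟨j, hj⟩ := hex
      by_contra hge
      have hk := hb.k_ge
      refine Nat.find_min ⟨j, hj⟩ (show K2 u - 1 < i by omega) ?_
      rw [Nat.sub_add_cancel (by omega : 1 ≤ K2 u)]
      exact le_trans (prof_antitone hn (by omega) (by omega : K2 u ≤ K2 u)) (by
        refine (coord_le hb hn (by omega) le_rfl hadm.first
          fun l h1 h2 => hadm.slack l h1 h2.le).trans ?_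
        have hR : u / gRen (K2 u) ≤ 4 * L ^ 64 := by
          rw [div_le_iff₀ (gRen_pos _)]
          have := hb.g_ge
          rw [div_le_iff₀ (pow_pos hb.l_pos _)] at this
          linarith
        calc 22 * L * (u / gRen (K2 u)) ≤ 22 * L * (4 * L ^ 64) :=
              mul_le_mul_of_nonneg_left hR (by linarith [hb.l_pos])
          _ = 88 * L ^ 65 := by ring
          _ ≤ L * L ^ 65 := mul_le_mul_of_nonneg_right (by linarith [hb.l_ge]) (pow_nonneg hb.l_pos.le _)
          _ = yLump u := by rw [yLump]; ring)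
    have hbig : ∀ l, 1 ≤ l → l ≤ i → yLow u < prof n l := fun l h1 h2 => by
      have := Nat.find_min hex (show l - 1 < i by omega)
      rw [Nat.sub_add_cancel h1] at this
      refine lt_of_le_of_lt ?_ (lt_of_not_ge this)
      exact pow_le_pow_right₀ hb.one_le_l (by norm_num)
    have hpre : ∀ l, 1 ≤ l → l ≤ i → (nthPrime n l).Prime ∧ ¬ nthPrime n l ^ 2 ∣ n :=
      fun l h1 h2 => by
        have hp := nthPrime_prime_of_ll (hb.yLow_nonneg.trans_lt (hbig l h1 h2))
        exact ⟨hp, hadm.reg.sq _ hp (hbig l h1 h2)⟩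
    have hsplit := totient_cut hn i hpre
    obtain ⟨hc0, hcd, -⟩ := cut_spec hn i
    set n' := cut n i with hn'
    have hlog : Real.log (Nat.totient n') ≤ Real.exp (L ^ 66 + 3 * L + 2) := by
      have h1 : n' ≤ nthPrime n' 1 ^ n'.primeFactorsList.length := by
        conv_lhs => rw [← Nat.prod_primeFactorsList hc0]
        exact List.prod_le_pow_card _ _ fun p hp => le_nthPrime_one hp
      have h2 : Real.log (Nat.totient n') ≤
          (n'.primeFactorsList.length : ℝ) * Real.log (nthPrime n' 1) := by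
        rw [← Real.log_pow]
        refine Real.log_le_log (by exact_mod_cast Nat.totient_pos.2 (Nat.pos_of_ne_zero hc0)) ?_
        exact_mod_cast (Nat.totient_le n').trans h1
      have h3 : (n'.primeFactorsList.length : ℝ) ≤ u ^ 3 :=
        le_trans (by exact_mod_cast (Nat.primeFactorsList_sublist_of_dvd hcd hn).length_le) hadm.reg.few
      have h4 : Real.log (nthPrime n' 1) ≤ Real.exp (L ^ 66) := by
        refine (log_le_exp_ll _).trans (Real.exp_le_exp.2 ?_)
        have := prof_cut hn i (r := 1) le_rfl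
        rw [prof] at this; rw [this]
        exact hi1
      refine h2.trans ((mul_le_mul h3 h4 (Real.log_natCast_nonneg _) (pow_nonneg hb.u_pos.le _)).trans ?_)
      calc u ^ 3 * Real.exp (L ^ 66) = Real.exp (L ^ 66 + 3 * L) := by
            rw [Real.exp_add, show 3 * L = ((3 : ℕ) : ℝ) * L by norm_num, Real.exp_nat_mul, hb.exp_l]
            ring
        _ ≤ _ := Real.exp_le_exp.2 (by linarith)
    have hφX : (Nat.totient n' : ℝ) ≤ X' :=
      (Real.log_le_iff_le_exp (by exact_mod_cast Nat.totient_pos.2 (Nat.pos_of_ne_zero hc0))).1 hlog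
    refine ⟨i, Finset.mem_range.2 hiK, Finset.mem_image.2 ⟨(_, _), Finset.mem_product.2
      ⟨prod_mem_predPow Pr _ _ fun l h1 h2 => ?_, totient_mem_totSet (Nat.pos_of_ne_zero hc0) hφX⟩,
        hsplit.symm.trans hφ⟩⟩
    have hq := (hpre l h1 h2).1
    refine Finset.mem_image.2 ⟨_, Finset.mem_filter.2 ⟨Nat.mem_primesLE.2 ⟨?_, hq⟩,
      (prof_antitone hn le_rfl h1).trans hadm.first⟩, rfl⟩
    have h3 := Nat.le_of_dvd hm1 (hφ ▸ pred_dvd_totient hq (nthPrime_dvd n l))
    have : m ≤ N := Nat.le_floor hmX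
    omega
  have hgood : ∑ m ∈ (totSet X).filter (fun m => ¬ bad m), 1 / (m : ℝ) ≤
      Real.exp (30 * L ^ 2) * totRecip X' := by
    refine (sum_le_of_cover _ _ (fun i m => m ∈ img i) _ (fun _ _ => by positivity) hcov).trans ?_
    have hb1 : ∑ a ∈ Pr, 1 / (a : ℝ) ≤ Real.exp (2 * L) := by
      refine (hC (u + 3) (by linarith [hb.u_pos]) _ fun p hp =>
          ⟨(Nat.mem_primesLE.1 (Finset.mem_filter.1 hp).1).2, (Finset.mem_filter.1 hp).2⟩).trans ?_
      rw [two_mul, Real.exp_add, hb.exp_l]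
      nlinarith [hb.u_ge, hb.l_le_u]
    refine (Finset.sum_le_sum (g := fun _ => Real.exp (16 * L ^ 2) * totRecip X') fun i hi => ?_).trans ?_
    · refine (Finset.sum_le_sum_of_subset_of_nonneg (fun m hm => (Finset.mem_filter.1 hm).2)
        fun _ _ _ => by positivity).trans ((sum_image_mul_le _ _).trans
          (mul_le_mul_of_nonneg_right ?_ (totRecip_nonneg _)))
      refine (sum_predPow Pr hb1 i).trans ?_
      rw [← Real.exp_nat_mul]
      refine Real.exp_le_exp.2 ?_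
      have : (i : ℝ) ≤ 8 * L := le_trans (by exact_mod_cast (Finset.mem_range.1 hi).le) hb.k_le
      nlinarith [mul_le_mul_of_nonneg_right this (show (0 : ℝ) ≤ 2 * L by linarith [hb.l_pos])]
    · rw [Finset.sum_const, Finset.card_range, nsmul_eq_mul, ← mul_assoc]
      refine mul_le_mul_of_nonneg_right ?_ (totRecip_nonneg _)
      calc (K2 u : ℝ) * Real.exp (16 * L ^ 2) ≤ Real.exp (8 * L) * Real.exp (16 * L ^ 2) := by
            gcongr
            linarith [hb.k_le, Real.add_one_le_exp (8 * L)]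
        _ ≤ _ := by rw [← Real.exp_add]; exact Real.exp_le_exp.2 (by nlinarith [hb.one_le_l])
  have hsplit2 : totRecip X = ∑ m ∈ (totSet X).filter bad, 1 / (m : ℝ) +
      ∑ m ∈ (totSet X).filter (fun m => ¬ bad m), 1 / (m : ℝ) :=
    (Finset.sum_filter_add_sum_filter_not _ _ _).symm
  have he : Real.exp (-(L ^ 3)) ≤ 1 / 2 := by
    rw [Real.exp_neg, ← one_div]
    refine one_div_le_one_div_of_le two_pos ?_
    linarith [Real.add_one_le_exp (L ^ 3), one_le_pow₀ hb.one_le_l (n := 3)]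
  have hexp : 2 * Real.exp (30 * L ^ 2) ≤ Real.exp (40 * L ^ 2) := by
    have : (2 : ℝ) ≤ Real.exp (10 * L ^ 2) := by
      linarith [Real.add_one_le_exp (10 * L ^ 2), one_le_pow₀ hb.one_le_l (n := 2)]
    calc 2 * Real.exp (30 * L ^ 2) ≤ Real.exp (10 * L ^ 2) * Real.exp (30 * L ^ 2) := by gcongr
      _ = _ := by rw [← Real.exp_add]; ring_nf
  have hF := totRecip_nonneg X
  have hF' := totRecip_nonneg X'
  have h1e : (1 : ℝ) ≤ Real.exp (40 * L ^ 2) := Real.one_le_exp (by positivity)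
  nlinarith [mul_le_mul_of_nonneg_right he (by linarith : (0 : ℝ) ≤ 1 + totRecip X),
    mul_le_mul_of_nonneg_right hexp hF']

theorem totRecip_le : ∃ C : ℝ, ∀ᶠ u : ℝ in atTop,
    totRecip (Real.exp (Real.exp (u + 2))) ≤ Real.exp (C * LL u ^ 2) := by
  classical
  refine ⟨100, ?_⟩
  have htend : Tendsto (fun u : ℝ => LL u ^ 66 + 3 * LL u) atTop atTop := by
    refine tendsto_atTop_mono' atTop ?_ tendsto_LL
    filter_upwards [tendsto_LL.eventually_ge_atTop 0] with u hu
    nlinarith [pow_nonneg hu 66]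
  have hloglog : ∀ᶠ u : ℝ in atTop, (67 * Real.log (LL u)) ^ 67 ≤ LL u := by
    have h := ((isLittleO_pow_log_id_atTop (n := 67)).def
      (show (0 : ℝ) < 1 / (67 : ℝ) ^ 67 by positivity))
    filter_upwards [tendsto_LL.eventually h, tendsto_LL.eventually_ge_atTop 1] with u hu hL
    rw [Real.norm_eq_abs, Real.norm_eq_abs, id, abs_of_nonneg (by linarith : (0 : ℝ) ≤ LL u)] at hu
    have := (le_abs_self _).trans hu
    rw [mul_pow]
    calc (67 : ℝ) ^ 67 * Real.log (LL u) ^ 67 ≤ 67 ^ 67 * (1 / 67 ^ 67 * LL u) :=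
          mul_le_mul_of_nonneg_left this (by positivity)
      _ = LL u := by field_simp
  filter_upwards [eventually_upperBig, totRecip_step, htend.eventually totRecip_step,
    htend.eventually eventually_upperBig, hloglog] with u hb h1 h2 hb' hll
  set L := LL u with hL
  set u' := L ^ 66 + 3 * L with hu'
  set L' := LL u' with hL'
  have hu67 : u' ≤ L ^ 67 := by
    have : 3 * L ≤ L ^ 66 := by
      calc 3 * L ≤ L * L := by nlinarith [hb.l_ge]
        _ = L ^ 2 := by ring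
        _ ≤ L ^ 66 := pow_le_pow_right₀ hb.one_le_l (by norm_num)
    calc u' ≤ 2 * L ^ 66 := by simp only [hu']; linarith
      _ ≤ L * L ^ 66 := mul_le_mul_of_nonneg_right (by linarith [hb.l_ge]) (pow_nonneg hb.l_pos.le _)
      _ = L ^ 67 := by ring
  have hL'le : L' ≤ 67 * Real.log L := by
    have := Real.log_le_log hb'.u_pos hu67
    rwa [Real.log_pow, show ((67 : ℕ) : ℝ) = 67 by norm_num] at this
  have hL'67 : L' ^ 67 ≤ L := (pow_le_pow_left₀ hb'.l_pos.le hL'le 67).trans hll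
  have hL'2 : L' ^ 2 ≤ L := (pow_le_pow_right₀ hb'.one_le_l (by norm_num)).trans hL'67
  have hu'' : L' ^ 66 + 3 * L' + 4 ≤ L + 4 := by
    have : L' ^ 66 + 3 * L' ≤ L' ^ 67 := by
      have h3 : L' ≤ L' ^ 66 := le_self_pow₀ hb'.one_le_l (by norm_num)
      calc L' ^ 66 + 3 * L' ≤ 4 * L' ^ 66 := by linarith
        _ ≤ L' * L' ^ 66 := mul_le_mul_of_nonneg_right (by linarith [hb'.l_ge]) (pow_nonneg hb'.l_pos.le _)
        _ = L' ^ 67 := by ring
    linarith
  have htriv : ∀ w : ℝ, 0 ≤ w → totRecip (Real.exp (Real.exp w)) ≤ Real.exp (w + 2) := by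
    intro w hw
    refine le_trans (Finset.sum_le_sum_of_subset_of_nonneg (t := Finset.Icc 1 ⌊Real.exp (Real.exp w)⌋₊)
      (fun m hm => ?_) fun _ _ _ => by positivity) ?_
    · obtain ⟨h1, h2, -⟩ := (mem_totSet (Real.exp_pos _).le).1 hm
      exact Finset.mem_Icc.2 ⟨h1, Nat.le_floor h2⟩
    · have h3 := harmonic_le_one_add_log ⌊Real.exp (Real.exp w)⌋₊
      have h4 : ∑ m ∈ Finset.Icc 1 ⌊Real.exp (Real.exp w)⌋₊, 1 / (m : ℝ) ≤
          1 + Real.log (⌊Real.exp (Real.exp w)⌋₊ : ℝ) := by simpa [harmonic_eq_sum_Icc] using h3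
      have h5 : Real.log (⌊Real.exp (Real.exp w)⌋₊ : ℝ) ≤ Real.exp w :=
        (log_floor_le (one_le_expexp _)).trans (le_of_eq (Real.log_exp _))
      rw [Real.exp_add w 2]
      nlinarith [Real.one_le_exp hw, Real.add_one_le_exp (2 : ℝ)]
  have h3 : totRecip (Real.exp (Real.exp (L' ^ 66 + 3 * L' + 2))) ≤ Real.exp (L + 4) :=
    (htriv _ (by linarith [pow_nonneg hb'.l_pos.le 66, hb'.l_pos])).trans
      (Real.exp_le_exp.2 (by linarith))
  refine h1.trans ?_
  have h4 : 1 + totRecip (Real.exp (Real.exp (u' + 2))) ≤ Real.exp (41 * L + 7) := by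
    have h5 : totRecip (Real.exp (Real.exp (u' + 2))) ≤ Real.exp (40 * L) * (2 * Real.exp (L + 4)) := by
      refine h2.trans (mul_le_mul (Real.exp_le_exp.2 ?_) ?_ ?_ (Real.exp_pos _).le)
      · linarith
      · linarith [Real.one_le_exp (show (0 : ℝ) ≤ L + 4 by linarith [hb.l_pos])]
      · linarith [totRecip_nonneg (Real.exp (Real.exp (L' ^ 66 + 3 * L' + 2)))]
    have h6 : Real.exp (40 * L) * Real.exp (L + 4) = Real.exp (41 * L + 4) := by
      rw [← Real.exp_add]; ring_nf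
    have h7 : 3 * Real.exp (41 * L + 4) ≤ Real.exp (41 * L + 7) := by
      rw [show 41 * L + 7 = 3 + (41 * L + 4) by ring, Real.exp_add 3 (41 * L + 4)]
      exact mul_le_mul_of_nonneg_right (by linarith [Real.add_one_le_exp (3 : ℝ)]) (Real.exp_pos _).le
    nlinarith [Real.one_le_exp (show (0 : ℝ) ≤ 41 * L + 4 by linarith [hb.l_pos])]
  refine (mul_le_mul_of_nonneg_left h4 (Real.exp_pos _).le).trans ?_
  rw [← Real.exp_add]
  exact Real.exp_le_exp.2 (by nlinarith [hb.l_ge])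

/-! ### The top level -/

/-- Primes `P` with `(P-1) m ≤ x` and `log P ≥ log x / u^4`. -/
noncomputable def topPrimes (u x : ℝ) (m : ℕ) : Finset ℕ := by
  classical exact (Nat.primesLE (⌊x / m⌋₊ + 1)).filter (fun p : ℕ => Real.log x / u ^ 4 ≤ Real.log p)

/-- Facts about `x` near `exp (exp u)`. -/
structure XRange (u x : ℝ) : Prop where
  one_lt : 1 < x
  lo : Real.exp (u - 1) ≤ Real.log x
  hi : Real.log x ≤ Real.exp (u + 1)

lemma xRange_of {u x : ℝ} (h1 : 1 < x) (h : |Real.log (Real.log x) - u| ≤ 1) : XRange u x := by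
  have hl := Real.log_pos h1
  obtain ⟨ha, hb⟩ := abs_le.1 h
  exact ⟨h1, (Real.le_log_iff_exp_le hl).1 (by linarith), (Real.log_le_iff_le_exp hl).1 (by linarith)⟩

lemma xRange_big {u x : ℝ} (hb : UpperBig u) (hx : XRange u x) :
    Real.exp (u / 2) ≤ Real.log x / u ^ 4 ∧ Real.exp (yLow u) < Real.log x / u ^ 4 ∧
      2 * LL u ^ 3 + 10 * u + 100 ≤ Real.log x ∧ Real.exp (u / 2) ≤ Real.log x := by
  have h4 : u ^ 4 = Real.exp (4 * LL u) := by
    rw [show (4 : ℝ) * LL u = ((4 : ℕ) : ℝ) * LL u by norm_num, Real.exp_nat_mul, hb.exp_l]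
  have h80 : LL u ^ 80 ≤ u := hb.pow_le
  have h16 : yLow u + 4 * LL u + 2 < u := by
    have : yLow u * 7 ≤ LL u ^ 80 := by
      calc yLow u * 7 ≤ LL u ^ 16 * LL u ^ 64 := by
            refine mul_le_mul_of_nonneg_left ?_ hb.yLow_nonneg
            linarith [hb.l_ge, le_self_pow₀ hb.one_le_l (show (64 : ℕ) ≠ 0 by norm_num)]
        _ = LL u ^ 80 := by ring
    have h2 : LL u ≤ yLow u := le_self_pow₀ hb.one_le_l (by norm_num)
    linarith [hb.l_ge]
  have hhalf : u / 2 + 4 * LL u + 1 ≤ u := by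
    have : 100 * LL u ≤ u := le_trans (by nlinarith [hb.l_ge])
      ((pow_le_pow_right₀ hb.one_le_l (show 2 ≤ 80 by norm_num)).trans h80)
    linarith [hb.u_ge]
  have hdiv : ∀ a : ℝ, a + 4 * LL u ≤ u - 1 → Real.exp a ≤ Real.log x / u ^ 4 := by
    intro a ha
    rw [le_div_iff₀ (pow_pos hb.u_pos _), h4, ← Real.exp_add]
    exact (Real.exp_le_exp.2 ha).trans hx.lo
  refine ⟨hdiv _ (by linarith), ?_, ?_, ?_⟩
  · exact (Real.exp_lt_exp.2 (lt_add_one _)).trans_le (hdiv (yLow u + 1) (by linarith))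
  · refine le_trans ?_ hx.lo
    have h2 : (u / 2) * (u / 2) / 2 ≤ Real.exp (u - 1) := by
      refine le_trans ?_ (Real.exp_le_exp.2 (show u / 2 ≤ u - 1 by linarith [hb.u_ge]))
      have := Real.quadratic_le_exp_of_nonneg (show (0 : ℝ) ≤ u / 2 by linarith [hb.u_pos])
      nlinarith [hb.u_pos]
    have h3 : LL u ^ 3 ≤ u := (pow_le_pow_right₀ hb.one_le_l (by norm_num)).trans h80
    nlinarith [hb.u_ge]
  · exact (Real.exp_le_exp.2 (by linarith [hb.u_ge])).trans hx.lo

lemma topPrimes_card : ∃ C : ℕ, ∀ᶠ u : ℝ in atTop, ∀ (x : ℝ) (m : ℕ), XRange u x → 1 ≤ m →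
    (m : ℝ) ≤ x →
    ((topPrimes u x m).card : ℝ) ≤ Real.exp ((C : ℝ) * LL u) * (x / Real.log x) * (1 / m) := by
  classical
  obtain ⟨C, hC⟩ := sieve_count
  refine ⟨2 * C + 6, ?_⟩
  filter_upwards [eventually_upperBig, tendsto_LL.eventually_ge_atTop (C : ℝ)] with u hb hCL x m hx hm hmx
  have hlog : 0 < Real.log x := Real.log_pos hx.one_lt
  have hx0 : 0 < x := by linarith [hx.one_lt]
  have hm0 : (0 : ℝ) < m := by exact_mod_cast hm
  rcases (topPrimes u x m).eq_empty_or_nonempty with he | ⟨P, hP⟩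
  · rw [he, Finset.card_empty]; push_cast; positivity
  simp only [topPrimes, Finset.mem_filter, Nat.mem_primesLE] at hP
  obtain ⟨⟨hPle, hPp⟩, hPlog⟩ := hP
  set X := ⌊x / m⌋₊ + 1 with hX
  have hX2 : 2 ≤ X := le_trans hPp.two_le hPle
  have hsub : topPrimes u x m ⊆ tuplePrimes ∅ X := by
    intro p hp
    simp only [topPrimes, Finset.mem_filter, Nat.mem_primesLE] at hp
    simp only [tuplePrimes, Finset.mem_filter, Finset.mem_Icc]
    exact ⟨⟨hp.1.2.pos, hp.1.1⟩, hp.1.2, by simp⟩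
  have hlogX : Real.log x / u ^ 4 ≤ Real.log X :=
    hPlog.trans (Real.log_le_log (by exact_mod_cast hPp.pos) (by exact_mod_cast hPle))
  have hone : 1 ≤ x / m := by rw [le_div_iff₀ hm0]; linarith
  have hXle : (X : ℝ) ≤ 2 * (x / m) := by
    have := Nat.floor_le (show 0 ≤ x / m by positivity)
    simp only [hX]; push_cast; linarith
  obtain ⟨hb1, -, -, -⟩ := xRange_big hb hx
  have hl0 : 0 < Real.log x / u ^ 4 := lt_of_lt_of_le (Real.exp_pos _) hb1
  have hloglog : |Real.log (Real.log X)| ≤ u + 2 := by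
    have h1 : (1 : ℝ) ≤ Real.log X := le_trans (Real.one_le_exp (by linarith [hb.u_pos])) (hb1.trans hlogX)
    have h2 : Real.log X ≤ Real.exp (u + 2) := by
      have h3 : (X : ℝ) ≤ Real.exp (Real.log x + 1) := by
        rw [Real.exp_add, Real.exp_log hx0]
        have : x / m ≤ x := div_le_self hx0.le (by exact_mod_cast hm)
        nlinarith [Real.add_one_le_exp (1 : ℝ)]
      refine ((Real.log_le_iff_le_exp (by positivity)).2 h3).trans ?_
      rw [show u + 2 = (u + 1) + 1 by ring, Real.exp_add (u + 1) 1]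
      nlinarith [Real.add_one_le_exp (1 : ℝ), hx.hi, Real.one_le_exp (show (0 : ℝ) ≤ u + 1 by linarith [hb.u_pos])]
    rw [abs_of_nonneg (Real.log_nonneg h1)]
    exact (Real.log_le_iff_le_exp (by linarith)).2 h2
  have h4 : (((∅ : Finset ℕ).prod fun A => A : ℕ) : ℝ) + 3 = 4 := by simp; norm_num
  have hll4 : |Real.log (Real.log 4)| ≤ 4 := by
    have h1 : (1 : ℝ) ≤ Real.log 4 := by
      rw [Real.le_log_iff_exp_le (by norm_num)]
      linarith [Real.exp_one_lt_d9]
    rw [abs_of_nonneg (Real.log_nonneg h1)]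
    have := Real.log_le_self (show (0 : ℝ) ≤ 4 by norm_num)
    exact (Real.log_le_self (by linarith)).trans this
  have hloss : sieveLoss ∅ X C ≤ Real.exp ((2 * C : ℕ) * LL u) := by
    rw [sieveLoss, h4, Nat.cast_mul, show ((2 : ℕ) : ℝ) * (C : ℝ) * LL u = (C : ℝ) * (2 * LL u) by
      push_cast; ring, Real.exp_nat_mul, two_mul, Real.exp_add, hb.exp_l]
    have h0 : 0 ≤ Real.log (Real.log 4) := by
      refine Real.log_nonneg ?_
      rw [Real.le_log_iff_exp_le (by norm_num)]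
      linarith [Real.exp_one_lt_d9]
    refine pow_le_pow_left₀ (mul_nonneg (Nat.cast_nonneg _) (by
      linarith [abs_nonneg (Real.log (Real.log (X : ℝ)))])) ?_ C
    rw [abs_of_nonneg h0] at hll4
    have hC' : (C : ℝ) ≤ u / 2 := by
      have : 2 * LL u ≤ u := by
        nlinarith [hb.l_ge, (pow_le_pow_right₀ hb.one_le_l (show 2 ≤ 80 by norm_num)).trans hb.pow_le]
      linarith
    refine le_trans (mul_le_mul hC' (show 3 + |Real.log (Real.log (X : ℝ))| + Real.log (Real.log 4) ≤ 2 * u by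
      linarith [hb.u_ge]) (by linarith [abs_nonneg (Real.log (Real.log (X : ℝ)))]) (by linarith [hb.u_pos])) ?_
    nlinarith
  have h0 : ((topPrimes u x m).card : ℝ) ≤ sieveLoss ∅ X C * X / Real.log X := by
    have := hC ∅ X (by simp) (by simp) hX2
    rw [Finset.card_empty, zero_add, pow_one] at this
    exact le_trans (by exact_mod_cast Finset.card_le_card hsub) this
  refine h0.trans ?_
  calc sieveLoss ∅ X C * X / Real.log X
      ≤ Real.exp ((2 * C : ℕ) * LL u) * (2 * (x / m)) / (Real.log x / u ^ 4) := by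
        refine div_le_div₀ (by positivity) (mul_le_mul hloss hXle (Nat.cast_nonneg _) (Real.exp_pos _).le)
          hl0 hlogX
    _ = (2 * u ^ 4) * Real.exp ((2 * C : ℕ) * LL u) * (x / Real.log x) * (1 / m) := by
        field_simp
    _ ≤ _ := by
        refine mul_le_mul_of_nonneg_right (mul_le_mul_of_nonneg_right ?_ (by positivity)) (by positivity)
        have : 2 * u ^ 4 ≤ Real.exp (6 * LL u) := by
          rw [show 6 * LL u = ((6 : ℕ) : ℝ) * LL u by norm_num, Real.exp_nat_mul, hb.exp_l]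
          calc 2 * u ^ 4 ≤ u ^ 2 * u ^ 4 := by
                refine mul_le_mul_of_nonneg_right ?_ (pow_nonneg hb.u_pos.le _)
                nlinarith [hb.u_ge]
            _ = u ^ 6 := by ring
        refine (mul_le_mul_of_nonneg_right this (Real.exp_pos _).le).trans (le_of_eq ?_)
        rw [← Real.exp_add]; push_cast; ring_nf

lemma top_excess : ∀ᶠ u : ℝ in atTop, ∀ (x : ℝ) (S : Finset ℕ), XRange u x →
    (∀ v ∈ S, v ∈ totSet x ∧ ∃ n : ℕ, 0 < n ∧ Nat.totient n = v ∧ prof n 1 ≤ u + 1 ∧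
      (∀ p : ℕ, p.Prime → yLow u < ll p → ¬ p ^ 2 ∣ n ∧ ¬ p ^ 2 ∣ v) ∧
      (∀ q : ℕ, q.Prime → q ∣ n → NormalPrime u q) ∧
      u + hgt u 0 ≤ chain (K2 u) (fun j => prof n (j + 1)) 0) →
    (S.card : ℝ) ≤ Real.exp (-(2 * LL u ^ 3)) * (x / Real.log x) := by
  classical
  obtain ⟨C, hC⟩ := profile_count
  filter_upwards [eventually_upperBig, eventually_upperAbsorb C] with u hb ha x S hx hS
  have hCL := ha.c_le
  set L := LL u with hL
  set k2 := K2 u with hk2
  set M := ⌈u⌉₊ + 5 with hM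
  set N := ⌊x⌋₊ with hN
  have hlog : 0 < Real.log x := Real.log_pos hx.one_lt
  have hx0 : 0 < x := by linarith [hx.one_lt]
  obtain ⟨-, -, hbig, -⟩ := xRange_big hb hx
  have hx4 : 4 ≤ x := by
    have := Real.log_le_self hx0.le
    linarith [hb.u_pos, pow_nonneg hb.l_pos.le 3]
  have hN2 : 2 ≤ N := Nat.le_floor (by push_cast; linarith)
  set good : (Fin (k2 + 1) → Fin M) → Prop := fun c =>
    u + hgt u 0 - 100 * L ^ 2 ≤ phiSum (k2 + 1) (fun r => (decode c r : ℝ)) ∧
      ∀ r ∈ Finset.Icc 1 (k2 + 1), (decode c r : ℝ) ≤ 30 * L * (u / gRen 0) with hgood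
  set I := (Finset.univ : Finset (Fin (k2 + 1) → Fin M)).filter good with hI
  have hcov : ∀ v ∈ S, ∃ c ∈ I, Rows u (k2 + 1) (decode c) v := by
    intro v hv
    obtain ⟨hvt, n, hn, hφ, hfirst, hsq, hnorm, hch⟩ := hS v hv
    obtain ⟨c, hc⟩ := exists_code (K := k2 + 1) (M := M) (fun r => ⌊prof n r⌋₊) fun r hr => by
      have h1 : prof n r ≤ u + 1 := (prof_antitone hn.ne' le_rfl (Finset.mem_Icc.1 hr).1).trans hfirst
      have h2 : (⌊prof n r⌋₊ : ℝ) < M := by
        have := Nat.floor_le (prof_nonneg n r)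
        have := Nat.le_ceil u
        simp only [hM]; push_cast; linarith
      exact_mod_cast h2
    refine ⟨c, Finset.mem_filter.2 ⟨Finset.mem_univ _, ?_, fun r hr => ?_⟩, ?_⟩
    · have h1 := chain_le_phiSum 0 k2 (fun j => prof n (j + 1)) (prof n) (Nat.zero_le _)
        fun j _ => by simp
      simp only [Nat.sub_zero] at h1
      have h2 : phiSum (k2 + 1) (fun r => (⌊prof n r⌋₊ : ℝ)) = phiSum (k2 + 1) (fun r => (decode c r : ℝ)) :=
        Finset.sum_congr rfl fun r hr => by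
          simp only []
          rw [hc r (Finset.mem_Icc.2 ⟨by have := (Finset.mem_Icc.1 hr).1; omega,
            (Finset.mem_Icc.1 hr).2⟩)]
      rw [h2] at h1
      have h3 : (k2 : ℝ) * ((k2 : ℝ) + 1) ≤ 100 * L ^ 2 := by
        have h5 := mul_le_mul hb.k_le (show (k2 : ℝ) + 1 ≤ 10 * L by linarith [hb.k_le, hb.one_le_l])
          (by positivity) (by linarith [hb.l_pos])
        nlinarith [hb.l_pos]
      linarith
    · rw [hc r hr, gRen_zero, div_one]
      refine (Nat.floor_le (prof_nonneg n r)).trans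
        ((prof_antitone hn.ne' le_rfl (Finset.mem_Icc.1 hr).1).trans (hfirst.trans ?_))
      nlinarith [hb.one_le_l, hb.u_ge, mul_le_mul_of_nonneg_right hb.one_le_l hb.u_pos.le]
    · have := (rows_of_profile hn.ne' hb.yLow_nonneg (k2 + 1) (fun p hp hy => (hsq p hp hy).1)
        (fun p hp hy => hφ ▸ (hsq p hp hy).2) hnorm).congr hc
      rwa [hφ] at this
  have hR : 0 ≤ 30 * L * (u / gRen 0) :=
    mul_nonneg (by linarith [hb.l_pos]) (div_nonneg hb.u_pos.le (gRen_pos 0).le)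
  have hone : ∀ c ∈ I, ((S.filter fun v => Rows u (k2 + 1) (decode c) v).card : ℝ) ≤
      4 * (x / Real.log x) * Real.exp (-(L ^ 48 / 2)) := by
    intro c hc
    obtain ⟨-, hg1, hg2⟩ := Finset.mem_filter.1 hc
    refine (hC u (k2 + 1) (decode c) (u + 1) ((30 * L * (u / gRen 0)) ^ ((5 : ℝ) / 8)) N _
      (Nat.le_add_left 1 _) hb.yLow_nonneg (by linarith [hb.u_pos]) (Real.rpow_nonneg hR _) hN2
      (fun p hp => ?_) (fun r hr => Real.rpow_le_rpow (Nat.cast_nonneg _) (hg2 r hr) (by norm_num))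
      (fun v hv => ?_)).trans ?_
    · refine ll_le_of_log_le (by linarith [hb.u_pos]) ?_
      rcases Nat.eq_zero_or_pos p with rfl | hp0
      · simp; positivity
      refine le_trans ?_ hx.hi
      exact Real.log_le_log (by exact_mod_cast hp0)
        (le_trans (by exact_mod_cast hp) (Nat.floor_le hx0.le))
    · obtain ⟨hvS, hrows⟩ := Finset.mem_filter.1 hv
      obtain ⟨h1, h2, -⟩ := (mem_totSet hx0.le).1 (hS v hvS).1
      exact ⟨h1, Nat.le_floor h2, hrows⟩
    · refine mul_le_mul ?_ (Real.exp_le_exp.2 ?_) (Real.exp_pos _).le (by positivity)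
      · have hNx : x / 2 ≤ (N : ℝ) := by
          have := Nat.lt_floor_add_one x
          simp only [hN]; linarith
        have hlN : Real.log x / 2 ≤ Real.log N := by
          have h1 := Real.log_le_log (by linarith) hNx
          rw [Real.log_div hx0.ne' two_ne_zero] at h1
          have := Real.log_le_self (show (0 : ℝ) ≤ 2 by norm_num)
          linarith [hb.u_pos, pow_nonneg hb.l_pos.le 3]
        rw [div_le_iff₀ (lt_of_lt_of_le (by positivity) hlN)]
        calc (N : ℝ) ≤ x := Nat.floor_le hx0.le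
          _ ≤ 2 * x := by linarith
          _ = 4 * (x / Real.log x) * (Real.log x / 2) := by field_simp; ring
          _ ≤ _ := mul_le_mul_of_nonneg_left hlN (by positivity)
      · have h1 := hb.err_le (i := 0) (Nat.zero_le _) (K := k2 + 1) le_rfl (Nat.cast_nonneg C) hCL
        have h2 := hb.hgt_ge (Nat.zero_le (K2 u))
        push_cast at h1 ⊢
        nlinarith [sq_nonneg L]
  have hcard : (I.card : ℝ) ≤ Real.exp (20 * L ^ 2) := by
    have h0 : (I.card : ℝ) ≤ (M : ℝ) ^ (k2 + 1) := by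
      have := Finset.card_filter_le (Finset.univ : Finset (Fin (k2 + 1) → Fin M)) good
      rw [Finset.card_univ, Fintype.card_fun, Fintype.card_fin, Fintype.card_fin] at this
      exact_mod_cast this
    have hMe : (M : ℝ) ≤ Real.exp (2 * L) := by
      rw [two_mul, Real.exp_add, hb.exp_l]
      have := (Nat.ceil_lt_add_one hb.u_pos.le).le
      simp only [hM]; push_cast
      nlinarith [hb.u_ge]
    refine h0.trans ((pow_le_pow_left₀ (Nat.cast_nonneg _) hMe _).trans ?_)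
    rw [← Real.exp_nat_mul]
    refine Real.exp_le_exp.2 ?_
    push_cast
    nlinarith [hb.k_le, hb.l_ge, mul_le_mul_of_nonneg_right hb.k_le (show (0 : ℝ) ≤ L by linarith [hb.l_pos])]
  calc (S.card : ℝ) = ∑ _v ∈ S, (1 : ℝ) := by simp
    _ ≤ ∑ c ∈ I, ∑ _v ∈ S.filter (fun v => Rows u (k2 + 1) (decode c) v), (1 : ℝ) :=
        sum_le_of_cover S I (fun c v => Rows u (k2 + 1) (decode c) v) _ (fun _ _ => zero_le_one) hcov
    _ ≤ ∑ c ∈ I, 4 * (x / Real.log x) * Real.exp (-(L ^ 48 / 2)) :=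
        Finset.sum_le_sum fun c hc => by simpa using hone c hc
    _ ≤ _ := by
        rw [Finset.sum_const, nsmul_eq_mul]
        calc (I.card : ℝ) * (4 * (x / Real.log x) * Real.exp (-(L ^ 48 / 2)))
            ≤ Real.exp (20 * L ^ 2) * (Real.exp 3 * (x / Real.log x) * Real.exp (-(L ^ 48 / 2))) := by
              gcongr
              linarith [Real.add_one_le_exp (3 : ℝ)]
          _ = Real.exp (20 * L ^ 2 + 3 - L ^ 48 / 2) * (x / Real.log x) := by
              rw [sub_eq_add_neg, Real.exp_add, Real.exp_add]; ring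
          _ ≤ _ := by
              refine mul_le_mul_of_nonneg_right (Real.exp_le_exp.2 ?_) (by positivity)
              have h1 : L ^ 2 ≤ L ^ 3 := pow_le_pow_right₀ hb.one_le_l (by norm_num)
              have h2 : 100 * L ^ 3 ≤ L ^ 48 := by
                calc 100 * L ^ 3 ≤ L ^ 45 * L ^ 3 := by
                      refine mul_le_mul_of_nonneg_right ?_ (pow_nonneg hb.l_pos.le _)
                      linarith [le_self_pow₀ hb.one_le_l (show (45 : ℕ) ≠ 0 by norm_num), hb.l_ge]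
                  _ = L ^ 48 := by ring
              nlinarith [hb.one_le_l, pow_le_pow_left₀ zero_le_one hb.one_le_l 3]

lemma card_le_recip {x : ℝ} (T : Finset ℕ) (hT : ∀ v ∈ T, 1 ≤ v ∧ (v : ℝ) ≤ x) :
    (T.card : ℝ) ≤ x * ∑ v ∈ T, 1 / (v : ℝ) := by
  calc (T.card : ℝ) = ∑ _v ∈ T, (1 : ℝ) := by simp
    _ ≤ ∑ v ∈ T, x * (1 / (v : ℝ)) := Finset.sum_le_sum fun v hv => by
        obtain ⟨h1, h2⟩ := hT v hv
        rw [mul_one_div, le_div_iff₀ (by exact_mod_cast h1), one_mul]; exact h2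
    _ = _ := by rw [Finset.mul_sum]

lemma mul_exp_le_invlog {u x : ℝ} (hx : XRange u x) {a : ℝ} (ha' : a + (u + 1) ≤ -LL u ^ 3) :
    x * Real.exp a ≤ Real.exp (-LL u ^ 3) * (x / Real.log x) := by
  have hlog : 0 < Real.log x := Real.log_pos hx.one_lt
  have hx0 : 0 < x := by linarith [hx.one_lt]
  set L := LL u
  rw [mul_div_assoc', le_div_iff₀ hlog]
  calc x * Real.exp a * Real.log x ≤ x * Real.exp a * Real.exp (u + 1) :=
        mul_le_mul_of_nonneg_left hx.hi (by positivity)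
    _ = x * Real.exp (a + (u + 1)) := by rw [Real.exp_add a (u + 1)]; ring
    _ ≤ x * Real.exp (-L ^ 3) := by gcongr
    _ = _ := mul_comm _ _

lemma count_small {u x : ℝ} (hb : UpperBig u) (hx : XRange u x) (A0 : Finset ℕ)
    (hA0 : ∀ v ∈ A0, 1 ≤ v ∧ (v : ℝ) ≤ Real.exp (Real.log x / 2)) :
    (A0.card : ℝ) ≤ Real.exp (-LL u ^ 3) * (x / Real.log x) := by
  have hlog : 0 < Real.log x := Real.log_pos hx.one_lt
  have hx0 : 0 < x := by linarith [hx.one_lt]
  obtain ⟨-, -, hbig, -⟩ := xRange_big hb hx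
  set L := LL u
  have h1 : (A0.card : ℝ) ≤ Real.exp (Real.log x / 2) := by
    have hsub : A0 ⊆ Finset.Icc 1 ⌊Real.exp (Real.log x / 2)⌋₊ := fun v hv => by
      exact Finset.mem_Icc.2 ⟨(hA0 v hv).1, Nat.le_floor (hA0 v hv).2⟩
    have := Finset.card_le_card hsub
    rw [Nat.card_Icc, Nat.add_sub_cancel] at this
    exact le_trans (by exact_mod_cast this) (Nat.floor_le (Real.exp_pos _).le)
  refine h1.trans ?_
  rw [mul_div_assoc', le_div_iff₀ hlog]
  calc Real.exp (Real.log x / 2) * Real.log x ≤ Real.exp (Real.log x / 2) * Real.exp (u + 1) :=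
        mul_le_mul_of_nonneg_left hx.hi (Real.exp_pos _).le
    _ ≤ Real.exp (-L ^ 3) * Real.exp (Real.log x) := by
        rw [← Real.exp_add, ← Real.exp_add]
        exact Real.exp_le_exp.2 (by linarith [hb.u_pos])
    _ = _ := by rw [Real.exp_log hx0]

lemma count_sq {u x : ℝ} (hb : UpperBig u) (ha : UpperAbsorb u 0) (hx : XRange u x) (A2 : Finset ℕ)
    (hA2 : ∀ v ∈ A2, v ∈ totSet x ∧
      ∃ p : ℕ, p.Prime ∧ yLow u < ll p ∧ (p ^ 2 ∣ v ∨ p * (p - 1) ∣ v)) :
    (A2.card : ℝ) ≤ Real.exp (-LL u ^ 3) * (x / Real.log x) := by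
  classical
  have hx0 : 0 < x := by linarith [hx.one_lt]
  set L := LL u
  set N := ⌊x⌋₊
  set P := (Nat.primesLE (N + 1)).filter (fun p => yLow u < ll p) with hP
  set Q : ℕ → ℕ → Prop := fun p v => p ^ 2 ∣ v ∨ p * (p - 1) ∣ v with hQ
  have hcov2 : ∀ v ∈ A2, ∃ p ∈ P, Q p v := by
    intro v hv
    obtain ⟨hvS, p, hp, hy, hd⟩ := hA2 v hv
    obtain ⟨hv1, hvx, -⟩ := (mem_totSet hx0.le).1 hvS
    have hvN : v ≤ N := Nat.le_floor hvx
    refine ⟨p, Finset.mem_filter.2 ⟨Nat.mem_primesLE.2 ⟨?_, hp⟩, hy⟩, hd⟩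
    rcases hd with hd | hd
    · have := Nat.le_of_dvd hv1 ((dvd_pow_self p two_ne_zero).trans hd); omega
    · have := Nat.le_of_dvd hv1 ((dvd_mul_right p (p - 1)).trans hd); omega
  calc (A2.card : ℝ) = ∑ _v ∈ A2, (1 : ℝ) := by simp
    _ ≤ ∑ p ∈ P, ∑ _v ∈ A2.filter (Q p), (1 : ℝ) :=
        sum_le_of_cover A2 P Q _ (fun _ _ => zero_le_one) hcov2
    _ ≤ ∑ p ∈ P, 2 * x * (1 / ((p : ℝ) * ((p : ℝ) - 1))) := by
        refine Finset.sum_le_sum fun p hp => ?_
        have hpp := (Nat.mem_primesLE.1 (Finset.mem_filter.1 hp).1).2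
        have h2 : (2 : ℝ) ≤ p := by exact_mod_cast hpp.two_le
        have hone : ∀ d : ℕ, (p : ℝ) * ((p : ℝ) - 1) ≤ d →
            ((A2.filter fun v => d ∣ v).card : ℝ) ≤ x * (1 / ((p : ℝ) * ((p : ℝ) - 1))) := by
          intro d hd
          have hdp : (0 : ℝ) < d := lt_of_lt_of_le (by nlinarith) hd
          refine (card_multiples (by exact_mod_cast hdp) hx0.le _ fun v hv => ?_).trans ?_
          · obtain ⟨hv2, hdv⟩ := Finset.mem_filter.1 hv
            obtain ⟨a, b, -⟩ := (mem_totSet hx0.le).1 (hA2 v hv2).1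
            exact ⟨a, b, hdv⟩
          · rw [mul_one_div]
            exact div_le_div_of_nonneg_left hx0.le (by nlinarith) hd
        have hsub : A2.filter (Q p) ⊆
            A2.filter (fun v => p ^ 2 ∣ v) ∪ A2.filter (fun v => p * (p - 1) ∣ v) := fun v hv => by
          simp only [Finset.mem_filter, Finset.mem_union] at hv ⊢
          exact hv.2.imp (fun h => ⟨hv.1, h⟩) (fun h => ⟨hv.1, h⟩)
        rw [Finset.sum_const, nsmul_eq_mul, mul_one]
        refine (Nat.cast_le.2 ((Finset.card_le_card hsub).trans (Finset.card_union_le _ _))).trans ?_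
        push_cast
        rw [two_mul, add_mul]
        refine add_le_add (hone (p ^ 2) (by push_cast; nlinarith)) (hone (p * (p - 1)) (le_of_eq ?_))
        rw [Nat.cast_mul, Nat.cast_sub hpp.one_lt.le]; simp
    _ ≤ 2 * x * (2 * Real.exp (-Real.exp (yLow u))) := by
        rw [← Finset.mul_sum]
        gcongr
        exact sum_sq_primes hb P fun p hp => (Finset.mem_filter.1 hp).2
    _ ≤ x * Real.exp (3 - Real.exp (yLow u)) := by
        rw [sub_eq_add_neg, Real.exp_add]
        have h4 : (4 : ℝ) ≤ Real.exp 3 := by linarith [Real.add_one_le_exp (3 : ℝ)]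
        nlinarith [mul_pos hx0 (Real.exp_pos (-Real.exp (yLow u)))]
    _ ≤ _ := mul_exp_le_invlog hx (by linarith [ha.sq_small, pow_nonneg hb.l_pos.le 3, hb.u_pos])

lemma count_len : ∀ᶠ u : ℝ in atTop, ∀ (x : ℝ) (A1 : Finset ℕ), XRange u x →
    (∀ v ∈ A1, 1 ≤ v ∧ (v : ℝ) ≤ x ∧ u ^ 3 - 4 ≤ (v.primeFactorsList.length : ℝ)) →
    (A1.card : ℝ) ≤ Real.exp (-LL u ^ 3) * (x / Real.log x) := by
  filter_upwards [eventually_upperBig, bad_len_recip] with u hb hlen x A1 hx hA
  have hx0 : 0 < x := by linarith [hx.one_lt]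
  have hxX : x ≤ Real.exp (Real.exp (u + 2)) := by
    rw [← Real.exp_log hx0]
    exact Real.exp_le_exp.2 (hx.hi.trans (Real.exp_le_exp.2 (by linarith)))
  refine (card_le_recip A1 fun v hv => ⟨(hA v hv).1, (hA v hv).2.1⟩).trans
    ((mul_le_mul_of_nonneg_left (hlen x A1 hx.one_lt.le hxX hA) hx0.le).trans (mul_exp_le_invlog hx ?_))
  linarith [hb.u_ge, pow_nonneg hb.l_pos.le 3]

lemma count_nonAdm : ∀ᶠ u : ℝ in atTop, ∀ (x : ℝ) (E : Finset ℕ), XRange u x →
    (∀ m ∈ E, m ∈ totSet x ∧ ∃ n : ℕ, 0 < n ∧ Nat.totient n = m ∧ ¬ Adm u n) →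
    ((E.biUnion fun m => (topPrimes u x m).image fun p => (p - 1) * m).card : ℝ) ≤
      Real.exp (-(3 * LL u ^ 3 / 4)) * (x / Real.log x) := by
  classical
  obtain ⟨C, hC⟩ := topPrimes_card
  obtain ⟨D, hD⟩ := totRecip_le
  filter_upwards [eventually_upperBig, exceptional_recip, hC, hD,
    tendsto_LL.eventually_ge_atTop (4 * (|D| + C + 10))] with u hb hexc hCp hDF hLbig x E hx hE
  have hlog : 0 < Real.log x := Real.log_pos hx.one_lt
  have hx0 : 0 < x := by linarith [hx.one_lt]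
  have hxX : x ≤ Real.exp (Real.exp (u + 2)) := by
    rw [← Real.exp_log hx0]
    exact Real.exp_le_exp.2 (hx.hi.trans (Real.exp_le_exp.2 (by linarith)))
  set X2 := Real.exp (Real.exp (u + 2))
  set L := LL u
  have hdiv0 : (0 : ℝ) ≤ x / Real.log x := by positivity
  have hEx := hexc E fun m hm => by
    obtain ⟨hmt, hex⟩ := hE m hm
    obtain ⟨a, b, n, hn, hφ⟩ := (mem_totSet hx0.le).1 hmt
    exact ⟨(mem_totSet (Real.exp_pos _).le).2 ⟨a, b.trans hxX, n, hn, hφ⟩, hex⟩
  calc ((E.biUnion fun m => (topPrimes u x m).image fun p => (p - 1) * m).card : ℝ) ≤ ∑ m ∈ E, ((topPrimes u x m).card : ℝ) := by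
        have := Finset.card_biUnion_le (s := E)
          (t := fun m => (topPrimes u x m).image (fun p => (p - 1) * m))
        refine (Nat.cast_le.2 this).trans ?_
        push_cast
        exact Finset.sum_le_sum fun m _ => by exact_mod_cast Finset.card_image_le
    _ ≤ ∑ m ∈ E, Real.exp ((C : ℝ) * L) * (x / Real.log x) * (1 / m) :=
        Finset.sum_le_sum fun m hm => by
          obtain ⟨a, b, -⟩ := (mem_totSet hx0.le).1 (hE m hm).1
          exact hCp x m hx a b
    _ ≤ Real.exp ((C : ℝ) * L) * (x / Real.log x) *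
          (Real.exp (-(L ^ 3)) * (2 * Real.exp (|D| * L ^ 2))) := by
        rw [← Finset.mul_sum]
        refine mul_le_mul_of_nonneg_left (hEx.trans (mul_le_mul_of_nonneg_left ?_ (Real.exp_pos _).le))
          (by positivity)
        have h1 : totRecip X2 ≤ Real.exp (|D| * L ^ 2) :=
          hDF.trans (Real.exp_le_exp.2 (mul_le_mul_of_nonneg_right (le_abs_self D) (sq_nonneg _)))
        linarith [Real.one_le_exp (show 0 ≤ |D| * L ^ 2 by positivity)]
    _ ≤ _ := by
        have h2e : (2 : ℝ) ≤ Real.exp 1 := by linarith [Real.add_one_le_exp (1 : ℝ)]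
        calc Real.exp ((C : ℝ) * L) * (x / Real.log x) *
              (Real.exp (-(L ^ 3)) * (2 * Real.exp (|D| * L ^ 2)))
            ≤ Real.exp ((C : ℝ) * L) * (x / Real.log x) *
              (Real.exp (-(L ^ 3)) * (Real.exp 1 * Real.exp (|D| * L ^ 2))) := by gcongr
          _ = Real.exp ((C : ℝ) * L + (-(L ^ 3) + (1 + |D| * L ^ 2))) * (x / Real.log x) := by
              rw [Real.exp_add, Real.exp_add (-(L ^ 3)), Real.exp_add 1]; ring
          _ ≤ _ := by
              refine mul_le_mul_of_nonneg_right (Real.exp_le_exp.2 ?_) hdiv0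
              have h2 : (C : ℝ) * L ≤ C * L ^ 2 := mul_le_mul_of_nonneg_left
                (le_self_pow₀ hb.one_le_l two_ne_zero) (Nat.cast_nonneg _)
              have h3' : 4 * (|D| + C + 10) * L ^ 2 ≤ L * L ^ 2 :=
                mul_le_mul_of_nonneg_right hLbig (sq_nonneg _)
              nlinarith [one_le_pow₀ hb.one_le_l (n := 2)]

open scoped Classical in
lemma count_abnormal : ∀ᶠ u : ℝ in atTop, ∀ (x : ℝ), XRange u x →
    (((totSet x).biUnion fun m => ((topPrimes u x m).filter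
      fun p => ¬ NormalPrime u p).image fun p => (p - 1) * m).card : ℝ) ≤
      Real.exp (-(3 * LL u ^ 3 / 4)) * (x / Real.log x) := by
  classical
  obtain ⟨D, hD⟩ := totRecip_le
  filter_upwards [eventually_upperBig, abnormal_count, hD,
    tendsto_LL.eventually_ge_atTop (4 * (|D| + 10))] with u hb habn hDF hLbig x hx
  have hlog : 0 < Real.log x := Real.log_pos hx.one_lt
  have hx0 : 0 < x := by linarith [hx.one_lt]
  obtain ⟨ht1, -, -, -⟩ := xRange_big hb hx
  have hxX : x ≤ Real.exp (Real.exp (u + 2)) := by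
    rw [← Real.exp_log hx0]
    exact Real.exp_le_exp.2 (hx.hi.trans (Real.exp_le_exp.2 (by linarith)))
  set X2 := Real.exp (Real.exp (u + 2))
  set L := LL u
  have hFx : totRecip x ≤ totRecip X2 := totRecip_mono hx0.le hxX
  have hdiv0 : (0 : ℝ) ≤ x / Real.log x := by positivity
  have hone : ∀ m ∈ totSet x, (((topPrimes u x m).filter fun p => ¬ NormalPrime u p).card : ℝ) ≤
      Real.exp (-(2 * L ^ 3)) * (2 * u ^ 4) * (x / Real.log x) * (1 / m) := by
    intro m hm
    obtain ⟨hm1, hmx, -⟩ := (mem_totSet hx0.le).1 hm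
    have hm0 : (0 : ℝ) < m := by exact_mod_cast hm1
    rcases ((topPrimes u x m).filter fun p => ¬ NormalPrime u p).eq_empty_or_nonempty with he | ⟨P, hP⟩
    · rw [he, Finset.card_empty]; push_cast; positivity
    obtain ⟨hP1, -⟩ := Finset.mem_filter.1 hP
    simp only [topPrimes, Finset.mem_filter, Nat.mem_primesLE] at hP1
    obtain ⟨⟨hPle, hPp⟩, hPlog⟩ := hP1
    set Z := x / m + 1 with hZ
    have hfl : ∀ p : ℕ, p ≤ ⌊x / (m : ℝ)⌋₊ + 1 → (p : ℝ) ≤ Z := fun p hp => by
      have h1 : (p : ℝ) ≤ (⌊x / (m : ℝ)⌋₊ : ℝ) + 1 := by exact_mod_cast hp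
      have := Nat.floor_le (show 0 ≤ x / (m : ℝ) by positivity)
      linarith
    have hlZ : Real.log x / u ^ 4 ≤ Real.log Z :=
      hPlog.trans (Real.log_le_log (by exact_mod_cast hPp.pos) (hfl P hPle))
    have hZ0 : 0 < Z := by positivity
    have hcnt := habn Z ((topPrimes u x m).filter fun p => ¬ NormalPrime u p)
      ((Real.le_log_iff_exp_le hZ0).1 (ht1.trans hlZ))
      (by
        have hxm : x / m ≤ x := div_le_self hx0.le (by exact_mod_cast hm1)
        have : Z ≤ Real.exp (Real.exp (u + 2) + 1) := by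
          rw [Real.exp_add]
          nlinarith [Real.add_one_le_exp (1 : ℝ), one_le_expexp (u + 2)]
        refine this.trans (Real.exp_le_exp.2 ?_)
        rw [show u + 4 = (u + 2) + 2 by ring, Real.exp_add (u + 2) 2]
        nlinarith [Real.add_one_le_exp (2 : ℝ), Real.one_le_exp (show (0 : ℝ) ≤ u + 2 by linarith [hb.u_pos])])
      (fun p hp => by
        obtain ⟨hp1, hp2⟩ := Finset.mem_filter.1 hp
        simp only [topPrimes, Finset.mem_filter, Nat.mem_primesLE] at hp1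
        exact ⟨hp1.1.2, hfl p hp1.1.1, hp2⟩)
    refine hcnt.trans ?_
    have hone' : 1 ≤ x / m := by rw [le_div_iff₀ hm0]; linarith
    calc Real.exp (-(2 * L ^ 3)) * Z / Real.log Z
        ≤ Real.exp (-(2 * L ^ 3)) * (2 * (x / m)) / (Real.log x / u ^ 4) := by
          refine div_le_div₀ (by positivity)
            (mul_le_mul_of_nonneg_left (by simp only [hZ]; linarith) (Real.exp_pos _).le)
            (lt_of_lt_of_le (Real.exp_pos _) ht1) hlZ
      _ = _ := by field_simp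
  calc (((totSet x).biUnion fun m => ((topPrimes u x m).filter
      fun p => ¬ NormalPrime u p).image fun p => (p - 1) * m).card : ℝ)
      ≤ ∑ m ∈ totSet x, (((topPrimes u x m).filter fun p => ¬ NormalPrime u p).card : ℝ) := by
        have := Finset.card_biUnion_le (s := totSet x) (t := fun m =>
          ((topPrimes u x m).filter fun p => ¬ NormalPrime u p).image (fun p => (p - 1) * m))
        refine (Nat.cast_le.2 this).trans ?_
        push_cast
        exact Finset.sum_le_sum fun m _ => by exact_mod_cast Finset.card_image_le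
    _ ≤ Real.exp (-(2 * L ^ 3)) * (2 * u ^ 4) * (x / Real.log x) * Real.exp (|D| * L ^ 2) := by
        refine (Finset.sum_le_sum hone).trans ?_
        rw [← Finset.mul_sum]
        exact mul_le_mul_of_nonneg_left (hFx.trans (hDF.trans
          (Real.exp_le_exp.2 (mul_le_mul_of_nonneg_right (le_abs_self D) (sq_nonneg _))))) (by positivity)
    _ ≤ _ := by
        have hu4 : 2 * u ^ 4 ≤ Real.exp (5 * L) := by
          rw [show 5 * L = ((5 : ℕ) : ℝ) * L by norm_num, Real.exp_nat_mul, hb.exp_l]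
          calc 2 * u ^ 4 ≤ u * u ^ 4 :=
                mul_le_mul_of_nonneg_right (by linarith [hb.u_ge]) (pow_nonneg hb.u_pos.le _)
            _ = u ^ 5 := by ring
        calc Real.exp (-(2 * L ^ 3)) * (2 * u ^ 4) * (x / Real.log x) * Real.exp (|D| * L ^ 2)
            ≤ Real.exp (-(2 * L ^ 3)) * Real.exp (5 * L) * (x / Real.log x) * Real.exp (|D| * L ^ 2) := by
              gcongr
          _ = Real.exp (-(2 * L ^ 3) + 5 * L + |D| * L ^ 2) * (x / Real.log x) := by
              rw [Real.exp_add, Real.exp_add]; ring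
          _ ≤ _ := by
              refine mul_le_mul_of_nonneg_right (Real.exp_le_exp.2 ?_) hdiv0
              have h3' : 4 * (|D| + 10) * L ^ 2 ≤ L * L ^ 2 :=
                mul_le_mul_of_nonneg_right hLbig (sq_nonneg _)
              nlinarith [le_self_pow₀ hb.one_le_l two_ne_zero,
                one_le_pow₀ hb.one_le_l (n := 3)]

theorem struct_all_but : ∀ᶠ u : ℝ in atTop, ∀ (x : ℝ) (S : Finset ℕ), 1 < x →
    |Real.log (Real.log x) - u| ≤ 1 → (∀ v ∈ S, v ∈ totSet x ∧ ¬ Struct u x v) →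
    (S.card : ℝ) ≤ Real.exp (-(LL u ^ 3 / 2)) * x / Real.log x := by
  classical
  filter_upwards [eventually_upperBig, eventually_upperAbsorb 0, count_len, count_nonAdm,
    count_abnormal, top_excess] with u hb ha hlen hnonadm habn htop x S hx1 hxu hS
  have hx := xRange_of hx1 hxu
  have hlog : 0 < Real.log x := Real.log_pos hx1
  have hx0 : 0 < x := by linarith
  obtain ⟨ht1, ht2, hbig, hhalf⟩ := xRange_big hb hx
  set L := LL u with hL
  set N := ⌊x⌋₊ with hN
  have hlog1 : 1 ≤ Real.log x := by linarith [hb.u_pos, pow_nonneg hb.l_pos.le 3]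
  have hx1' : 1 ≤ x := hx1.le
  have hxX : x ≤ Real.exp (Real.exp (u + 2)) := by
    rw [← Real.exp_log hx0]
    exact Real.exp_le_exp.2 (hx.hi.trans (Real.exp_le_exp.2 (by linarith)))
  set X2 := Real.exp (Real.exp (u + 2)) with hX2
  set E := (totSet x).filter (fun m => ∃ n : ℕ, 0 < n ∧ Nat.totient n = m ∧ ¬ Adm u n) with hE
  set A0 := S.filter (fun v : ℕ => (v : ℝ) ≤ Real.exp (Real.log x / 2)) with hA0
  set A1 := S.filter (fun v => u ^ 3 - 4 ≤ (v.primeFactorsList.length : ℝ)) with hA1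
  set A2 := S.filter (fun v => ∃ p : ℕ, p.Prime ∧ yLow u < ll p ∧
    (p ^ 2 ∣ v ∨ p * (p - 1) ∣ v)) with hA2
  set A3 := E.biUnion (fun m => (topPrimes u x m).image (fun p => (p - 1) * m)) with hA3
  set A4 := (totSet x).biUnion (fun m => ((topPrimes u x m).filter
    (fun p => ¬ NormalPrime u p)).image (fun p => (p - 1) * m)) with hA4
  set A5 := S.filter (fun v => ∃ n : ℕ, 0 < n ∧ Nat.totient n = v ∧ prof n 1 ≤ u + 1 ∧
      (∀ p : ℕ, p.Prime → yLow u < ll p → ¬ p ^ 2 ∣ n ∧ ¬ p ^ 2 ∣ v) ∧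
      (∀ q : ℕ, q.Prime → q ∣ n → NormalPrime u q) ∧
      u + hgt u 0 ≤ chain (K2 u) (fun j => prof n (j + 1)) 0) with hA5
  have hcov : S ⊆ A0 ∪ (A1 ∪ (A2 ∪ (A3 ∪ (A4 ∪ A5)))) := by
    intro v hv
    obtain ⟨hvt, hns⟩ := hS v hv
    obtain ⟨hv1, hvx, n, hn0, hφ⟩ := (mem_totSet hx0.le).1 hvt
    simp only [Finset.mem_union]
    by_contra hno
    simp only [not_or] at hno
    obtain ⟨n0, n1, n2, n3, n4, n5⟩ := hno
    simp only [hA0, hA1, hA2, hA5, Finset.mem_filter, hv, true_and] at n0 n1 n2 n5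
    have hn : n ≠ 0 := hn0.ne'
    have hsq : ∀ p : ℕ, p.Prime → yLow u < ll p → ¬ p ^ 2 ∣ n ∧ ¬ p ^ 2 ∣ v := by
      intro p hp hy
      refine ⟨fun hd => n2 ⟨p, hp, hy, Or.inr ?_⟩, fun hd => n2 ⟨p, hp, hy, Or.inl hd⟩⟩
      have := Nat.totient_dvd_of_dvd hd
      rwa [Nat.totient_prime_pow hp two_pos, hφ, show 2 - 1 = 1 from rfl, pow_one] at this
    have hlen' : (n.primeFactorsList.length : ℝ) ≤ u ^ 3 := by
      have h := length_le_totient n hn
      rw [hφ] at h
      have h2 : (n.primeFactorsList.length : ℝ) ≤ (v.primeFactorsList.length : ℝ) + 1 := by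
        exact_mod_cast (show n.primeFactorsList.length ≤ v.primeFactorsList.length + 1 by
          split_ifs at h <;> omega)
      linarith [lt_of_not_ge n1]
    set P := nthPrime n 1 with hPdef
    have hlogP : Real.log x / u ^ 4 ≤ Real.log P := by
      have h1 : n ≤ P ^ n.primeFactorsList.length := by
        conv_lhs => rw [← Nat.prod_primeFactorsList hn]
        exact List.prod_le_pow_card _ _ fun p hp => le_nthPrime_one hp
      have h2 : Real.log v ≤ (n.primeFactorsList.length : ℝ) * Real.log P := by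
        rw [← Real.log_pow]
        refine Real.log_le_log (by exact_mod_cast hv1) ?_
        exact_mod_cast (hφ ▸ Nat.totient_le n).trans h1
      have h3 : Real.log x / 2 ≤ Real.log v :=
        (Real.le_log_iff_exp_le (by exact_mod_cast hv1)).2 (lt_of_not_ge n0).le
      have h4 := mul_le_mul_of_nonneg_right hlen' (Real.log_natCast_nonneg P)
      rw [div_le_iff₀ (pow_pos hb.u_pos _)]
      nlinarith [hb.u_ge, mul_nonneg (pow_nonneg hb.u_pos.le 3) (Real.log_natCast_nonneg P)]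
    have hllP : yLow u < ll P := by
      by_contra hle
      exact absurd ((log_le_exp_ll P).trans (Real.exp_le_exp.2 (le_of_not_gt hle)))
        (not_le.2 (ht2.trans_le hlogP))
    have hP : P.Prime := nthPrime_prime_of_ll (hb.yLow_nonneg.trans_lt hllP)
    have hPsq := (hsq P hP hllP).1
    set n' := cut n 1 with hn'
    obtain ⟨hc0, hcd, -⟩ := cut_spec hn 1
    have hmul : P * n' = n := cut_one_mul hn
    have hnd : ¬ P ∣ n' := fun h => hPsq (by
      rw [pow_two, ← hmul]; exact Nat.mul_dvd_mul_left P h)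
    have hvm : v = (P - 1) * Nat.totient n' := by
      rw [← hφ, ← hmul, Nat.totient_mul (hP.coprime_iff_not_dvd.2 hnd), Nat.totient_prime hP]
    have hm : Nat.totient n' ∈ totSet x := by
      refine totient_mem_totSet (Nat.pos_of_ne_zero hc0) (le_trans ?_ hvx)
      exact_mod_cast Nat.le_of_dvd hv1 ⟨P - 1, by rw [hvm]; ring⟩
    have hmtop : P ∈ topPrimes u x (Nat.totient n') := by
      simp only [topPrimes, Finset.mem_filter, Nat.mem_primesLE]
      have hmpos : (0 : ℝ) < (Nat.totient n' : ℝ) := by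
        exact_mod_cast Nat.totient_pos.2 (Nat.pos_of_ne_zero hc0)
      have h1 : P - 1 ≤ ⌊x / (Nat.totient n' : ℝ)⌋₊ := by
        refine Nat.le_floor ((le_div_iff₀ hmpos).2 ?_)
        exact le_trans (by exact_mod_cast hvm.ge) hvx
      exact ⟨⟨by omega, hP⟩, hlogP⟩
    have hprof : ∀ j, 1 ≤ j → prof n' j = prof n (j + 1) := fun j hj => by
      rw [hn', prof_cut hn 1 hj, add_comm 1 j]
    have hadm : Adm u n' := by
      by_contra hnad
      exact n3 (Finset.mem_biUnion.2 ⟨_, Finset.mem_filter.2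
        ⟨hm, n', Nat.pos_of_ne_zero hc0, rfl, hnad⟩, Finset.mem_image.2 ⟨P, hmtop, hvm.symm⟩⟩)
    have hPn : NormalPrime u P := by
      by_contra hPn
      exact n4 (Finset.mem_biUnion.2 ⟨_, hm, Finset.mem_image.2
        ⟨P, Finset.mem_filter.2 ⟨hmtop, hPn⟩, hvm.symm⟩⟩)
    refine hns ⟨P, n', hP, fun p hp => ?_, hlogP, hadm, ?_, hvm⟩
    · obtain ⟨hpp, hpd, -⟩ := Nat.mem_primeFactors.1 hp
      exact lt_of_le_of_ne (le_nthPrime_of_mem hn hpp (hpd.trans hcd)) fun e => hnd (e ▸ hpd)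
    · by_contra hch
      refine n5 ⟨n, hn0, hφ, ?_, hsq, fun q hq hd => ?_, ?_⟩
      · refine ll_le_of_log_le (by linarith [hb.u_pos]) ?_
        have h1 : P - 1 ≤ v := Nat.le_of_dvd hv1 ⟨_, hvm⟩
        have h2 : (P : ℝ) ≤ x * 2 := by
          have h2' : (P : ℝ) ≤ (v : ℝ) + 1 := by exact_mod_cast (by omega : P ≤ v + 1)
          linarith
        have h3 : Real.log P ≤ Real.log x + 1 := by
          refine (Real.log_le_iff_le_exp (by exact_mod_cast hP.pos)).2 (h2.trans ?_)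
          rw [Real.exp_add, Real.exp_log hx0]
          exact mul_le_mul_of_nonneg_left (by linarith [Real.add_one_le_exp (1 : ℝ)]) hx0.le
        rcases le_or_gt (Real.log P) (Real.exp (u + 1)) with h | h
        · exact h
        · exfalso
          have h4 : (P : ℝ) ≤ x + 1 := by
            have h2' : (P : ℝ) ≤ (v : ℝ) + 1 := by exact_mod_cast (by omega : P ≤ v + 1)
            linarith
          have h5 : Real.exp (Real.exp (u + 1)) < P :=
            (Real.lt_log_iff_exp_lt (by exact_mod_cast hP.pos)).1 h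
          have h6 : x ≤ Real.exp (Real.exp (u + 1)) := by
            rw [← Real.exp_log hx0]; exact Real.exp_le_exp.2 hx.hi
          -- `P - 1 ≤ x ≤ exp (exp (u+1)) < P`: `P` is the only integer in that window
          have h7 : v + 1 = P ∨ P ≤ v := by omega
          rcases h7 with h7 | h7
          · -- then `n' = 1`, whose chain vanishes
            have hm1 : Nat.totient n' = 1 := by
              have hv' : v = P - 1 := by omega
              rw [hv'] at hvm
              have hP2 := hP.two_le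
              exact ((Nat.mul_eq_left (by omega)).1 hvm.symm)
            have hsmall : n' ≤ 2 := by
              rcases Nat.totient_eq_one_iff.1 hm1 with e | e <;> omega
            have hzero : ∀ j, prof n' j = 0 := by
              intro j
              refine le_antisymm ?_ (prof_nonneg _ _)
              have hle : nthPrime n' j ≤ 2 :=
                (Nat.le_of_dvd (Nat.pos_of_ne_zero hc0) (nthPrime_dvd n' j)).trans hsmall
              refine ll_le_of_log_le le_rfl ?_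
              rw [Real.exp_zero]
              rcases Nat.eq_zero_or_pos (nthPrime n' j) with e | e
              · simp [e]
              · have h2' : (nthPrime n' j : ℝ) ≤ 2 := by exact_mod_cast hle
                have := Real.log_le_log (by exact_mod_cast e : (0 : ℝ) < (nthPrime n' j : ℝ)) h2'
                linarith [Real.log_le_sub_one_of_pos (show (0 : ℝ) < 2 by norm_num)]
            refine hch ?_
            rw [chain, Finset.sum_eq_zero fun j _ => by rw [hzero j, mul_zero]]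
            linarith [hb.u_pos, le_trans (pow_nonneg hb.l_pos.le 48) (hb.hgt_ge (Nat.zero_le (K2 u)))]
          · have : (P : ℝ) ≤ v := by exact_mod_cast h7
            linarith
      · rw [← hmul] at hd
        rcases hq.dvd_mul.1 hd with h | h
        · rw [(Nat.prime_dvd_prime_iff_eq hq hP).1 h]; exact hPn
        · exact hadm.reg.normal q hq h
      · refine le_trans (lt_of_not_ge hch).le (le_of_eq ?_)
        rw [chain, chain]
        exact Finset.sum_congr rfl fun j hj => by rw [hprof j (Finset.mem_Ioc.1 hj).1]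
  have hdiv0 : (0 : ℝ) ≤ x / Real.log x := by positivity
  have hFx : totRecip x ≤ totRecip X2 := totRecip_mono hx0.le hxX
  have h0 := count_small hb hx A0 fun v hv => by
    obtain ⟨hvS, hvle⟩ := Finset.mem_filter.1 hv
    exact ⟨((mem_totSet hx0.le).1 (hS v hvS).1).1, hvle⟩
  have h1 := hlen x A1 hx fun v hv => by
    obtain ⟨hvS, hl⟩ := Finset.mem_filter.1 hv
    obtain ⟨a, b, -⟩ := (mem_totSet hx0.le).1 (hS v hvS).1
    exact ⟨a, b, hl⟩
  have h2 := count_sq hb ha hx A2 fun v hv =>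
    ⟨(hS v (Finset.mem_filter.1 hv).1).1, (Finset.mem_filter.1 hv).2⟩
  have h3 : (A3.card : ℝ) ≤ Real.exp (-(3 * L ^ 3 / 4)) * (x / Real.log x) :=
    hnonadm x E hx fun m hm => Finset.mem_filter.1 hm
  have h4 : (A4.card : ℝ) ≤ Real.exp (-(3 * L ^ 3 / 4)) * (x / Real.log x) := habn x hx
  have h5 := htop x A5 hx fun v hv =>
    ⟨(hS v (Finset.mem_filter.1 hv).1).1, (Finset.mem_filter.1 hv).2⟩
  have hnat : S.card ≤ A0.card + (A1.card + (A2.card + (A3.card + (A4.card + A5.card)))) :=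
    (Finset.card_le_card hcov).trans ((Finset.card_union_le _ _).trans (Nat.add_le_add_left
      ((Finset.card_union_le _ _).trans (Nat.add_le_add_left ((Finset.card_union_le _ _).trans
        (Nat.add_le_add_left ((Finset.card_union_le _ _).trans
          (Nat.add_le_add_left (Finset.card_union_le _ _) _)) _)) _)) _))
  have hreal : (S.card : ℝ) ≤ (A0.card : ℝ) + ((A1.card : ℝ) + ((A2.card : ℝ) + ((A3.card : ℝ) +
      ((A4.card : ℝ) + (A5.card : ℝ))))) := by exact_mod_cast hnat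
  have he1 : Real.exp (-L ^ 3) ≤ Real.exp (-(3 * L ^ 3 / 4)) :=
    Real.exp_le_exp.2 (by linarith [pow_nonneg hb.l_pos.le 3])
  have he2 : Real.exp (-(2 * L ^ 3)) ≤ Real.exp (-(3 * L ^ 3 / 4)) :=
    Real.exp_le_exp.2 (by linarith [pow_nonneg hb.l_pos.le 3])
  have he6 : 6 * Real.exp (-(3 * L ^ 3 / 4)) ≤ Real.exp (-(L ^ 3 / 2)) := by
    have hx6 : (6 : ℝ) ≤ Real.exp (L ^ 3 / 4) := by
      linarith [Real.add_one_le_exp (L ^ 3 / 4), hb.l_ge, le_self_pow₀ hb.one_le_l (show (3 : ℕ) ≠ 0 by norm_num)]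
    calc 6 * Real.exp (-(3 * L ^ 3 / 4)) ≤ Real.exp (L ^ 3 / 4) * Real.exp (-(3 * L ^ 3 / 4)) := by gcongr
      _ = _ := by rw [← Real.exp_add]; ring_nf
  rw [mul_div_assoc]
  nlinarith [mul_le_mul_of_nonneg_right he1 hdiv0, mul_le_mul_of_nonneg_right he2 hdiv0,
    mul_le_mul_of_nonneg_right he6 hdiv0]

end Vale.Agent.P031
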