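import Vale.Agent.P031.MainDefs
import Vale.Agent.P031.MainUpperAux
import Vale.Agent.P031.Peel
import Vale.Agent.P031.Upper

/-! The upper set. -/

open Finset Real Filter

namespace Vale.Agent.P031

open MainUpperAux

theorem tailVals_recip_le : ∀ᶠ u : ℝ in atTop,
    ∑ w ∈ tailVals u, 1 / (w : ℝ) ≤ Real.exp (LL u) := by
  obtain ⟨C, hC⟩ := totRecip_le
  have hpow : Tendsto (fun u : ℝ => LL u ^ 130 - 2) atTop atTop :=
    tendsto_atTop_add_const_right _ _ ((tendsto_pow_atTop (by norm_num)).comp tendsto_LL)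
  have hsmall : ∀ᶠ u : ℝ in atTop, |C| * (130 * Real.log (LL u)) ^ 2 ≤ LL u := by
    have h := (isLittleO_pow_log_id_atTop (n := 2)).def
      (show (0 : ℝ) < 1 / ((|C| + 1) * 130 ^ 2) by positivity)
    filter_upwards [tendsto_LL.eventually h, tendsto_LL.eventually_ge_atTop 1] with u hu hL
    rw [Real.norm_eq_abs, Real.norm_eq_abs, abs_of_nonneg (by positivity), id,
      abs_of_nonneg (by linarith : (0 : ℝ) ≤ LL u)] at hu
    calc |C| * (130 * Real.log (LL u)) ^ 2 = |C| * 130 ^ 2 * Real.log (LL u) ^ 2 := by ring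
      _ ≤ (|C| + 1) * 130 ^ 2 * (1 / ((|C| + 1) * 130 ^ 2) * LL u) :=
          mul_le_mul (by linarith) hu (by positivity) (by positivity)
      _ = LL u := by field_simp
  filter_upwards [hpow.eventually hC, hsmall, tendsto_LL.eventually_ge_atTop 100] with u hu hs hL
  have e : Real.exp (Real.exp (LL u ^ 130 - 2 + 2)) = tailBound u := by
    rw [tailBound]; ring_nf
  rw [e] at hu
  refine le_trans ?_ (hu.trans (Real.exp_le_exp.2 ?_))
  · exact Finset.sum_le_sum_of_subset_of_nonneg (by classical exact Finset.filter_subset _ _)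
      fun w _ _ => by positivity
  · have h130 : (100 : ℝ) ≤ LL u ^ 130 := hL.trans (le_self_pow₀ (by linarith) (by norm_num))
    have h1 : LL (LL u ^ 130 - 2) ≤ 130 * Real.log (LL u) := by
      have h := Real.log_le_log (by linarith : (0 : ℝ) < LL u ^ 130 - 2)
        (by linarith : LL u ^ 130 - 2 ≤ LL u ^ 130)
      rw [Real.log_pow] at h
      exact_mod_cast h
    have h0 : 0 ≤ LL (LL u ^ 130 - 2) := Real.log_nonneg (by linarith)
    calc C * LL (LL u ^ 130 - 2) ^ 2 ≤ |C| * LL (LL u ^ 130 - 2) ^ 2 :=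
          mul_le_mul_of_nonneg_right (le_abs_self C) (sq_nonneg _)
      _ ≤ |C| * (130 * Real.log (LL u)) ^ 2 :=
          mul_le_mul_of_nonneg_left (pow_le_pow_left₀ h0 h1 2) (abs_nonneg C)
      _ ≤ LL u := hs

theorem one_mem_tail : ∀ᶠ u : ℝ in atTop,
    1 ∈ tailVals u ∧ (fun _ : ℕ => (0 : ℝ)) ∈ tailVecs u 1 := by
  filter_upwards [eventually_facts] with u F
  have hu : 0 < u := by linarith [F.big]
  have hp : ∀ j : ℕ, prof 1 j = 0 := fun j => by simp [prof, nthPrime, ll]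
  have hy : 0 ≤ yLow u := pow_nonneg (by linarith [F.bigL]) _
  have hg : 0 ≤ 8 * u / gRen (K1 u) := div_nonneg (by linarith) (gRen_pos _).le
  have hone : ∀ p : ℕ, p.Prime → ¬ p ^ 2 ∣ 1 := fun p hp h => by
    have := Nat.le_of_dvd one_pos h
    nlinarith [hp.two_le]
  have hrep : TailRep u 1 1 :=
    { pos := one_pos
      tot := Nat.totient_one
      sq := fun p hp _ => hone p hp
      sqTot := fun p hp _ => by rw [Nat.totient_one]; exact hone p hp
      normal := fun q hq h => absurd (Nat.dvd_one.1 h) hq.ne_one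
      few := by simp; positivity
      rows := fun j _ => by rw [hp]; exact pow_nonneg (by linarith [F.bigL]) _
      size := by rw [hp]; exact hg }
  constructor
  · classical
    refine Finset.mem_filter.2 ⟨Finset.mem_filter.2 ⟨Finset.mem_Icc.2 ⟨le_rfl, ?_⟩,
      ⟨1, one_pos, Nat.totient_one⟩⟩, 1, hrep⟩
    exact Nat.le_floor (by simpa [tailBound] using (Real.exp_pos _).le)
  · refine ⟨1, hrep, funext fun i => ?_⟩
    simp [cutProf, hp, not_lt.2 hy]

theorem tailVecs_tailVec : ∀ᶠ u : ℝ in atTop, ∀ w, ∀ r ∈ tailVecs u w, TailVec u r := by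
  filter_upwards [eventually_facts] with u F
  rintro w r ⟨n, hn, rfl⟩ i hi
  have hu : 0 < u := by linarith [F.big]
  have hy : 0 ≤ yLow u := pow_nonneg (by linarith [F.bigL]) _
  have hg : 0 ≤ 8 * u / gRen (K1 u) := div_nonneg (by linarith) (gRen_pos _).le
  have hanti : prof n (i + 1 - K1 u) ≤ prof n (i - K1 u) := by
    rw [show i + 1 - K1 u = i - K1 u + 1 by omega]
    exact prof_antitone (by omega)
  refine ⟨?_, ?_, ?_⟩
  · unfold cutProf
    split_ifs
    · exact prof_nonneg _ _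
    · exact le_rfl
  · unfold cutProf
    split_ifs
    · exact (prof_mono n le_rfl (by omega)).trans hn.size
    · exact hg
  · unfold cutProf
    by_cases h : K1 u < i + 1 ∧ yLow u < prof n (i + 1 - K1 u)
    · rw [if_pos h, if_pos ⟨hi, h.2.trans_le hanti⟩]
      exact hanti
    · rw [if_neg h]
      split_ifs
      · exact prof_nonneg _ _
      · exact le_rfl

theorem mPlus_pos : ∀ᶠ u : ℝ in atTop, ∀ m ∈ mPlus u, 0 < m := by
  refine Eventually.of_forall fun u m hm => ?_
  classical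
  obtain ⟨q, hq, rfl⟩ := Finset.mem_image.1 hm
  obtain ⟨hbox, c, -, hslot⟩ := Finset.mem_filter.1 hq
  obtain ⟨-, hw⟩ := Finset.mem_product.1 hbox
  refine Nat.mul_pos (Finset.prod_pos fun j _ => Nat.totient_pos.2 ?_)
    (Finset.mem_Icc.1 (Finset.mem_filter.1 (Finset.mem_filter.1 hw).1).1).1
  have h := hslot j
  unfold slotUp at h
  split_ifs at h with hc
  · rcases Finset.mem_insert.1 h with h | h
    · omega
    · exact (Nat.mem_primesLE.1 (Finset.mem_filter.1 h).1).2.pos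
  · exact (mem_llPrimes.1 h).1.pos

theorem mMinus_subset : ∀ᶠ u : ℝ in atTop, mMinus u ⊆ mPlus u := by
  filter_upwards [lowerCells_subset] with u hsub
  classical
  refine Finset.image_subset_image fun q hq => ?_
  obtain ⟨hbox, c, hc, hslot⟩ := Finset.mem_filter.1 (Finset.mem_filter.1 hq).1
  refine Finset.mem_filter.2 ⟨hbox, c, hsub _ hc, fun j => ?_⟩
  obtain ⟨r, -, hG⟩ := hc
  have h := (Finset.mem_filter.1 (hslot j)).1
  unfold slotUp
  rw [if_neg (by have := hG.pos j; omega)]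
  exact h

/-- The weighted count of lower cells before scaling. -/
theorem lowerMass_ge : ∀ᶠ u : ℝ in atTop,
    ((lowerCells u {fun _ : ℕ => (0 : ℝ)}).ncard : ℝ)
      ≤ ∑ w ∈ tailVals u, ((lowerCells u (tailVecs u w)).ncard : ℝ) / w := by
  filter_upwards [one_mem_tail, lowerCells_subset, upperCells_finite] with u h1 hsub hfin
  refine le_trans ?_ (Finset.single_le_sum (f := fun w : ℕ =>
    ((lowerCells u (tailVecs u w)).ncard : ℝ) / w) (fun w _ => by positivity) h1.1)
  rw [Nat.cast_one, div_one]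
  refine Nat.cast_le.2 (Set.ncard_le_ncard ?_ ((hfin _).subset (hsub _)))
  rintro c ⟨r, hr, hG⟩
  rw [Set.mem_singleton_iff] at hr
  exact ⟨r, hr ▸ h1.2, hG⟩

theorem cellMass_ge_one : ∀ᶠ u : ℝ in atTop, 1 ≤ cellMass u := by
  obtain ⟨eta, Th, -, h⟩ := layer_negligible
  filter_upwards [lowerMass_ge, h, tendsto_LL.eventually_ge_atTop 1] with u hmass hu hL
  have h1 : (1 : ℝ) ≤ ((lowerCells u {fun _ : ℕ => (0 : ℝ)}).ncard : ℝ) := by
    have := hu.2.2.1
    norm_cast at this ⊢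
  rw [cellMass]
  exact one_le_mul_of_one_le_of_one_le (h1.trans hmass) (one_le_pow₀ (one_le_pow₀ hL))

/-- The cell of a level. -/
noncomputable def cellOf (u : ℝ) (n k j : ℕ) : ℕ :=
  if j + 1 ≤ k then ⌈prof n (j + 1) / cellW u⌉₊ - 1 else 0

/-- The cell vector of a preimage. -/
noncomputable def cellVec (u : ℝ) (n k : ℕ) : Fin (K1 u) → ℕ := fun j => cellOf u n k j.1

/-- The slot primes of a preimage. -/
def topVec (u : ℝ) (n k : ℕ) : Fin (K1 u) → ℕ := fun j =>
  if j.1 + 1 ≤ k then nthPrime n (j.1 + 1) else 1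

/-- `n` split at the last level `k ≤ K1` above the bottom scale. -/
structure Levels (u : ℝ) (n k r : ℕ) : Prop where
  le : k ≤ K1 u
  high : ∀ i, 1 ≤ i → i ≤ k → yLow u < prof n i
  low : k < K1 u → ∀ i, k < i → prof n i ≤ yLow u
  pos : 0 < r
  dvd : r ∣ n
  len : r.primeFactorsList.length ≤ n.primeFactorsList.length
  prof_eq : ∀ i, 1 ≤ i → prof r i = prof n (i + k)
  tot : Nat.totient n = (∏ i ∈ Finset.Icc 1 k, Nat.totient (nthPrime n i)) * Nat.totient r

theorem exists_levels {u : ℝ} (hy : 0 ≤ yLow u) {n : ℕ} (hA : Reg u n) :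
    ∃ k r, Levels u n k r := by
  classical
  obtain ⟨k, hk⟩ : ∃ k, Nat.findGreatest (fun i => yLow u < prof n i) (K1 u) = k := ⟨_, rfl⟩
  have hkK : k ≤ K1 u := hk ▸ Nat.findGreatest_le _
  have hhigh : ∀ i, 1 ≤ i → i ≤ k → yLow u < prof n i := by
    intro i h1 h2
    exact (Nat.findGreatest_of_ne_zero hk (by omega)).trans_le (prof_mono n h1 h2)
  have hlow : ∀ i, k < i → i ≤ K1 u → prof n i ≤ yLow u := fun i h1 h2 =>
    not_lt.1 (Nat.findGreatest_is_greatest (P := fun i => yLow u < prof n i) (hk.symm ▸ h1) h2)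
  obtain ⟨r, hr, hrn, hlen, hnth, htot⟩ := exists_split hy hA.pos hA.sq k hhigh
  exact ⟨k, r, hkK, hhigh, fun hkK' i h1 =>
    (prof_mono n (by omega : 1 ≤ k + 1) h1).trans (hlow (k + 1) (by omega) hkK'),
    hr, hrn, hlen, fun i hi => by rw [prof, prof, hnth i hi], htot⟩

theorem exp_three_LL {u : ℝ} (hu : 0 < u) : u ^ 3 = Real.exp (3 * LL u) := by
  rw [LL, show (3 : ℝ) * Real.log u = ((3 : ℕ) : ℝ) * Real.log u by norm_num,
    Real.exp_nat_mul, Real.exp_log hu]

theorem levels_size {u : ℝ} (F : Facts u) {n k r : ℕ} (hA : Adm u n)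
    (htop : chain (K2 u) (prof n) 0 ≤ u + hgt u 0) (hl : Levels u n k r) :
    prof r 1 ≤ 8 * u / gRen (K1 u) := by
  have hu : 0 ≤ u := by linarith [F.big]
  rw [hl.prof_eq 1 le_rfl]
  rcases lt_or_eq_of_le hl.le with h | h
  · refine (hl.low h (1 + k) (by omega)).trans ?_
    have h16 : yLow u ≤ LL u ^ 128 := pow_le_pow_right₀ (by linarith [F.bigL]) (by norm_num)
    have h8 : 8 * u / gRen (K1 u) = 8 * (u / gRen (K1 u)) := by ring
    have h0 : 0 ≤ u / gRen (K1 u) := div_nonneg hu (gRen_pos _).le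
    linarith [F.tailScale.1]
  · rw [h]
    have hc := F.coord hA htop (i := 1 + K1 u) (by omega) (by have := F.hlt; omega)
    rw [le_div_iff₀ (gRen_pos _)]
    have hmono : gRen (K1 u) ≤ gRen (1 + K1 u) :=
      gRen_mono (by have := F.hK; omega) (by omega)
    calc prof n (1 + K1 u) * gRen (K1 u) ≤ gRen (1 + K1 u) * prof n (1 + K1 u) := by
          rw [mul_comm]; exact mul_le_mul_of_nonneg_right hmono (prof_nonneg _ _)
      _ ≤ 8 * u := by linarith

theorem levels_tailRep {u : ℝ} (F : Facts u) {n k r : ℕ} (hA : Adm u n)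
    (htop : chain (K2 u) (prof n) 0 ≤ u + hgt u 0) (hl : Levels u n k r) :
    TailRep u (Nat.totient r) r where
  pos := hl.pos
  tot := rfl
  sq p hp hlp h := hA.reg.sq p hp hlp (h.trans hl.dvd)
  sqTot p hp hlp h := hA.reg.sqTot p hp hlp (h.trans (Nat.totient_dvd_of_dvd hl.dvd))
  normal q hq h := hA.reg.normal q hq (h.trans hl.dvd)
  few := le_trans (by exact_mod_cast hl.len) hA.reg.few
  rows j hj := by
    rw [hl.prof_eq j (by omega)]
    rcases lt_or_eq_of_le hl.le with h | h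
    · exact (hl.low h (j + k) (by omega)).trans
        (pow_le_pow_right₀ (by linarith [F.bigL]) (by norm_num))
    · exact F.prof_K2 hA htop (by omega)
  size := levels_size F hA htop hl

theorem levels_tailVals {u : ℝ} (F : Facts u) {n k r : ℕ} (hA : Adm u n)
    (htop : chain (K2 u) (prof n) 0 ≤ u + hgt u 0) (hl : Levels u n k r) :
    Nat.totient r ∈ tailVals u := by
  classical
  have hL : 100 ≤ LL u := F.bigL
  have hu : 0 < u := by linarith [F.big]
  refine Finset.mem_filter.2 ⟨Finset.mem_filter.2 ⟨Finset.mem_Icc.2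
    ⟨Nat.totient_pos.2 hl.pos, Nat.le_floor ?_⟩, ⟨r, hl.pos, rfl⟩⟩,
    r, levels_tailRep F hA htop hl⟩
  refine le_trans (Nat.cast_le.2 (Nat.totient_le r)) ?_
  rw [tailBound, ← Real.log_le_iff_le_exp (by exact_mod_cast hl.pos)]
  refine (log_le_len_top hl.pos).trans ?_
  have hs : prof r 1 ≤ 32 * LL u ^ 128 := by
    refine (levels_size F hA htop hl).trans ?_
    have h8 : 8 * u / gRen (K1 u) = 8 * (u / gRen (K1 u)) := by ring
    linarith [F.tailScale.2]
  calc (r.primeFactorsList.length : ℝ) * Real.exp (prof r 1)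
      ≤ Real.exp (3 * LL u) * Real.exp (32 * LL u ^ 128) := by
        rw [← exp_three_LL hu]
        exact mul_le_mul (le_trans (by exact_mod_cast hl.len) hA.reg.few)
          (Real.exp_le_exp.2 hs) (Real.exp_pos _).le (pow_nonneg hu.le _)
    _ ≤ Real.exp (LL u ^ 130) := by
        rw [← Real.exp_add]
        refine Real.exp_le_exp.2 ?_
        have h128 : LL u ≤ LL u ^ 128 := le_self_pow₀ (by linarith) (by norm_num)
        have e130 : LL u ^ 130 = LL u ^ 2 * LL u ^ 128 := by ring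
        have h2 : (35 : ℝ) * LL u ^ 128 ≤ LL u ^ 2 * LL u ^ 128 :=
          mul_le_mul_of_nonneg_right (by nlinarith) (pow_nonneg (by linarith) _)
        linarith

theorem cell_bounds {W y : ℝ} (hW : 0 < W) (h : W < y) :
    1 ≤ ⌈y / W⌉₊ - 1 ∧ W * ((⌈y / W⌉₊ - 1 : ℕ) : ℝ) < y ∧
      y ≤ W * (((⌈y / W⌉₊ - 1 : ℕ) : ℝ) + 1) := by
  have h1 : (1 : ℝ) < y / W := by rw [lt_div_iff₀ hW]; linarith
  have hc2 : 2 ≤ ⌈y / W⌉₊ := Nat.lt_ceil.2 (by exact_mod_cast h1)
  have e : ((⌈y / W⌉₊ - 1 : ℕ) : ℝ) = (⌈y / W⌉₊ : ℝ) - 1 := by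
    rw [Nat.cast_sub (by omega)]; simp
  refine ⟨by omega, ?_, ?_⟩
  · rw [e]
    have h3 := Nat.ceil_lt_add_one (by linarith : (0 : ℝ) ≤ y / W)
    calc W * ((⌈y / W⌉₊ : ℝ) - 1) < W * (y / W) := mul_lt_mul_of_pos_left (by linarith) hW
      _ = y := by field_simp
  · rw [e, sub_add_cancel]
    calc y = W * (y / W) := by field_simp
      _ ≤ _ := mul_le_mul_of_nonneg_left (Nat.le_ceil _) hW.le

theorem level_cell {u : ℝ} (F : Facts u) {n k r : ℕ} (hl : Levels u n k r) {i : ℕ}
    (h1 : 1 ≤ i) (h2 : i ≤ k) :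
    1 ≤ cellOf u n k (i - 1) ∧ cellW u * (cellOf u n k (i - 1) : ℝ) < prof n i ∧
      prof n i ≤ cellW u * ((cellOf u n k (i - 1) : ℝ) + 1) := by
  have hW : 0 < cellW u := pow_pos (by linarith [F.bigL]) _
  have hWy : cellW u ≤ yLow u := pow_le_pow_right₀ (by linarith [F.bigL]) (by norm_num)
  rw [cellOf, show i - 1 + 1 = i by omega, if_pos h2]
  exact cell_bounds hW (lt_of_le_of_lt hWy (hl.high i h1 h2))

theorem vecOf_eq (u : ℝ) (n k r : ℕ) {i : ℕ} (h1 : 1 ≤ i) (h2 : i ≤ K1 u) :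
    vecOf u (cellVec u n k) (cutProf u r) i = cellW u * (cellOf u n k (i - 1) : ℝ) := by
  rw [vecOf, dif_pos ⟨h1, h2⟩]
  rfl

theorem cut_bounds {u : ℝ} {n k r : ℕ} (hl : Levels u n k r) {i : ℕ} (h : K1 u < i) :
    vecOf u (cellVec u n k) (cutProf u r) i = cutProf u r i ∧
      (k = K1 u → cutProf u r i ≤ prof n i) ∧ (k < K1 u → cutProf u r i = 0) := by
  refine ⟨by rw [vecOf, dif_neg (by omega), if_pos h], ?_, ?_⟩
  · intro hk
    rw [cutProf, hl.prof_eq (i - K1 u) (by omega), show i - K1 u + k = i by omega]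
    split_ifs
    · exact le_rfl
    · exact prof_nonneg _ _
  · intro hk
    rw [cutProf, hl.prof_eq (i - K1 u) (by omega), if_neg]
    rintro ⟨-, h'⟩
    linarith [hl.low hk (i - K1 u + k) (by omega)]

theorem vec_close {u : ℝ} (F : Facts u) {n k r : ℕ} (hl : Levels u n k r) {i : ℕ} (h1 : 1 ≤ i) :
    |vecOf u (cellVec u n k) (cutProf u r) i - prof n i| ≤ yLow u := by
  have hy : 0 ≤ yLow u := pow_nonneg (by linarith [F.bigL]) _
  have hWy : cellW u ≤ yLow u := pow_le_pow_right₀ (by linarith [F.bigL]) (by norm_num)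
  by_cases h2 : i ≤ K1 u
  · rw [vecOf_eq u n k r h1 h2]
    by_cases h3 : i ≤ k
    · obtain ⟨-, ha, hb⟩ := level_cell F hl h1 h3
      rw [mul_add, mul_one] at hb
      rw [abs_le]
      exact ⟨by linarith, by linarith⟩
    · rw [cellOf, show i - 1 + 1 = i by omega, if_neg h3, Nat.cast_zero, mul_zero, zero_sub,
        abs_neg, abs_of_nonneg (prof_nonneg _ _)]
      exact hl.low (by omega) i (by omega)
  · obtain ⟨e, -, hz⟩ := cut_bounds hl (show K1 u < i by omega)
    rw [e]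
    rcases lt_or_eq_of_le hl.le with h | h
    · rw [hz h, zero_sub, abs_neg, abs_of_nonneg (prof_nonneg _ _)]
      exact hl.low h i (by omega)
    · rw [cutProf, hl.prof_eq (i - K1 u) (by omega), show i - K1 u + k = i by omega]
      split_ifs with h'
      · rw [sub_self, abs_zero]; exact hy
      · rw [zero_sub, abs_neg, abs_of_nonneg (prof_nonneg _ _)]
        exact not_lt.1 fun hh => h' ⟨by omega, hh⟩

theorem chain_close {u : ℝ} (F : Facts u) {n k r : ℕ} (hl : Levels u n k r) (i : ℕ) :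
    |chain (K2 u) (vecOf u (cellVec u n k) (cutProf u r)) i - chain (K2 u) (prof n) i|
      ≤ LL u ^ 19 := by
  have hL : 100 ≤ LL u := F.bigL
  have hy : 0 ≤ yLow u := pow_nonneg (by linarith) _
  refine (abs_chain_sub_le hy fun j hj _ => vec_close F hl (by omega)).trans ?_
  have hc : (0 : ℝ) ≤ (K2 u : ℝ) := Nat.cast_nonneg _
  have h9 : Real.log ((K2 u : ℝ) + 1) + 1 ≤ 9 * LL u := by
    have := Real.log_le_sub_one_of_pos (show (0 : ℝ) < (K2 u : ℝ) + 1 by linarith)
    linarith [F.hK2]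
  have h0 : 0 ≤ Real.log ((K2 u : ℝ) + 1) + 1 := by
    linarith [Real.log_nonneg (show (1 : ℝ) ≤ (K2 u : ℝ) + 1 by linarith)]
  calc (K2 u : ℝ) * (Real.log ((K2 u : ℝ) + 1) + 1) * yLow u
      ≤ (8 * LL u) * (9 * LL u) * LL u ^ 16 :=
        mul_le_mul_of_nonneg_right (mul_le_mul F.hK2 h9 h0 (by linarith)) hy
    _ = 72 * LL u ^ 18 := by ring
    _ ≤ LL u ^ 19 := by
        rw [pow_succ' (LL u) 18]
        exact mul_le_mul_of_nonneg_right (by linarith) (pow_nonneg (by linarith) _)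

theorem hgt_zero_big {u : ℝ} (F : Facts u) : 2 * LL u ^ 19 + 3 ≤ hgt u 0 := by
  have hu : 0 < u := by linarith [F.big]
  have hL : 100 ≤ LL u := F.bigL
  have h20 := (F.upow le_rfl (by have := F.hK; have := F.hlt; omega)).2
  have hg : (1 / 3 : ℝ) ≤ gRen 1 := by rw [gRen_one]; exact coef_one_bounds.1
  have hg1 : gRen 1 ≤ 1 := by rw [gRen_one]; linarith [coef_one_bounds.2]
  have hle : hgt u 1 ≤ 3 * hgt u 0 := by
    rw [hgt_zero, hgt, Real.div_rpow hu.le (gRen_pos 1).le,
      div_le_iff₀ (Real.rpow_pos_of_pos (gRen_pos 1) _)]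
    have h3 : gRen 1 ≤ gRen 1 ^ ((3 : ℝ) / 4) := by
      calc gRen 1 = gRen 1 ^ (1 : ℝ) := (Real.rpow_one _).symm
        _ ≤ _ := Real.rpow_le_rpow_of_exponent_ge (gRen_pos 1) hg1 (by norm_num)
    nlinarith [Real.rpow_nonneg hu.le ((3 : ℝ) / 4)]
  have h6 : 9 * LL u ^ 19 ≤ LL u ^ 20 := by
    rw [pow_succ' (LL u) 19]
    exact mul_le_mul_of_nonneg_right (by linarith) (pow_nonneg (by linarith) _)
  have h10 : (3 : ℝ) ≤ LL u ^ 19 := le_trans (by linarith) (le_self_pow₀ (by linarith) (by norm_num))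
  linarith

theorem levels_gupper {u : ℝ} (F : Facts u) {n k r : ℕ} (hA : Adm u n)
    (htop : chain (K2 u) (prof n) 0 ≤ u + hgt u 0) (hl : Levels u n k r) :
    GUpper u (cellVec u n k) (cutProf u r) := by
  have hL : 100 ≤ LL u := F.bigL
  have hW : 0 ≤ cellW u := pow_nonneg (by linarith) _
  have hK := F.hK
  have hyLow : yLow u ≤ LL u ^ 19 := pow_le_pow_right₀ (by linarith) (by norm_num)
  have h19 : 0 ≤ LL u ^ 19 := pow_nonneg (by linarith) _
  have h0 := hgt_zero_big F
  constructor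
  · intro i h1 h2
    rw [vecOf_eq u n k r h1 h2.le, vecOf_eq u n k r (by omega) h2, cellOf, cellOf,
      show i + 1 - 1 + 1 = i + 1 by omega, show i - 1 + 1 = i by omega]
    by_cases h3 : i + 1 ≤ k
    · rw [if_pos h3, if_pos (by omega)]
      gcongr
      exact prof_antitone h1
    · rw [if_neg h3, Nat.cast_zero, mul_zero]
      exact mul_nonneg hW (Nat.cast_nonneg _)
  · obtain ⟨e, hle, hz⟩ := cut_bounds hl (show K1 u < K1 u + 1 by omega)
    rw [e, vecOf_eq u n k r (by omega) le_rfl]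
    rcases lt_or_eq_of_le hl.le with h | h
    · rw [hz h]
      exact add_nonneg (mul_nonneg hW (Nat.cast_nonneg _)) hW
    · obtain ⟨-, -, hb⟩ := level_cell F hl (show 1 ≤ K1 u by omega) h.ge
      rw [mul_add, mul_one] at hb
      exact ((hle h).trans (prof_antitone (by omega))).trans hb
  · intro i h1 h2
    have h3 : i ≤ K2 u := by have := F.hlt; omega
    have ha := abs_le.1 (vec_close F hl h1)
    have hb := abs_le.1 (chain_close F hl i)
    have hs := hA.slack i h1 h3
    have h20 := (F.upow h1 h3).2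
    have h2L : 2 * LL u ^ 19 ≤ LL u ^ 20 := by
      rw [pow_succ' (LL u) 19]
      exact mul_le_mul_of_nonneg_right (by linarith) h19
    unfold slackAt at hs ⊢
    linarith
  · have ha := abs_le.1 (vec_close F hl (le_refl 1))
    linarith [hA.first]
  · have hb := abs_le.1 (chain_close F hl 0)
    linarith

theorem topVec_slot {u : ℝ} (F : Facts u) {n k r : ℕ} (hl : Levels u n k r) (j : Fin (K1 u)) :
    topVec u n k j ∈ slotUp u (cellVec u n k j) := by
  classical
  unfold topVec slotUp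
  by_cases hj : j.1 + 1 ≤ k
  · rw [if_pos hj]
    obtain ⟨hc1, ha, hb⟩ := level_cell F hl (show 1 ≤ j.1 + 1 by omega) hj
    rw [Nat.add_sub_cancel] at hc1 ha hb
    have hne : cellVec u n k j ≠ 0 := by
      show cellOf u n k j.1 ≠ 0
      omega
    rw [if_neg hne, mem_llPrimes]
    refine ⟨?_, ha, hb⟩
    rcases Nat.lt_or_ge n.primeFactorsList.length (j.1 + 1) with hlen | hlen
    · have h := hl.high (j.1 + 1) (by omega) hj
      rw [prof, nthPrime_eq_one hlen, ll_one] at h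
      have hy : 0 ≤ yLow u := pow_nonneg (by linarith [F.bigL]) _
      linarith
    · exact (nthPrime_mem (by omega) hlen).1
  · rw [if_neg hj, if_pos (show cellVec u n k j = 0 by
      show cellOf u n k j.1 = 0
      rw [cellOf, if_neg hj])]
    exact Finset.mem_insert_self _ _

theorem topVec_box {u : ℝ} (F : Facts u) {n k : ℕ} (hA : Adm u n) :
    topVec u n k ∈ Fintype.piFinset (fun _ : Fin (K1 u) =>
      Finset.range (⌈Real.exp (Real.exp (4 * u))⌉₊ + 1)) := by
  refine Fintype.mem_piFinset.2 fun j => Finset.mem_range.2 (Nat.lt_succ_of_le ?_)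
  unfold topVec
  split_ifs with hj
  · refine Nat.cast_le.1 (((le_exp_exp_ll (nthPrime n (j.1 + 1))).trans
      (Real.exp_le_exp.2 (Real.exp_le_exp.2 ?_))).trans (Nat.le_ceil _))
    have h : prof n (j.1 + 1) ≤ prof n 1 := prof_mono n le_rfl (by omega)
    change prof n (j.1 + 1) ≤ 4 * u
    linarith [hA.first, F.big]
  · exact Nat.one_le_iff_ne_zero.2 (Nat.ceil_pos.2 (Real.exp_pos _)).ne'

theorem topVec_val {u : ℝ} {n k r : ℕ} (hl : Levels u n k r) :
    tupVal (topVec u n k, Nat.totient r) = Nat.totient n := by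
  rw [tupVal, hl.tot]
  congr 1
  show ∏ j : Fin (K1 u), Nat.totient (topVec u n k j) = _
  unfold topVec
  rw [Fin.prod_univ_eq_prod_range
      (fun j => Nat.totient (if j + 1 ≤ k then nthPrime n (j + 1) else 1)) (K1 u),
    ← Finset.prod_subset (Finset.range_subset_range.2 hl.le) (fun j _ hj => by
      rw [Finset.mem_range] at hj
      rw [if_neg (by omega), Nat.totient_one]),
    ← Finset.Ico_succ_right_eq_Icc, Order.succ_eq_add_one, Finset.prod_Ico_eq_prod_range,
    Nat.add_sub_cancel]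
  refine Finset.prod_congr rfl fun j hj => ?_
  rw [Finset.mem_range] at hj
  rw [if_pos (by omega), Nat.add_comm 1 j]

theorem log_x_ge {u x : ℝ} (hu : 2 < u) (hx : 1 ≤ x) (h : |Real.log (Real.log x) - u| ≤ 1) :
    Real.exp (u - 1) ≤ Real.log x := by
  obtain ⟨hxl, -⟩ := abs_le.1 h
  rcases (Real.log_nonneg hx).eq_or_lt with h0 | h0
  · rw [← h0, Real.log_zero] at hxl; linarith
  · rw [← Real.exp_log h0]
    exact Real.exp_le_exp.2 (by linarith)

theorem log_tot_le {u x : ℝ} (F : Facts u) (hL1 : LL u ≤ u / 3000) (hu4 : 10000 ≤ u)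
    (hx : 1 ≤ x) (hxu : |Real.log (Real.log x) - u| ≤ 1) {P n v : ℕ} (hP : P.Prime)
    (hPbig : ∀ p ∈ n.primeFactors, p < P) (hA : Adm u n)
    (htop : chain (K2 u) (prof n) 0 ≤ u + hgt u 0) (hveq : v = (P - 1) * Nat.totient n)
    (hvx : (v : ℝ) ≤ x) : Real.log (Nat.totient n) ≤ 3 / 4 * Real.log x := by
  have hn : 0 < n := hA.reg.pos
  have hu : 0 < u := by linarith
  have hlx := log_x_ge (by linarith) hx hxu
  have hy2 : prof n 2 ≤ 994 / 1000 * u := by
    have hc := F.coord hA htop (i := 2) (by norm_num) (by have := F.hK; have := F.hlt; omega)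
    have h1 : 101 / 100 * prof n 2 ≤ gRen 2 * prof n 2 :=
      mul_le_mul_of_nonneg_right coef_two_add_sq (prof_nonneg _ _)
    linarith
  have heps : (n.primeFactorsList.length : ℝ) * Real.exp (prof n 2) ≤ Real.log x / 4 := by
    have h4 : (4 : ℝ) ≤ Real.exp 2 := by
      have h := Real.add_one_le_exp (1 : ℝ)
      have e : Real.exp 2 = Real.exp 1 * Real.exp 1 := by rw [← Real.exp_add]; norm_num
      nlinarith only [h, e]
    calc (n.primeFactorsList.length : ℝ) * Real.exp (prof n 2)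
        ≤ Real.exp (3 * LL u) * Real.exp (994 / 1000 * u) := by
          rw [← exp_three_LL hu]
          exact mul_le_mul hA.reg.few (Real.exp_le_exp.2 hy2) (Real.exp_pos _).le (pow_nonneg hu.le _)
      _ ≤ Real.exp (u - 1) / 4 := by
          rw [le_div_iff₀ (by norm_num)]
          calc Real.exp (3 * LL u) * Real.exp (994 / 1000 * u) * 4
              ≤ Real.exp (3 * LL u) * Real.exp (994 / 1000 * u) * Real.exp 2 :=
                mul_le_mul_of_nonneg_left h4 (mul_nonneg (Real.exp_pos _).le (Real.exp_pos _).le)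
            _ ≤ Real.exp (u - 1) := by
                rw [← Real.exp_add, ← Real.exp_add]
                exact Real.exp_le_exp.2 (by linarith)
      _ ≤ Real.log x / 4 := by linarith
  have hmn : Real.log (Nat.totient n) ≤ Real.log n :=
    Real.log_le_log (by exact_mod_cast Nat.totient_pos.2 hn) (by exact_mod_cast Nat.totient_le n)
  have htop2 := log_le_top_two hn
  have hq1 : Real.log (nthPrime n 1) ≤ Real.log P := by
    refine Real.log_le_log (by exact_mod_cast nthPrime_pos n 1 le_rfl) (Nat.cast_le.2 ?_)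
    rcases Nat.lt_or_ge n.primeFactorsList.length 1 with hl | hl
    · rw [nthPrime_eq_one hl]; exact hP.one_le
    · obtain ⟨hp, hd⟩ := nthPrime_mem (n := n) le_rfl hl
      exact (hPbig _ (Nat.mem_primeFactors.2 ⟨hp, hd, hn.ne'⟩)).le
  have hP2 : (2 : ℝ) ≤ P := by exact_mod_cast hP.two_le
  have hm0 : (1 : ℝ) ≤ (Nat.totient n : ℝ) := by exact_mod_cast Nat.totient_pos.2 hn
  have hvlog : Real.log ((P : ℝ) - 1) + Real.log (Nat.totient n) ≤ Real.log x := by
    rw [← Real.log_mul (by linarith) (by linarith)]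
    refine Real.log_le_log (mul_pos (by linarith) (by linarith)) (le_trans (le_of_eq ?_) hvx)
    rw [hveq, Nat.cast_mul, Nat.cast_sub hP.one_le, Nat.cast_one]
  have hPP : Real.log P ≤ Real.log ((P : ℝ) - 1) + 1 := by
    have h1 : Real.log P ≤ Real.log (2 * ((P : ℝ) - 1)) :=
      Real.log_le_log (by linarith) (by linarith)
    rw [Real.log_mul (by norm_num) (by linarith)] at h1
    linarith [Real.log_two_lt_d9]
  have h10 : 10 ≤ Real.log x := le_trans (by linarith [Real.add_one_le_exp (u - 1)]) hlx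
  linarith

theorem struct_mem : ∀ᶠ u : ℝ in atTop, ∀ (x : ℝ) (v : ℕ),
    |Real.log (Real.log x) - u| ≤ 1 → 1 ≤ v → (v : ℝ) ≤ x → Struct u x v →
    ∃ P m : ℕ, P.Prime ∧ m ∈ mPlus u ∧ v = (P - 1) * m ∧ Real.log m ≤ 3 / 4 * Real.log x := by
  classical
  filter_upwards [eventually_facts, eventually_LL_pow_le 1 (1 / 3000) (by norm_num),
    eventually_ge_atTop (10000 : ℝ)] with u F hL1 hu4 x v hxu hv hvx hS
  obtain ⟨P, n, hP, hPbig, -, hA, htop, hveq⟩ := hS
  have hy : 0 ≤ yLow u := pow_nonneg (by linarith [F.bigL]) _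
  obtain ⟨k, r, hl⟩ := exists_levels hy hA.reg
  rw [pow_one] at hL1
  refine ⟨P, Nat.totient n, hP, Finset.mem_image.2 ⟨(topVec u n k, Nat.totient r),
    Finset.mem_filter.2 ⟨Finset.mem_product.2 ⟨topVec_box F hA, levels_tailVals F hA htop hl⟩,
      cellVec u n k, ⟨cutProf u r, ⟨r, levels_tailRep F hA htop hl, rfl⟩,
        levels_gupper F hA htop hl⟩, topVec_slot F hl⟩, topVec_val hl⟩, hveq, ?_⟩
  exact log_tot_le F (by linarith) hu4 (le_trans (by exact_mod_cast hv) hvx) hxu hP hPbig hA htop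
    hveq hvx

/-- The sum over one slot. -/
theorem slotUp_sum_le : ∃ C : ℝ, 0 ≤ C ∧ ∀ᶠ u : ℝ in atTop, ∀ c : ℕ,
    ∑ q ∈ slotUp u c, 1 / (Nat.totient q : ℝ) ≤ cellW u + C := by
  obtain ⟨C₁, -, h1⟩ := mertens_ll_upto
  obtain ⟨C₂, h2⟩ := mertens_ll
  refine ⟨(C₁ : ℝ) + |C₂| + 1, by positivity, ?_⟩
  filter_upwards [tendsto_LL.eventually_ge_atTop 1] with u hL c
  classical
  have hW : 0 ≤ cellW u := pow_nonneg (by linarith) _
  have hprime : ∀ p : ℕ, p.Prime → 1 / (Nat.totient p : ℝ) = 1 / ((p : ℝ) - 1) := fun p hp => by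
    rw [Nat.totient_prime hp, Nat.cast_sub hp.one_le, Nat.cast_one]
  unfold slotUp
  split_ifs with hc
  · rw [Finset.sum_insert (by simp [Nat.mem_primesLE, Nat.not_prime_one]), Nat.totient_one, Nat.cast_one, div_one,
      Finset.sum_congr rfl fun p hp => hprime p (Nat.mem_primesLE.1 (Finset.mem_filter.1 hp).1).2]
    have := h1 (cellW u) hW
      ((Nat.primesLE ⌈Real.exp (Real.exp (cellW u))⌉₊).filter fun p => ll p ≤ cellW u) fun p hp =>
      ⟨(Nat.mem_primesLE.1 (Finset.mem_filter.1 hp).1).2, (Finset.mem_filter.1 hp).2⟩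
    linarith [abs_nonneg C₂]
  · rw [Finset.sum_congr rfl fun p hp => hprime p (mem_llPrimes.1 hp).1]
    have := (abs_le.1 (h2 (cellW u * c) (cellW u * (c + 1)) (by positivity) (by linarith))).2
    linarith [le_abs_self C₂, Nat.cast_nonneg (α := ℝ) C₁]

theorem slot_product_le {u C : ℝ} (hC : ∀ c : ℕ, ∑ q ∈ slotUp u c, 1 / (Nat.totient q : ℝ) ≤ C)
    (c : Fin (K1 u) → ℕ) (w : ℕ) :
    ∑ q ∈ Fintype.piFinset (fun j => slotUp u (c j)), 1 / (tupVal (q, w) : ℝ)
      ≤ 1 / (w : ℝ) * C ^ K1 u := by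
  classical
  have e : ∀ q : Fin (K1 u) → ℕ, 1 / (tupVal (q, w) : ℝ)
      = 1 / (w : ℝ) * ∏ j, 1 / (Nat.totient (q j) : ℝ) := by
    intro q
    rw [tupVal, Nat.cast_mul, Nat.cast_prod]
    simp only [one_div]
    rw [mul_inv, Finset.prod_inv_distrib]
    ring
  rw [Finset.sum_congr rfl fun q _ => e q, ← Finset.mul_sum]
  refine mul_le_mul_of_nonneg_left ?_ (by positivity)
  rw [← Finset.prod_univ_sum (fun j => slotUp u (c j)) (fun _ q => 1 / (Nat.totient q : ℝ))]
  calc ∏ j : Fin (K1 u), ∑ q ∈ slotUp u (c j), 1 / (Nat.totient q : ℝ)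
      ≤ ∏ _j : Fin (K1 u), C :=
        Finset.prod_le_prod (fun j _ => Finset.sum_nonneg fun q _ => by positivity)
          (fun j _ => hC (c j))
    _ = C ^ K1 u := by rw [Finset.prod_const, Finset.card_univ, Fintype.card_fin]

theorem upTuples_sum_le {u C : ℝ} (hC : ∀ c : ℕ, ∑ q ∈ slotUp u c, 1 / (Nat.totient q : ℝ) ≤ C)
    (hfin : ∀ R, (upperCells u R).Finite) :
    ∑ m ∈ mPlus u, 1 / (m : ℝ) ≤
      (∑ w ∈ tailVals u, 1 / (w : ℝ) * ((upperCells u (tailVecs u w)).ncard : ℝ)) * C ^ K1 u := by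
  classical
  have hnn : ∀ q : (Fin (K1 u) → ℕ) × ℕ, (0 : ℝ) ≤ 1 / (tupVal q : ℝ) := fun q => by positivity
  let body : ℕ → Finset ((Fin (K1 u) → ℕ) × ℕ) := fun w =>
    (hfin (tailVecs u w)).toFinset.biUnion fun c =>
      (Fintype.piFinset fun j => slotUp u (c j)).image fun q => (q, w)
  have hsub : upTuples u ⊆ (tailVals u).biUnion body := by
    intro q hq
    obtain ⟨hbox, c, hc, hs⟩ := Finset.mem_filter.1 hq
    refine Finset.mem_biUnion.2 ⟨q.2, (Finset.mem_product.1 hbox).2, Finset.mem_biUnion.2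
      ⟨c, (hfin _).mem_toFinset.2 hc, Finset.mem_image.2 ⟨q.1, Fintype.mem_piFinset.2 hs, rfl⟩⟩⟩
  calc ∑ m ∈ mPlus u, 1 / (m : ℝ) ≤ ∑ q ∈ upTuples u, 1 / (tupVal q : ℝ) :=
        sum_image_le_sum _ tupVal (fun m : ℕ => 1 / (m : ℝ)) fun m => by positivity
    _ ≤ ∑ q ∈ (tailVals u).biUnion body, 1 / (tupVal q : ℝ) :=
        Finset.sum_le_sum_of_subset_of_nonneg hsub fun q _ _ => hnn q
    _ ≤ ∑ w ∈ tailVals u, ∑ q ∈ body w, 1 / (tupVal q : ℝ) := sum_biUnion_le_sum _ _ _ hnn
    _ ≤ ∑ w ∈ tailVals u, ∑ _c ∈ (hfin (tailVecs u w)).toFinset, 1 / (w : ℝ) * C ^ K1 u := by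
        refine Finset.sum_le_sum fun w _ => (sum_biUnion_le_sum _ _ _ hnn).trans
          (Finset.sum_le_sum fun c _ => ?_)
        rw [Finset.sum_image fun a _ b _ h => congrArg Prod.fst h]
        exact slot_product_le hC c w
    _ = _ := by
        rw [Finset.sum_mul]
        refine Finset.sum_congr rfl fun w _ => ?_
        rw [Finset.sum_const, nsmul_eq_mul, Set.ncard_eq_toFinset_card _ (hfin (tailVecs u w))]
        ring

theorem pow_slot_le {u C : ℝ} (F : Facts u) (hC : 0 ≤ C) :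
    (cellW u + C) ^ K1 u ≤ cellW u ^ K1 u * Real.exp (8 * C / LL u ^ 2) := by
  have hL : 0 < LL u := by linarith [F.bigL]
  have hW : 0 < cellW u := pow_pos hL _
  have e : cellW u + C = cellW u * (1 + C / cellW u) := by field_simp
  rw [e, mul_pow]
  refine mul_le_mul_of_nonneg_left ?_ (pow_nonneg hW.le _)
  have h0 : 0 ≤ C / cellW u := div_nonneg hC hW.le
  calc (1 + C / cellW u) ^ K1 u ≤ Real.exp (C / cellW u) ^ K1 u :=
        pow_le_pow_left₀ (by linarith) (by linarith [Real.add_one_le_exp (C / cellW u)]) _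
    _ = Real.exp ((K1 u : ℝ) * (C / cellW u)) := (Real.exp_nat_mul _ _).symm
    _ ≤ _ := by
        refine Real.exp_le_exp.2 ?_
        have hKL : (K1 u : ℝ) ≤ 8 * LL u := le_trans (by exact_mod_cast F.hlt.le) F.hK2
        calc (K1 u : ℝ) * (C / cellW u) ≤ 8 * LL u * (C / cellW u) :=
              mul_le_mul_of_nonneg_right hKL h0
          _ = 8 * C / LL u ^ 2 := by
              rw [cellW]
              field_simp

theorem mPlus_sum : ∃ eta : ℝ → ℝ, Tendsto eta atTop (nhds 0) ∧ ∀ᶠ u : ℝ in atTop,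
    ∑ m ∈ mPlus u, 1 / (m : ℝ) ≤ (1 + eta u) * cellMass u := by
  classical
  obtain ⟨eta, Th, heta, hlayer⟩ := layer_negligible
  obtain ⟨C, hC, hslot⟩ := slotUp_sum_le
  refine ⟨fun u => Real.exp (8 * C / LL u ^ 2) * (1 + 2 * |eta u|) - 1, ?_, ?_⟩
  · have h1 : Tendsto (fun u : ℝ => 8 * C / LL u ^ 2) atTop (nhds 0) :=
      tendsto_const_nhds.div_atTop ((tendsto_pow_atTop (by norm_num)).comp tendsto_LL)
    have h2 := ((Real.continuous_exp.tendsto 0).comp h1).mul
      (((heta.abs).const_mul 2).const_add 1)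
    simpa using h2.sub_const 1
  filter_upwards [hlayer, hslot, eventually_facts, lowerMass_ge, tailVals_recip_le,
    tailVecs_tailVec, upperCells_finite] with u hlay hsl F hmass hrec htv hfin
  obtain ⟨hcell, hTh0, -, hThle⟩ := hlay
  have hneT : ∀ w ∈ tailVals u, (tailVecs u w).Nonempty := fun w hw => by
    obtain ⟨n, hn⟩ := (Finset.mem_filter.1 hw).2
    exact ⟨_, n, hn, rfl⟩
  have h1 : ∀ w ∈ tailVals u, 1 / (w : ℝ) * ((upperCells u (tailVecs u w)).ncard : ℝ) ≤
      (1 + |eta u|) * (((lowerCells u (tailVecs u w)).ncard : ℝ) / w) + Th u * (1 / (w : ℝ)) := by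
    intro w hw
    have h := hcell _ (hneT w hw) (htv w)
    calc 1 / (w : ℝ) * ((upperCells u (tailVecs u w)).ncard : ℝ)
        ≤ 1 / (w : ℝ) * ((1 + |eta u|) * ((lowerCells u (tailVecs u w)).ncard : ℝ) + Th u) := by
          refine mul_le_mul_of_nonneg_left (h.trans ?_) (by positivity)
          exact add_le_add (mul_le_mul_of_nonneg_right
            (add_le_add le_rfl (le_abs_self _)) (Nat.cast_nonneg _)) le_rfl
      _ = _ := by ring
  have h2 : Th u * ∑ w ∈ tailVals u, 1 / (w : ℝ) ≤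
      |eta u| * ∑ w ∈ tailVals u, ((lowerCells u (tailVecs u w)).ncard : ℝ) / w := by
    calc Th u * ∑ w ∈ tailVals u, 1 / (w : ℝ) ≤ Th u * Real.exp (LL u) :=
          mul_le_mul_of_nonneg_left hrec hTh0
      _ ≤ |eta u| * ((lowerCells u {fun _ : ℕ => (0 : ℝ)}).ncard : ℝ) :=
          hThle.trans (mul_le_mul_of_nonneg_right (le_abs_self _) (Nat.cast_nonneg _))
      _ ≤ _ := mul_le_mul_of_nonneg_left hmass (abs_nonneg _)
  have hcells : ∑ w ∈ tailVals u, 1 / (w : ℝ) * ((upperCells u (tailVecs u w)).ncard : ℝ)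
      ≤ (1 + 2 * |eta u|) * ∑ w ∈ tailVals u, ((lowerCells u (tailVecs u w)).ncard : ℝ) / w := by
    refine (Finset.sum_le_sum h1).trans ?_
    rw [Finset.sum_add_distrib, ← Finset.mul_sum, ← Finset.mul_sum]
    linarith
  have hW : 0 ≤ cellW u := pow_nonneg (by linarith [F.bigL]) _
  refine (upTuples_sum_le hsl hfin).trans ((mul_le_mul hcells (pow_slot_le F hC)
    (pow_nonneg (by linarith) _) ?_).trans (le_of_eq ?_))
  · exact mul_nonneg (by linarith [abs_nonneg (eta u)])
      (Finset.sum_nonneg fun w _ => div_nonneg (Nat.cast_nonneg _) (Nat.cast_nonneg _))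
  · rw [cellMass]
    ring

end Vale.Agent.P031
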