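import Vale.Agent.P031.Defs
import Vale.Agent.P003.Mertens

/-!
P031, module Tools: Mertens with bounded error on the `log log` scale, Euler products, the density
bound, Rankin's bound for smooth numbers and the weight `1.5 ^ Ω`.
-/

open Finset Real
open scoped ArithmeticFunction.vonMangoldt

namespace Vale.Agent.P031

/-- Primes `p` with `a < ll p ≤ b`. -/
noncomputable def llPrimes (a b : ℝ) : Finset ℕ := by
  classical exact (Nat.primesLE ⌈Real.exp (Real.exp b)⌉₊).filter fun p => a < ll p ∧ ll p ≤ b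

theorem log_le_exp_of_ll_le {p : ℕ} {b : ℝ} (hp : p.Prime) (h : ll p ≤ b) :
    Real.log p ≤ Real.exp b := by
  have hl : 0 < Real.log p := Real.log_pos (by exact_mod_cast hp.one_lt)
  exact (Real.log_le_iff_le_exp hl).1 ((le_max_right _ _).trans h)

theorem mem_llPrimes {a b : ℝ} {p : ℕ} :
    p ∈ llPrimes a b ↔ p.Prime ∧ a < ll p ∧ ll p ≤ b := by
  classical
  simp only [llPrimes, Finset.mem_filter, Nat.mem_primesLE]
  constructor
  · rintro ⟨⟨-, h⟩, h'⟩
    exact ⟨h, h'⟩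
  · rintro ⟨h, h'⟩
    refine ⟨⟨?_, h⟩, h'⟩
    exact_mod_cast (((Real.log_le_iff_le_exp (by exact_mod_cast h.pos)).1
      (log_le_exp_of_ll_le h h'.2)).trans (Nat.le_ceil _))

theorem ll_mem_iff {a b : ℝ} (ha : 0 ≤ a) (hab : a ≤ b) {p : ℕ} (hp : p.Prime) :
    a < ll p ∧ ll p ≤ b ↔ Real.exp a < Real.log p ∧ Real.log p ≤ Real.exp b := by
  have hl : 0 < Real.log p := Real.log_pos (by exact_mod_cast hp.one_lt)
  constructor
  · rintro ⟨h1, h2⟩
    refine ⟨?_, log_le_exp_of_ll_le hp h2⟩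
    rcases lt_max_iff.1 h1 with h | h
    · linarith
    · exact (Real.lt_log_iff_exp_lt hl).1 h
  · rintro ⟨h1, h2⟩
    exact ⟨((Real.lt_log_iff_exp_lt hl).2 h1).trans_le (le_max_right _ _),
      max_le (ha.trans hab) ((Real.log_le_iff_le_exp hl).2 h2)⟩

theorem sum_inv_mul_pred_le_one (s : Finset ℕ) (hs : ∀ p ∈ s, 2 ≤ p) :
    ∑ p ∈ s, 1 / ((p : ℝ) * ((p : ℝ) - 1)) ≤ 1 := by
  have h : ∀ N : ℕ, ∑ k ∈ Finset.Icc 2 (N + 1), 1 / ((k : ℝ) * ((k : ℝ) - 1))
      ≤ 1 - 1 / ((N : ℝ) + 1) := by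
    intro N
    induction N with
    | zero => simp
    | succ N ih =>
      rw [Finset.sum_Icc_succ_top (by omega)]
      push_cast
      have hN : (0 : ℝ) < (N : ℝ) + 1 := by positivity
      have e : 1 / (((N : ℝ) + 1 + 1) * ((N : ℝ) + 1 + 1 - 1))
          = 1 / ((N : ℝ) + 1) - 1 / ((N : ℝ) + 1 + 1) := by
        field_simp
        ring
      linarith
  have h' : ∑ k ∈ Finset.Icc 2 (s.sup id + 1), 1 / ((k : ℝ) * ((k : ℝ) - 1)) ≤ 1 := by
    refine (h _).trans ?_
    have : (0 : ℝ) ≤ 1 / (((s.sup id : ℕ) : ℝ) + 1) := by positivity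
    linarith
  refine le_trans (Finset.sum_le_sum_of_subset_of_nonneg ?_ ?_) h'
  · intro p hp
    exact Finset.mem_Icc.2 ⟨hs p hp, Nat.le_succ_of_le (Finset.le_sup (f := id) hp)⟩
  · intro k hk _
    have : (2 : ℝ) ≤ k := by exact_mod_cast (Finset.mem_Icc.1 hk).1
    exact div_nonneg zero_le_one (mul_nonneg (by linarith) (by linarith))

theorem sum_inv_pred_le (s : Finset ℕ) (hs : ∀ p ∈ s, 2 ≤ p) :
    ∑ p ∈ s, 1 / ((p : ℝ) - 1) ≤ ∑ p ∈ s, 1 / (p : ℝ) + 1 := by
  have : ∑ p ∈ s, 1 / ((p : ℝ) - 1)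
      = ∑ p ∈ s, 1 / (p : ℝ) + ∑ p ∈ s, 1 / ((p : ℝ) * ((p : ℝ) - 1)) := by
    rw [← Finset.sum_add_distrib]
    refine Finset.sum_congr rfl fun p hp => ?_
    have h2 : (2 : ℝ) ≤ p := by exact_mod_cast hs p hp
    have : (p : ℝ) - 1 ≠ 0 := by linarith
    field_simp
    ring
  linarith [sum_inv_mul_pred_le_one s hs]

/-- T1: Mertens on the `log log` scale, both directions, for arbitrary finite sets. -/
theorem mertens_ll_sets : ∃ C : ℕ, 1 ≤ C ∧ ∀ a b : ℝ, 0 ≤ a → a ≤ b →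
    (∀ s : Finset ℕ, (∀ p ∈ s, p.Prime ∧ a < ll p ∧ ll p ≤ b) →
      ∑ p ∈ s, 1 / ((p : ℝ) - 1) ≤ b - a + C) ∧
    |∑ p ∈ llPrimes a b, 1 / ((p : ℝ) - 1) - (b - a)| ≤ C := by
  obtain ⟨K, hK, hM⟩ := P003.mertens_interval
  refine ⟨⌈K⌉₊ + 1, by omega, fun a b ha hab => ?_⟩
  have hC : K + 1 ≤ ((⌈K⌉₊ + 1 : ℕ) : ℝ) := by push_cast; linarith [Nat.le_ceil K]
  obtain ⟨hu, hl⟩ := hM (Real.exp a) (Real.exp b)
    (P003.log_two_le_one.trans (Real.one_le_exp ha)) (Real.exp_le_exp.2 hab)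
  rw [Real.log_div (Real.exp_ne_zero _) (Real.exp_ne_zero _), Real.log_exp, Real.log_exp] at hu hl
  have up : ∀ s : Finset ℕ, (∀ p ∈ s, p.Prime ∧ a < ll p ∧ ll p ≤ b) →
      ∑ p ∈ s, 1 / ((p : ℝ) - 1) ≤ b - a + ((⌈K⌉₊ + 1 : ℕ) : ℝ) := by
    intro s hs
    refine (sum_inv_pred_le s fun p hp => (hs p hp).1.two_le).trans ?_
    linarith [hu s fun p hp => ⟨(hs p hp).1, (ll_mem_iff ha hab (hs p hp).1).1 (hs p hp).2⟩]
  refine ⟨up, abs_le.2 ⟨?_, ?_⟩⟩
  · have h1 := hl (llPrimes a b) fun p hp h2 h3 =>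
      mem_llPrimes.2 ⟨hp, (ll_mem_iff ha hab hp).2 ⟨h2, h3⟩⟩
    have h4 : ∑ p ∈ llPrimes a b, 1 / (p : ℝ) ≤ ∑ p ∈ llPrimes a b, 1 / ((p : ℝ) - 1) := by
      refine Finset.sum_le_sum fun p hp => ?_
      have : (2 : ℝ) ≤ p := by exact_mod_cast (mem_llPrimes.1 hp).1.two_le
      exact one_div_le_one_div_of_le (by linarith) (by linarith)
    linarith
  · linarith [up (llPrimes a b) fun p hp => mem_llPrimes.1 hp]

/-- T1 from the bottom: all primes with `ll p ≤ b`. -/
theorem mertens_ll_upto : ∃ C : ℕ, 1 ≤ C ∧ ∀ b : ℝ, 0 ≤ b → ∀ s : Finset ℕ,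
    (∀ p ∈ s, p.Prime ∧ ll p ≤ b) → ∑ p ∈ s, 1 / ((p : ℝ) - 1) ≤ b + C := by
  classical
  obtain ⟨C, hC, hM⟩ := mertens_ll_sets
  refine ⟨C + 1, by omega, fun b hb s hs => ?_⟩
  have hsmall : s.filter (fun p => ¬ (0 < ll p)) ⊆ {2} := by
    intro p hp
    obtain ⟨h1, h2⟩ := Finset.mem_filter.1 hp
    have hp' := (hs p h1).1
    rw [Finset.mem_singleton]
    by_contra hne
    refine h2 (lt_max_of_lt_right (Real.log_pos ?_))
    have h3 : (3 : ℝ) ≤ p := by exact_mod_cast (show 3 ≤ p by have := hp'.two_le; omega)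
    rw [Real.lt_log_iff_exp_lt (by linarith)]
    linarith [Real.exp_one_lt_d9]
  rw [← Finset.sum_filter_add_sum_filter_not s (fun p => 0 < ll p)]
  have h1 := (hM 0 b le_rfl hb).1 (s.filter fun p => 0 < ll p) fun p hp => by
    obtain ⟨h1, h2⟩ := Finset.mem_filter.1 hp
    exact ⟨(hs p h1).1, h2, (hs p h1).2⟩
  have h2 : ∑ p ∈ s.filter (fun p => ¬ (0 < ll p)), 1 / ((p : ℝ) - 1) ≤ 1 := by
    calc _ ≤ ∑ p ∈ ({2} : Finset ℕ), 1 / ((p : ℝ) - 1) :=
          Finset.sum_le_sum_of_subset_of_nonneg hsmall fun p hp _ => by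
            rw [Finset.mem_singleton] at hp
            subst hp; norm_num
      _ = 1 := by norm_num
  push_cast
  linarith

/-- Mertens' second theorem with a bounded error. -/
theorem mertens_ll : ∃ C : ℝ, ∀ a b : ℝ, 0 ≤ a → a ≤ b →
    |∑ p ∈ llPrimes a b, 1 / ((p : ℝ) - 1) - (b - a)| ≤ C := by
  obtain ⟨C, -, hM⟩ := mertens_ll_sets
  exact ⟨C, fun a b ha hab => (hM a b ha hab).2⟩

theorem mertens_upto : ∃ C : ℝ, ∀ N : ℕ, 3 ≤ N →
    ∑ p ∈ Nat.primesLE N, 1 / ((p : ℝ) - 1) ≤ Real.log (Real.log N) + C := by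
  obtain ⟨C, -, hM⟩ := mertens_ll_upto
  refine ⟨C, fun N hN => ?_⟩
  have hlN : 1 ≤ Real.log N := by
    rw [Real.le_log_iff_exp_le (by exact_mod_cast (show 0 < N by omega))]
    have : (3 : ℝ) ≤ N := by exact_mod_cast hN
    linarith [Real.exp_one_lt_d9]
  refine hM _ (Real.log_nonneg hlN) _ fun p hp => ?_
  obtain ⟨hpN, hpp⟩ := Nat.mem_primesLE.1 hp
  refine ⟨hpp, max_le (Real.log_nonneg hlN) ?_⟩
  exact Real.log_le_log (Real.log_pos (by exact_mod_cast hpp.one_lt))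
    (Real.log_le_log (by exact_mod_cast hpp.pos) (by exact_mod_cast hpN))

/-- Finite Euler product for a multiplicative weight with geometric local factors. -/
theorem euler_prod_le (P : Finset ℕ) (hP : ∀ p ∈ P, p.Prime) (f g : ℕ → ℝ)
    (hf : ∀ p, 0 ≤ f p) (hg : ∀ p, 0 ≤ g p) (hg1 : ∀ p ∈ P, g p < 1) (S : Finset ℕ)
    (hS : ∀ k ∈ S, k ≠ 0 ∧ k.primeFactors ⊆ P) :
    ∑ k ∈ S, ∏ p ∈ k.primeFactors, f p * g p ^ k.factorization p
      ≤ ∏ p ∈ P, (1 + f p * (g p / (1 - g p))) := by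
  classical
  induction P using Finset.induction_on generalizing S with
  | empty =>
    have hsub : S ⊆ {1} := by
      intro k hk
      obtain ⟨h0, h⟩ := hS k hk
      rw [Finset.subset_empty, Nat.primeFactors_eq_empty] at h
      simpa using h.resolve_left h0
    refine (Finset.sum_le_sum_of_subset_of_nonneg hsub ?_).trans (by simp)
    exact fun k _ _ => Finset.prod_nonneg fun p _ => mul_nonneg (hf p) (pow_nonneg (hg p) _)
  | @insert q P hqP ih =>
    have hq : q.Prime := hP q (Finset.mem_insert_self _ _)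
    have hP' : ∀ p ∈ P, p.Prime := fun p hp => hP p (Finset.mem_insert_of_mem hp)
    have ih' := ih hP' fun p hp => hg1 p (Finset.mem_insert_of_mem hp)
    have hg1q := hg1 q (Finset.mem_insert_self _ _)
    set w : ℕ → ℝ := fun k => ∏ p ∈ k.primeFactors, f p * g p ^ k.factorization p with hw
    have hw0 : ∀ k, 0 ≤ w k := fun k =>
      Finset.prod_nonneg fun p _ => mul_nonneg (hf p) (pow_nonneg (hg p) _)
    set ψ : ℕ → ℝ := fun e => if e = 0 then 1 else f q * g q ^ e with hψ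
    set T : Finset ℕ := S.image fun k => k / q ^ k.factorization q with hT
    set E : ℕ := S.sup fun k => k.factorization q with hE
    have hψ0 : ∀ e, 0 ≤ ψ e := fun e => by
      simp only [hψ]; split_ifs <;> [exact zero_le_one; exact mul_nonneg (hf q) (pow_nonneg (hg q) _)]
    have hkey : ∀ k ∈ S, w k = ψ (k.factorization q) * w (k / q ^ k.factorization q) := by
      intro k hk
      obtain ⟨h0, h⟩ := hS k hk
      have hpf : (k / q ^ k.factorization q).primeFactors = k.primeFactors.erase q := by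
        rw [← Nat.support_factorization, Nat.factorization_ordCompl, Finsupp.support_erase,
          Nat.support_factorization]
      have hrest : w (k / q ^ k.factorization q)
          = ∏ p ∈ k.primeFactors.erase q, f p * g p ^ k.factorization p := by
        simp only [hw, hpf]
        refine Finset.prod_congr rfl fun p hp => ?_
        rw [Nat.factorization_ordCompl, Finsupp.erase_ne (Finset.ne_of_mem_erase hp)]
      rw [hrest]
      by_cases hqk : q ∈ k.primeFactors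
      · have : k.factorization q ≠ 0 := by
          rw [← Finsupp.mem_support_iff, Nat.support_factorization]; exact hqk
        simp only [hψ, if_neg this, hw]
        rw [← Finset.mul_prod_erase _ _ hqk]
      · have : k.factorization q = 0 := by
          rw [← Finsupp.notMem_support_iff, Nat.support_factorization]; exact hqk
        simp [hψ, this, hw, Finset.erase_eq_of_notMem hqk]
    have hinj : Set.InjOn (fun k => (k.factorization q, k / q ^ k.factorization q)) S := by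
      intro a _ b _ hab
      simp only [Prod.mk.injEq] at hab
      rw [← Nat.ordProj_mul_ordCompl_eq_self a q, ← Nat.ordProj_mul_ordCompl_eq_self b q, hab.2,
        hab.1]
    calc ∑ k ∈ S, w k = ∑ x ∈ S.image (fun k => (k.factorization q, k / q ^ k.factorization q)),
          ψ x.1 * w x.2 := by
          rw [Finset.sum_image hinj]
          exact Finset.sum_congr rfl hkey
      _ ≤ ∑ x ∈ Finset.range (E + 1) ×ˢ T, ψ x.1 * w x.2 := by
          refine Finset.sum_le_sum_of_subset_of_nonneg ?_ fun x _ _ => mul_nonneg (hψ0 _) (hw0 _)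
          intro x hx
          obtain ⟨k, hk, rfl⟩ := Finset.mem_image.1 hx
          refine Finset.mem_product.2 ⟨Finset.mem_range.2 ?_, Finset.mem_image.2 ⟨k, hk, rfl⟩⟩
          exact Nat.lt_succ_of_le (Finset.le_sup (f := fun k => k.factorization q) hk)
      _ = (∑ e ∈ Finset.range (E + 1), ψ e) * ∑ m ∈ T, w m := by
          rw [Finset.sum_product, Finset.sum_mul]
          exact Finset.sum_congr rfl fun e _ => by simp [Finset.mul_sum]
      _ ≤ (1 + f q * (g q / (1 - g q))) * ∏ p ∈ P, (1 + f p * (g p / (1 - g p))) := by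
          refine mul_le_mul ?_ (ih' T fun m hm => ?_) (Finset.sum_nonneg fun m _ => hw0 m) ?_
          · rw [Finset.sum_range_succ']
            have h1 : ψ 0 = 1 := by simp [hψ]
            have h2 : ∑ e ∈ Finset.range E, ψ (e + 1) = f q * (g q * ∑ e ∈ Finset.range E, g q ^ e) := by
              simp only [hψ, Nat.add_eq_zero_iff, one_ne_zero, and_false, if_false, Finset.mul_sum]
              exact Finset.sum_congr rfl fun e _ => by ring
            rw [h1, h2, add_comm]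
            refine add_le_add le_rfl (mul_le_mul_of_nonneg_left ?_ (hf q))
            rw [div_eq_mul_inv]
            refine mul_le_mul_of_nonneg_left ?_ (hg q)
            rw [geom_sum_eq hg1q.ne, ← one_div, div_le_iff_of_neg (by linarith),
              div_mul_eq_mul_div, div_le_iff₀ (by linarith)]
            nlinarith [pow_nonneg (hg q) E]
          · obtain ⟨k, hk, rfl⟩ := Finset.mem_image.1 hm
            obtain ⟨h0, h⟩ := hS k hk
            refine ⟨(Nat.ordCompl_pos q h0).ne', ?_⟩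
            rw [← Nat.support_factorization, Nat.factorization_ordCompl, Finsupp.support_erase,
              Nat.support_factorization]
            intro p hp
            obtain ⟨hne, hp⟩ := Finset.mem_erase.1 hp
            exact (Finset.mem_insert.1 (h hp)).resolve_left hne
          · have : 0 ≤ f q * (g q / (1 - g q)) :=
              mul_nonneg (hf q) (div_nonneg (hg q) (by linarith))
            linarith
      _ = ∏ p ∈ insert q P, (1 + f p * (g p / (1 - g p))) := by rw [Finset.prod_insert hqP]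

/-- The same, in exponential form. -/
theorem euler_exp_le (P : Finset ℕ) (hP : ∀ p ∈ P, p.Prime) (f g : ℕ → ℝ)
    (hf : ∀ p, 0 ≤ f p) (hg : ∀ p, 0 ≤ g p) (hg1 : ∀ p ∈ P, g p < 1) (S : Finset ℕ)
    (hS : ∀ k ∈ S, k ≠ 0 ∧ k.primeFactors ⊆ P) :
    ∑ k ∈ S, ∏ p ∈ k.primeFactors, f p * g p ^ k.factorization p
      ≤ Real.exp (∑ p ∈ P, f p * (g p / (1 - g p))) := by
  refine (euler_prod_le P hP f g hf hg hg1 S hS).trans ?_
  rw [Real.exp_sum]
  have h0 : ∀ p ∈ P, 0 ≤ f p * (g p / (1 - g p)) := fun p hp =>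
    mul_nonneg (hf p) (div_nonneg (hg p) (by linarith [hg1 p hp]))
  refine Finset.prod_le_prod (fun p hp => by linarith [h0 p hp]) fun p hp => ?_
  linarith [Real.add_one_le_exp (f p * (g p / (1 - g p)))]

theorem prod_pow_factorization {k : ℕ} (hk : k ≠ 0) (g : ℕ → ℝ) (c : ℝ)
    (hg : ∀ p ∈ k.primeFactors, g p = (p : ℝ) ^ c) :
    ∏ p ∈ k.primeFactors, g p ^ k.factorization p = (k : ℝ) ^ c := by
  conv_rhs => rw [← Nat.prod_factorization_pow_eq_self hk]
  rw [Finsupp.prod, Nat.support_factorization, Nat.cast_prod,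
    ← Real.finsetProd_rpow _ _ fun p _ => by positivity]
  refine Finset.prod_congr rfl fun p hp => ?_
  rw [hg p hp, Nat.cast_pow, ← Real.rpow_natCast, ← Real.rpow_natCast,
    ← Real.rpow_mul (by positivity), ← Real.rpow_mul (by positivity), mul_comm]

theorem weight_div_eq {k : ℕ} (hk : k ≠ 0) (f : ℕ → ℝ) :
    (∏ p ∈ k.primeFactors, f p) / k
      = ∏ p ∈ k.primeFactors, f p * ((p : ℝ)⁻¹) ^ k.factorization p := by
  rw [Finset.prod_mul_distrib,
    prod_pow_factorization hk (fun p => (p : ℝ)⁻¹) (-1) fun p _ => (Real.rpow_neg_one _).symm,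
    Real.rpow_neg_one, div_eq_mul_inv]

/-- T2 on an arbitrary prime set. -/
theorem euler_recip_le (P : Finset ℕ) (hP : ∀ p ∈ P, p.Prime) (f : ℕ → ℝ) (hf : ∀ p, 0 ≤ f p)
    (S : Finset ℕ) (hS : ∀ k ∈ S, k ≠ 0 ∧ k.primeFactors ⊆ P) :
    ∑ k ∈ S, (∏ p ∈ k.primeFactors, f p) / k ≤ Real.exp (∑ p ∈ P, f p / ((p : ℝ) - 1)) := by
  have h2 : ∀ p ∈ P, (2 : ℝ) ≤ p := fun p hp => by exact_mod_cast (hP p hp).two_le
  have h := euler_exp_le P hP f (fun p => (p : ℝ)⁻¹) hf (fun p => by positivity)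
    (fun p hp => inv_lt_one_of_one_lt₀ (by linarith [h2 p hp])) S hS
  rw [Finset.sum_congr rfl fun k hk => weight_div_eq (hS k hk).1 f]
  refine h.trans_eq (congrArg _ (Finset.sum_congr rfl fun p hp => ?_))
  have := h2 p hp
  have : (p : ℝ) - 1 ≠ 0 := by linarith
  field_simp

/-- T2. -/
theorem euler_le (f : ℕ → ℝ) (hf : ∀ p, 0 ≤ f p) (N : ℕ) :
    ∑ k ∈ Finset.Icc 1 N, (∏ p ∈ k.primeFactors, f p) / k
      ≤ Real.exp (∑ p ∈ Nat.primesLE N, f p / ((p : ℝ) - 1)) := by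
  refine euler_recip_le _ (fun p hp => (Nat.mem_primesLE.1 hp).2) f hf _ fun k hk => ?_
  obtain ⟨h1, h2⟩ := Finset.mem_Icc.1 hk
  refine ⟨by omega, fun p hp => ?_⟩
  exact Nat.mem_primesLE.2 ⟨(Nat.le_of_mem_primeFactors hp).trans h2, Nat.prime_of_mem_primeFactors hp⟩

/-- Euler product bound. -/
theorem euler_bound (f : ℕ → ℝ) (hf : ∀ p, 0 ≤ f p) (N : ℕ) :
    ∑ k ∈ Finset.Icc 1 N, pw f k / k ≤
      Real.exp (∑ p ∈ Nat.primesLE N, f p / ((p : ℝ) - 1)) :=
  euler_le f hf N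

/-- T3: the density bound. -/
theorem density_le : ∃ C : ℕ, 1 ≤ C ∧ ∀ (f : ℕ → ℝ) (B : ℝ), 1 ≤ B → (∀ p, 0 ≤ f p) →
    (∀ p, f p ≤ B) → ∀ N : ℕ, 2 ≤ N → ∑ k ∈ Finset.Icc 1 N, ∏ p ∈ k.primeFactors, f p
      ≤ C * B * N / Real.log N * Real.exp (∑ p ∈ Nat.primesLE N, f p / ((p : ℝ) - 1)) := by
  classical
  refine ⟨⌈1 + (Real.log 4 + 4)⌉₊, Nat.one_le_iff_ne_zero.2 ?_, ?_⟩
  · rw [Ne, Nat.ceil_eq_zero]; linarith [Real.log_pos (show (1 : ℝ) < 4 by norm_num)]
  intro f B hB hf hfB N hN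
  have hC := Nat.le_ceil (1 + (Real.log 4 + 4))
  set c : ℝ := Real.log 4 + 4 with hc
  set F : ℕ → ℝ := fun k => ∏ p ∈ k.primeFactors, f p with hF
  have hF0 : ∀ k, 0 ≤ F k := fun k => Finset.prod_nonneg fun p _ => hf p
  set E := ∑ k ∈ Finset.Icc 1 N, F k / k with hE
  have hlN : 0 < Real.log N := Real.log_pos (by exact_mod_cast hN)
  have hE0 : 0 ≤ E := Finset.sum_nonneg fun k _ => div_nonneg (hF0 k) (Nat.cast_nonneg k)
  have h1 : ∑ k ∈ Finset.Icc 1 N, F k * (Real.log N - Real.log k) ≤ N * E := by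
    rw [hE, Finset.mul_sum]
    refine Finset.sum_le_sum fun k hk => ?_
    have hk1 : (1 : ℝ) ≤ k := by exact_mod_cast (Finset.mem_Icc.1 hk).1
    have hN0 : (0 : ℝ) < N := by exact_mod_cast (show 0 < N by omega)
    have := Real.log_le_sub_one_of_pos (div_pos hN0 (by linarith : (0 : ℝ) < k))
    rw [Real.log_div hN0.ne' (by linarith)] at this
    calc F k * (Real.log N - Real.log k) ≤ F k * ((N : ℝ) / k) :=
          mul_le_mul_of_nonneg_left (by linarith) (hF0 k)
      _ = _ := by ring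
  have hstep : ∀ d m : ℕ, m ≠ 0 → Λ d * F (d * m) ≤ Λ d * (B * F m) := by
    intro d m hm
    by_cases hd : Λ d = 0
    · simp [hd]
    refine mul_le_mul_of_nonneg_left ?_ ArithmeticFunction.vonMangoldt_nonneg
    obtain ⟨p, j, hp, hj, rfl⟩ := (ArithmeticFunction.vonMangoldt_ne_zero_iff.1 hd)
    have hp' : p.Prime := hp.nat_prime
    have hpf : (p ^ j * m).primeFactors = insert p m.primeFactors := by
      rw [Nat.primeFactors_mul (pow_ne_zero _ hp'.ne_zero) hm,
        Nat.primeFactors_prime_pow hj.ne' hp', Finset.insert_eq]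
    simp only [hF, hpf]
    by_cases hmem : p ∈ m.primeFactors
    · rw [Finset.insert_eq_of_mem hmem]
      exact le_mul_of_one_le_left (hF0 m) hB
    · rw [Finset.prod_insert hmem]
      exact mul_le_mul_of_nonneg_right (hfB p) (hF0 m)
  have h2 : ∑ k ∈ Finset.Icc 1 N, F k * Real.log k ≤ B * (c * (N * E)) := by
    let J : Finset (ℕ × ℕ) :=
      ((Finset.Icc 1 N) ×ˢ (Finset.Icc 1 N)).filter fun x => x.1 * x.2 ≤ N
    have hbij : ∑ k ∈ Finset.Icc 1 N, F k * Real.log k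
        = ∑ x ∈ J, Λ x.1 * F (x.1 * x.2) := by
      simp only [← ArithmeticFunction.vonMangoldt_sum, Finset.mul_sum]
      rw [Finset.sum_sigma']
      refine Finset.sum_nbij' (fun y => (y.2, y.1 / y.2)) (fun x => ⟨x.1 * x.2, x.1⟩)
        ?_ ?_ ?_ ?_ ?_
      · rintro ⟨k, d⟩ hy
        simp only [Finset.mem_sigma, Finset.mem_Icc, Nat.mem_divisors] at hy
        obtain ⟨⟨hk1, hkN⟩, hd, -⟩ := hy
        have hd1 : 1 ≤ d := Nat.pos_of_dvd_of_pos hd (by omega)
        have hdk := Nat.le_of_dvd (by omega) hd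
        simp only [J, Finset.mem_filter, Finset.mem_product, Finset.mem_Icc]
        exact ⟨⟨⟨hd1, by omega⟩, Nat.div_pos hdk hd1, (Nat.div_le_self _ _).trans hkN⟩,
          by rw [Nat.mul_div_cancel' hd]; exact hkN⟩
      · rintro ⟨d, m⟩ hx
        simp only [J, Finset.mem_filter, Finset.mem_product, Finset.mem_Icc] at hx
        obtain ⟨⟨⟨hd, -⟩, hm, -⟩, hle⟩ := hx
        simp only [Finset.mem_sigma, Finset.mem_Icc, Nat.mem_divisors]
        exact ⟨⟨Nat.mul_pos hd hm, hle⟩, Dvd.intro _ rfl, (Nat.mul_pos hd hm).ne'⟩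
      · rintro ⟨k, d⟩ hy
        simp only [Finset.mem_sigma, Nat.mem_divisors] at hy
        simp [Nat.mul_div_cancel' hy.2.1]
      · rintro ⟨d, m⟩ hx
        simp only [J, Finset.mem_filter, Finset.mem_product, Finset.mem_Icc] at hx
        simp [Nat.mul_div_cancel_left _ (show 0 < d by omega)]
      · rintro ⟨k, d⟩ hy
        simp only [Finset.mem_sigma, Nat.mem_divisors] at hy
        simp [Nat.mul_div_cancel' hy.2.1, mul_comm]
    rw [hbij]
    calc ∑ x ∈ J, Λ x.1 * F (x.1 * x.2) ≤ ∑ x ∈ J, Λ x.1 * (B * F x.2) := by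
          refine Finset.sum_le_sum fun x hx => hstep _ _ ?_
          simp only [J, Finset.mem_filter, Finset.mem_product, Finset.mem_Icc] at hx
          omega
      _ = ∑ m ∈ Finset.Icc 1 N, ∑ d ∈ (Finset.Icc 1 N).filter (fun d => d * m ≤ N),
            Λ d * (B * F m) := by
          simp only [J, Finset.sum_filter]
          rw [Finset.sum_product, Finset.sum_comm]
      _ ≤ ∑ m ∈ Finset.Icc 1 N, c * ((N : ℝ) / m) * (B * F m) := by
          refine Finset.sum_le_sum fun m hm => ?_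
          have hm1 := (Finset.mem_Icc.1 hm).1
          rw [← Finset.sum_mul]
          refine mul_le_mul_of_nonneg_right ?_ (mul_nonneg (by linarith) (hF0 m))
          refine le_trans ?_ (Chebyshev.psi_le_const_mul_self (by positivity))
          refine Finset.sum_le_sum_of_subset_of_nonneg ?_
            fun _ _ _ => ArithmeticFunction.vonMangoldt_nonneg
          intro d hd
          simp only [Finset.mem_filter, Finset.mem_Icc] at hd
          rw [Finset.mem_Ioc, Nat.floor_div_eq_div]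
          exact ⟨by omega, (Nat.le_div_iff_mul_le (by omega)).2 hd.2⟩
      _ = B * (c * (N * E)) := by
          rw [hE, Finset.mul_sum, Finset.mul_sum, Finset.mul_sum]
          exact Finset.sum_congr rfl fun m _ => by ring
  have h3 : Real.log N * ∑ k ∈ Finset.Icc 1 N, F k
      ≤ (N * E) + B * (c * (N * E)) := by
    have : Real.log N * ∑ k ∈ Finset.Icc 1 N, F k
        = ∑ k ∈ Finset.Icc 1 N, F k * (Real.log N - Real.log k)
          + ∑ k ∈ Finset.Icc 1 N, F k * Real.log k := by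
      rw [← Finset.sum_add_distrib, Finset.mul_sum]
      exact Finset.sum_congr rfl fun k _ => by ring
    linarith
  have hNE : 0 ≤ (N : ℝ) * E := mul_nonneg (Nat.cast_nonneg N) hE0
  rw [div_mul_eq_mul_div, le_div_iff₀ hlN, mul_comm]
  calc _ ≤ (N * E) + B * (c * (N * E)) := h3
    _ ≤ B * ((1 + c) * (N * E)) := by nlinarith
    _ ≤ B * ((⌈1 + c⌉₊ : ℝ) * ((N : ℝ) * Real.exp (∑ p ∈ Nat.primesLE N, f p / ((p : ℝ) - 1)))) := by
        refine mul_le_mul_of_nonneg_left (mul_le_mul hC ?_ hNE (Nat.cast_nonneg _)) (by linarith)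
        exact mul_le_mul_of_nonneg_left (euler_le f hf N) (Nat.cast_nonneg N)
    _ = _ := by ring

/-- Density bound. -/
theorem density_bound : ∃ C : ℝ, ∀ (f : ℕ → ℝ) (B : ℝ) (N : ℕ), 1 ≤ B →
    (∀ p, 0 ≤ f p ∧ f p ≤ B) → 2 ≤ N →
    ∑ k ∈ Finset.Icc 1 N, pw f k ≤
      C * B * N / Real.log N * Real.exp (∑ p ∈ Nat.primesLE N, f p / ((p : ℝ) - 1)) := by
  obtain ⟨C, -, h⟩ := density_le
  exact ⟨C, fun f B N hB hf hN => h f B hB (fun p => (hf p).1) (fun p => (hf p).2) N hN⟩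

/-- The product `∏_{p ≤ e^ls} (1 + O(1/p))` behind Rankin's bound. -/
theorem rankin_key : ∃ C : ℕ, ∀ ls : ℝ, 1 ≤ ls → ∀ S : Finset ℕ,
    (∀ k ∈ S, k ≠ 0 ∧ ∀ p ∈ k.primeFactors, Real.log p ≤ ls) →
    ∑ k ∈ S, (k : ℝ) ^ ((2 * ls)⁻¹ - 1) ≤ ((C : ℝ) * (ls + 1)) ^ C := by
  obtain ⟨C, hC1, hM⟩ := mertens_ll_upto
  refine ⟨⌈Real.exp C⌉₊ + 12, fun ls hls S hS => ?_⟩
  set σ : ℝ := (2 * ls)⁻¹ with hσ
  have hσ0 : 0 < σ := inv_pos.2 (by linarith)
  have hσ2 : σ ≤ 1 / 2 := by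
    rw [hσ, one_div]
    exact inv_anti₀ (by norm_num) (by linarith)
  set D : ℕ := ⌈Real.exp C⌉₊ + 12 with hD
  set P := Nat.primesLE ⌊Real.exp ls⌋₊
  have hPl : ∀ p ∈ P, p.Prime ∧ Real.log p ≤ ls := fun p hp => by
    obtain ⟨hpz, hpp⟩ := Nat.mem_primesLE.1 hp
    exact ⟨hpp, (Real.log_le_iff_le_exp (by exact_mod_cast hpp.pos)).2
      ((Nat.cast_le.2 hpz).trans (Nat.floor_le (Real.exp_pos _).le))⟩
  have hg1 : ∀ p ∈ P, (p : ℝ) ^ (σ - 1) < 1 := fun p hp =>
    Real.rpow_lt_one_of_one_lt_of_neg (by exact_mod_cast (hPl p hp).1.one_lt) (by linarith)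
  have h := euler_exp_le P (fun p hp => (hPl p hp).1) (fun _ => (1 : ℝ))
    (fun p => (p : ℝ) ^ (σ - 1)) (fun _ => zero_le_one) (fun p => by positivity) hg1 S
    fun k hk => ⟨(hS k hk).1, fun p hp => Nat.mem_primesLE.2
      ⟨Nat.le_floor ((Real.log_le_iff_le_exp
        (by exact_mod_cast (Nat.prime_of_mem_primeFactors hp).pos)).1 ((hS k hk).2 p hp)),
        Nat.prime_of_mem_primeFactors hp⟩⟩
  simp only [one_mul] at h
  rw [Finset.sum_congr rfl fun k hk =>
    prod_pow_factorization (hS k hk).1 (fun p => (p : ℝ) ^ (σ - 1)) _ fun _ _ => rfl] at h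
  refine h.trans ?_
  have hb : ∑ p ∈ P, (p : ℝ) ^ (σ - 1) / (1 - (p : ℝ) ^ (σ - 1))
      ≤ 12 * ∑ p ∈ P, 1 / ((p : ℝ) - 1) := by
    rw [Finset.mul_sum]
    refine Finset.sum_le_sum fun p hp => ?_
    obtain ⟨hpp, hpl⟩ := hPl p hp
    have hp2 : (2 : ℝ) ≤ p := by exact_mod_cast hpp.two_le
    have e1 : (p : ℝ) ^ σ ≤ Real.exp 1 := by
      rw [Real.rpow_def_of_pos (by linarith), Real.exp_le_exp]
      calc Real.log p * σ ≤ ls * σ := mul_le_mul_of_nonneg_right hpl hσ0.le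
        _ ≤ 1 := by rw [hσ, ← div_eq_mul_inv, div_le_one (by linarith)]; linarith
    have e2 : (p : ℝ) ^ (σ - 1) ≤ 3 / 4 := by
      calc (p : ℝ) ^ (σ - 1) ≤ (2 : ℝ) ^ (σ - 1) :=
            Real.rpow_le_rpow_of_nonpos two_pos hp2 (by linarith)
        _ ≤ (2 : ℝ) ^ (-(1 / 2) : ℝ) := Real.rpow_le_rpow_of_exponent_le one_le_two (by linarith)
        _ ≤ 3 / 4 := by
          rw [Real.rpow_neg two_pos.le, ← Real.sqrt_eq_rpow]
          have h43 : (4 / 3 : ℝ) ≤ Real.sqrt 2 :=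
            Real.le_sqrt_of_sq_le (by norm_num)
          rw [show (3 / 4 : ℝ) = (4 / 3)⁻¹ by norm_num]
          exact inv_anti₀ (by norm_num) h43
    have e3 : (p : ℝ) ^ (σ - 1) ≤ 3 / ((p : ℝ) - 1) := by
      rw [Real.rpow_sub_one (by linarith)]
      refine (div_le_div_of_nonneg_right (e1.trans ?_) (by linarith)).trans
        (div_le_div_of_nonneg_left (by norm_num) (by linarith) (by linarith))
      linarith [Real.exp_one_lt_d9]
    have e0 : 0 ≤ (p : ℝ) ^ (σ - 1) := by positivity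
    rw [div_le_iff₀ (by linarith)]
    have : (3 : ℝ) / ((p : ℝ) - 1) = 3 * (1 / ((p : ℝ) - 1)) := by ring
    have hpos : 0 ≤ 1 / ((p : ℝ) - 1) := div_nonneg zero_le_one (by linarith)
    nlinarith [mul_nonneg hpos (show (0 : ℝ) ≤ 3 / 4 - (p : ℝ) ^ (σ - 1) by linarith)]
  have hM' := hM (Real.log (ls + 1)) (Real.log_nonneg (by linarith)) P fun p hp => by
    obtain ⟨hpp, hpl⟩ := hPl p hp
    refine ⟨hpp, max_le (Real.log_nonneg (by linarith)) ?_⟩
    exact Real.log_le_log (Real.log_pos (by exact_mod_cast hpp.one_lt)) (by linarith)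
  calc Real.exp (∑ p ∈ P, (p : ℝ) ^ (σ - 1) / (1 - (p : ℝ) ^ (σ - 1)))
      ≤ Real.exp (((12 : ℕ) : ℝ) * (C + Real.log (ls + 1))) := by
        refine Real.exp_le_exp.2 ?_
        push_cast
        linarith
    _ = (Real.exp C * (ls + 1)) ^ 12 := by
        rw [Real.exp_nat_mul, Real.exp_add, Real.exp_log (by linarith)]
    _ ≤ ((D : ℝ) * (ls + 1)) ^ 12 := by
        have : Real.exp C ≤ (D : ℝ) := by
          rw [hD]; push_cast; linarith [Nat.le_ceil (Real.exp C)]
        gcongr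
    _ ≤ ((D : ℝ) * (ls + 1)) ^ D := by
        refine pow_le_pow_right₀ ?_ (by omega)
        have : (12 : ℝ) ≤ D := by exact_mod_cast (show 12 ≤ D by omega)
        nlinarith

/-- Rankin: smooth numbers up to `N`. -/
theorem smooth_count : ∃ C : ℕ, ∀ (N : ℕ) (ls : ℝ) (S : Finset ℕ), 1 ≤ N → 1 ≤ ls →
    (∀ k ∈ S, 1 ≤ k ∧ k ≤ N ∧ ∀ p ∈ k.primeFactors, Real.log p ≤ ls) →
    (S.card : ℝ) ≤ N * Real.exp (-(Real.log N / (2 * ls))) * ((C : ℝ) * (ls + 1)) ^ C := by
  obtain ⟨C, key⟩ := rankin_key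
  refine ⟨C, fun N ls S hN hls hS => ?_⟩
  set σ : ℝ := (2 * ls)⁻¹ with hσ
  have hσ2 : σ ≤ 1 / 2 := by
    rw [hσ, one_div]
    exact inv_anti₀ (by norm_num) (by linarith)
  calc (S.card : ℝ) = ∑ k ∈ S, (1 : ℝ) := by simp
    _ ≤ ∑ k ∈ S, (N : ℝ) * Real.exp (-(Real.log N / (2 * ls))) * (k : ℝ) ^ (σ - 1) := by
        refine Finset.sum_le_sum fun k hk => ?_
        obtain ⟨hk1, hkN, -⟩ := hS k hk
        have hkp : (0 : ℝ) < k := by exact_mod_cast (show 0 < k by omega)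
        have hNp : (0 : ℝ) < N := by exact_mod_cast (show 0 < N by omega)
        have e : (N : ℝ) * Real.exp (-(Real.log N / (2 * ls))) = (N : ℝ) ^ (1 - σ) := by
          rw [Real.rpow_sub hNp, Real.rpow_one, Real.rpow_def_of_pos hNp, hσ, ← div_eq_mul_inv,
            Real.exp_neg, div_eq_mul_inv]
          ring
        rw [e, show σ - 1 = -(1 - σ) by ring, Real.rpow_neg hkp.le, ← div_eq_mul_inv,
          one_le_div (Real.rpow_pos_of_pos hkp _)]
        exact Real.rpow_le_rpow hkp.le (by exact_mod_cast hkN) (by linarith)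
    _ ≤ _ := by
        rw [← Finset.mul_sum]
        exact mul_le_mul_of_nonneg_left
          (key ls hls S fun k hk => ⟨by have := (hS k hk).1; omega, (hS k hk).2.2⟩) (by positivity)

/-- Rankin: reciprocals of large smooth numbers. -/
theorem smooth_recip : ∃ C : ℕ, ∀ (ls lw : ℝ) (S : Finset ℕ), 1 ≤ ls →
    (∀ k ∈ S, 1 ≤ k ∧ lw ≤ Real.log k ∧ ∀ p ∈ k.primeFactors, Real.log p ≤ ls) →
    ∑ k ∈ S, 1 / (k : ℝ) ≤ Real.exp (-(lw / (2 * ls))) * ((C : ℝ) * (ls + 1)) ^ C := by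
  obtain ⟨C, key⟩ := rankin_key
  refine ⟨C, fun ls lw S hls hS => ?_⟩
  set σ : ℝ := (2 * ls)⁻¹ with hσ
  have hσ0 : 0 < σ := inv_pos.2 (by linarith)
  calc ∑ k ∈ S, 1 / (k : ℝ) ≤ ∑ k ∈ S, Real.exp (-(lw / (2 * ls))) * (k : ℝ) ^ (σ - 1) := by
        refine Finset.sum_le_sum fun k hk => ?_
        have hkp : (0 : ℝ) < k := by exact_mod_cast (show 0 < k from (hS k hk).1)
        rw [Real.rpow_sub_one hkp.ne', Real.rpow_def_of_pos hkp, ← mul_div_assoc, ← Real.exp_add]
        refine div_le_div_of_nonneg_right (Real.one_le_exp ?_) hkp.le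
        rw [hσ, ← div_eq_mul_inv, neg_add_eq_sub]
        exact sub_nonneg.2 (div_le_div_of_nonneg_right (hS k hk).2.1 (by linarith))
    _ ≤ _ := by
        rw [← Finset.mul_sum]
        exact mul_le_mul_of_nonneg_left
          (key ls hls S fun k hk => ⟨by have := (hS k hk).1; omega, (hS k hk).2.2⟩)
          (Real.exp_pos _).le

/-- T5: the weight `1.5 ^ Ω`. -/
theorem omega_weight_le : ∃ C : ℕ, 1 ≤ C ∧ ∀ N : ℕ,
    ∑ k ∈ Finset.Icc 1 N, (3 / 2 : ℝ) ^ k.primeFactorsList.length / k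
      ≤ (C * (2 + Real.log N)) ^ C := by
  classical
  obtain ⟨C, hC1, hM⟩ := mertens_ll_upto
  refine ⟨⌈Real.exp C⌉₊ + 3, by omega, fun N => ?_⟩
  set D : ℕ := ⌈Real.exp C⌉₊ + 3 with hD
  set P := Nat.primesLE N
  have hL : 0 ≤ Real.log N := Real.log_natCast_nonneg N
  have h2 : ∀ p ∈ P, (2 : ℝ) ≤ p := fun p hp => by exact_mod_cast (Nat.mem_primesLE.1 hp).2.two_le
  have hw : ∀ k ∈ Finset.Icc 1 N, (3 / 2 : ℝ) ^ k.primeFactorsList.length / k
      = ∏ p ∈ k.primeFactors, 1 * ((3 / 2 : ℝ) / p) ^ k.factorization p := by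
    intro k hk
    have hk0 : k ≠ 0 := by have := (Finset.mem_Icc.1 hk).1; omega
    have hlen : k.primeFactorsList.length = ∑ p ∈ k.primeFactors, k.factorization p := by
      rw [← ArithmeticFunction.cardFactors_apply,
        ArithmeticFunction.cardFactors_eq_sum_factorization, Finsupp.sum,
        Nat.support_factorization]
      try rfl
    simp only [one_mul, div_eq_mul_inv (3 / 2 : ℝ), mul_pow]
    rw [Finset.prod_mul_distrib, Finset.prod_pow_eq_pow_sum, ← hlen,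
      prod_pow_factorization hk0 (fun p => (p : ℝ)⁻¹) (-1) fun p _ => (Real.rpow_neg_one _).symm,
      Real.rpow_neg_one, div_eq_mul_inv]
  rw [Finset.sum_congr rfl hw]
  refine (euler_exp_le P (fun p hp => (Nat.mem_primesLE.1 hp).2) (fun _ => (1 : ℝ))
    (fun p => (3 / 2 : ℝ) / p) (fun _ => zero_le_one) (fun p => by positivity)
    (fun p hp => by
      have := h2 p hp
      rw [div_lt_one (by linarith)]
      linarith) _ fun k hk => ?_).trans ?_
  · obtain ⟨h1, h3⟩ := Finset.mem_Icc.1 hk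
    exact ⟨by omega, fun p hp => Nat.mem_primesLE.2
      ⟨(Nat.le_of_mem_primeFactors hp).trans h3, Nat.prime_of_mem_primeFactors hp⟩⟩
  have hM' := hM (Real.log (2 + Real.log N)) (Real.log_nonneg (by linarith)) P fun p hp => by
    obtain ⟨hpz, hpp⟩ := Nat.mem_primesLE.1 hp
    refine ⟨hpp, max_le (Real.log_nonneg (by linarith)) ?_⟩
    have hl : 0 < Real.log p := Real.log_pos (by exact_mod_cast hpp.one_lt)
    refine Real.log_le_log hl ?_
    have := Real.log_le_log (by exact_mod_cast hpp.pos) (Nat.cast_le (α := ℝ).2 hpz)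
    linarith
  have hb : ∀ p ∈ P, (1 : ℝ) * ((3 / 2 : ℝ) / p / (1 - (3 / 2 : ℝ) / p))
      ≤ 3 * (1 / ((p : ℝ) - 1)) := by
    intro p hp
    have hp2 := h2 p hp
    rw [one_mul, one_sub_div (by linarith), div_div_div_cancel_right₀ (by linarith),
      mul_one_div, div_le_div_iff₀ (by linarith) (by linarith)]
    linarith
  calc Real.exp (∑ p ∈ P, (1 : ℝ) * ((3 / 2 : ℝ) / p / (1 - (3 / 2 : ℝ) / p)))
      ≤ Real.exp (((3 : ℕ) : ℝ) * (C + Real.log (2 + Real.log N))) := by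
        refine Real.exp_le_exp.2 ((Finset.sum_le_sum hb).trans ?_)
        rw [← Finset.mul_sum]
        push_cast
        linarith
    _ = (Real.exp C * (2 + Real.log N)) ^ 3 := by
        rw [Real.exp_nat_mul, Real.exp_add, Real.exp_log (by linarith)]
    _ ≤ ((D : ℝ) * (2 + Real.log N)) ^ 3 := by
        have : Real.exp C ≤ (D : ℝ) := by
          rw [hD]; push_cast; linarith [Nat.le_ceil (Real.exp C)]
        gcongr
    _ ≤ ((D : ℝ) * (2 + Real.log N)) ^ D := by
        refine pow_le_pow_right₀ ?_ (by omega)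
        have : (3 : ℝ) ≤ D := by exact_mod_cast (show 3 ≤ D by omega)
        nlinarith

/-- Many prime factors are rare. -/
theorem omega_recip : ∃ C : ℕ, ∀ N : ℕ,
    ∑ k ∈ Finset.Icc 1 N, (3 / 2 : ℝ) ^ k.primeFactorsList.length / k ≤
      C * (Real.log (N + 3) + 1) ^ C := by
  obtain ⟨C, hC, h⟩ := omega_weight_le
  refine ⟨(C * 2) ^ C + C, fun N => (h N).trans ?_⟩
  have hL : 0 ≤ Real.log N := Real.log_natCast_nonneg N
  have hmono : Real.log N ≤ Real.log (N + 3) := by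
    rcases Nat.eq_zero_or_pos N with rfl | hN
    · simpa using Real.log_nonneg (show (1 : ℝ) ≤ 3 by norm_num)
    · exact Real.log_le_log (by exact_mod_cast hN) (by linarith)
  calc ((C : ℝ) * (2 + Real.log N)) ^ C ≤ ((C : ℝ) * 2 * (Real.log (N + 3) + 1)) ^ C := by
        refine pow_le_pow_left₀ (by positivity) ?_ C
        nlinarith [(Nat.cast_nonneg C : (0 : ℝ) ≤ C)]
    _ = ((C : ℝ) * 2) ^ C * (Real.log (N + 3) + 1) ^ C := mul_pow _ _ _
    _ ≤ (((C * 2) ^ C + C : ℕ) : ℝ) * (Real.log (N + 3) + 1) ^ ((C * 2) ^ C + C) := by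
        refine mul_le_mul ?_ (pow_le_pow_right₀ (by linarith) (Nat.le_add_left _ _))
          (pow_nonneg (by linarith) _) (Nat.cast_nonneg _)
        push_cast
        linarith [(Nat.cast_nonneg C : (0 : ℝ) ≤ C)]

end Vale.Agent.P031
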