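import Vale.Agent.P003.Mertens
import Vale.Agent.P031.Tools
import Vale.Agent.P031.Brun

/-!
P031: upper bounds for primes `R` with `A R + 1` prime for one or two multipliers `A` (S1), and
for the sum of their reciprocals (S2).
-/

open Finset Real Filter

namespace Vale.Agent.P031

/-- `R ≤ X` prime with every `A R + 1` prime. -/
def tuplePrimes (S : Finset ℕ) (X : ℕ) : Finset ℕ :=
  (Finset.Icc 1 X).filter (fun R => R.Prime ∧ ∀ A ∈ S, (A * R + 1).Prime)

/-- The loss allowed in the sieve. -/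
noncomputable def sieveLoss (S : Finset ℕ) (X : ℕ) (C : ℕ) : ℝ :=
  ((C : ℝ) * (3 + |Real.log (Real.log X)| + Real.log (Real.log ((∏ A ∈ S, A : ℕ) + 3)))) ^ C

namespace Sieve

/-- The primes `R ≤ X` with `A * R + 1` prime for every `A ∈ S`, for real `X`. -/
noncomputable def linkedPrimes (S : Finset ℕ) (X : ℝ) : Finset ℕ := by
  classical exact (Finset.Icc 1 ⌊X⌋₊).filter fun R => R.Prime ∧ ∀ A ∈ S, (A * R + 1).Prime

/-- The polylogarithmic loss of the sieve. -/
noncomputable def loss (S : Finset ℕ) (X : ℝ) : ℝ :=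
  2 + Real.log (Real.log X) + Real.log (Real.log (((∏ A ∈ S, A : ℕ) : ℝ) + 3))

/-- The prime reciprocals over the divisors of `D` grow at most like `log log log D`. -/
theorem sum_inv_primeFactors_le : ∃ C : ℝ, 0 ≤ C ∧ ∀ D : ℕ, 0 < D →
    ∑ p ∈ D.primeFactors, 1 / (p : ℝ) ≤ Real.log (Real.log (Real.log D + 3)) + C := by
  obtain ⟨K, hK, hb⟩ := P003.recipSum_bound
  refine ⟨|P003.recipSum 2| + K + |Real.log (Real.log 2)| + 4, by positivity, fun D hD => ?_⟩
  set y := Real.log D + 3 with hy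
  have hlD : 0 ≤ Real.log D := Real.log_natCast_nonneg D
  set M := ⌊y⌋₊ with hM
  have hy3 : 3 ≤ y := by linarith
  have hM3 : 3 ≤ M := Nat.le_floor (by exact_mod_cast hy3)
  have hM0 : (0 : ℝ) < M := by exact_mod_cast (by omega : 0 < M)
  have hMy : (M : ℝ) ≤ y := Nat.floor_le (by linarith)
  have hyM : y < M + 1 := Nat.lt_floor_add_one _
  rw [← Finset.sum_filter_add_sum_filter_not D.primeFactors (fun p => p ≤ M)]
  have h1 : ∑ p ∈ D.primeFactors.filter (fun p => p ≤ M), 1 / (p : ℝ) ≤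
      Real.log (Real.log y) + |P003.recipSum 2| + K + |Real.log (Real.log 2)| := by
    have hsub : ∑ p ∈ D.primeFactors.filter (fun p => p ≤ M), 1 / (p : ℝ) ≤ P003.recipSum M :=
      Finset.sum_le_sum_of_subset_of_nonneg (fun p hp => Nat.mem_primesLE.2
        ⟨(Finset.mem_filter.1 hp).2, Nat.prime_of_mem_primeFactors (Finset.mem_filter.1 hp).1⟩)
        (fun p _ _ => by positivity)
    have hbd := (abs_le.1 (hb 2 M le_rfl (by omega))).2
    push_cast at hbd
    have hll : Real.log (Real.log M) ≤ Real.log (Real.log y) :=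
      Real.log_le_log (Real.log_pos (by exact_mod_cast (by omega : 1 < M)))
        (Real.log_le_log hM0 hMy)
    linarith [le_abs_self (P003.recipSum 2), neg_abs_le (Real.log (Real.log 2))]
  have h2 : ∑ p ∈ D.primeFactors.filter (fun p => ¬p ≤ M), 1 / (p : ℝ) ≤ 4 := by
    have hc : (D.primeFactors.card : ℝ) * Real.log 2 ≤ Real.log D := by
      rw [← Real.log_pow]
      refine Real.log_le_log (by positivity) ?_
      exact_mod_cast (Finset.pow_card_le_prod D.primeFactors (fun p => p) 2 fun p hp =>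
        (Nat.prime_of_mem_primeFactors hp).two_le).trans
          (Nat.le_of_dvd hD (Nat.prod_primeFactors_dvd D))
    calc ∑ p ∈ D.primeFactors.filter (fun p => ¬p ≤ M), 1 / (p : ℝ)
        ≤ ∑ _p ∈ D.primeFactors.filter (fun p => ¬p ≤ M), 1 / ((M : ℝ) + 1) := by
          refine Finset.sum_le_sum fun p hp => one_div_le_one_div_of_le (by positivity) ?_
          have := (Finset.mem_filter.1 hp).2
          exact_mod_cast (by omega : M + 1 ≤ p)
      _ ≤ (D.primeFactors.card : ℝ) * (1 / ((M : ℝ) + 1)) := by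
          rw [Finset.sum_const, nsmul_eq_mul]
          gcongr
          exact Finset.filter_subset _ _
      _ ≤ 4 := by
          rw [mul_one_div, div_le_iff₀ (by positivity)]
          have := Real.log_two_gt_d9
          nlinarith
  linarith

/-- The multipliers, their differences and the primes `2, 3`. -/
def badMod (S : Finset ℕ) : ℕ :=
  6 * (∏ A ∈ S, A) * ∏ q ∈ S.offDiag, (max q.1 q.2 - min q.1 q.2)

theorem badMod_pos {S : Finset ℕ} (hS : ∀ A ∈ S, 0 < A) : 0 < badMod S := by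
  refine Nat.mul_pos (Nat.mul_pos (by norm_num) (Finset.prod_pos hS))
    (Finset.prod_pos fun q hq => ?_)
  have := (Finset.mem_offDiag.1 hq).2.2
  omega

theorem log_badMod_le {S : Finset ℕ} (hS : ∀ A ∈ S, 0 < A) (hc : S.card ≤ 2) :
    Real.log (badMod S) + 3 ≤ 8 * Real.log (((∏ A ∈ S, A : ℕ) : ℝ) + 3) := by
  set Pr := ∏ A ∈ S, A with hPr
  have hle : badMod S ≤ 6 * (Pr + 3) ^ 3 := by
    have h1 : ∏ q ∈ S.offDiag, (max q.1 q.2 - min q.1 q.2) ≤ (Pr + 3) ^ S.offDiag.card := by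
      refine Finset.prod_le_pow_card _ _ _ fun q hq => ?_
      obtain ⟨h1, h2, -⟩ := Finset.mem_offDiag.1 hq
      have e1 : q.1 ≤ Pr := Nat.le_of_dvd (Finset.prod_pos hS) (Finset.dvd_prod_of_mem _ h1)
      have e2 : q.2 ≤ Pr := Nat.le_of_dvd (Finset.prod_pos hS) (Finset.dvd_prod_of_mem _ h2)
      omega
    have h2 : S.offDiag.card ≤ 2 := by
      rw [Finset.offDiag_card]
      interval_cases h : S.card <;> simp
    calc badMod S ≤ 6 * Pr * (Pr + 3) ^ 2 :=
          Nat.mul_le_mul_left _ (h1.trans (Nat.pow_le_pow_right (by omega) h2))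
      _ ≤ 6 * (Pr + 3) * (Pr + 3) ^ 2 := by gcongr; omega
      _ = _ := by ring
  have hpos : (0 : ℝ) < badMod S := by exact_mod_cast badMod_pos hS
  have hle' : (badMod S : ℝ) ≤ 6 * ((Pr : ℝ) + 3) ^ 3 := by exact_mod_cast hle
  have h := Real.log_le_log hpos hle'
  rw [Real.log_mul (by norm_num) (by positivity), Real.log_pow] at h
  push_cast at h
  have hl4 : Real.log 4 ≤ Real.log ((Pr : ℝ) + 3) := by
    refine Real.log_le_log (by norm_num) ?_
    have : (1 : ℝ) ≤ Pr := by exact_mod_cast (Finset.prod_pos hS : 0 < Pr)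
    linarith
  have h6 : Real.log 6 ≤ Real.log 4 + Real.log 2 := by
    rw [← Real.log_mul (by norm_num) (by norm_num)]
    exact Real.log_le_log (by norm_num) (by norm_num)
  have e4 : Real.log 4 = 2 * Real.log 2 := by
    rw [show (4 : ℝ) = 2 ^ 2 by norm_num, Real.log_pow]
    norm_num
  linarith [Real.log_two_gt_d9]

/-- The classes removed at `p`. -/
def roots (S : Finset ℕ) (p : ℕ) : Finset ℕ :=
  (Finset.range p).filter fun r => r = 0 ∨ ∃ A ∈ S, p ∣ A * r + 1

theorem card_roots {S : Finset ℕ} {p : ℕ} (hp : p.Prime) (hb : ¬p ∣ badMod S) :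
    (roots S p).card = S.card + 1 := by
  classical
  have := Fact.mk hp
  have hA : ∀ A ∈ S, (A : ZMod p) ≠ 0 := fun A hA h => by
    rw [ZMod.natCast_eq_zero_iff] at h
    exact hb ((h.trans (Finset.dvd_prod_of_mem _ hA)).trans
      ((Dvd.intro_left _ rfl).trans (Dvd.intro _ rfl)))
  have hne : ∀ A ∈ S, ∀ B ∈ S, (A : ZMod p) = B → A = B := by
    intro A hA B hB h
    by_contra hne
    have h1 : ((max A B - min A B : ℕ) : ZMod p) = 0 := by
      rw [Nat.cast_sub (min_le_max)]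
      rcases le_total A B with hle | hle
      · rw [max_eq_right hle, min_eq_left hle, h, sub_self]
      · rw [max_eq_left hle, min_eq_right hle, h, sub_self]
    rw [ZMod.natCast_eq_zero_iff] at h1
    exact hb ((h1.trans (Finset.dvd_prod_of_mem (fun q : ℕ × ℕ => max q.1 q.2 - min q.1 q.2)
      (Finset.mem_offDiag.2 ⟨hA, hB, hne⟩ : (A, B) ∈ S.offDiag))).trans (Dvd.intro_left _ rfl))
  set r : ℕ → ℕ := fun A => (-(A : ZMod p)⁻¹).val with hr
  have heq : roots S p = insert 0 (S.image r) := by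
    ext x
    simp only [roots, Finset.mem_filter, Finset.mem_range, Finset.mem_insert, Finset.mem_image]
    constructor
    · rintro ⟨hx, h | ⟨A, hA', h⟩⟩
      · exact Or.inl h
      · refine Or.inr ⟨A, hA', ?_⟩
        have h' : (A : ZMod p) * (x : ZMod p) + 1 = 0 := by
          exact_mod_cast (ZMod.natCast_eq_zero_iff _ _).2 h
        have h2 : (x : ZMod p) = -(A : ZMod p)⁻¹ := by
          field_simp [hA A hA']
          linear_combination h'
        rw [hr]
        simp only [← h2]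
        exact ZMod.val_natCast_of_lt hx
    · rintro (rfl | ⟨A, hA', rfl⟩)
      · exact ⟨hp.pos, Or.inl rfl⟩
      · refine ⟨ZMod.val_lt _, Or.inr ⟨A, hA', ?_⟩⟩
        rw [← ZMod.natCast_eq_zero_iff]
        push_cast
        rw [ZMod.natCast_zmod_val]
        have := hA A hA'
        field_simp
        ring
  have h0 : 0 ∉ S.image r := by
    simp only [Finset.mem_image, not_exists, not_and]
    intro A hA' h
    simp only [hr, ZMod.val_eq_zero, neg_eq_zero, inv_eq_zero] at h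
    exact hA A hA' h
  have hinj : Set.InjOn r ↑S := fun A hA' B hB' h =>
    hne A hA' B hB' (inv_injective (neg_injective (ZMod.val_injective p h)))
  rw [heq, Finset.card_insert_of_notMem h0, Finset.card_image_of_injOn hinj]

/-- The product over the sifting primes. -/
theorem prod_sift_le : ∃ K : ℝ, 0 < K ∧ ∀ D z : ℕ, 0 < D → 2 ≤ z →
    ∏ p ∈ (Nat.primesLE z).filter (fun p => ¬p ∣ D), (1 - 1 / (p : ℝ)) ≤
      K * Real.log (Real.log D + 3) ^ 2 / Real.log z := by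
  obtain ⟨C, hC, hsum⟩ := sum_inv_primeFactors_le
  obtain ⟨K, hK, hprod⟩ := P003.prod_one_sub_le
  refine ⟨K * Real.exp (2 * C), by positivity, fun D z hD hz => ?_⟩
  have hlD : 0 ≤ Real.log D := Real.log_natCast_nonneg D
  have hly : 0 < Real.log (Real.log D + 3) := Real.log_pos (by linarith)
  set good := (Nat.primesLE z).filter (fun p => ¬p ∣ D)
  set bad := (Nat.primesLE z).filter (fun p => p ∣ D)
  have hsplit : (∏ p ∈ bad, (1 - 1 / (p : ℝ))) * ∏ p ∈ good, (1 - 1 / (p : ℝ))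
      = ∏ p ∈ Nat.primesLE z, (1 - 1 / (p : ℝ)) := Finset.prod_filter_mul_prod_filter_not _ _ _
  have hnn : ∀ p ∈ Nat.primesLE z, 1 / (p : ℝ) ≤ 1 / 2 := fun p hp =>
    one_div_le_one_div_of_le (by norm_num) (by exact_mod_cast (Nat.mem_primesLE.1 hp).2.two_le)
  have hbad : Real.exp (-(2 * (Real.log (Real.log (Real.log D + 3)) + C))) ≤
      ∏ p ∈ bad, (1 - 1 / (p : ℝ)) := by
    calc Real.exp (-(2 * (Real.log (Real.log (Real.log D + 3)) + C)))
        ≤ Real.exp (∑ p ∈ bad, -(2 * (1 / (p : ℝ)))) := by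
          rw [Finset.sum_neg_distrib, ← Finset.mul_sum]
          refine Real.exp_le_exp.2 ?_
          have : ∑ p ∈ bad, 1 / (p : ℝ) ≤ ∑ p ∈ D.primeFactors, 1 / (p : ℝ) :=
            Finset.sum_le_sum_of_subset_of_nonneg (fun p hp => Nat.mem_primeFactors.2
              ⟨(Nat.mem_primesLE.1 (Finset.mem_filter.1 hp).1).2, (Finset.mem_filter.1 hp).2,
                hD.ne'⟩) (fun p _ _ => by positivity)
          linarith [hsum D hD]
      _ = ∏ p ∈ bad, Real.exp (-(2 * (1 / (p : ℝ)))) := Real.exp_sum _ _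
      _ ≤ _ := by
          refine Finset.prod_le_prod (fun p _ => (Real.exp_pos _).le) fun p hp => ?_
          have hx := hnn p (Finset.mem_filter.1 hp).1
          have hx0 : 0 ≤ 1 / (p : ℝ) := by positivity
          rw [Real.exp_neg, inv_le_iff_one_le_mul₀ (Real.exp_pos _)]
          nlinarith [Real.add_one_le_exp (2 * (1 / (p : ℝ)))]
  have hgood : 0 ≤ ∏ p ∈ good, (1 - 1 / (p : ℝ)) :=
    Finset.prod_nonneg fun p hp => by linarith [hnn p (Finset.mem_filter.1 hp).1]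
  have key := (mul_le_mul_of_nonneg_right hbad hgood).trans (hsplit.le.trans (hprod z hz))
  rw [Real.exp_neg, inv_mul_le_iff₀ (Real.exp_pos _)] at key
  refine key.trans (le_of_eq ?_)
  rw [mul_add, Real.exp_add, two_mul (Real.log (Real.log _)), Real.exp_add, Real.exp_log hly]
  ring

theorem two_le_loss {S : Finset ℕ} (_hS : ∀ A ∈ S, 0 < A) {X : ℝ} (hX : 3 ≤ X) :
    2 ≤ loss S X ∧ 1 < Real.log X ∧
      0 ≤ Real.log (Real.log (((∏ A ∈ S, A : ℕ) : ℝ) + 3)) := by
  have h3 : 1 < Real.log 3 := by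
    rw [Real.lt_log_iff_exp_lt (by norm_num)]
    linarith [Real.exp_one_lt_d9]
  have h1 : 1 < Real.log X := h3.trans_le (Real.log_le_log (by norm_num) hX)
  have h2 : 1 ≤ Real.log (((∏ A ∈ S, A : ℕ) : ℝ) + 3) :=
    h3.le.trans (Real.log_le_log (by norm_num) (by linarith [Nat.cast_nonneg (α := ℝ) (∏ A ∈ S, A)]))
  refine ⟨?_, h1, Real.log_nonneg h2⟩
  rw [loss]
  linarith [Real.log_nonneg h1.le, Real.log_nonneg h2]

/-- The sifting primes. -/
def siftPrimes (S : Finset ℕ) (z : ℕ) : Finset ℕ :=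
  (Nat.primesLE z).filter (fun p => ¬p ∣ badMod S)

theorem siftPrimes_facts {S : Finset ℕ} {z p : ℕ} (hp : p ∈ siftPrimes S z) :
    p.Prime ∧ p ≤ z ∧ 5 ≤ p ∧ ¬p ∣ badMod S := by
  obtain ⟨h1, hnd⟩ := Finset.mem_filter.1 hp
  obtain ⟨hle, hpp⟩ := Nat.mem_primesLE.1 h1
  have h2 : p ≠ 2 := fun h => hnd (h ▸ Dvd.dvd.mul_right (Dvd.dvd.mul_right (by norm_num) _) _)
  have h3 : p ≠ 3 := fun h => hnd (h ▸ Dvd.dvd.mul_right (Dvd.dvd.mul_right (by norm_num) _) _)
  have h4 : p ≠ 4 := fun h => by rw [h] at hpp; norm_num at hpp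
  have := hpp.two_le
  exact ⟨hpp, hle, by omega, hnd⟩

theorem linkedPrimes_subset (S : Finset ℕ) (hS : ∀ A ∈ S, 0 < A) (X : ℝ) (z : ℕ) :
    linkedPrimes S X ⊆ Finset.Icc 1 z ∪
      ((Finset.Icc 1 ⌊X⌋₊).filter fun R => ∀ p ∈ siftPrimes S z, R % p ∉ roots S p) := by
  intro R hR
  obtain ⟨hR1, hRp, hRA⟩ := Finset.mem_filter.1 hR
  rw [Finset.mem_union, Finset.mem_Icc, Finset.mem_filter]
  by_cases hRz : R ≤ z
  · exact Or.inl ⟨(Finset.mem_Icc.1 hR1).1, hRz⟩
  refine Or.inr ⟨hR1, fun p hp hmem => ?_⟩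
  obtain ⟨hpp, hpz, -, -⟩ := siftPrimes_facts hp
  rcases (Finset.mem_filter.1 hmem).2 with h | ⟨A, hA, h⟩
  · have := (Nat.prime_dvd_prime_iff_eq hpp hRp).1 (Nat.dvd_of_mod_eq_zero h)
    omega
  · have h' : p ∣ A * R + 1 := by
      rw [Nat.dvd_iff_mod_eq_zero] at h ⊢
      rw [← h]
      simp [Nat.add_mod, Nat.mul_mod]
    have := (Nat.prime_dvd_prime_iff_eq hpp (hRA A hA)).1 h'
    have : R ≤ A * R := Nat.le_mul_of_pos_left R (hS A hA)
    omega

theorem count_le (S : Finset ℕ) (hS : ∀ A ∈ S, 0 < A) (X : ℝ) (z m : ℕ) :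
    ((linkedPrimes S X).card : ℝ) ≤ z +
      (⌊X⌋₊ * (∏ p ∈ siftPrimes S z, (1 - ((S.card + 1 : ℕ) : ℝ) / p)
        + Real.exp (8 * (∑ p ∈ siftPrimes S z, ((S.card + 1 : ℕ) : ℝ) / p) - 4 * m))
      + (2 * m + 1) * (((S.card + 1) * (siftPrimes S z).card : ℕ) + 1 : ℝ) ^ (2 * m)) := by
  have h := (Nat.cast_le (α := ℝ)).2
    ((Finset.card_le_card (linkedPrimes_subset S hS X z)).trans (Finset.card_union_le _ _))
  push_cast [Nat.card_Icc, add_tsub_cancel_right] at h
  refine h.trans (add_le_add le_rfl ?_)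
  exact Brun.brun_count ⌊X⌋₊ (S.card + 1) m (siftPrimes S z)
    (fun p hp => (siftPrimes_facts hp).1) (roots S) (fun p _ => Finset.filter_subset _ _)
    (fun p hp => card_roots (siftPrimes_facts hp).1 (siftPrimes_facts hp).2.2.2)

theorem exp_quarter_le {L : ℝ} (hL : 1 ≤ L) {k : ℕ} (hk : k ≤ 3) :
    Real.exp (L / 4) ≤ 64 * (Real.exp L / L ^ k) := by
  have hL0 : 0 < L := by linarith
  rw [mul_div_assoc', le_div_iff₀ (pow_pos hL0 k)]
  have h1 : L ≤ 4 * Real.exp (L / 4) := by linarith [Real.add_one_le_exp (L / 4)]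
  calc Real.exp (L / 4) * L ^ k ≤ Real.exp (L / 4) * (4 * Real.exp (L / 4)) ^ 3 :=
        mul_le_mul_of_nonneg_left
          ((pow_le_pow_right₀ hL hk).trans (pow_le_pow_left₀ hL0.le h1 3)) (Real.exp_pos _).le
    _ = 64 * Real.exp L := by
        rw [mul_pow, ← Real.exp_nat_mul, mul_left_comm, ← Real.exp_add]
        congr 1
        · norm_num
        · congr 1
          push_cast
          ring

theorem err_le {S : Finset ℕ} (hc : S.card ≤ 2) {z m : ℕ} {a b : ℝ} (ha : 1 ≤ a)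
    (hza : (z : ℝ) ≤ Real.exp a) (hb : 6 * m * a ≤ b) :
    (2 * (m : ℝ) + 1) * (((S.card + 1) * (siftPrimes S z).card : ℕ) + 1 : ℝ) ^ (2 * m) ≤
      (2 * (m : ℝ) + 1) * Real.exp b := by
  refine mul_le_mul_of_nonneg_left ?_ (by positivity)
  rcases Nat.eq_zero_or_pos z with rfl | hz
  · have he : siftPrimes S 0 = ∅ :=
      Finset.eq_empty_of_forall_notMem fun p hp => by
        have := siftPrimes_facts hp
        omega
    rw [he]
    have h0 : (0 : ℝ) ≤ b := le_trans (by positivity) hb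
    simpa using h0
  have hcard : (siftPrimes S z).card ≤ z := by
    calc (siftPrimes S z).card ≤ (Finset.Icc 1 z).card :=
          Finset.card_le_card fun p hp => Finset.mem_Icc.2
            ⟨(siftPrimes_facts hp).1.one_le, (siftPrimes_facts hp).2.1⟩
      _ = z := by simp
  have h1 : (S.card + 1) * (siftPrimes S z).card + 1 ≤ 4 * z := by
    have : (S.card + 1) * (siftPrimes S z).card ≤ 3 * z := Nat.mul_le_mul (by omega) hcard
    omega
  have h1' := (Nat.cast_le (α := ℝ)).2 h1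
  push_cast at h1'
  have h2 : (4 : ℝ) ≤ Real.exp (2 * a) := by
    have h3 := Real.exp_one_gt_d9
    have h4 : Real.exp 1 * Real.exp 1 ≤ Real.exp (2 * a) := by
      rw [← Real.exp_add]
      exact Real.exp_le_exp.2 (by linarith)
    nlinarith only [h3, h4]
  have h5 : (((S.card + 1) * (siftPrimes S z).card : ℕ) + 1 : ℝ) ≤ Real.exp (3 * a) := by
    have h6 : (4 : ℝ) * z ≤ Real.exp (2 * a) * Real.exp a :=
      mul_le_mul h2 hza (Nat.cast_nonneg _) (Real.exp_pos _).le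
    rw [← Real.exp_add, show 2 * a + a = 3 * a by ring] at h6
    push_cast
    linarith
  refine (pow_le_pow_left₀ (by positivity) h5 _).trans ?_
  rw [← Real.exp_nat_mul]
  exact Real.exp_le_exp.2 (by push_cast; linarith)

theorem tail_le : ∃ C₀ : ℝ, 0 ≤ C₀ ∧ ∀ (S : Finset ℕ) (z m : ℕ) (L : ℝ), S.card ≤ 2 → 2 ≤ z →
    1 ≤ L → Real.log z ≤ L → (7 + 6 * C₀) * (Real.log L + 1) ≤ m →
    Real.exp (8 * (∑ p ∈ siftPrimes S z, ((S.card + 1 : ℕ) : ℝ) / p) - 4 * m) ≤
      1 / L ^ (S.card + 1) := by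
  obtain ⟨K₀, hK₀, hrec⟩ := P003.recipSum_bound
  refine ⟨|P003.recipSum 2| + K₀ + |Real.log (Real.log 2)|, by positivity,
    fun S z m L hc hz hL hzL hm => ?_⟩
  set C₀ := |P003.recipSum 2| + K₀ + |Real.log (Real.log 2)| with hC₀
  have hC₀0 : 0 ≤ C₀ := by positivity
  set l := Real.log L with hl'
  have hl : 0 ≤ l := Real.log_nonneg hL
  have hL0 : 0 < L := by linarith
  set k := S.card + 1 with hk
  have hk3 : (k : ℝ) ≤ 3 := by exact_mod_cast (by omega : k ≤ 3)
  have hs : ∑ p ∈ siftPrimes S z, (k : ℝ) / p ≤ 3 * (l + C₀) := by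
    have h1 : ∑ p ∈ siftPrimes S z, (k : ℝ) / p ≤ 3 * P003.recipSum z := by
      rw [P003.recipSum, Finset.mul_sum]
      refine (Finset.sum_le_sum fun p _ => ?_).trans
        (Finset.sum_le_sum_of_subset_of_nonneg (Finset.filter_subset _ _) fun p _ _ => by positivity)
      rw [mul_one_div]
      exact div_le_div_of_nonneg_right hk3 (Nat.cast_nonneg _)
    have h2 := (abs_le.1 (hrec 2 z le_rfl hz)).2
    push_cast at h2
    have h3 : Real.log (Real.log z) ≤ l :=
      Real.log_le_log (Real.log_pos (by exact_mod_cast hz)) hzL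
    linarith [le_abs_self (P003.recipSum 2), neg_abs_le (Real.log (Real.log 2))]
  calc Real.exp (8 * (∑ p ∈ siftPrimes S z, (k : ℝ) / p) - 4 * m)
      ≤ Real.exp (-((k : ℝ) * l)) := by
        refine Real.exp_le_exp.2 ?_
        nlinarith [mul_le_mul_of_nonneg_right hk3 hl]
    _ = 1 / L ^ k := by rw [Real.exp_neg, Real.exp_nat_mul, hl', Real.exp_log hL0, one_div]

theorem main_le : ∃ K : ℝ, 0 < K ∧ ∀ (S : Finset ℕ) (z : ℕ) (a : ℝ), (∀ A ∈ S, 0 < A) →
    S.card ≤ 2 → 2 ≤ z → 0 < a → a / 2 ≤ Real.log z →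
    ∏ p ∈ siftPrimes S z, (1 - ((S.card + 1 : ℕ) : ℝ) / p) ≤
      (K * (7 + Real.log (Real.log (((∏ A ∈ S, A : ℕ) : ℝ) + 3))) ^ 2 / a) ^ (S.card + 1) := by
  obtain ⟨K, hK, hprod⟩ := prod_sift_le
  refine ⟨2 * K, by positivity, fun S z a hS hc hz ha hza => ?_⟩
  set ℓ := Real.log (((∏ A ∈ S, A : ℕ) : ℝ) + 3) with hℓ
  set k := S.card + 1 with hk
  have h1 : ∏ p ∈ siftPrimes S z, (1 - (k : ℝ) / p) ≤
      (∏ p ∈ siftPrimes S z, (1 - 1 / (p : ℝ))) ^ k := by
    rw [← Finset.prod_pow]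
    refine Finset.prod_le_prod (fun p hp => ?_) fun p hp => ?_
    · obtain ⟨hpp, -, h5, -⟩ := siftPrimes_facts hp
      rw [sub_nonneg, div_le_one (by exact_mod_cast hpp.pos)]
      exact_mod_cast (show k ≤ p by omega)
    · obtain ⟨hpp, -, h5, -⟩ := siftPrimes_facts hp
      have h5' : (5 : ℝ) ≤ p := by exact_mod_cast h5
      have h01 : 1 / (p : ℝ) ≤ 1 := by rw [div_le_one (by linarith)]; linarith
      have h := one_add_mul_le_pow (a := -(1 / (p : ℝ))) (by linarith) k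
      calc 1 - (k : ℝ) / p = 1 + (k : ℝ) * -(1 / (p : ℝ)) := by ring
        _ ≤ _ := h.trans (le_of_eq (by ring))
  refine h1.trans (pow_le_pow_left₀ (Finset.prod_nonneg fun p hp => ?_) ?_ k)
  · have h5 : (5 : ℝ) ≤ p := by exact_mod_cast (siftPrimes_facts hp).2.2.1
    rw [sub_nonneg, div_le_one (by linarith)]
    linarith
  refine (hprod (badMod S) z (badMod_pos hS) hz).trans ?_
  have hℓ1 : 0 < ℓ := Real.log_pos (by linarith [Nat.cast_nonneg (α := ℝ) (∏ A ∈ S, A)])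
  have hlD := Real.log_natCast_nonneg (badMod S)
  have hy : Real.log (Real.log (badMod S : ℝ) + 3) ≤ 7 + Real.log ℓ := by
    calc Real.log (Real.log (badMod S : ℝ) + 3) ≤ Real.log (8 * ℓ) :=
          Real.log_le_log (by linarith) (log_badMod_le hS hc)
      _ = Real.log 8 + Real.log ℓ := Real.log_mul (by norm_num) hℓ1.ne'
      _ ≤ _ := by linarith [Real.log_le_sub_one_of_pos (show (0 : ℝ) < 8 by norm_num)]
  have hy0 : 0 ≤ Real.log (Real.log (badMod S : ℝ) + 3) := Real.log_nonneg (by linarith)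
  calc K * Real.log (Real.log (badMod S : ℝ) + 3) ^ 2 / Real.log z
      ≤ K * (7 + Real.log ℓ) ^ 2 / (a / 2) :=
        div_le_div₀ (by positivity) (mul_le_mul_of_nonneg_left (pow_le_pow_left₀ hy0 hy 2) hK.le)
          (by linarith) hza
    _ = _ := by field_simp

theorem nat_le_pow {C : ℕ} {W Q : ℝ} (hC : 9 ≤ C) (hW : W ≤ C) (hW1 : 1 ≤ W) (hQ : 1 ≤ Q) :
    W * Q ^ 9 ≤ ((C : ℝ) * Q) ^ C := by
  have hC1 : (1 : ℝ) ≤ C := hW1.trans hW
  calc W * Q ^ 9 ≤ (C : ℝ) ^ 9 * Q ^ 9 :=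
        mul_le_mul_of_nonneg_right (hW.trans (le_self_pow₀ hC1 (by norm_num))) (by positivity)
    _ = ((C : ℝ) * Q) ^ 9 := (mul_pow _ _ _).symm
    _ ≤ _ := pow_le_pow_right₀ (one_le_mul_of_one_le_of_one_le hC1 hQ) hC

/-- The constants of the three parts assembled. -/
theorem assemble {C₀ K : ℝ} (hC₀ : 0 ≤ C₀) (hK : 0 < K) :
    ∃ W : ℝ, 1 ≤ W ∧ ∀ (k : ℕ) (Q l L : ℝ), k ≤ 3 → 2 ≤ Q → l + 1 ≤ Q → 0 ≤ l → 0 < L →
      (L / (24 * (8 + 6 * C₀) * (l + 1)) < 1 → L ^ k ≤ W * Q ^ 9) ∧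
      64 + ((K * (7 * Q) ^ 2 / (L / (24 * (8 + 6 * C₀) * (l + 1)))) ^ k * L ^ k + 1)
        + 64 * ((17 + 12 * C₀) * Q) ≤ W * Q ^ 9 := by
  set B := 24 * (8 + 6 * C₀) with hB
  set K₁ := K * 49 * B + B + 1 with hK₁
  have hKB : 0 ≤ K * 49 * B := by positivity
  have hB0 : 0 < B := by positivity
  have hK₁1 : 1 ≤ K₁ := by linarith
  refine ⟨K₁ ^ 3 + 64 * (17 + 12 * C₀) + 65, by linarith [pow_nonneg (zero_le_one.trans hK₁1) 3],
    fun k Q l L hk hQ hlQ hl hL => ?_⟩
  have hQ9 : ∀ j : ℕ, j ≤ 9 → Q ^ j ≤ Q ^ 9 := fun j hj => pow_le_pow_right₀ (by linarith) hj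
  have hK3 : 0 ≤ K₁ ^ 3 := by positivity
  have hkey : (K₁ * Q ^ 3) ^ k ≤ K₁ ^ 3 * Q ^ 9 := by
    refine (pow_le_pow_right₀ (one_le_mul_of_one_le_of_one_le hK₁1 (one_le_pow₀ (by linarith))) hk).trans
      (le_of_eq (by ring))
  have hc0 : 0 ≤ (64 * (17 + 12 * C₀) + 65) * Q ^ 9 := by positivity
  constructor
  · intro h
    rw [div_lt_one (by positivity)] at h
    have h1 : B * (l + 1) ≤ K₁ * Q ^ 3 :=
      mul_le_mul (by linarith) (hlQ.trans (le_self_pow₀ (by linarith) (by norm_num)))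
        (by linarith) (by linarith)
    calc L ^ k ≤ (K₁ * Q ^ 3) ^ k := pow_le_pow_left₀ hL.le (h.le.trans h1) k
      _ ≤ _ := hkey.trans (by linarith)
  · have e : K * (7 * Q) ^ 2 / (L / (B * (l + 1))) = (K * 49 * B) * (Q ^ 2 * (l + 1)) / L := by
      field_simp
      ring
    rw [e, ← mul_pow, div_mul_cancel₀ _ hL.ne']
    have h2 : (K * 49 * B) * (Q ^ 2 * (l + 1)) ≤ K₁ * Q ^ 3 := by
      refine mul_le_mul (by linarith) ?_ (by positivity) (by linarith)
      rw [pow_succ Q 2]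
      exact mul_le_mul_of_nonneg_left hlQ (by positivity)
    have h3 := pow_le_pow_left₀ (by positivity) h2 k
    have h4 := hQ9 1 (by norm_num)
    rw [pow_one] at h4
    have h5 := hQ9 0 (by norm_num)
    rw [pow_zero] at h5
    have h6 := mul_le_mul_of_nonneg_left h4 (by positivity : 0 ≤ 64 * (17 + 12 * C₀))
    linarith

/-- S1: primes `R ≤ X` with all `A R + 1` prime, for real `X`. -/
theorem count_real : ∃ C : ℕ, 0 < C ∧ ∀ S : Finset ℕ, (∀ A ∈ S, 0 < A) →
    S.card ≤ 2 → ∀ X : ℝ, 3 ≤ X →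
      ((linkedPrimes S X).card : ℝ) ≤
        ((C : ℝ) * loss S X) ^ C * X / Real.log X ^ (S.card + 1) := by
  obtain ⟨C₀, hC₀, htail⟩ := tail_le
  obtain ⟨K, hK, hmain⟩ := main_le
  obtain ⟨W, hW1, hW⟩ := assemble hC₀ hK
  refine ⟨max 9 ⌈W⌉₊, lt_of_lt_of_le (by norm_num) (le_max_left _ _), fun S hS hc X hX => ?_⟩
  obtain ⟨hQ, hL, hlℓ⟩ := two_le_loss hS hX
  set Q := loss S X with hQdef
  set L := Real.log X with hLdef
  set k := S.card + 1 with hkdef
  have hl : 0 ≤ Real.log L := Real.log_nonneg hL.le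
  have hL0 : 0 < L := by linarith
  have hX0 : 0 < X := by linarith
  have hk3 : k ≤ 3 := by omega
  have hQeq : Q = 2 + Real.log L + Real.log (Real.log (((∏ A ∈ S, A : ℕ) : ℝ) + 3)) := rfl
  obtain ⟨hWsmall, hWbig⟩ := hW k Q (Real.log L) L hk3 hQ (by linarith) hl hL0
  have hLk : 0 < L ^ k := pow_pos hL0 k
  suffices hsuff : ((linkedPrimes S X).card : ℝ) ≤ W * Q ^ 9 * X / L ^ k by
    refine hsuff.trans (div_le_div_of_nonneg_right (mul_le_mul_of_nonneg_right ?_ hX0.le) hLk.le)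
    exact nat_le_pow (le_max_left _ _)
      ((Nat.le_ceil W).trans (by exact_mod_cast le_max_right _ _)) hW1 (by linarith)
  rw [le_div_iff₀ hLk]
  set a := L / (24 * (8 + 6 * C₀) * (Real.log L + 1)) with ha
  by_cases hsmall : a < 1
  · refine le_trans (mul_le_mul ?_ (hWsmall hsmall) hLk.le hX0.le) (le_of_eq (mul_comm _ _))
    refine le_trans ?_ (Nat.floor_le hX0.le)
    exact_mod_cast (Finset.card_filter_le _ _).trans (by simp)
  rw [not_lt] at hsmall
  obtain ⟨hz2, hzlo, hzhi⟩ := P003.floor_exp_facts (P003.log_two_le_one.trans hsmall)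
  set m := ⌈(7 + 6 * C₀) * (Real.log L + 1)⌉₊ with hm
  have hm1 : (7 + 6 * C₀) * (Real.log L + 1) ≤ m := Nat.le_ceil _
  have hm2 : (m : ℝ) ≤ (8 + 6 * C₀) * (Real.log L + 1) := by
    have := Nat.ceil_lt_add_one (by positivity : 0 ≤ (7 + 6 * C₀) * (Real.log L + 1))
    rw [← hm] at this
    linarith
  have h6 : 6 * (m : ℝ) * a ≤ L / 4 := by
    calc 6 * (m : ℝ) * a ≤ 6 * ((8 + 6 * C₀) * (Real.log L + 1)) * a :=
          mul_le_mul_of_nonneg_right (by linarith) (by linarith)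
      _ = L / 4 := by rw [ha]; field_simp; ring
  have ha4 : a ≤ L / 4 := by
    refine le_trans ?_ h6
    have : (7 : ℝ) * 1 ≤ (7 + 6 * C₀) * (Real.log L + 1) :=
      mul_le_mul (by linarith) (by linarith) zero_le_one (by positivity)
    exact le_mul_of_one_le_left (by linarith) (by linarith)
  have hexp := exp_quarter_le hL.le hk3
  rw [hLdef, Real.exp_log hX0, ← hLdef, mul_div_assoc', le_div_iff₀ hLk] at hexp
  have h := count_le S hS X ⌊Real.exp a⌋₊ m
  have hmn := hmain S _ a hS hc hz2 (by linarith) hzlo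
  have htl := htail S _ m L hc hz2 hL.le (hzhi.trans (by linarith)) hm1
  have her := err_le hc (z := ⌊Real.exp a⌋₊) (m := m) hsmall (Nat.floor_le (Real.exp_pos a).le) h6
  have hmn' : (K * (7 + Real.log (Real.log (((∏ A ∈ S, A : ℕ) : ℝ) + 3))) ^ 2 / a) ^ k ≤
      (K * (7 * Q) ^ 2 / a) ^ k := by
    refine pow_le_pow_left₀ (div_nonneg (mul_nonneg hK.le (sq_nonneg _)) (by linarith)) ?_ k
    exact div_le_div_of_nonneg_right (mul_le_mul_of_nonneg_left
      (pow_le_pow_left₀ (by linarith) (by linarith) 2) hK.le) (by linarith)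
  have hzX : ((⌊Real.exp a⌋₊ : ℕ) : ℝ) * L ^ k ≤ 64 * X :=
    le_trans (mul_le_mul_of_nonneg_right ((Nat.floor_le (Real.exp_pos a).le).trans
      (Real.exp_le_exp.2 ha4)) hLk.le) hexp
  have h17 : 2 * (m : ℝ) + 1 ≤ (17 + 12 * C₀) * Q := by
    have : (8 + 6 * C₀) * (Real.log L + 1) ≤ (8 + 6 * C₀) * Q :=
      mul_le_mul_of_nonneg_left (by linarith) (by positivity)
    linarith
  calc ((linkedPrimes S X).card : ℝ) * L ^ k
      ≤ ((⌊Real.exp a⌋₊ : ℕ) + (X * ((K * (7 * Q) ^ 2 / a) ^ k + 1 / L ^ k)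
          + (17 + 12 * C₀) * Q * Real.exp (L / 4))) * L ^ k := by
        refine mul_le_mul_of_nonneg_right (h.trans (add_le_add le_rfl (add_le_add ?_ ?_))) hLk.le
        · refine (mul_le_mul_of_nonneg_left (add_le_add (hmn.trans hmn') htl)
            (Nat.cast_nonneg _)).trans (mul_le_mul_of_nonneg_right (Nat.floor_le hX0.le) ?_)
          exact add_nonneg (pow_nonneg (div_nonneg (mul_nonneg hK.le (sq_nonneg _)) (by linarith)) _)
            (by positivity)
        · exact her.trans (mul_le_mul_of_nonneg_right h17 (Real.exp_pos _).le)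
    _ = ((⌊Real.exp a⌋₊ : ℕ) : ℝ) * L ^ k + X * ((K * (7 * Q) ^ 2 / a) ^ k * L ^ k + 1)
          + (17 + 12 * C₀) * Q * (Real.exp (L / 4) * L ^ k) := by
        field_simp
        ring
    _ ≤ 64 * X + X * ((K * (7 * Q) ^ 2 / a) ^ k * L ^ k + 1) + (17 + 12 * C₀) * Q * (64 * X) :=
        add_le_add (add_le_add hzX le_rfl) (mul_le_mul_of_nonneg_left hexp (by positivity))
    _ = (64 + ((K * (7 * Q) ^ 2 / a) ^ k * L ^ k + 1) + 64 * ((17 + 12 * C₀) * Q)) * X := by ring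
    _ ≤ W * Q ^ 9 * X := mul_le_mul_of_nonneg_right hWbig hX0.le

/-- S2: the sum of `1/R` over such primes with `log R ≥ T`. -/
theorem recip_real : ∃ C : ℕ, 0 < C ∧ ∀ S : Finset ℕ, (∀ A ∈ S, 0 < A) → 1 ≤ S.card →
    S.card ≤ 2 → ∀ X : ℝ, 3 ≤ X → ∀ T : ℝ, 1 ≤ T →
      ∑ R ∈ (linkedPrimes S X).filter (fun R : ℕ => T ≤ Real.log R), (1 : ℝ) / R ≤
        ((C : ℝ) * loss S X) ^ C / T ^ S.card := by
  classical
  obtain ⟨C, hC, hcount⟩ := count_real
  refine ⟨2 * C + 16, by omega, fun S hS hc1 hc2 X hX T hT => ?_⟩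
  obtain ⟨hQ, hL, hlℓ⟩ := two_le_loss hS hX
  set Q := loss S X with hQdef
  set c := S.card with hcdef
  set n := ⌊Real.log X⌋₊ with hn
  set F := (linkedPrimes S X).filter (fun R : ℕ => T ≤ Real.log R) with hF
  set E : ℝ := 2 * Real.exp 2 * (2 * (C : ℝ) * Q) ^ C with hE
  have hmem : ∀ R ∈ F, ⌊Real.log R⌋₊ + 2 ∈ Finset.Ioo ⌊T⌋₊ (n + 3) := by
    intro R hR
    obtain ⟨hR1, hR2⟩ := Finset.mem_filter.1 hR
    obtain ⟨hR3, hR4⟩ := Finset.mem_filter.1 hR1
    rw [Finset.mem_Ioo]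
    have h1 : ⌊T⌋₊ ≤ ⌊Real.log R⌋₊ := Nat.floor_mono hR2
    have h2 : ⌊Real.log R⌋₊ ≤ n := Nat.floor_mono (Real.log_le_log (by exact_mod_cast hR4.1.pos)
      ((Nat.cast_le.2 (Finset.mem_Icc.1 hR3).2).trans (Nat.floor_le (by linarith))))
    omega
  rw [← Finset.sum_fiberwise_of_maps_to hmem]
  have hfib : ∀ i ∈ Finset.Ioo ⌊T⌋₊ (n + 3),
      ∑ R ∈ F.filter (fun R : ℕ => ⌊Real.log R⌋₊ + 2 = i), (1 : ℝ) / R
        ≤ Real.exp 2 * (2 * (C : ℝ) * Q) ^ C / T ^ (c - 1) * ((i : ℝ) ^ 2)⁻¹ := by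
    intro i hi
    obtain ⟨hi1, hi2⟩ := Finset.mem_Ioo.1 hi
    have hT1 : 1 ≤ ⌊T⌋₊ := Nat.le_floor (by exact_mod_cast hT)
    have hiT : T ≤ i := (Nat.lt_floor_add_one T).le.trans (by exact_mod_cast hi1)
    have hi0 : (2 : ℝ) ≤ i := by exact_mod_cast (by omega : 2 ≤ i)
    have h3 : (3 : ℝ) ≤ Real.exp i := by
      have := Real.add_one_le_exp (i : ℝ)
      linarith
    have hcnt : ((F.filter (fun R : ℕ => ⌊Real.log R⌋₊ + 2 = i)).card : ℝ) ≤
        (2 * (C : ℝ) * Q) ^ C * Real.exp i / (i : ℝ) ^ (c + 1) := by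
      have hsub : (F.filter (fun R : ℕ => ⌊Real.log R⌋₊ + 2 = i)) ⊆ linkedPrimes S (Real.exp i) := by
        intro R hR
        obtain ⟨hR1, hR2⟩ := Finset.mem_filter.1 hR
        obtain ⟨hR3, hR4⟩ := Finset.mem_filter.1 (Finset.mem_filter.1 hR1).1
        refine Finset.mem_filter.2 ⟨Finset.mem_Icc.2 ⟨hR4.1.one_le, Nat.le_floor ?_⟩, hR4⟩
        have hR0 : (0 : ℝ) < R := by exact_mod_cast hR4.1.pos
        rw [← Real.exp_log hR0]
        refine Real.exp_le_exp.2 ?_
        have := Nat.lt_floor_add_one (Real.log (R : ℝ))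
        have : (⌊Real.log (R : ℝ)⌋₊ : ℝ) + 2 = i := by exact_mod_cast hR2
        linarith
      refine (Nat.cast_le.2 (Finset.card_le_card hsub)).trans ((hcount S hS hc2 _ h3).trans ?_)
      rw [Real.log_exp]
      refine div_le_div_of_nonneg_right (mul_le_mul_of_nonneg_right
        (pow_le_pow_left₀ ?_ ?_ C) (Real.exp_pos _).le) (by positivity)
      · exact mul_nonneg (Nat.cast_nonneg _) (by linarith [(two_le_loss hS h3).1])
      · rw [mul_comm 2 (C : ℝ), mul_assoc]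
        refine mul_le_mul_of_nonneg_left ?_ (Nat.cast_nonneg _)
        have hiL : (i : ℝ) ≤ 3 * Real.log X := by
          have h1 : (i : ℝ) ≤ n + 2 := by exact_mod_cast (by omega : i ≤ n + 2)
          have h2 : (n : ℝ) ≤ Real.log X := Nat.floor_le (by linarith)
          linarith
        have h4 : Real.log i ≤ Real.log 3 + Real.log (Real.log X) := by
          rw [← Real.log_mul (by norm_num) (by linarith)]
          exact Real.log_le_log (by linarith) hiL
        have h5 : Real.log 3 ≤ 3 - 1 := Real.log_le_sub_one_of_pos (by norm_num)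
        simp only [hQdef, loss, Real.log_exp]
        linarith [Real.log_nonneg hL.le]
    calc ∑ R ∈ F.filter (fun R : ℕ => ⌊Real.log R⌋₊ + 2 = i), (1 : ℝ) / R
        ≤ ∑ _R ∈ F.filter (fun R : ℕ => ⌊Real.log R⌋₊ + 2 = i), Real.exp 2 / Real.exp i := by
          refine Finset.sum_le_sum fun R hR => ?_
          obtain ⟨hR1, hR2⟩ := Finset.mem_filter.1 hR
          have hRp := (Finset.mem_filter.1 (Finset.mem_filter.1 hR1).1).2.1
          have hR0 : (0 : ℝ) < R := by exact_mod_cast hRp.pos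
          rw [← Real.exp_sub, ← Real.exp_log hR0, one_div, ← Real.exp_neg]
          refine Real.exp_le_exp.2 ?_
          have := Nat.floor_le (Real.log_natCast_nonneg R)
          have : (⌊Real.log (R : ℝ)⌋₊ : ℝ) + 2 = i := by exact_mod_cast hR2
          linarith
      _ ≤ (2 * (C : ℝ) * Q) ^ C * Real.exp i / (i : ℝ) ^ (c + 1) * (Real.exp 2 / Real.exp i) := by
          rw [Finset.sum_const, nsmul_eq_mul]
          exact mul_le_mul_of_nonneg_right hcnt (by positivity)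
      _ = Real.exp 2 * (2 * (C : ℝ) * Q) ^ C / ((i : ℝ) ^ (c - 1) * (i : ℝ) ^ 2) := by
          rw [← pow_add, show c - 1 + 2 = c + 1 by omega]
          field_simp
      _ ≤ Real.exp 2 * (2 * (C : ℝ) * Q) ^ C / (T ^ (c - 1) * (i : ℝ) ^ 2) := by gcongr
      _ = _ := by rw [← div_div, div_eq_mul_inv _ ((i : ℝ) ^ 2)]
  refine (Finset.sum_le_sum hfib).trans ?_
  rw [← Finset.mul_sum]
  have hsum := sum_Ioo_inv_sq_le (α := ℝ) ⌊T⌋₊ (n + 3)
  have hfl : T ≤ (⌊T⌋₊ : ℝ) + 1 := (Nat.lt_floor_add_one T).le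
  calc Real.exp 2 * (2 * (C : ℝ) * Q) ^ C / T ^ (c - 1) *
        ∑ i ∈ Finset.Ioo ⌊T⌋₊ (n + 3), ((i : ℝ) ^ 2)⁻¹
      ≤ Real.exp 2 * (2 * (C : ℝ) * Q) ^ C / T ^ (c - 1) * (2 / T) := by
        gcongr
        refine hsum.trans ?_
        gcongr
    _ = 2 * Real.exp 2 * (2 * (C : ℝ) * Q) ^ C / (T ^ (c - 1) * T) := by ring
    _ = 2 * Real.exp 2 * (2 * (C : ℝ) * Q) ^ C / T ^ c := by
        rw [← pow_succ, show c - 1 + 1 = c by omega]
    _ ≤ _ := by
        gcongr
        push_cast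
        set W' := (2 * (C : ℝ) + 16) * Q with hW'
        have hW1 : 16 ≤ W' := by
          have : 0 ≤ 2 * (C : ℝ) * Q := by positivity
          nlinarith
        have hcw : 2 * (C : ℝ) * Q ≤ W' := by nlinarith
        calc 2 * Real.exp 2 * (2 * (C : ℝ) * Q) ^ C ≤ W' * W' ^ C := by
              gcongr
              have h1 := Real.exp_one_lt_d9
              have h2 : Real.exp 2 = Real.exp 1 * Real.exp 1 := by rw [← Real.exp_add]; norm_num
              nlinarith [Real.exp_pos 1]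
          _ = W' ^ (C + 1) := (pow_succ' _ _).symm
          _ ≤ W' ^ (2 * C + 16) := pow_le_pow_right₀ (by linarith) (by omega)

theorem loss_le (S : Finset ℕ) (hS : ∀ A ∈ S, 0 < A) {X : ℕ} (hX : 3 ≤ X) (C : ℕ) :
    ((C : ℝ) * loss S X) ^ C ≤ sieveLoss S X C := by
  obtain ⟨h1, -, -⟩ := two_le_loss hS (X := (X : ℝ)) (by exact_mod_cast hX)
  refine pow_le_pow_left₀ (mul_nonneg (Nat.cast_nonneg _) (by linarith)) ?_ C
  refine mul_le_mul_of_nonneg_left ?_ (Nat.cast_nonneg _)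
  rw [loss]
  linarith [le_abs_self (Real.log (Real.log (X : ℝ)))]

theorem tuplePrimes_eq (S : Finset ℕ) (X : ℕ) : tuplePrimes S X = linkedPrimes S X := by
  ext R
  simp [tuplePrimes, linkedPrimes, Nat.floor_natCast]

theorem loss_base (S : Finset ℕ) (X : ℕ) :
    2 ≤ 3 + |Real.log (Real.log X)| + Real.log (Real.log (((∏ A ∈ S, A : ℕ) : ℝ) + 3)) := by
  have h3 : 1 < Real.log 3 := by
    rw [Real.lt_log_iff_exp_lt (by norm_num)]
    linarith [Real.exp_one_lt_d9]
  have h2 : 1 ≤ Real.log (((∏ A ∈ S, A : ℕ) : ℝ) + 3) :=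
    h3.le.trans (Real.log_le_log (by norm_num) (by linarith [Nat.cast_nonneg (α := ℝ) (∏ A ∈ S, A)]))
  linarith [abs_nonneg (Real.log (Real.log (X : ℝ))), Real.log_nonneg h2]

end Sieve

open Sieve

/-- S1: primes `R ≤ X` with all `A R + 1` prime. -/
theorem sieve_count : ∃ C : ℕ, ∀ (S : Finset ℕ) (X : ℕ), (∀ A ∈ S, 0 < A) → S.card ≤ 2 → 2 ≤ X →
    ((tuplePrimes S X).card : ℝ) ≤ sieveLoss S X C * X / Real.log X ^ (S.card + 1) := by
  obtain ⟨C, hC, h⟩ := count_real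
  refine ⟨C, fun S X hS hc hX => ?_⟩
  rcases (show X = 2 ∨ 3 ≤ X by omega) with rfl | hX3
  · have hb := loss_base S 2
    have hC1 : (1 : ℝ) ≤ C := by exact_mod_cast hC
    have h1 : 1 ≤ sieveLoss S 2 C := one_le_pow₀ (by nlinarith)
    have hl : 0 < Real.log ((2 : ℕ) : ℝ) := Real.log_pos (by norm_num)
    have hle : Real.log ((2 : ℕ) : ℝ) ^ (S.card + 1) ≤ 1 :=
      pow_le_one₀ hl.le (by
        have := Real.log_two_lt_d9
        push_cast
        linarith)
    calc ((tuplePrimes S 2).card : ℝ) ≤ 2 := by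
          exact_mod_cast (Finset.card_filter_le _ _).trans (by simp)
      _ ≤ sieveLoss S 2 C * ((2 : ℕ) : ℝ) := by push_cast; linarith
      _ ≤ _ := by
          rw [le_div_iff₀ (by positivity)]
          refine mul_le_of_le_one_right ?_ hle
          push_cast
          linarith
  · rw [tuplePrimes_eq]
    refine (h S hS hc X (by exact_mod_cast hX3)).trans ?_
    gcongr
    exact loss_le S hS hX3 C

/-- S2: the sum of `1/R` over such primes with `log R ≥ T`. -/
theorem sieve_recip : ∃ C : ℕ, ∀ (S : Finset ℕ) (X : ℕ) (T : ℝ), (∀ A ∈ S, 0 < A) →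
    1 ≤ S.card → S.card ≤ 2 → 2 ≤ X → 1 ≤ T →
    ∑ R ∈ (tuplePrimes S X).filter (fun R => T ≤ Real.log (R : ℕ)), 1 / (R : ℝ) ≤
      sieveLoss S X C / T ^ S.card := by
  obtain ⟨C, -, h⟩ := recip_real
  refine ⟨C, fun S X T hS hc1 hc2 hX hT => ?_⟩
  rcases (show X = 2 ∨ 3 ≤ X by omega) with rfl | hX3
  · have he : (tuplePrimes S 2).filter (fun R => T ≤ Real.log (R : ℕ)) = ∅ := by
      refine Finset.filter_eq_empty_iff.2 fun R hR hT' => ?_
      obtain ⟨hR1, hR2, -⟩ := Finset.mem_filter.1 hR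
      obtain rfl : R = 2 := le_antisymm (Finset.mem_Icc.1 hR1).2 hR2.two_le
      have := Real.log_two_lt_d9
      push_cast at hT'
      linarith
    rw [he, Finset.sum_empty]
    have := loss_base S 2
    exact div_nonneg (pow_nonneg (mul_nonneg (Nat.cast_nonneg _) (by linarith)) _) (by positivity)
  · rw [tuplePrimes_eq]
    refine (h S hS hc1 hc2 X (by exact_mod_cast hX3) T hT).trans ?_
    gcongr
    exact loss_le S hS hX3 C

end Vale.Agent.P031
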