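import Vale.Agent.P031.Coef
import Vale.Agent.P031.Tools

/-!
Tools for the upper structure: the list of primes of a preimage, totient factorisation, and the
weighted bound for integers forced to have many primes in the intervals of a profile.
-/

open Finset Real Filter

namespace Vale.Agent.P031.UA

/-! ### The profile of an integer -/

lemma ll_nonneg (p : ℕ) : 0 ≤ ll p := le_max_left _ _

lemma ll_zero : ll 0 = 0 := by simp [ll]

lemma ll_one : ll 1 = 0 := by simp [ll]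

lemma two_le_of_ll_pos {p : ℕ} (h : 0 < ll p) : 2 ≤ p := by
  rcases p with _ | _ | p
  · simp [ll_zero] at h
  · simp [ll_one] at h
  · omega

lemma ll_mono {p q : ℕ} (h : p ≤ q) : ll p ≤ ll q := by
  rcases lt_or_ge p 2 with hp | hp
  · interval_cases p
    · simpa [ll_zero] using ll_nonneg q
    · simpa [ll_one] using ll_nonneg q
  · refine max_le_max le_rfl (Real.log_le_log (Real.log_pos (by exact_mod_cast hp)) ?_)
    exact Real.log_le_log (by positivity) (by exact_mod_cast h)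

lemma ll_le_of_log_le {p : ℕ} {b : ℝ} (hb : 0 ≤ b) (h : Real.log p ≤ Real.exp b) : ll p ≤ b := by
  rcases lt_or_ge p 2 with hp | hp
  · interval_cases p <;> simp [ll_zero, ll_one, hb]
  · exact max_le hb ((Real.log_le_iff_le_exp (Real.log_pos (by exact_mod_cast hp))).2 h)

lemma log_le_exp_ll (p : ℕ) : Real.log p ≤ Real.exp (ll p) := by
  rcases lt_or_ge p 2 with hp | hp
  · interval_cases p <;> simp [ll_zero, ll_one]
  · exact (Real.log_le_iff_le_exp (Real.log_pos (by exact_mod_cast hp))).1 (le_max_right _ _)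

lemma exp_exp_le_of_lt_ll {p : ℕ} {a : ℝ} (ha : 0 ≤ a) (h : a < ll p) :
    Real.exp (Real.exp a) < p := by
  have h2 := two_le_of_ll_pos (ha.trans_lt h)
  have hl : 0 < Real.log p := Real.log_pos (by exact_mod_cast h2)
  have h3 : a < Real.log (Real.log p) := by
    rcases lt_max_iff.1 h with h4 | h4
    · linarith
    · exact h4
  have h4 : Real.exp a < Real.log p := (Real.lt_log_iff_exp_lt hl).1 h3
  exact (Real.lt_log_iff_exp_lt (by exact_mod_cast (by omega : 0 < p))).1 h4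

/-- `n` without its `i` largest prime factors. -/
def cut (n : ℕ) : ℕ → ℕ
  | 0 => n
  | i + 1 => cut n i / nthPrime (cut n i) 1

lemma nthPrime_mem_or (n i : ℕ) : nthPrime n i ∈ n.primeFactorsList ∨ nthPrime n i = 1 := by
  unfold nthPrime
  rcases lt_or_ge (i - 1) n.primeFactorsList.reverse.length with h | h
  · rw [List.getD_eq_getElem _ _ h]
    exact Or.inl (List.mem_reverse.1 (List.getElem_mem h))
  · rw [List.getD_eq_default _ _ h]; exact Or.inr rfl

lemma nthPrime_one_le (n i : ℕ) : 1 ≤ nthPrime n i := by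
  rcases nthPrime_mem_or n i with h | h
  · exact (Nat.prime_of_mem_primeFactorsList h).one_lt.le
  · omega

lemma nthPrime_dvd (n i : ℕ) : nthPrime n i ∣ n := by
  rcases nthPrime_mem_or n i with h | h
  · exact Nat.dvd_of_mem_primeFactorsList h
  · simp [h]

lemma nthPrime_prime_of_ll {n i : ℕ} (h : 0 < ll (nthPrime n i)) : (nthPrime n i).Prime := by
  rcases nthPrime_mem_or n i with h' | h'
  · exact Nat.prime_of_mem_primeFactorsList h'
  · rw [h', ll_one] at h; exact absurd h (lt_irrefl 0)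

lemma reverse_head_eq {n : ℕ} {a : ℕ} {t : List ℕ} (h : n.primeFactorsList.reverse = a :: t) :
    nthPrime n 1 = a := by simp [nthPrime, h]

lemma le_nthPrime_one {n p : ℕ} (h : p ∈ n.primeFactorsList) : p ≤ nthPrime n 1 := by
  have h2 := List.pairwise_reverse.2 (Nat.primeFactorsList_sorted n).pairwise
  rcases hl : n.primeFactorsList.reverse with _ | ⟨a, t⟩
  · rw [List.reverse_eq_nil_iff] at hl; rw [hl] at h; simp at h
  · rw [reverse_head_eq hl]
    rw [hl, List.pairwise_cons] at h2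
    have : p ∈ a :: t := hl ▸ List.mem_reverse.2 h
    rcases List.mem_cons.1 this with rfl | h3
    · exact le_rfl
    · exact h2.1 p h3

lemma nthPrime_succ_eq {n : ℕ} (hn : n ≠ 0) (j : ℕ) :
    nthPrime (n / nthPrime n 1) (j + 1) = nthPrime n (j + 2) := by
  rcases hl : n.primeFactorsList.reverse with _ | ⟨a, t⟩
  · have : nthPrime n 1 = 1 := by simp [nthPrime, hl]
    rw [this, Nat.div_one]; simp [nthPrime, hl]
  · have hlist : n.primeFactorsList = t.reverse ++ [a] := by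
      have := congrArg List.reverse hl
      simpa using this
    have ha := reverse_head_eq hl
    have hp : a.Prime := Nat.prime_of_mem_primeFactorsList (by rw [hlist]; simp)
    have hprod : t.reverse.prod * a = n := by
      have := Nat.prod_primeFactorsList hn
      rw [hlist] at this; simpa using this
    have hperm : t.reverse.Perm (n / a).primeFactorsList := by
      refine Nat.primeFactorsList_unique ?_ fun p hp' => ?_
      · exact (Nat.div_eq_of_eq_mul_left hp.pos hprod.symm).symm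
      · exact Nat.prime_of_mem_primeFactorsList (by rw [hlist]; exact List.mem_append_left _ hp')
    have hsort : t.reverse.Pairwise (· ≤ ·) := by
      have := (Nat.primeFactorsList_sorted n).pairwise
      rw [hlist, List.pairwise_append] at this; exact this.1
    have heq : (n / a).primeFactorsList = t.reverse :=
      (hperm.eq_of_pairwise' hsort (Nat.primeFactorsList_sorted _).pairwise).symm
    simp [nthPrime, ha, heq, hl]

lemma cut_spec {n : ℕ} (hn : n ≠ 0) : ∀ i : ℕ,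
    cut n i ≠ 0 ∧ cut n i ∣ n ∧ ∀ j, nthPrime (cut n i) (j + 1) = nthPrime n (i + j + 1) := by
  intro i
  induction i with
  | zero => exact ⟨hn, dvd_rfl, fun j => by simp [cut]⟩
  | succ i ih =>
    obtain ⟨h0, hd, hj⟩ := ih
    have hq : nthPrime (cut n i) 1 ∣ cut n i := nthPrime_dvd _ _
    refine ⟨?_, (Nat.div_dvd_of_dvd hq).trans hd, fun j => ?_⟩
    · simp only [cut]
      intro h
      rw [Nat.div_eq_zero_iff] at h
      rcases h with h | h
      · have := nthPrime_one_le (cut n i) 1; omega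
      · exact absurd (Nat.le_of_dvd (Nat.pos_of_ne_zero h0) hq) (by omega)
    · simp only [cut]
      rw [nthPrime_succ_eq h0, hj (j + 1)]
      congr 1
      omega

lemma cut_eq_mul {n : ℕ} (hn : n ≠ 0) (i : ℕ) :
    cut n i = nthPrime n (i + 1) * cut n (i + 1) := by
  have h := (cut_spec hn i).2.2 0
  simp only [zero_add, add_zero] at h
  rw [← h, cut, Nat.mul_div_cancel' (nthPrime_dvd _ _)]

lemma prof_cut {n : ℕ} (hn : n ≠ 0) (i : ℕ) {r : ℕ} (hr : 1 ≤ r) :
    prof (cut n i) r = prof n (i + r) := by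
  obtain ⟨j, rfl⟩ := Nat.exists_eq_add_of_le' hr
  rw [prof, prof, (cut_spec hn i).2.2 j, ← add_assoc]

lemma nthPrime_mem_of_prime {n i : ℕ} (hp : (nthPrime n i).Prime) :
    nthPrime n i ∈ n.primeFactorsList :=
  (nthPrime_mem_or n i).resolve_right hp.ne_one

lemma nthPrime_antitone {n r s : ℕ} (hn : n ≠ 0) (hr : 1 ≤ r) (h : r ≤ s) :
    nthPrime n s ≤ nthPrime n r := by
  obtain ⟨i, rfl⟩ := Nat.exists_eq_add_of_le' hr
  obtain ⟨j, rfl⟩ := Nat.exists_eq_add_of_le h
  have h1 := (cut_spec hn i).2.2 j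
  have h0 := (cut_spec hn i).2.2 0
  rw [add_zero] at h0
  rw [show i + 1 + j = i + j + 1 by omega, ← h1, ← h0]
  rcases nthPrime_mem_or (cut n i) (j + 1) with hm | hm
  · exact le_nthPrime_one hm
  · rw [hm]; exact nthPrime_one_le _ _

lemma prof_antitone {n r s : ℕ} (hn : n ≠ 0) (hr : 1 ≤ r) (h : r ≤ s) : prof n s ≤ prof n r :=
  ll_mono (nthPrime_antitone hn hr h)

lemma prof_nonneg (n i : ℕ) : 0 ≤ prof n i := ll_nonneg _

lemma le_nthPrime_of_mem {n p : ℕ} (hn : n ≠ 0) (hp : p.Prime) (h : p ∣ n) :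
    p ≤ nthPrime n 1 := le_nthPrime_one ((Nat.mem_primeFactorsList hn).2 ⟨hp, h⟩)

lemma ll_le_prof_one {n p : ℕ} (hn : n ≠ 0) (hp : p.Prime) (h : p ∣ n) : ll p ≤ prof n 1 :=
  ll_mono (le_nthPrime_of_mem hn hp h)

lemma sq_dvd_of_nthPrime_eq {n r s : ℕ} (hn : n ≠ 0) (hr : 1 ≤ r) (h : r < s)
    (he : nthPrime n r = nthPrime n s) : nthPrime n r ^ 2 ∣ n := by
  obtain ⟨i, rfl⟩ := Nat.exists_eq_add_of_le' hr
  obtain ⟨j, rfl⟩ := Nat.exists_eq_add_of_le (show i + 2 ≤ s by omega)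
  have h1 := (cut_spec hn (i + 1)).2.2 j
  have h2 : nthPrime n (i + 1) ∣ cut n (i + 1) := by
    rw [he, show i + 2 + j = i + 1 + j + 1 by omega, ← h1]; exact nthPrime_dvd _ _
  calc nthPrime n (i + 1) ^ 2 = nthPrime n (i + 1) * nthPrime n (i + 1) := by ring
    _ ∣ nthPrime n (i + 1) * cut n (i + 1) := Nat.mul_dvd_mul_left _ h2
    _ ∣ n := by rw [← cut_eq_mul hn i]; exact (cut_spec hn i).2.1

/-- Split off the `i` largest primes when they are simple. -/
lemma totient_cut {n : ℕ} (hn : n ≠ 0) : ∀ i : ℕ,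
    (∀ l, 1 ≤ l → l ≤ i → (nthPrime n l).Prime ∧ ¬ nthPrime n l ^ 2 ∣ n) →
    Nat.totient n = (∏ l ∈ Finset.Icc 1 i, (nthPrime n l - 1)) * Nat.totient (cut n i) := by
  intro i
  induction i with
  | zero => intro _; simp [cut]
  | succ i ih =>
    intro h
    obtain ⟨hp, hsq⟩ := h (i + 1) (by omega) le_rfl
    have hco : (nthPrime n (i + 1)).Coprime (cut n (i + 1)) := by
      refine hp.coprime_iff_not_dvd.2 fun hd => hsq ?_
      calc nthPrime n (i + 1) ^ 2 = nthPrime n (i + 1) * nthPrime n (i + 1) := by ring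
        _ ∣ nthPrime n (i + 1) * cut n (i + 1) := Nat.mul_dvd_mul_left _ hd
        _ ∣ n := by rw [← cut_eq_mul hn i]; exact (cut_spec hn i).2.1
    rw [Finset.prod_Icc_succ_top (by omega), ih (fun l h1 h2 => h l h1 (by omega)), cut_eq_mul hn i,
      Nat.totient_mul hco, Nat.totient_prime hp]
    ring

lemma cut_one_mul {n : ℕ} (hn : n ≠ 0) : nthPrime n 1 * cut n 1 = n := by
  have := cut_eq_mul hn 0; simpa [cut] using this.symm

/-- The predecessors of distinct prime divisors divide the totient. -/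
lemma prod_pred_dvd_totient {n : ℕ} : ∀ s : Finset ℕ, (∀ p ∈ s, p.Prime ∧ p ∣ n) →
    (∏ p ∈ s, (p - 1)) ∣ Nat.totient n := by
  intro s hs
  have h1 : (∏ p ∈ s, p) ∣ n :=
    Finset.prod_primes_dvd n (fun p hp => (hs p hp).1.prime) fun p hp => (hs p hp).2
  have h2 : Nat.totient (∏ p ∈ s, p) = ∏ p ∈ s, (p - 1) := by
    clear h1
    induction s using Finset.induction with
    | empty => simp
    | insert a t ha ih =>
      rw [Finset.prod_insert ha, Finset.prod_insert ha, Nat.totient_mul,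
        Nat.totient_prime (hs a (Finset.mem_insert_self ..)).1,
        ih fun p hp => hs p (Finset.mem_insert_of_mem hp)]
      refine Nat.Coprime.prod_right fun p hp => ?_
      exact (Nat.coprime_primes (hs a (Finset.mem_insert_self ..)).1
        (hs p (Finset.mem_insert_of_mem hp)).1).2 fun e => ha (e ▸ hp)
  rw [← h2]; exact Nat.totient_dvd_of_dvd h1

/-- A totient has almost as many prime factors as its preimage. -/
lemma length_le_totient : ∀ n : ℕ, n ≠ 0 →
    n.primeFactorsList.length ≤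
      (Nat.totient n).primeFactorsList.length + (if 2 ∣ n then 1 else 0) := by
  intro n
  induction n using Nat.strong_induction_on with
  | _ n ih =>
    intro hn
    rcases eq_or_ne n 1 with rfl | h1
    · simp
    obtain ⟨p, hp, hd⟩ := Nat.exists_prime_and_dvd h1
    obtain ⟨m, rfl⟩ := hd
    have hm : m ≠ 0 := fun h => hn (by simp [h])
    have hlt : m < p * m := lt_mul_of_one_lt_left (Nat.pos_of_ne_zero hm) hp.one_lt
    have hφ : Nat.totient m ≠ 0 := (Nat.totient_pos.2 (Nat.pos_of_ne_zero hm)).ne'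
    have ihm := ih m hlt hm
    rw [(Nat.perm_primeFactorsList_mul hp.ne_zero hm).length_eq, List.length_append,
      Nat.primeFactorsList_prime hp, List.length_singleton]
    by_cases hpm : p ∣ m
    · rw [Nat.totient_mul_of_prime_of_dvd hp hpm,
        (Nat.perm_primeFactorsList_mul hp.ne_zero hφ).length_eq, List.length_append,
        Nat.primeFactorsList_prime hp, List.length_singleton]
      have : 2 ∣ m → 2 ∣ p * m := fun h => h.mul_left p
      split_ifs at ihm ⊢ <;> omega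
    · rw [Nat.totient_mul_of_prime_of_not_dvd hp hpm]
      rcases hp.eq_two_or_odd with rfl | hodd
      · rw [if_neg hpm] at ihm
        simp; omega
      · have hp1 : p - 1 ≠ 0 := by have := hp.two_le; omega
        rw [(Nat.perm_primeFactorsList_mul hp1 hφ).length_eq, List.length_append]
        have h2 : 1 ≤ (p - 1).primeFactorsList.length := by
          refine List.length_pos_iff.2 fun h => ?_
          have := (Nat.primeFactorsList_eq_nil _).1 h
          have := hp.two_le; omega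
        have : 2 ∣ m → 2 ∣ p * m := fun h => h.mul_left p
        split_ifs at ihm ⊢ <;> omega

/-! ### Elementary sums -/

lemma sum_le_of_cover {α ι : Type*} [DecidableEq α] (S : Finset α) (I : Finset ι)
    (P : ι → α → Prop) [∀ i, DecidablePred (P i)] (w : α → ℝ) (hw : ∀ a ∈ S, 0 ≤ w a)
    (h : ∀ a ∈ S, ∃ i ∈ I, P i a) :
    ∑ a ∈ S, w a ≤ ∑ i ∈ I, ∑ a ∈ S.filter (P i), w a := by
  calc ∑ a ∈ S, w a ≤ ∑ a ∈ S, ∑ i ∈ I, (if P i a then w a else 0) := by
        refine Finset.sum_le_sum fun a ha => ?_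
        obtain ⟨i, hi, hp⟩ := h a ha
        calc w a = if P i a then w a else 0 := by rw [if_pos hp]
          _ ≤ _ := Finset.single_le_sum (f := fun j => if P j a then w a else 0)
              (fun j _ => by split_ifs <;> [exact hw a ha; exact le_rfl]) hi
    _ = _ := by rw [Finset.sum_comm]; simp [Finset.sum_filter]

lemma sum_image_mul_le (A B : Finset ℕ) :
    ∑ x ∈ (A ×ˢ B).image (fun t : ℕ × ℕ => t.1 * t.2), 1 / (x : ℝ) ≤
      (∑ a ∈ A, 1 / (a : ℝ)) * ∑ b ∈ B, 1 / (b : ℝ) := by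
  refine (Finset.sum_image_le_of_nonneg fun _ _ => by positivity).trans (le_of_eq ?_)
  rw [Finset.sum_product, Finset.sum_mul_sum]
  refine Finset.sum_congr rfl fun a _ => Finset.sum_congr rfl fun b _ => ?_
  push_cast
  rw [div_mul_div_comm, one_mul]

lemma sum_recip_multiples {d N : ℕ} (hd : 0 < d) (S : Finset ℕ)
    (hS : ∀ m ∈ S, 1 ≤ m ∧ m ≤ N ∧ d ∣ m) :
    ∑ m ∈ S, 1 / (m : ℝ) ≤ (1 + Real.log N) / d := by
  have hsub : S ⊆ ({d} ×ˢ Finset.Icc 1 N).image (fun t : ℕ × ℕ => t.1 * t.2) := by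
    intro m hm
    obtain ⟨h1, h2, k, rfl⟩ := hS m hm
    refine Finset.mem_image.2 ⟨(d, k), Finset.mem_product.2 ⟨by simp, Finset.mem_Icc.2 ⟨?_, ?_⟩⟩, rfl⟩
    · by_contra h; simp [show k = 0 by omega] at h1
    · exact (Nat.le_mul_of_pos_left k hd).trans h2
  calc ∑ m ∈ S, 1 / (m : ℝ) ≤ _ :=
        Finset.sum_le_sum_of_subset_of_nonneg hsub fun _ _ _ => by positivity
    _ ≤ _ := sum_image_mul_le _ _
    _ ≤ (1 + Real.log N) / d := by
      rw [Finset.sum_singleton, one_div_mul_eq_div]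
      gcongr
      have := harmonic_le_one_add_log N
      simpa [harmonic_eq_sum_Icc] using this

lemma card_multiples {d : ℕ} {x : ℝ} (hd : 0 < d) (hx : 0 ≤ x) (S : Finset ℕ)
    (hS : ∀ m ∈ S, 1 ≤ m ∧ (m : ℝ) ≤ x ∧ d ∣ m) : (S.card : ℝ) ≤ x / d := by
  have hsub : S ⊆ (Finset.Icc 1 ⌊x / d⌋₊).image (fun k => d * k) := by
    intro m hm
    obtain ⟨h1, h2, k, rfl⟩ := hS m hm
    refine Finset.mem_image.2 ⟨k, Finset.mem_Icc.2 ⟨?_, Nat.le_floor ?_⟩, rfl⟩
    · by_contra h; simp [show k = 0 by omega] at h1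
    · rw [le_div_iff₀ (by exact_mod_cast hd)]; push_cast at h2; linarith
  have := (Finset.card_le_card hsub).trans Finset.card_image_le
  rw [Nat.card_Icc, Nat.add_sub_cancel] at this
  exact (by exact_mod_cast this : (S.card : ℝ) ≤ (⌊x / d⌋₊ : ℝ)).trans (Nat.floor_le (by positivity))

lemma sum_inv_mul_pred_tail {t : ℕ} (ht : 1 ≤ t) (S : Finset ℕ) (hS : ∀ p ∈ S, t < p) :
    ∑ p ∈ S, 1 / ((p : ℝ) * ((p : ℝ) - 1)) ≤ 1 / (t : ℝ) := by
  have key : ∀ N : ℕ, t ≤ N →
      ∑ k ∈ Finset.Icc (t + 1) N, 1 / ((k : ℝ) * ((k : ℝ) - 1)) = 1 / (t : ℝ) - 1 / (N : ℝ) := by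
    intro N hN
    induction N, hN using Nat.le_induction with
    | base => simp
    | succ N hN ih =>
      rw [Finset.sum_Icc_succ_top (by omega), ih]
      have h1 : (0 : ℝ) < N := by exact_mod_cast (by omega : 0 < N)
      have h3 : (0 : ℝ) < (N : ℝ) + 1 := by linarith
      push_cast
      rw [add_sub_cancel_right]
      field_simp
      ring
  calc ∑ p ∈ S, 1 / ((p : ℝ) * ((p : ℝ) - 1))
      ≤ ∑ k ∈ Finset.Icc (t + 1) (t + S.sup id), 1 / ((k : ℝ) * ((k : ℝ) - 1)) := by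
        refine Finset.sum_le_sum_of_subset_of_nonneg (fun p hp => Finset.mem_Icc.2
          ⟨hS p hp, (Finset.le_sup (f := id) hp).trans (Nat.le_add_left _ _)⟩) fun k hk _ => ?_
        have : (1 : ℝ) ≤ k := by
          have := (Finset.mem_Icc.1 hk).1; exact_mod_cast (by omega : 1 ≤ k)
        have : (0 : ℝ) ≤ (k : ℝ) - 1 := by linarith
        positivity
    _ ≤ _ := by
      rw [key _ (Nat.le_add_right _ _)]
      have : (0 : ℝ) ≤ 1 / ((t + S.sup id : ℕ) : ℝ) := by positivity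
      linarith

/-! ### The weight of a profile -/

/-- Integer profiles are counted with weight `l` on the `l`-th layer. -/
noncomputable def gW (K : ℕ) (Y : ℕ → ℕ) (p : ℕ) : ℝ :=
  ∏ l ∈ Finset.Icc 2 K, if ll p ≤ (Y l : ℝ) then (l : ℝ) / ((l : ℝ) - 1) else 1

/-- `∑_{2 ≤ r ≤ K} a_{r-1} y_r`. -/
noncomputable def phiSum (K : ℕ) (y : ℕ → ℝ) : ℝ := ∑ r ∈ Finset.Icc 2 K, coef (r - 1) * y r

noncomputable def beta (l : ℕ) : ℝ := Real.log ((l : ℝ) / ((l : ℝ) - 1))

lemma sum_beta : ∀ K : ℕ, ∑ l ∈ Finset.Icc 2 K, beta l = Real.log K := by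
  intro K
  induction K with
  | zero => simp
  | succ K ih =>
    rcases Nat.eq_zero_or_pos K with rfl | hK
    · simp
    · rw [Finset.sum_Icc_succ_top (by omega), ih, beta]
      have : (0 : ℝ) < K := by exact_mod_cast hK
      push_cast
      rw [add_sub_cancel_right, Real.log_div (by positivity) (by positivity)]
      ring

lemma beta_nonneg {l : ℕ} (hl : 2 ≤ l) : 0 ≤ beta l := by
  have : (2 : ℝ) ≤ l := by exact_mod_cast hl
  exact Real.log_nonneg (by rw [le_div_iff₀ (by linarith)]; linarith)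

/-- The layer identity. -/
lemma layer_identity (y : ℕ → ℝ) : ∀ K : ℕ,
    ∑ l ∈ Finset.Icc 2 K, beta l * ((l : ℝ) * y l + ∑ r ∈ Finset.Ioc l K, y r) =
      ∑ r ∈ Finset.Icc 2 K, (1 + coef (r - 1)) * y r := by
  intro K
  induction K with
  | zero => simp
  | succ K ih =>
    rcases Nat.eq_zero_or_pos K with rfl | hK
    · simp
    · have hsplit : ∀ l ∈ Finset.Icc 2 K, beta l * ((l : ℝ) * y l + ∑ r ∈ Finset.Ioc l (K + 1), y r)
          = beta l * ((l : ℝ) * y l + ∑ r ∈ Finset.Ioc l K, y r) + beta l * y (K + 1) := by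
        intro l hl
        rw [Finset.sum_Ioc_succ_top (Finset.mem_Icc.1 hl).2]
        ring
      rw [Finset.sum_Icc_succ_top (by omega), Finset.sum_Icc_succ_top (by omega),
        Finset.sum_congr rfl hsplit, Finset.sum_add_distrib, ih, ← Finset.sum_mul, sum_beta]
      have hK' : (0 : ℝ) < K := by exact_mod_cast hK
      simp only [Finset.Ioc_self, Finset.sum_empty, beta, coef, Nat.add_sub_cancel]
      push_cast
      rw [add_sub_cancel_right, Real.log_div (by positivity) (by positivity)]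
      ring

lemma gW_bounds (Y : ℕ → ℕ) (p : ℕ) : ∀ K : ℕ,
    1 ≤ gW K Y p ∧
    gW K Y p ≤ 1 + (((Finset.Icc 2 K).filter fun l => ll p ≤ (Y l : ℝ)).card : ℝ) := by
  intro K
  induction K with
  | zero => simp [gW]
  | succ K ih =>
    rcases Nat.eq_zero_or_pos K with rfl | hK
    · simp [gW]
    · have hK' : (1 : ℝ) ≤ K := by exact_mod_cast hK
      rw [gW, Finset.prod_Icc_succ_top (by omega), ← gW]
      have hins : Finset.Icc 2 (K + 1) = insert (K + 1) (Finset.Icc 2 K) := by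
        ext a; simp only [Finset.mem_Icc, Finset.mem_insert]; omega
      rw [hins, Finset.filter_insert]
      split_ifs with h
      · push_cast
        rw [add_sub_cancel_right]
        have hq : 1 ≤ ((K : ℝ) + 1) / K := by rw [le_div_iff₀ (by linarith)]; linarith
        refine ⟨one_le_mul_of_one_le_of_one_le ih.1 hq, ?_⟩
        rw [Finset.card_insert_of_notMem (by simp), ← mul_div_assoc, div_le_iff₀ (by linarith)]
        have hc : (((Finset.Icc 2 K).filter fun l => ll p ≤ (Y l : ℝ)).card : ℝ) + 1 ≤ K := by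
          have := Finset.card_filter_le (Finset.Icc 2 K) (fun l => ll p ≤ (Y l : ℝ))
          rw [Nat.card_Icc] at this
          exact_mod_cast (by omega :
            ((Finset.Icc 2 K).filter fun l => ll p ≤ (Y l : ℝ)).card + 1 ≤ K)
        push_cast
        nlinarith [ih.2]
      · simpa using ih

lemma gW_le (K : ℕ) (Y : ℕ → ℕ) (p : ℕ) : gW K Y p ≤ (K : ℝ) + 1 := by
  refine (gW_bounds Y p K).2.trans ?_
  have := Finset.card_filter_le (Finset.Icc 2 K) (fun l => ll p ≤ (Y l : ℝ))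
  rw [Nat.card_Icc] at this
  have : (((Finset.Icc 2 K).filter fun l => ll p ≤ (Y l : ℝ)).card : ℝ) ≤ K := by
    exact_mod_cast (by omega : ((Finset.Icc 2 K).filter fun l => ll p ≤ (Y l : ℝ)).card ≤ K)
  linarith

/-- `k` is forced to have the primes of the rows of the profile `Y`. -/
structure Rows (u : ℝ) (K : ℕ) (Y : ℕ → ℕ) (k : ℕ) : Prop where
  anti : ∀ r s, 1 ≤ r → r ≤ s → s ≤ K → Y s ≤ Y r
  sq : ∀ p : ℕ, p.Prime → yLow u < ll p → ¬ p ^ 2 ∣ k
  rows : ∃ q : ℕ → ℕ,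
    (∀ r ∈ Finset.Icc 1 K, yLow u < (Y r : ℝ) →
      (q r).Prime ∧ NormalPrime u (q r) ∧ (Y r : ℝ) ≤ ll (q r)) ∧
    (∏ r ∈ (Finset.Icc 1 K).filter (fun r => yLow u < (Y r : ℝ)), (q r - 1)) ∣ k

lemma log_pw_gW {k : ℕ} (K : ℕ) (Y : ℕ → ℕ) :
    Real.log (pw (gW K Y) k) =
      ∑ l ∈ Finset.Icc 2 K, beta l * ((k.primeFactors.filter fun p => ll p ≤ (Y l : ℝ)).card : ℝ) := by
  rw [pw, Real.log_prod fun p _ => (zero_lt_one.trans_le (gW_bounds Y p K).1).ne']
  have h1 : ∀ p ∈ k.primeFactors, Real.log (gW K Y p) =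
      ∑ l ∈ Finset.Icc 2 K, if ll p ≤ (Y l : ℝ) then beta l else 0 := by
    intro p _
    rw [gW, Real.log_prod]
    · refine Finset.sum_congr rfl fun l _ => ?_
      split_ifs <;> simp [beta]
    · intro l hl
      have : (2 : ℝ) ≤ l := by exact_mod_cast (Finset.mem_Icc.1 hl).1
      split_ifs
      · exact div_ne_zero (by linarith) (by linarith)
      · norm_num
  rw [Finset.sum_congr rfl h1, Finset.sum_comm]
  refine Finset.sum_congr rfl fun l _ => ?_
  rw [← Finset.sum_filter, Finset.sum_const, nsmul_eq_mul, mul_comm]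

/-- The weight forced on `k`. -/
lemma weight_lower {u : ℝ} {K : ℕ} {Y : ℕ → ℕ} {k : ℕ} (hk : 0 < k) (hK : 1 ≤ K)
    (hy : 0 ≤ yLow u) (h : Rows u K Y k) {M : ℝ} (hM : 0 ≤ M)
    (hYM : ∀ r ∈ Finset.Icc 1 K, (Y r : ℝ) ^ ((5 : ℝ) / 8) ≤ M) :
    (phiSum K fun r => (Y r : ℝ)) + ∑ l ∈ Finset.Icc 2 K, (Y l : ℝ)
      - (K : ℝ) * K * (yLow u + 1 + M) ≤ Real.log (pw (gW K Y) k) := by
  classical
  obtain ⟨q, hq, hdvd⟩ := h.rows
  set A := ⌈yLow u⌉₊ with hA
  have hAy : yLow u ≤ (A : ℝ) := Nat.le_ceil _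
  have hA1 : (A : ℝ) ≤ yLow u + 1 := (Nat.ceil_lt_add_one hy).le
  set R := (Finset.Icc 1 K).filter (fun r => yLow u < (Y r : ℝ)) with hR
  have key : ∀ l ∈ Finset.Icc 2 K,
      (l : ℝ) * Y l + ∑ r ∈ Finset.Ioc l K, (Y r : ℝ) - (K : ℝ) * (yLow u + 1 + M) ≤
        ((k.primeFactors.filter fun p => ll p ≤ (Y l : ℝ)).card : ℝ) := by
    intro l hl
    obtain ⟨hl2, hlK⟩ := Finset.mem_Icc.1 hl
    set I : ℕ → Finset ℕ := fun r => (q r - 1).primeFactors.filter
      (fun p => (A : ℝ) < ll p ∧ ll p ≤ ((min (Y l) (Y r) : ℕ) : ℝ)) with hI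
    have hne : ∀ r ∈ R, q r - 1 ≠ 0 := by
      intro r hr
      obtain ⟨hr1, hr2⟩ := Finset.mem_filter.1 hr
      have := (hq r hr1 hr2).1.two_le
      omega
    have hdisj : (R : Set ℕ).PairwiseDisjoint I := by
      intro r hr s hs hrs
      simp only [Function.onFun]
      rw [Finset.disjoint_left]
      intro p hp hp'
      simp only [hI, Finset.mem_filter, Nat.mem_primeFactors] at hp hp'
      obtain ⟨⟨hpp, hpr, -⟩, hpA, -⟩ := hp
      obtain ⟨⟨-, hps, -⟩, -, -⟩ := hp'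
      refine h.sq p hpp (hAy.trans_lt hpA) ?_
      have h2 : ({r, s} : Finset ℕ) ⊆ R := by
        intro a ha; rcases Finset.mem_insert.1 ha with rfl | ha
        · exact hr
        · rw [Finset.mem_singleton.1 ha]; exact hs
      have h3 := Finset.prod_dvd_prod_of_subset _ _ (fun r => q r - 1) h2
      rw [Finset.prod_pair hrs] at h3
      rw [pow_two]
      exact ((Nat.mul_dvd_mul hpr hps).trans h3).trans hdvd
    have hsub : R.biUnion I ⊆ k.primeFactors.filter fun p => ll p ≤ (Y l : ℝ) := by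
      intro p hp
      obtain ⟨r, hr, hpI⟩ := Finset.mem_biUnion.1 hp
      simp only [hI, Finset.mem_filter, Nat.mem_primeFactors] at hpI
      refine Finset.mem_filter.2 ⟨Nat.mem_primeFactors.2 ⟨hpI.1.1,
        (hpI.1.2.1.trans (Finset.dvd_prod_of_mem (fun r => q r - 1) hr)).trans hdvd, hk.ne'⟩, ?_⟩
      exact hpI.2.2.trans (by exact_mod_cast min_le_left _ _)
    have hrow : ∀ r ∈ Finset.Icc 1 K,
        ((min (Y l) (Y r) : ℕ) : ℝ) - (yLow u + 1 + M) ≤
          if r ∈ R then ((I r).card : ℝ) else 0 := by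
      intro r hr
      split_ifs with hrR
      · obtain ⟨-, hr2⟩ := Finset.mem_filter.1 hrR
        obtain ⟨hp, hnorm, hY⟩ := hq r hr hr2
        set b := min (Y l) (Y r) with hb
        rcases le_or_gt b A with hbA | hbA
        · have hbA' : (b : ℝ) ≤ A := by exact_mod_cast hbA
          have h0 : (0 : ℝ) ≤ ((I r).card : ℝ) := Nat.cast_nonneg _
          linarith
        · have hbY : (b : ℝ) ≤ Y r := by exact_mod_cast min_le_right _ _
          have hn := (hnorm (hr2.trans_le hY)).2 A b hAy hbA (by linarith)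
          rw [min_eq_left (hbY.trans hY)] at hn
          have hbM : (b : ℝ) ^ ((5 : ℝ) / 8) ≤ M :=
            (Real.rpow_le_rpow (Nat.cast_nonneg _) hbY (by norm_num)).trans (hYM r hr)
          have hcard : ((I r).card : ℝ) = (omegaIn (A : ℝ) (b : ℝ) (q r - 1) : ℝ) := by
            simp [omegaIn, hI, hb]
          rw [hcard]
          linarith [(abs_le.1 hn).1]
      · have hYr : (Y r : ℝ) ≤ yLow u := by
          by_contra hh; exact hrR (Finset.mem_filter.2 ⟨hr, lt_of_not_ge hh⟩)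
        have : ((min (Y l) (Y r) : ℕ) : ℝ) ≤ Y r := by exact_mod_cast min_le_right _ _
        linarith
    have hcard : ∑ r ∈ R, ((I r).card : ℝ) ≤
        ((k.primeFactors.filter fun p => ll p ≤ (Y l : ℝ)).card : ℝ) := by
      have := Finset.card_le_card hsub
      rw [Finset.card_biUnion hdisj] at this
      exact_mod_cast this
    have hmin : (l : ℝ) * Y l + ∑ r ∈ Finset.Ioc l K, (Y r : ℝ) ≤
        ∑ r ∈ Finset.Icc 1 K, ((min (Y l) (Y r) : ℕ) : ℝ) := by
      have hu : Finset.Icc 1 K = Finset.Icc 1 l ∪ Finset.Ioc l K := by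
        ext a; simp only [Finset.mem_Icc, Finset.mem_union, Finset.mem_Ioc]; omega
      have hd : Disjoint (Finset.Icc 1 l) (Finset.Ioc l K) := by
        rw [Finset.disjoint_left]; intro a ha hb
        simp only [Finset.mem_Icc, Finset.mem_Ioc] at ha hb; omega
      rw [hu, Finset.sum_union hd]
      refine add_le_add (le_of_eq ?_) (Finset.sum_le_sum fun r hr => ?_)
      · have : ∀ r ∈ Finset.Icc 1 l, ((min (Y l) (Y r) : ℕ) : ℝ) = (Y l : ℝ) := fun r hr => by
          obtain ⟨h1, h2⟩ := Finset.mem_Icc.1 hr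
          rw [min_eq_left (h.anti r l h1 h2 hlK)]
        rw [Finset.sum_congr rfl this, Finset.sum_const, nsmul_eq_mul]
        simp
      · obtain ⟨h1, h2⟩ := Finset.mem_Ioc.1 hr
        rw [min_eq_right (h.anti l r (by omega) h1.le h2)]
    have hsum := Finset.sum_le_sum hrow
    rw [Finset.sum_sub_distrib, Finset.sum_const, nsmul_eq_mul, Nat.card_Icc,
      ← Finset.sum_filter, show (Finset.Icc 1 K).filter (· ∈ R) = R by
        ext a; simp only [hR, Finset.mem_filter]; tauto] at hsum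
    simp only [Nat.add_sub_cancel] at hsum
    linarith
  rw [log_pw_gW]
  have hb : ∀ l ∈ Finset.Icc 2 K, beta l *
      ((l : ℝ) * Y l + ∑ r ∈ Finset.Ioc l K, (Y r : ℝ)) - beta l * ((K : ℝ) * (yLow u + 1 + M)) ≤
      beta l * ((k.primeFactors.filter fun p => ll p ≤ (Y l : ℝ)).card : ℝ) := fun l hl => by
    rw [← mul_sub]
    exact mul_le_mul_of_nonneg_left (key l hl) (beta_nonneg (Finset.mem_Icc.1 hl).1)
  refine le_trans ?_ (Finset.sum_le_sum hb)
  rw [Finset.sum_sub_distrib, ← Finset.sum_mul, layer_identity (fun r => (Y r : ℝ)) K, sum_beta]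
  simp only [add_mul, one_mul, Finset.sum_add_distrib, phiSum]
  have hKl : Real.log K ≤ (K : ℝ) := Real.log_le_self (Nat.cast_nonneg _)
  have : Real.log K * ((K : ℝ) * (yLow u + 1 + M)) ≤ (K : ℝ) * ((K : ℝ) * (yLow u + 1 + M)) :=
    mul_le_mul_of_nonneg_right hKl (by positivity)
  linarith

/-- Euler sum of the weight. -/
lemma gW_euler_le : ∃ C : ℕ, ∀ (K : ℕ) (Y : ℕ → ℕ) (T : ℝ) (P : Finset ℕ), 0 ≤ T →
    (∀ p ∈ P, p.Prime ∧ ll p ≤ T) →
    ∑ p ∈ P, gW K Y p / ((p : ℝ) - 1) ≤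
      T + ∑ l ∈ Finset.Icc 2 K, (Y l : ℝ) + ((K : ℝ) + 1) * C := by
  classical
  obtain ⟨C, -, hM⟩ := mertens_ll_upto
  refine ⟨C, fun K Y T P hT hP => ?_⟩
  calc ∑ p ∈ P, gW K Y p / ((p : ℝ) - 1)
      ≤ ∑ p ∈ P, (1 / ((p : ℝ) - 1) +
          ∑ l ∈ Finset.Icc 2 K, if ll p ≤ (Y l : ℝ) then 1 / ((p : ℝ) - 1) else 0) := by
        refine Finset.sum_le_sum fun p hp => ?_
        have hp1 : (0 : ℝ) < (p : ℝ) - 1 := by
          have : (2 : ℝ) ≤ p := by exact_mod_cast (hP p hp).1.two_le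
          linarith
        rw [← Finset.sum_filter, Finset.sum_const, nsmul_eq_mul, ← mul_div_assoc, mul_one,
          ← add_div]
        exact div_le_div_of_nonneg_right (gW_bounds Y p K).2 hp1.le
    _ ≤ (T + C) + ∑ l ∈ Finset.Icc 2 K, ((Y l : ℝ) + C) := by
        rw [Finset.sum_add_distrib, Finset.sum_comm]
        refine add_le_add (hM T hT P hP) (Finset.sum_le_sum fun l _ => ?_)
        rw [← Finset.sum_filter]
        refine hM _ (Nat.cast_nonneg _) _ fun p hp => ?_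
        obtain ⟨h1, h2⟩ := Finset.mem_filter.1 hp
        exact ⟨(hP p h1).1, h2⟩
    _ ≤ _ := by
        rw [Finset.sum_add_distrib, Finset.sum_const, nsmul_eq_mul, Nat.card_Icc]
        have : ((K + 1 - 2 : ℕ) : ℝ) ≤ K := by exact_mod_cast (by omega : K + 1 - 2 ≤ K)
        have := mul_le_mul_of_nonneg_right this (Nat.cast_nonneg C : (0 : ℝ) ≤ C)
        linarith

/-- Reciprocal sum over integers with the rows of a profile. -/
lemma profile_recip : ∃ C : ℕ, ∀ (u : ℝ) (K : ℕ) (Y : ℕ → ℕ) (T M : ℝ) (N : ℕ) (S : Finset ℕ),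
    1 ≤ K → 0 ≤ yLow u → 0 ≤ T → 0 ≤ M →
    (∀ r ∈ Finset.Icc 1 K, (Y r : ℝ) ^ ((5 : ℝ) / 8) ≤ M) →
    (∀ k ∈ S, 1 ≤ k ∧ k ≤ N ∧ (∀ p ∈ k.primeFactors, ll p ≤ T) ∧ Rows u K Y k) →
    ∑ k ∈ S, 1 / (k : ℝ) ≤
      Real.exp (T - (phiSum K fun r => (Y r : ℝ)) + ((K : ℝ) + 1) * ((K : ℝ) + 1) * (yLow u + 1 + M + C)) := by
  classical
  obtain ⟨C, hE⟩ := gW_euler_le
  refine ⟨C, fun u K Y T M N S hK hy hT hM hYM hS => ?_⟩
  set f : ℕ → ℝ := fun p => if ll p ≤ T then gW K Y p else 0 with hf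
  set W := (phiSum K fun r => (Y r : ℝ)) + ∑ l ∈ Finset.Icc 2 K, (Y l : ℝ)
      - (K : ℝ) * K * (yLow u + 1 + M) with hW
  have hf0 : ∀ p, 0 ≤ f p := fun p => by
    simp only [hf]; split_ifs
    · exact zero_le_one.trans (gW_bounds Y p K).1
    · exact le_rfl
  have hlow : ∀ k ∈ S, Real.exp W * (1 / (k : ℝ)) ≤ pw f k / k := by
    intro k hk
    obtain ⟨h1, -, h3, h4⟩ := hS k hk
    have hpos : 0 < pw (gW K Y) k :=
      Finset.prod_pos fun p _ => zero_lt_one.trans_le (gW_bounds Y p K).1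
    have heq : pw f k = pw (gW K Y) k := Finset.prod_congr rfl fun p hp => if_pos (h3 p hp)
    rw [mul_one_div, heq]
    exact div_le_div_of_nonneg_right
      ((Real.le_log_iff_exp_le hpos).1 (weight_lower h1 hK hy h4 hM hYM)) (Nat.cast_nonneg _)
  have hup : ∑ k ∈ S, pw f k / k ≤
      Real.exp (T + ∑ l ∈ Finset.Icc 2 K, (Y l : ℝ) + ((K : ℝ) + 1) * C) := by
    refine le_trans (Finset.sum_le_sum_of_subset_of_nonneg
      (fun k hk => Finset.mem_Icc.2 ⟨(hS k hk).1, (hS k hk).2.1⟩)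
      fun k _ _ => div_nonneg (Finset.prod_nonneg fun p _ => hf0 p) (Nat.cast_nonneg _))
      ((euler_bound f hf0 N).trans (Real.exp_le_exp.2 ?_))
    refine le_trans (le_of_eq ?_) (hE K Y T ((Nat.primesLE N).filter fun p => ll p ≤ T) hT ?_)
    · rw [Finset.sum_filter]
      refine Finset.sum_congr rfl fun p _ => ?_
      simp only [hf]; split_ifs <;> simp
    · exact fun p hp => ⟨(Nat.mem_primesLE.1 (Finset.mem_filter.1 hp).1).2,
        (Finset.mem_filter.1 hp).2⟩
  have h := (Finset.sum_le_sum hlow).trans hup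
  rw [← Finset.mul_sum, mul_comm, ← le_div_iff₀ (Real.exp_pos _), ← Real.exp_sub] at h
  refine h.trans (Real.exp_le_exp.2 ?_)
  have hK' : (0 : ℝ) ≤ K := Nat.cast_nonneg _
  have hC : (0 : ℝ) ≤ (C : ℝ) := Nat.cast_nonneg _
  simp only [hW]
  nlinarith [mul_nonneg hK' hC, mul_nonneg (mul_nonneg hK' hK') hC, mul_nonneg hK' hy,
    mul_nonneg hK' hM]

/-- Number of integers with the rows of a profile. -/
lemma profile_count : ∃ C : ℕ, ∀ (u : ℝ) (K : ℕ) (Y : ℕ → ℕ) (T M : ℝ) (N : ℕ) (S : Finset ℕ),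
    1 ≤ K → 0 ≤ yLow u → 0 ≤ T → 0 ≤ M → 2 ≤ N →
    (∀ p : ℕ, p ≤ N → ll p ≤ T) →
    (∀ r ∈ Finset.Icc 1 K, (Y r : ℝ) ^ ((5 : ℝ) / 8) ≤ M) →
    (∀ k ∈ S, 1 ≤ k ∧ k ≤ N ∧ Rows u K Y k) →
    (S.card : ℝ) ≤ (N : ℝ) / Real.log N *
      Real.exp (T - (phiSum K fun r => (Y r : ℝ)) + ((K : ℝ) + 1) * ((K : ℝ) + 1) * (yLow u + 1 + M + C)) := by
  classical
  obtain ⟨C, hE⟩ := gW_euler_le
  obtain ⟨D, hD⟩ := density_bound
  obtain ⟨E, hE'⟩ := exists_nat_ge (max D 0)
  refine ⟨C + E + 1, fun u K Y T M N S hK hy hT hM hN hTN hYM hS => ?_⟩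
  set W := (phiSum K fun r => (Y r : ℝ)) + ∑ l ∈ Finset.Icc 2 K, (Y l : ℝ)
      - (K : ℝ) * K * (yLow u + 1 + M) with hW
  have hg0 : ∀ p, 0 ≤ gW K Y p := fun p => zero_le_one.trans (gW_bounds Y p K).1
  have hlow : ∀ k ∈ S, Real.exp W ≤ pw (gW K Y) k := fun k hk =>
    (Real.le_log_iff_exp_le (Finset.prod_pos fun p _ =>
      zero_lt_one.trans_le (gW_bounds Y p K).1)).1
      (weight_lower (hS k hk).1 hK hy (hS k hk).2.2 hM hYM)
  have hK1 : (1 : ℝ) ≤ (K : ℝ) + 1 := by linarith [(Nat.cast_nonneg K : (0 : ℝ) ≤ K)]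
  have hlog : 0 < Real.log N := Real.log_pos (by exact_mod_cast hN)
  have hup : ∑ k ∈ S, pw (gW K Y) k ≤ ((E : ℝ) + 1) * ((K : ℝ) + 1) * N / Real.log N *
      Real.exp (T + ∑ l ∈ Finset.Icc 2 K, (Y l : ℝ) + ((K : ℝ) + 1) * C) := by
    refine le_trans (Finset.sum_le_sum_of_subset_of_nonneg
      (fun k hk => Finset.mem_Icc.2 ⟨(hS k hk).1, (hS k hk).2.1⟩)
      fun k _ _ => Finset.prod_nonneg fun p _ => hg0 p)
      ((hD _ _ N hK1 (fun p => ⟨hg0 p, gW_le K Y p⟩) hN).trans ?_)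
    refine mul_le_mul ?_ (Real.exp_le_exp.2 (hE K Y T _ hT fun p hp =>
      ⟨(Nat.mem_primesLE.1 hp).2, hTN p (Nat.mem_primesLE.1 hp).1⟩)) (Real.exp_pos _).le
      (by positivity)
    refine div_le_div_of_nonneg_right (mul_le_mul_of_nonneg_right
      (mul_le_mul_of_nonneg_right ?_ (by positivity)) (Nat.cast_nonneg _)) hlog.le
    linarith [le_max_left D (0 : ℝ)]
  have h := (Finset.sum_le_sum hlow).trans hup
  rw [Finset.sum_const, nsmul_eq_mul, ← le_div_iff₀ (Real.exp_pos _), mul_div_assoc,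
    ← Real.exp_sub] at h
  refine h.trans ?_
  have hEK : ((E : ℝ) + 1) * ((K : ℝ) + 1) ≤ Real.exp (((E : ℝ) + 1) * ((K : ℝ) + 1)) :=
    le_trans (by linarith) (Real.add_one_le_exp _)
  calc ((E : ℝ) + 1) * ((K : ℝ) + 1) * N / Real.log N *
        Real.exp (T + ∑ l ∈ Finset.Icc 2 K, (Y l : ℝ) + ((K : ℝ) + 1) * C - W)
      ≤ Real.exp (((E : ℝ) + 1) * ((K : ℝ) + 1)) * N / Real.log N *
        Real.exp (T + ∑ l ∈ Finset.Icc 2 K, (Y l : ℝ) + ((K : ℝ) + 1) * C - W) := by gcongr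
    _ = (N : ℝ) / Real.log N * Real.exp (((E : ℝ) + 1) * ((K : ℝ) + 1) +
        (T + ∑ l ∈ Finset.Icc 2 K, (Y l : ℝ) + ((K : ℝ) + 1) * C - W)) := by
        rw [Real.exp_add (((E : ℝ) + 1) * ((K : ℝ) + 1))]; ring
    _ ≤ _ := by
      refine mul_le_mul_of_nonneg_left (Real.exp_le_exp.2 ?_) (by positivity)
      simp only [hW]
      push_cast
      have hC : (0 : ℝ) ≤ (C : ℝ) := Nat.cast_nonneg _
      have hE0 : (0 : ℝ) ≤ (E : ℝ) := Nat.cast_nonneg _
      nlinarith [mul_nonneg (by linarith : (0 : ℝ) ≤ (K : ℝ) + 1) hC,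
        mul_nonneg (mul_nonneg (by linarith : (0 : ℝ) ≤ (K : ℝ) + 1) (by linarith : (0 : ℝ) ≤ (K : ℝ))) hC,
        mul_nonneg (mul_nonneg (by linarith : (0 : ℝ) ≤ (K : ℝ) + 1) (by linarith : (0 : ℝ) ≤ (K : ℝ))) hE0,
        mul_nonneg (Nat.cast_nonneg K : (0 : ℝ) ≤ K) hy, mul_nonneg (Nat.cast_nonneg K : (0 : ℝ) ≤ K) hM]

/-- The rows of the profile of `n` are forced on its totient. -/
lemma rows_of_profile {u : ℝ} {n : ℕ} (hn : n ≠ 0) (hy : 0 ≤ yLow u) (K : ℕ)
    (hsq : ∀ p : ℕ, p.Prime → yLow u < ll p → ¬ p ^ 2 ∣ n)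
    (hsqt : ∀ p : ℕ, p.Prime → yLow u < ll p → ¬ p ^ 2 ∣ Nat.totient n)
    (hnorm : ∀ q : ℕ, q.Prime → q ∣ n → NormalPrime u q) :
    Rows u K (fun r => ⌊prof n r⌋₊) (Nat.totient n) := by
  classical
  refine ⟨fun r s h1 h2 _ => Nat.floor_le_floor (prof_antitone hn h1 h2), hsqt, nthPrime n, ?_, ?_⟩
  · intro r _ hr
    have hle : (⌊prof n r⌋₊ : ℝ) ≤ prof n r := Nat.floor_le (prof_nonneg n r)
    have hp : (nthPrime n r).Prime :=
      nthPrime_prime_of_ll (lt_of_le_of_lt hy (hr.trans_le hle))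
    exact ⟨hp, hnorm _ hp (nthPrime_dvd n r), hle⟩
  · set R := (Finset.Icc 1 K).filter fun r => yLow u < ((⌊prof n r⌋₊ : ℕ) : ℝ) with hR
    have hbig : ∀ r ∈ R, yLow u < prof n r := fun r hr =>
      (Finset.mem_filter.1 hr).2.trans_le (Nat.floor_le (prof_nonneg n r))
    have hinj : Set.InjOn (nthPrime n) R := by
      intro r hr s hs he
      by_contra hne
      rcases lt_or_gt_of_ne hne with h | h
      · exact hsq _ (nthPrime_prime_of_ll (hy.trans_lt (hbig r hr))) (hbig r hr)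
          (sq_dvd_of_nthPrime_eq hn (Finset.mem_Icc.1 (Finset.mem_filter.1 hr).1).1 h he)
      · exact hsq _ (nthPrime_prime_of_ll (hy.trans_lt (hbig s hs))) (hbig s hs)
          (sq_dvd_of_nthPrime_eq hn (Finset.mem_Icc.1 (Finset.mem_filter.1 hs).1).1 h he.symm)
    rw [← Finset.prod_image (f := fun p => p - 1) hinj]
    refine prod_pred_dvd_totient _ fun p hp => ?_
    obtain ⟨r, hr, rfl⟩ := Finset.mem_image.1 hp
    exact ⟨nthPrime_prime_of_ll (hy.trans_lt (hbig r hr)), nthPrime_dvd n r⟩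

/-- A chain is bounded by the profile sum of its integer part. -/
lemma chain_le_phiSum (i k : ℕ) (y : ℕ → ℝ) (z : ℕ → ℝ) (hik : i ≤ k)
    (hz : ∀ j ∈ Finset.Ioc i k, y j ≤ z (j - i + 1)) :
    chain k y i ≤ phiSum (k - i + 1) (fun r => (⌊z r⌋₊ : ℝ)) + ((k - i : ℕ) : ℝ) * ((k - i : ℕ) + 1) := by
  rw [chain, phiSum]
  have hbij : ∑ r ∈ Finset.Icc 2 (k - i + 1), coef (r - 1) * (⌊z r⌋₊ : ℝ) =
      ∑ j ∈ Finset.Ioc i k, coef (j - i) * (⌊z (j - i + 1)⌋₊ : ℝ) := by
    refine Finset.sum_nbij' (fun r => i + r - 1) (fun j => j - i + 1) ?_ ?_ ?_ ?_ ?_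
    all_goals intro a ha
    · simp only [Finset.mem_Icc, Finset.mem_Ioc] at ha ⊢; omega
    · simp only [Finset.mem_Icc, Finset.mem_Ioc] at ha ⊢; omega
    · simp only [Finset.mem_Icc] at ha; omega
    · simp only [Finset.mem_Ioc] at ha; omega
    · simp only [Finset.mem_Icc] at ha
      rw [show i + a - 1 - i = a - 1 by omega, show a - 1 + 1 = a by omega]
  rw [hbij]
  have hterm : ∀ j ∈ Finset.Ioc i k, coef (j - i) * y j ≤
      coef (j - i) * (⌊z (j - i + 1)⌋₊ : ℝ) + (((k - i : ℕ) : ℝ) + 1) := by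
    intro j hj
    obtain ⟨h1, h2⟩ := Finset.mem_Ioc.1 hj
    have hc : 0 ≤ coef (j - i) := coef_nonneg (by omega)
    have hcl : coef (j - i) ≤ ((k - i : ℕ) : ℝ) + 1 := by
      refine (coef_le_log (by omega)).trans ((Real.log_le_self (by positivity)).trans ?_)
      exact_mod_cast (by omega : j - i + 1 ≤ k - i + 1)
    have hfl : z (j - i + 1) ≤ (⌊z (j - i + 1)⌋₊ : ℝ) + 1 := (Nat.lt_floor_add_one _).le
    nlinarith [hz j hj]
  refine (Finset.sum_le_sum hterm).trans (le_of_eq ?_)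
  rw [Finset.sum_add_distrib, Finset.sum_const, Nat.card_Ioc, nsmul_eq_mul]

end Vale.Agent.P031.UA
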